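import Mathlib
import Crest.Prelude.Def_TorusPacket
import Crest.Agent.R014.Iface_792
import Crest.Agent.R014.Top1_458
import Crest.Agent.R014.Ms4_667
import Crest.Agent.R014.Ms6_667

-- ▼ part R014/Vague_792
section

/-!
Vague limits along ultrafilters (row 14, helper792).

`X` locally compact Hausdorff.  For probability measures `μ i` and an ultrafilter `U` there is a
regular measure `ν` of mass `≤ 1` with `∫ f dμ i → ∫ f dν` along `U` for all compactly supported
continuous `f`; tightness gives mass one; asymptotic invariance gives invariance; a uniqueness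
hypothesis upgrades to convergence of the whole sequence.
-/

set_option autoImplicit false
set_option linter.unusedSectionVars false

open MeasureTheory Filter Topology
open scoped CompactlySupported ENNReal

namespace Crest.Agent.R014.Vague_792

variable {X : Type*} [TopologicalSpace X]

theorem bounded_of_cc (f : C_c(X, ℝ)) : ∃ C : ℝ, 0 ≤ C ∧ ∀ x, |f x| ≤ C := by
  obtain ⟨C, hC⟩ := f.hasCompactSupport.exists_bound_of_continuous f.continuous
  refine ⟨max C 0, le_max_right _ _, fun x => ?_⟩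
  exact (hC x).trans (le_max_left _ _)

variable [T2Space X] [MeasurableSpace X] [BorelSpace X]

theorem integrable_cc (f : C_c(X, ℝ)) (μ : Measure X) [IsFiniteMeasure μ] :
    Integrable (fun x => f x) μ :=
  f.continuous.integrable_of_hasCompactSupport f.hasCompactSupport

/-- the limit functional along an ultrafilter. -/
theorem exists_functional {ι : Type*} (U : Ultrafilter ι) (μ : ι → Measure X)
    [∀ i, IsProbabilityMeasure (μ i)] :
    ∃ Λ : C_c(X, ℝ) →ₚ[ℝ] ℝ,
      ∀ f : C_c(X, ℝ), Tendsto (fun i => ∫ x, f x ∂(μ i)) U (𝓝 (Λ f)) := by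
  have key : ∀ f : C_c(X, ℝ), ∃ a : ℝ, Tendsto (fun i => ∫ x, f x ∂(μ i)) U (𝓝 a) := by
    intro f
    obtain ⟨C, hC0, hC⟩ := bounded_of_cc f
    have hmem : ∀ i, (∫ x, f x ∂(μ i)) ∈ Set.Icc (-C) C := by
      intro i
      have h1 : |∫ x, f x ∂(μ i)| ≤ C := by
        have h := norm_integral_le_of_norm_le_const (μ := μ i) (f := fun x => f x) (C := C)
          (Eventually.of_forall fun x => by simpa [Real.norm_eq_abs] using hC x)
        simpa [Real.norm_eq_abs] using h
      exact abs_le.1 h1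
    have hle : (U.map (fun i => ∫ x, f x ∂(μ i)) : Filter ℝ) ≤ 𝓟 (Set.Icc (-C) C) := by
      rw [le_principal_iff]
      exact mem_map.2 (Filter.mem_of_superset univ_mem (fun i _ => hmem i))
    obtain ⟨a, -, ha⟩ := (isCompact_Icc (a := -C) (b := C)).ultrafilter_le_nhds _ hle
    exact ⟨a, ha⟩
  choose L hL using key
  have hadd : ∀ f g : C_c(X, ℝ), L (f + g) = L f + L g := by
    intro f g
    refine tendsto_nhds_unique (hL (f + g)) ?_
    refine ((hL f).add (hL g)).congr fun i => ?_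
    rw [← integral_add (integrable_cc f _) (integrable_cc g _)]
    rfl
  have hsmul : ∀ (c : ℝ) (f : C_c(X, ℝ)), L (c • f) = c * L f := by
    intro c f
    refine tendsto_nhds_unique (hL (c • f)) ?_
    refine ((hL f).const_mul c).congr fun i => ?_
    rw [← integral_const_mul]
    rfl
  refine ⟨PositiveLinearMap.mk₀
    { toFun := L, map_add' := hadd, map_smul' := fun c f => by simpa using hsmul c f } ?_, fun f => hL f⟩
  intro f hf
  refine ge_of_tendsto' (hL f) fun i => ?_
  exact integral_nonneg fun x => hf x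

variable [LocallyCompactSpace X]

theorem exists_cutoff {K : Set X} (hK : IsCompact K) :
    ∃ f : C_c(X, ℝ), (∀ x ∈ K, f x = 1) ∧ (∀ x, 0 ≤ f x) ∧ ∀ x, f x ≤ 1 := by
  obtain ⟨f, hf1, hf2, hf3⟩ :=
    exists_continuousMap_one_of_isCompact_subset_isOpen hK isOpen_univ (Set.subset_univ _)
  exact ⟨⟨f, hasCompactSupport_def.mpr hf2⟩, fun x hx => hf1 hx, fun x => (hf3.2 x).1,
    fun x => (hf3.2 x).2⟩

/-- vague limits along ultrafilters. -/
theorem exists_vague {ι : Type*} (U : Ultrafilter ι) (μ : ι → Measure X)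
    [∀ i, IsProbabilityMeasure (μ i)] :
    ∃ ν : Measure X, ν.Regular ∧ ν Set.univ ≤ 1 ∧
      ∀ f : C_c(X, ℝ), Tendsto (fun i => ∫ x, f x ∂(μ i)) U (𝓝 (∫ x, f x ∂ν)) := by
  obtain ⟨Λ, hΛ⟩ := exists_functional U μ
  refine ⟨RealRMK.rieszMeasure Λ, inferInstance, ?_, fun f => ?_⟩
  · have hreg : (RealRMK.rieszMeasure Λ).Regular := inferInstance
    rw [isOpen_univ.measure_eq_iSup_isCompact (RealRMK.rieszMeasure Λ)]
    refine iSup_le fun K => iSup_le fun _ => iSup_le fun hK => ?_
    obtain ⟨f, hf1, hf0, hf2⟩ := exists_cutoff hK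
    refine (RealRMK.rieszMeasure_le_of_eq_one Λ hf0 hK hf1).trans ?_
    have h1 : Λ f ≤ 1 := by
      refine le_of_tendsto' (hΛ f) fun i => ?_
      calc ∫ x, f x ∂(μ i) ≤ ∫ _x, (1 : ℝ) ∂(μ i) :=
            integral_mono (integrable_cc f _) (integrable_const _) hf2
        _ = 1 := by simp
    simpa using ENNReal.ofReal_le_ofReal h1
  · simpa using hΛ f

/-- tightness along the ultrafilter gives total mass one. -/
theorem mass_one {ι : Type*} (U : Ultrafilter ι) (μ : ι → Measure X)
    [∀ i, IsProbabilityMeasure (μ i)] (ν : Measure X) (hν1 : ν Set.univ ≤ 1)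
    (hν : ∀ f : C_c(X, ℝ), Tendsto (fun i => ∫ x, f x ∂(μ i)) U (𝓝 (∫ x, f x ∂ν)))
    (htight : ∀ ε : ℝ, 0 < ε → ∃ C : Set X, IsCompact C ∧
      ∀ᶠ i in (U : Filter ι), 1 - ε ≤ ((μ i) C).toReal) :
    IsProbabilityMeasure ν := by
  have hfin : IsFiniteMeasure ν := ⟨hν1.trans_lt ENNReal.one_lt_top⟩
  have hge : ∀ ε : ℝ, 0 < ε → 1 - ε ≤ (ν Set.univ).toReal := by
    intro ε hε
    obtain ⟨C, hC, hev⟩ := htight ε hε
    obtain ⟨f, hf1, hf0, hf2⟩ := exists_cutoff hC
    have h1 : 1 - ε ≤ ∫ x, f x ∂ν := by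
      refine ge_of_tendsto (hν f) (hev.mono fun i hi => hi.trans ?_)
      have h2 : ∫ x, C.indicator (1 : X → ℝ) x ∂(μ i) ≤ ∫ x, f x ∂(μ i) := by
        refine integral_mono ((integrable_const (1 : ℝ)).indicator hC.measurableSet)
          (integrable_cc f _) fun x => ?_
        by_cases hx : x ∈ C
        · simp [hx, hf1 x hx]
        · simpa [hx] using hf0 x
      rw [integral_indicator_one hC.measurableSet] at h2
      exact h2
    have h3 : ∫ x, f x ∂ν ≤ ∫ _x, (1 : ℝ) ∂ν :=
      integral_mono (integrable_cc f _) (integrable_const _) hf2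
    have h4 : ∫ _x, (1 : ℝ) ∂ν = (ν Set.univ).toReal := by simp [Measure.real]
    linarith
  have h5 : (1 : ℝ) ≤ (ν Set.univ).toReal := by
    refine le_of_forall_pos_sub_le fun ε hε => hge ε hε
  refine ⟨le_antisymm hν1 ?_⟩
  have h6 : ν Set.univ ≠ ⊤ := measure_ne_top _ _
  rw [← ENNReal.ofReal_toReal h6, ← ENNReal.ofReal_one]
  exact ENNReal.ofReal_le_ofReal h5

/-- a homeomorphism preserving all limits of `C_c`-integrals preserves the limit measure. -/
theorem map_eq {ι : Type*} (U : Ultrafilter ι) (μ : ι → Measure X)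
    (ν : Measure X) [ν.Regular]
    (hν : ∀ f : C_c(X, ℝ), Tendsto (fun i => ∫ x, f x ∂(μ i)) U (𝓝 (∫ x, f x ∂ν)))
    (T : X ≃ₜ X)
    (hT : ∀ f : X → ℝ, Continuous f → HasCompactSupport f →
      Tendsto (fun i => ∫ x, f (T x) ∂(μ i) - ∫ x, f x ∂(μ i)) U (𝓝 0)) :
    Measure.map T ν = ν := by
  have : (Measure.map T ν).Regular := Measure.Regular.map T
  refine Measure.ext_of_integral_eq_on_compactlySupported fun f => ?_
  have hmap : ∫ x, f x ∂(Measure.map T ν) = ∫ x, f (T x) ∂ν :=
    integral_map T.continuous.measurable.aemeasurable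
      (f.continuous.stronglyMeasurable_of_hasCompactSupport
        f.hasCompactSupport).aestronglyMeasurable
  rw [hmap]
  have hg : HasCompactSupport (fun x => f (T x)) :=
    f.hasCompactSupport.comp_homeomorph T
  let g : C_c(X, ℝ) := ⟨⟨fun x => f (T x), f.continuous.comp T.continuous⟩, hg⟩
  have h1 : Tendsto (fun i => ∫ x, f (T x) ∂(μ i)) U (𝓝 (∫ x, f (T x) ∂ν)) := hν g
  have h2 := h1.sub (hν f)
  have h3 := tendsto_nhds_unique h2 (hT f f.continuous f.hasCompactSupport)
  linarith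

/-- **Conclusion**: tightness + asymptotic invariance under `T g`, `g ∈ S`, + uniqueness. -/
theorem conclude {G : Type*} (T : G → X ≃ₜ X) (S : Set G) (μ : ℕ → Measure X)
    [∀ i, IsProbabilityMeasure (μ i)]
    (htight : ∀ ε : ℝ, 0 < ε → ∃ C : Set X, IsCompact C ∧
      ∀ᶠ i in atTop, 1 - ε ≤ ((μ i) C).toReal)
    (hinv : ∀ g ∈ S, ∀ f : X → ℝ, Continuous f → HasCompactSupport f →
      Tendsto (fun i => ∫ x, f (T g x) ∂(μ i) - ∫ x, f x ∂(μ i)) atTop (𝓝 0))
    (hgen : ∀ ν : Measure X, IsProbabilityMeasure ν → (∀ g ∈ S, Measure.map (T g) ν = ν) →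
      ∀ g, Measure.map (T g) ν = ν)
    (huniq : ∀ ν ν' : Measure X, IsProbabilityMeasure ν → IsProbabilityMeasure ν' →
      (∀ g, Measure.map (T g) ν = ν) → (∀ g, Measure.map (T g) ν' = ν') → ν = ν') :
    ∃ ν : Measure X, IsProbabilityMeasure ν ∧ (∀ g, Measure.map (T g) ν = ν) ∧
      ∀ f : X → ℝ, Continuous f → HasCompactSupport f →
        Tendsto (fun i => ∫ x, f x ∂(μ i)) atTop (𝓝 (∫ x, f x ∂ν)) := by
  have key : ∀ U : Ultrafilter ℕ, (U : Filter ℕ) ≤ atTop →
      ∃ ν : Measure X, IsProbabilityMeasure ν ∧ (∀ g, Measure.map (T g) ν = ν) ∧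
      ∀ f : X → ℝ, Continuous f → HasCompactSupport f →
        Tendsto (fun i => ∫ x, f x ∂(μ i)) U (𝓝 (∫ x, f x ∂ν)) := by
    intro U hU
    obtain ⟨ν, hreg, hν1, hν⟩ := exists_vague U μ
    have hprob : IsProbabilityMeasure ν := mass_one U μ ν hν1 hν fun ε hε => by
      obtain ⟨C, hC, hev⟩ := htight ε hε
      exact ⟨C, hC, hU hev⟩
    refine ⟨ν, hprob, hgen ν hprob fun g hg => map_eq U μ ν hν (T g) fun f hf hf' =>
      (hinv g hg f hf hf').mono_left hU, fun f hf hf' => hν ⟨⟨f, hf⟩, hf'⟩⟩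
  obtain ⟨ν, hp, hi, hconv⟩ := key (Filter.hyperfilter ℕ)
    (Nat.hyperfilter_le_atTop)
  refine ⟨ν, hp, hi, fun f hf hf' => ?_⟩
  refine (tendsto_iff_ultrafilter _ _ _).2 fun U hU => ?_
  obtain ⟨ν', hp', hi', hconv'⟩ := key U hU
  rw [huniq ν ν' hp hp' hi hi']
  exact hconv' f hf hf'

end Crest.Agent.R014.Vague_792
end

-- ▼ part R014/Uniq_983
section

/-!
# R014/Uniq_983 : uniqueness of the invariant probability measure on SL_n(ℤ)\SL_n(ℝ)

* `unique_invariant` : for a jointly measurable, transitive right action of a measurable group `G`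
  carrying a non-zero s-finite left-invariant measure, two invariant probability measures agree.
* `isHaarProbability_unique` : `IsHaarProbability ν → IsHaarProbability ν' → ν = ν'` on `ModSpace n`.
* `isOpenMap_mk`, `continuous_act₂`, `continuous_act`, `act_mul`, `act_one`, `exists_act`.
-/

set_option autoImplicit false
set_option linter.style.haveILetI false

open MeasureTheory Crest.NumberTheoryR.Packets

namespace Crest.Agent.R014.Uniq_983

section General

variable {G X : Type*} [Group G] [MeasurableSpace G] [MeasurableSpace X]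

/-- Uniqueness of the invariant probability for a transitive measurable right action. -/
theorem unique_invariant [MeasurableMul G]
    (m : Measure G) [SFinite m] (hm0 : m ≠ 0)
    (hm : ∀ h : G, Measure.map (fun g => h * g) m = m)
    (a : X → G → X) (ha : Measurable (fun p : X × G => a p.1 p.2))
    (hinv : ∀ (g : G) (x : X), a (a x g) g⁻¹ = x)
    (htr : ∀ x y : X, ∃ h : G, ∀ g : G, a y g = a x (h * g))
    (ν₁ ν₂ : Measure X) [IsProbabilityMeasure ν₁] [IsProbabilityMeasure ν₂]
    (h₁ : ∀ g : G, Measure.map (fun x => a x g) ν₁ = ν₁)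
    (h₂ : ∀ g : G, Measure.map (fun x => a x g) ν₂ = ν₂) : ν₁ = ν₂ := by
  classical
  have hag : ∀ g : G, Measurable (fun x : X => a x g) := fun g =>
    ha.comp (measurable_id.prodMk measurable_const)
  have hax : ∀ x : X, Measurable (fun g : G => a x g) := fun x =>
    ha.comp (measurable_const.prodMk measurable_id)
  set ν : Measure X := ν₁ + ν₂ with hν
  have hνinv : ∀ g : G, Measure.map (fun x => a x g) ν = ν := by
    intro g
    rw [hν, Measure.map_add _ _ (hag g), h₁ g, h₂ g]
  have hac : ν₁ ≪ ν := Measure.absolutelyContinuous_of_le (Measure.le_add_right le_rfl)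
  set f : X → ENNReal := ν₁.rnDeriv ν with hf
  have hfm : Measurable f := Measure.measurable_rnDeriv _ _
  have hwd : ν.withDensity f = ν₁ := Measure.withDensity_rnDeriv_eq _ _ hac
  -- invariance of the density
  have hfinv : ∀ g : G, (fun x => f (a x g)) =ᵐ[ν] f := by
    intro g
    have hmeas : Measurable (fun x => f (a x g)) := hfm.comp (hag g)
    refine (withDensity_eq_iff_of_sigmaFinite hmeas.aemeasurable hfm.aemeasurable).1 ?_
    ext s hs
    rw [withDensity_apply _ hs, hwd]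
    have hpre : MeasurableSet ((fun x => a x g⁻¹) ⁻¹' s) := hag g⁻¹ hs
    have key : (∫⁻ x in s, f (a x g) ∂ν) = ∫⁻ y in (fun x => a x g⁻¹) ⁻¹' s, f y ∂ν := by
      rw [← lintegral_indicator hs, ← lintegral_indicator hpre]
      have : (fun x => s.indicator (fun x => f (a x g)) x)
          = (fun x => (((fun x => a x g⁻¹) ⁻¹' s).indicator (fun y => f y)) (a x g)) := by
        funext x
        by_cases hx : x ∈ s
        · have : a x g ∈ (fun x => a x g⁻¹) ⁻¹' s := by
            simpa [Set.mem_preimage, hinv g x] using hx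
          rw [Set.indicator_of_mem hx, Set.indicator_of_mem this]
        · have : a x g ∉ (fun x => a x g⁻¹) ⁻¹' s := by
            simpa [Set.mem_preimage, hinv g x] using hx
          rw [Set.indicator_of_notMem hx, Set.indicator_of_notMem this]
      rw [this]
      have hm1 : Measurable (((fun x => a x g⁻¹) ⁻¹' s).indicator (fun y => f y)) :=
        hfm.indicator hpre
      rw [← lintegral_map (μ := ν) hm1 (hag g), hνinv g]
    rw [key, ← withDensity_apply _ hpre, hwd]
    have h3 : (Measure.map (fun x => a x g⁻¹) ν₁) s = ν₁ s := by rw [h₁ g⁻¹]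
    rwa [Measure.map_apply (hag g⁻¹) hs] at h3
  -- first Fubini
  have hset : MeasurableSet {p : X × G | f (a p.1 p.2) ≠ f p.1} :=
    (measurableSet_eq_fun (hfm.comp ha) (hfm.comp measurable_fst)).compl
  have hnull : (ν.prod m) {p : X × G | f (a p.1 p.2) ≠ f p.1} = 0 := by
    rw [Measure.prod_apply_symm hset, lintegral_eq_zero_iff (measurable_measure_prodMk_right hset)]
    refine Filter.Eventually.of_forall (fun g => ?_)
    exact hfinv g
  have hae : ∀ᵐ x ∂ν, m {g : G | f (a x g) ≠ f x} = 0 := by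
    rw [Measure.prod_apply hset, lintegral_eq_zero_iff (measurable_measure_prodMk_left hset)] at hnull
    filter_upwards [hnull] with x hx
    exact hx
  have hν0 : ν ≠ 0 := by
    intro h0
    have : ν Set.univ = 0 := by rw [h0]; rfl
    rw [hν] at this
    simp at this
  haveI : (ae ν).NeBot := ae_neBot.2 hν0
  obtain ⟨x₀, hx₀⟩ := hae.exists
  set c := f x₀ with hc
  -- the density is `c` along every orbit map, for almost every group element
  have hall : ∀ y : X, m {g : G | f (a y g) ≠ c} = 0 := by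
    intro y
    obtain ⟨h, hh⟩ := htr x₀ y
    have hms : MeasurableSet {g : G | f (a x₀ g) ≠ c} :=
      (measurableSet_eq_fun (hfm.comp (hax x₀)) measurable_const).compl
    have h1 : {g : G | f (a y g) ≠ c} = (fun g => h * g) ⁻¹' {g : G | f (a x₀ g) ≠ c} := by
      ext g
      simp [hh g]
    rw [h1, ← Measure.map_apply (measurable_const_mul h) hms, hm h]
    exact hx₀
  have hset2 : MeasurableSet {p : X × G | f (a p.1 p.2) ≠ c} :=
    (measurableSet_eq_fun (hfm.comp ha) measurable_const).compl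
  have hnull2 : (ν.prod m) {p : X × G | f (a p.1 p.2) ≠ c} = 0 := by
    rw [Measure.prod_apply hset2, lintegral_eq_zero_iff (measurable_measure_prodMk_left hset2)]
    exact Filter.Eventually.of_forall (fun x => hall x)
  have hae2 : ∀ᵐ g ∂m, ν {x : X | f (a x g) ≠ c} = 0 := by
    rw [Measure.prod_apply_symm hset2, lintegral_eq_zero_iff (measurable_measure_prodMk_right hset2)]
      at hnull2
    filter_upwards [hnull2] with g hg
    exact hg
  haveI : (ae m).NeBot := ae_neBot.2 hm0
  obtain ⟨g₀, hg₀⟩ := hae2.exists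
  have hfc : f =ᵐ[ν] fun _ => c := by
    have hms : MeasurableSet {x : X | f x ≠ c} :=
      (measurableSet_eq_fun hfm measurable_const).compl
    have h1 : ν {x : X | f x ≠ c} = 0 := by
      calc ν {x : X | f x ≠ c} = (Measure.map (fun x => a x g₀) ν) {x : X | f x ≠ c} := by
            rw [hνinv g₀]
        _ = ν {x : X | f (a x g₀) ≠ c} := by rw [Measure.map_apply (hag g₀) hms]; rfl
        _ = 0 := hg₀
    exact h1
  have hν1 : ν₁ = c • ν := by
    rw [← hwd, withDensity_congr_ae hfc, withDensity_const]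
  have huniv : c * 2 = 1 := by
    have := congrArg (fun μ : Measure X => μ Set.univ) hν1
    simp only [measure_univ, Measure.smul_apply, hν, Measure.add_apply, smul_eq_mul] at this
    rw [one_add_one_eq_two] at this
    exact this.symm
  ext s hs
  have hs1 : ν₁ s = c * (ν₁ s + ν₂ s) := by
    have h4 : ν₁ s = (c • ν) s := by rw [← hν1]
    have h5 : (c • ν) s = c * (ν₁ s + ν₂ s) := by
      rw [Measure.smul_apply, hν, Measure.add_apply, smul_eq_mul]
    exact h4.trans h5
  have hfin1 : ν₁ s ≠ ⊤ := measure_ne_top _ _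
  have hfin2 : ν₂ s ≠ ⊤ := measure_ne_top _ _
  have h2 : ν₁ s + ν₁ s = ν₁ s + ν₂ s := by
    calc ν₁ s + ν₁ s = 2 * ν₁ s := by rw [two_mul]
      _ = 2 * (c * (ν₁ s + ν₂ s)) := by rw [← hs1]
      _ = (c * 2) * (ν₁ s + ν₂ s) := by ring
      _ = ν₁ s + ν₂ s := by rw [huniv, one_mul]
  exact (ENNReal.add_right_inj hfin1).1 h2

end General

section ModSpace

variable {n : ℕ}

theorem act_mk (h g : SLR n) :
    act (Quotient.mk (QuotientGroup.rightRel (intPoints n)) h) g
      = Quotient.mk (QuotientGroup.rightRel (intPoints n)) (h * g) := rfl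

theorem act_act (x : ModSpace n) (g h : SLR n) : act (act x g) h = act x (g * h) := by
  induction x using Quotient.inductionOn with
  | h a => exact congrArg (Quotient.mk _) (mul_assoc a g h)

theorem act_one (x : ModSpace n) : act x 1 = x := by
  induction x using Quotient.inductionOn with
  | h a => exact congrArg (Quotient.mk _) (mul_one a)

/-- transitivity -/
theorem exists_act (x y : ModSpace n) : ∃ h : SLR n, y = act x h := by
  induction x using Quotient.inductionOn with
  | h a =>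
    induction y using Quotient.inductionOn with
    | h b =>
      refine ⟨a⁻¹ * b, ?_⟩
      rw [act_mk, mul_inv_cancel_left]

theorem isOpenMap_mk :
    IsOpenMap (Quotient.mk (QuotientGroup.rightRel (intPoints n)) : SLR n → ModSpace n) :=
  isOpenMap_quotient_mk'_mul (Γ := intPoints n) (T := SLR n)

theorem isOpenQuotientMap_mk :
    IsOpenQuotientMap (Quotient.mk (QuotientGroup.rightRel (intPoints n)) : SLR n → ModSpace n) where
  surjective := Quotient.mk_surjective
  continuous := continuous_quotient_mk'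
  isOpenMap := isOpenMap_mk

/-- joint continuity of the action -/
theorem continuous_act₂ : Continuous (fun p : ModSpace n × SLR n => act p.1 p.2) := by
  have hq : IsOpenQuotientMap (Prod.map
      (Quotient.mk (QuotientGroup.rightRel (intPoints n)) : SLR n → ModSpace n)
      (id : SLR n → SLR n)) := isOpenQuotientMap_mk.prodMap IsOpenQuotientMap.id
  refine (hq.isQuotientMap.continuous_iff).2 ?_
  have : (fun p : ModSpace n × SLR n => act p.1 p.2) ∘ (Prod.map
      (Quotient.mk (QuotientGroup.rightRel (intPoints n)) : SLR n → ModSpace n)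
      (id : SLR n → SLR n))
      = fun p : SLR n × SLR n =>
        (Quotient.mk (QuotientGroup.rightRel (intPoints n)) (p.1 * p.2) : ModSpace n) := by
    funext p
    rfl
  rw [this]
  exact continuous_quotient_mk'.comp continuous_mul

theorem continuous_act (g : SLR n) : Continuous (fun x : ModSpace n => act x g) :=
  continuous_act₂.comp (continuous_id.prodMk continuous_const)


instance : SecondCountableTopology (Matrix (Fin n) (Fin n) ℝ) :=
  inferInstanceAs (SecondCountableTopology (Fin n → Fin n → ℝ))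

instance : SecondCountableTopology (SLR n) :=
  TopologicalSpace.Subtype.secondCountableTopology {A : Matrix (Fin n) (Fin n) ℝ | A.det = 1}

instance : SecondCountableTopology (ModSpace n) :=
  isOpenQuotientMap_mk.isQuotientMap.secondCountableTopology isOpenMap_mk

theorem isClosed_det : IsClosed {A : Matrix (Fin n) (Fin n) ℝ | A.det = 1} :=
  isClosed_eq (continuous_id.matrix_det) continuous_const

instance : LocallyCompactSpace (SLR n) := by
  haveI : LocallyCompactSpace (Matrix (Fin n) (Fin n) ℝ) :=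
    inferInstanceAs (LocallyCompactSpace (Fin n → Fin n → ℝ))
  exact (isClosed_det (n := n)).isClosedEmbedding_subtypeVal.locallyCompactSpace

theorem isHaarProbability_unique {ν ν' : Measure (ModSpace n)} (h : IsHaarProbability ν)
    (h' : IsHaarProbability ν') : ν = ν' := by
  letI : MeasurableSpace (SLR n) := borel (SLR n)
  haveI : BorelSpace (SLR n) := ⟨rfl⟩
  haveI := h.1
  haveI := h'.1
  refine unique_invariant (G := SLR n) (Measure.haar : Measure (SLR n)) ?_ ?_
    (fun x g => act x g) ?_ ?_ ?_ ν ν' h.2 h'.2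
  · exact NeZero.ne _
  · intro g
    exact map_mul_left_eq_self _ g
  · exact continuous_act₂.measurable
  · intro g x
    simp only [act_act, mul_inv_cancel, act_one]
  · intro x y
    obtain ⟨h, rfl⟩ := exists_act x y
    exact ⟨h, fun g => act_act x h g⟩

end ModSpace

end Crest.Agent.R014.Uniq_983
end

-- ▼ part R014/Asm_792
section

/-!
# Row 14: assembly of S0017, S0018, S0019 from Theorem A, Theorem B, PACK and NOESC (helper792)
-/

set_option autoImplicit false

open MeasureTheory Filter Topology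
open Crest.NumberTheoryR.Packets
open Crest.Agent.R014.Iface_792

universe u

namespace Crest.Agent.R014.Asm_792

open Crest.Agent.R014.Top1_458 in
/-- a continuous function with compact support is bounded and right uniformly continuous. -/
theorem ruc_of_cc {n : ℕ} {f : ModSpace n → ℝ} (hf : Continuous f) (hc : HasCompactSupport f) :
    RUC f := by
  obtain ⟨B, hB⟩ := hc.exists_bound_of_continuous hf
  refine ⟨⟨B, fun x => by simpa [Real.norm_eq_abs] using hB x⟩, fun e he => ?_⟩
  -- a compact neighbourhood of 1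
  obtain ⟨V, hV, hV1⟩ := exists_compact_mem_nhds (1 : SLR n)
  -- the compact set of all x with x v in the support for some v in V
  set K : Set (ModSpace n) := (fun p : ModSpace n × SLR n => act p.1 p.2) ''
    (tsupport f ×ˢ (V⁻¹ ∪ {1})) with hK
  have hKc : IsCompact K :=
    ((hc : IsCompact (tsupport f)).prod (hV.inv.union isCompact_singleton)).image continuous_act
  have hout : ∀ x, x ∉ K → ∀ h ∈ V, f (act x h) = 0 ∧ f x = 0 := by
    intro x hx h hh
    constructor
    · by_contra hne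
      apply hx
      refine ⟨(act x h, h⁻¹), ⟨subset_tsupport f hne, Or.inl ?_⟩, ?_⟩
      · simpa using hh
      · show act (act x h) h⁻¹ = x
        rw [← act_mul, mul_inv_cancel, act_one]
    · by_contra hne
      apply hx
      exact ⟨(x, 1), ⟨subset_tsupport f hne, Or.inr rfl⟩, act_one x⟩
  -- uniformity on the compact set K
  set F : ModSpace n × SLR n → ℝ := fun p => f (act p.1 p.2) - f p.1 with hF
  have hFc : Continuous F := (hf.comp continuous_act).sub (hf.comp continuous_fst)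
  have hopen : IsOpen {p : ModSpace n × SLR n | |F p| < e} :=
    isOpen_lt hFc.abs continuous_const
  have hsub : K ×ˢ ({1} : Set (SLR n)) ⊆ {p : ModSpace n × SLR n | |F p| < e} := by
    rintro ⟨x, h⟩ ⟨_, hh⟩
    have hh1 : h = 1 := hh
    subst hh1
    simpa [hF, act_one] using he
  obtain ⟨U, W, hU, hW, hKU, h1W, hUW⟩ := generalized_tube_lemma hKc isCompact_singleton hopen hsub
  refine ⟨W ∩ V, inter_mem (hW.mem_nhds (h1W rfl)) hV1, fun x h hh => ?_⟩
  by_cases hx : x ∈ K
  · have h2 : (x, h) ∈ {p : ModSpace n × SLR n | |F p| < e} := hUW ⟨hKU hx, hh.1⟩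
    exact le_of_lt h2
  · obtain ⟨h1, h2⟩ := hout x hx h hh.2
    rw [h1, h2, sub_self, abs_zero]
    exact he.le

/-- the generation input: a probability invariant under all elementary matrices is invariant. -/
def Gen (n : ℕ) : Prop :=
  ∀ ν : Measure (ModSpace n), IsProbabilityMeasure ν →
    (∀ (i j : Fin n) (hij : i ≠ j) (s : ℝ), Measure.map (fun x => act x (elem i j hij s)) ν = ν) →
    ∀ g : SLR n, Measure.map (fun x => act x g) ν = ν

/-- tight + nearly invariant ⇒ convergence to the Haar probability. -/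
theorem conv {n : ℕ} (hgen : Gen n) (μ : ℕ → Measure (ModSpace n))
    (hprob : ∀ i, IsProbabilityMeasure (μ i)) (hinv : NearInv μ) (htight : Tight μ) :
    ∃ ν : Measure (ModSpace n), IsHaarProbability ν ∧
      ∀ f : ModSpace n → ℝ, Continuous f → HasCompactSupport f →
        Tendsto (fun i => ∫ x, f x ∂(μ i)) atTop (𝓝 (∫ x, f x ∂ν)) := by
  obtain ⟨ν, h1, h2, h3⟩ := Vague_792.conclude (X := ModSpace n) (fun g : SLR n => Top1_458.actH g)
    {g | ∃ (i j : Fin n) (hij : i ≠ j) (s : ℝ), g = elem i j hij s} μ htight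
    (by
      rintro g ⟨i, j, hij, s, rfl⟩ f hf hc
      exact hinv f (ruc_of_cc hf hc) i j hij s)
    (by
      intro ν hν hS g
      exact hgen ν hν (fun i j hij s => hS _ ⟨i, j, hij, s, rfl⟩) g)
    (by
      intro ν ν' hν hν' h h'
      exact Uniq_983.isHaarProbability_unique ⟨hν, h⟩ ⟨hν', h'⟩)
  exact ⟨ν, ⟨h1, h2⟩, h3⟩

/-- the assembly. -/
theorem main {d : ℕ} (hgen : Gen (d + 1)) (hA : ThmA.{u} d) (hB : ThmB d) (hE : NoEsc d)
    (hP : Pack.{u} d)
    (K : ℕ → Type u) [∀ i, Field (K i)] [∀ i, NumberField (K i)] [∀ i, NumberField.IsTotallyReal (K i)]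
    (hdeg : ∀ i, Module.finrank ℚ (K i) = d + 1) (hprim : ∀ i, IsPrimitiveField (K i))
    (m : ∀ i, LatticeBasis (d + 1) (K i)) (σ : ∀ i, Fin (d + 1) ≃ (K i →+* ℝ))
    (hdisc : Tendsto (fun i => latticeDisc (m i)) atTop atTop) :
    ∃ ν : Measure (ModSpace (d + 1)), IsHaarProbability ν ∧
      (∀ i, ∃ μ : Measure (ModSpace (d + 1)), IsPacketMeasure (m i) (σ i) μ) ∧
      ∀ μ : ℕ → Measure (ModSpace (d + 1)), (∀ i, IsPacketMeasure (m i) (σ i) (μ i)) →
        (∀ f : ModSpace (d + 1) → ℝ, Continuous f → HasCompactSupport f →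
          Tendsto (fun i => ∫ x, f x ∂(μ i)) atTop (𝓝 (∫ x, f x ∂ν))) ∧
        (∀ ε : ℝ, 0 < ε → ∃ C : Set (ModSpace (d + 1)), IsCompact C ∧
          ∀ᶠ i in atTop, 1 - ε ≤ ((μ i) C).toReal) := by
  have key : ∀ μ : ℕ → Measure (ModSpace (d + 1)), (∀ i, IsPacketMeasure (m i) (σ i) (μ i)) →
      (∃ ν : Measure (ModSpace (d + 1)), IsHaarProbability ν ∧
        ∀ f : ModSpace (d + 1) → ℝ, Continuous f → HasCompactSupport f →
          Tendsto (fun i => ∫ x, f x ∂(μ i)) atTop (𝓝 (∫ x, f x ∂ν))) ∧ Tight μ := by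
    intro μ hμ
    have hprob : ∀ i, IsProbabilityMeasure (μ i) := fun i =>
      ((hP (K i) (hdeg i) (m i) (σ i)).2 (μ i) (hμ i)).1
    have hAinv : ∀ i (u : Fin d → ℝ), Measure.map (fun x => orbitMap x u) (μ i) = μ i := fun i =>
      ((hP (K i) (hdeg i) (m i) (σ i)).2 (μ i) (hμ i)).2
    have hBH : BHyp μ := by
      refine ⟨hprob, hAinv, fun i => latticeDisc (m i), hdisc, ?_⟩
      obtain ⟨κ, C, hκ, hC, hA'⟩ := hA
      refine ⟨κ, C, hκ, hC, fun e he => ?_⟩
      obtain ⟨D₀, η, _, hη, hA''⟩ := hA' e he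
      refine ⟨η, hη, ?_⟩
      filter_upwards [hdisc.eventually_ge_atTop D₀] with i hi
      exact hA'' (K i) (hdeg i) (hprim i) (m i) (σ i) hi (μ i) (hμ i)
    have hNI : NearInv μ := hB μ hBH
    have hT : Tight μ := hE μ hprob hAinv hNI
    exact ⟨conv hgen μ hprob hNI hT, hT⟩
  choose μ₀ hμ₀ using fun i => (hP (K i) (hdeg i) (m i) (σ i)).1
  obtain ⟨⟨ν, hν, hconv⟩, _⟩ := key μ₀ hμ₀
  refine ⟨ν, hν, fun i => (hP (K i) (hdeg i) (m i) (σ i)).1, fun μ hμ => ?_⟩
  obtain ⟨⟨ν', hν', hconv'⟩, hT⟩ := key μ hμ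
  have : ν' = ν := Uniq_983.isHaarProbability_unique hν' hν
  subst this
  exact ⟨hconv', hT⟩

/-- a number field of prime degree is primitive. -/
theorem primitive_of_prime {K : Type*} [Field K] [NumberField K]
    (hp : (Module.finrank ℚ K).Prime) : IsPrimitiveField K := by
  intro F
  have h := Module.finrank_mul_finrank ℚ F K
  have hF0 : 0 < Module.finrank ℚ F := Module.finrank_pos
  rcases (Nat.Prime.eq_one_or_self_of_dvd hp (Module.finrank ℚ F) ⟨_, h.symm⟩) with h1 | h1
  · left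
    exact IntermediateField.finrank_eq_one_iff.1 h1
  · right
    rw [h1] at h
    have h2 : Module.finrank F K = 1 := by
      have h3 : 0 < Module.finrank ℚ K := Module.finrank_pos
      nlinarith
    exact IntermediateField.finrank_eq_one_iff_eq_top.1 h2

/-- for the maximal order the lattice discriminant is the absolute discriminant. -/
theorem latticeDisc_max {n : ℕ} {K : Type*} [Field K] [NumberField K] (m : LatticeBasis n K)
    (hm : m.IsMaximalOrder) : latticeDisc m = |(NumberField.discr K : ℝ)| := by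
  have h1 : (integralClosure ℤ K).toSubring.toAddSubgroup ≤ multiplierOrder m := by
    intro a ha x hx
    have ha' : IsIntegral ℤ a := ha
    have hx' : IsIntegral ℤ x := (hm x).1 hx
    exact (hm _).2 (ha'.mul hx')
  have h2 : (multiplierOrder m).relIndex (integralClosure ℤ K).toSubring.toAddSubgroup = 1 :=
    AddSubgroup.relIndex_eq_one.2 h1
  unfold latticeDisc
  rw [h2]
  simp

theorem s17 (d : ℕ) (hprime : (d + 1).Prime)
    (hgen : Gen (d + 1)) (hA : ThmA.{u} d) (hB : ThmB d) (hE : NoEsc d) (hP : Pack.{u} d)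
    (K : ℕ → Type u) [∀ i, Field (K i)] [∀ i, NumberField (K i)] [∀ i, NumberField.IsTotallyReal (K i)]
    (hdeg : ∀ i, Module.finrank ℚ (K i) = d + 1)
    (m : ∀ i, LatticeBasis (d + 1) (K i)) (σ : ∀ i, Fin (d + 1) ≃ (K i →+* ℝ))
    (hdisc : Tendsto (fun i => latticeDisc (m i)) atTop atTop) :
    ∃ ν : Measure (ModSpace (d + 1)), IsHaarProbability ν ∧
      (∀ i, ∃ μ : Measure (ModSpace (d + 1)), IsPacketMeasure (m i) (σ i) μ) ∧
      ∀ μ : ℕ → Measure (ModSpace (d + 1)), (∀ i, IsPacketMeasure (m i) (σ i) (μ i)) →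
        (∀ f : ModSpace (d + 1) → ℝ, Continuous f → HasCompactSupport f →
          Tendsto (fun i => ∫ x, f x ∂(μ i)) atTop (𝓝 (∫ x, f x ∂ν))) ∧
        (∀ ε : ℝ, 0 < ε → ∃ C : Set (ModSpace (d + 1)), IsCompact C ∧
          ∀ᶠ i in atTop, 1 - ε ≤ ((μ i) C).toReal) :=
  main hgen hA hB hE hP K hdeg
    (fun i => primitive_of_prime (by rw [hdeg i]; exact hprime)) m σ hdisc

theorem s19 (hgen : Gen (5 + 1)) (hA : ThmA.{u} 5) (hB : ThmB 5) (hE : NoEsc 5) (hP : Pack.{u} 5)
    (K : ℕ → Type u) [∀ i, Field (K i)] [∀ i, NumberField (K i)] [∀ i, NumberField.IsTotallyReal (K i)]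
    (hdeg : ∀ i, Module.finrank ℚ (K i) = 6) (hprim : ∀ i, IsPrimitiveField (K i))
    (m : ∀ i, LatticeBasis (5 + 1) (K i)) (hmax : ∀ i, (m i).IsMaximalOrder)
    (σ : ∀ i, Fin (5 + 1) ≃ (K i →+* ℝ))
    (hdisc : Tendsto (fun i => |(NumberField.discr (K i) : ℝ)|) atTop atTop) :
    ∃ ν : Measure (ModSpace (5 + 1)), IsHaarProbability ν ∧
      (∀ i, ∃ μ : Measure (ModSpace (5 + 1)), IsPacketMeasure (m i) (σ i) μ) ∧
      ∀ μ : ℕ → Measure (ModSpace (5 + 1)), (∀ i, IsPacketMeasure (m i) (σ i) (μ i)) →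
        (∀ f : ModSpace (5 + 1) → ℝ, Continuous f → HasCompactSupport f →
          Tendsto (fun i => ∫ x, f x ∂(μ i)) atTop (𝓝 (∫ x, f x ∂ν))) ∧
        (∀ ε : ℝ, 0 < ε → ∃ C : Set (ModSpace (5 + 1)), IsCompact C ∧
          ∀ᶠ i in atTop, 1 - ε ≤ ((μ i) C).toReal) := by
  refine main hgen hA hB hE hP K hdeg hprim m σ ?_
  have : (fun i => latticeDisc (m i)) = fun i => |(NumberField.discr (K i) : ℝ)| :=
    funext fun i => latticeDisc_max (m i) (hmax i)
  rw [this]
  exact hdisc

end Crest.Agent.R014.Asm_792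
end

-- ▼ part R014/Ms5_667
section

/-!
Row 14, leaf MODSPACE (helper667), part 5: Mahler's compactness criterion on `ModSpace n`:
the set `thick ε` of lattices without nonzero vectors shorter than `ε` is compact, and every
compact set lies in some `thick ε`.
-/

set_option autoImplicit false

open MeasureTheory Filter Topology Matrix
open Crest.NumberTheoryR.Packets
open scoped ENNReal

namespace Crest.Agent.R014.Ms_667

variable {n : ℕ}

/-- the real matrix of an integer matrix. -/
def rm (N : Matrix (Fin n) (Fin n) ℤ) : Matrix (Fin n) (Fin n) ℝ := N.map (Int.castRingHom ℝ)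

lemma rm_mul (M N : Matrix (Fin n) (Fin n) ℤ) : rm (M * N) = rm M * rm N := by
  unfold rm
  exact Matrix.map_mul

lemma rm_det (N : Matrix (Fin n) (Fin n) ℤ) : (rm N).det = (N.det : ℝ) :=
  (RingHom.map_det (Int.castRingHom ℝ) N).symm


/-- finitely many integer matrices of bounded nonzero determinant modulo right multiplication
by `SL_n(ℤ)`. -/
lemma finite_classes (n : ℕ) (B : ℤ) : ∃ F : Finset (Matrix (Fin n) (Fin n) ℤ),
    (∀ H ∈ F, H.det ≠ 0) ∧ ∀ N : Matrix (Fin n) (Fin n) ℤ, N.det ≠ 0 → |N.det| ≤ B →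
      ∃ H ∈ F, ∃ γ : Matrix (Fin n) (Fin n) ℤ, γ.det = 1 ∧ N = H * γ := by
  classical
  set S : Set (Matrix (Fin n) (Fin n) ℤ) := {N | N.det ≠ 0 ∧ |N.det| ≤ B} with hS
  set T : Matrix (Fin n) (Fin n) ℤ → ℤ × (Fin n → Fin n → ℤ) :=
    fun N => (N.det, fun i j => N i j % N.det) with hT
  have hfin : (T '' S).Finite := by
    have h1 : T '' S ⊆ (Set.Icc (-B) B) ×ˢ
        (Set.univ.pi fun _ : Fin n => Set.univ.pi fun _ : Fin n => Set.Icc (-B) B) := by
      rintro _ ⟨N, hN, rfl⟩
      refine Set.mem_prod.2 ⟨?_, ?_⟩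
      · exact abs_le.1 hN.2
      · refine Set.mem_univ_pi.2 fun i => Set.mem_univ_pi.2 fun j => ?_
        have h2 := Int.emod_nonneg (N i j) hN.1
        have h3 := Int.emod_lt_abs (N i j) hN.1
        refine Set.mem_Icc.2 ⟨?_, ?_⟩
        · have h4 : 0 ≤ B := le_trans (abs_nonneg _) hN.2
          exact le_trans (by linarith) h2
        · exact (h3.le).trans hN.2
    refine Set.Finite.subset ?_ h1
    exact (Set.finite_Icc _ _).prod
      (Set.Finite.pi fun _ => Set.Finite.pi fun _ => Set.finite_Icc _ _)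
  have hch : ∀ t : ℤ × (Fin n → Fin n → ℤ), ∃ N : Matrix (Fin n) (Fin n) ℤ,
      t ∈ T '' S → N ∈ S ∧ T N = t := by
    intro t
    by_cases ht : t ∈ T '' S
    · obtain ⟨N, hN, rfl⟩ := ht
      exact ⟨N, fun _ => ⟨hN, rfl⟩⟩
    · exact ⟨0, fun h => absurd h ht⟩
  choose rep hrep using hch
  refine ⟨hfin.toFinset.image rep, ?_, ?_⟩
  · intro H hH
    obtain ⟨t, ht, rfl⟩ := Finset.mem_image.1 hH
    exact ((hrep t (hfin.mem_toFinset.1 ht)).1).1
  · intro N hN0 hNB
    have ht : T N ∈ T '' S := ⟨N, ⟨hN0, hNB⟩, rfl⟩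
    obtain ⟨hHS, hHT⟩ := hrep _ ht
    refine ⟨rep (T N), Finset.mem_image.2 ⟨_, hfin.mem_toFinset.2 ht, rfl⟩, ?_⟩
    generalize rep (T N) = H at hHS hHT
    have hdet : H.det = N.det := congrArg Prod.fst hHT
    have hmod : ∀ i j, H i j % H.det = N i j % N.det := fun i j =>
      congrFun (congrFun (congrArg Prod.snd hHT) i) j
    have hM : ∀ i j, ∃ m : ℤ, N i j = H i j + H.det * m := by
      intro i j
      have h1 : H.det ∣ N i j - H i j := by
        have h2 := hmod i j
        rw [← hdet] at h2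
        exact (Int.ModEq.dvd (h2 : H i j ≡ N i j [ZMOD H.det]))
      obtain ⟨m, hm⟩ := h1
      exact ⟨m, by linarith⟩
    choose M hM using hM
    have hNM : N = H + H.det • (Matrix.of M) := by
      ext i j
      rw [hM i j]
      simp [smul_eq_mul]
    have hNγ : N = H * (1 + H.adjugate * Matrix.of M) := by
      rw [Matrix.mul_add, Matrix.mul_one, ← Matrix.mul_assoc, Matrix.mul_adjugate,
        Matrix.smul_mul, Matrix.one_mul]
      exact hNM
    refine ⟨1 + H.adjugate * Matrix.of M, ?_, hNγ⟩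
    have h1 : N.det = H.det * (1 + H.adjugate * Matrix.of M).det := by
      conv_lhs => rw [hNγ]
      rw [Matrix.det_mul]
    rw [← hdet] at h1
    have h2 : H.det * (1 + H.adjugate * Matrix.of M).det = H.det * 1 := by
      rw [mul_one]; exact h1.symm
    exact mul_left_cancel₀ hHS.1 h2

/-- the reduction step: a lattice without vectors shorter than `ε` has a basis with bounded
coordinates. -/
lemma exists_bounded_rep (n : ℕ) (ε : ℝ) (hε : 0 < ε) : ∃ R : ℝ, 0 < R ∧
    ∀ g : SLR n, (∀ v : Fin n → ℤ, v ≠ 0 → ε ≤ ‖rv v ᵥ* g.1‖) →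
      ∃ γ ∈ intPoints n, ∀ i j, |(γ * g).1 i j| ≤ R := by
  classical
  obtain ⟨R, hR, hvec⟩ := exists_indep_vecs n ε hε
  -- the bound on the determinant
  set B : ℤ := ⌈(n.factorial : ℝ) * R ^ n⌉ with hB
  obtain ⟨F, hF0, hF⟩ := finite_classes n B
  -- bound for the inverses
  set C : ℝ := 1 + ∑ H ∈ F, ∑ i, ∑ j, |(rm H)⁻¹ i j| with hC
  have hCpos : 0 < C := by
    have : 0 ≤ ∑ H ∈ F, ∑ i, ∑ j, |(rm H)⁻¹ i j| :=
      Finset.sum_nonneg fun H _ => Finset.sum_nonneg fun i _ => Finset.sum_nonneg fun j _ =>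
        abs_nonneg _
    linarith
  have hCle : ∀ H ∈ F, ∀ i j, |(rm H)⁻¹ i j| ≤ C := by
    intro H hH i j
    have h1 : |(rm H)⁻¹ i j| ≤ ∑ j, |(rm H)⁻¹ i j| :=
      Finset.single_le_sum (f := fun j => |(rm H)⁻¹ i j|) (fun _ _ => abs_nonneg _)
        (Finset.mem_univ j)
    have h2 : ∑ j, |(rm H)⁻¹ i j| ≤ ∑ i, ∑ j, |(rm H)⁻¹ i j| :=
      Finset.single_le_sum (f := fun i => ∑ j, |(rm H)⁻¹ i j|)
        (fun _ _ => Finset.sum_nonneg fun _ _ => abs_nonneg _) (Finset.mem_univ i)
    have h3 : ∑ i, ∑ j, |(rm H)⁻¹ i j| ≤ ∑ H ∈ F, ∑ i, ∑ j, |(rm H)⁻¹ i j| :=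
      Finset.single_le_sum (f := fun H => ∑ i, ∑ j, |(rm H)⁻¹ i j|)
        (fun _ _ => Finset.sum_nonneg fun _ _ => Finset.sum_nonneg fun _ _ => abs_nonneg _) hH
    linarith
  refine ⟨(n + 1) * C * R, by positivity, ?_⟩
  intro g hg
  have hgdet : |g.1.det| = 1 := by rw [g.2, abs_one]
  obtain ⟨N, hN0, hNR⟩ := hvec g.1 hgdet hg
  set A : Matrix (Fin n) (Fin n) ℝ := rm N * g.1 with hA
  have hAR : ∀ i j, |A i j| ≤ R := by
    intro i j
    have h1 : A i = rv (N i) ᵥ* g.1 := rfl
    have h2 : ‖A i j‖ ≤ ‖A i‖ := norm_le_pi_norm (A i) j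
    rw [h1] at h2
    rw [← Real.norm_eq_abs]
    exact h2.trans (hNR i)
  have hNB : |N.det| ≤ B := by
    have h1 : (|N.det| : ℝ) = |A.det| := by
      rw [hA, Matrix.det_mul, rm_det, abs_mul, hgdet, mul_one]
    have h2 : |A.det| ≤ (n.factorial : ℝ) * R ^ n := by
      have := Matrix.det_le (A := A) (abv := AbsoluteValue.abs) (x := R) (fun i j => hAR i j)
      simpa [nsmul_eq_mul] using this
    have h3 : (|N.det| : ℝ) ≤ (B : ℝ) := by
      rw [h1]
      exact h2.trans (Int.le_ceil _)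
    exact_mod_cast h3
  obtain ⟨H, hHF, γ, hγ, hNH⟩ := hF N hN0 hNB
  have hHdet : (rm H).det ≠ 0 := by
    rw [rm_det]
    exact_mod_cast hF0 H hHF
  have hγg : rm γ * g.1 = (rm H)⁻¹ * A := by
    rw [hA, hNH, rm_mul, ← Matrix.mul_assoc, ← Matrix.mul_assoc,
      Matrix.nonsing_inv_mul _ (isUnit_iff_ne_zero.2 hHdet), Matrix.one_mul]
  refine ⟨Matrix.SpecialLinearGroup.map (Int.castRingHom ℝ) ⟨γ, hγ⟩, ⟨_, rfl⟩, ?_⟩
  intro i j
  have h1 : (Matrix.SpecialLinearGroup.map (Int.castRingHom ℝ) ⟨γ, hγ⟩ * g).1 =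
      rm γ * g.1 := rfl
  rw [h1, hγg, Matrix.mul_apply]
  refine (Finset.abs_sum_le_sum_abs _ _).trans ?_
  calc ∑ k, |(rm H)⁻¹ i k * A k j| ≤ ∑ _k : Fin n, C * R := by
        refine Finset.sum_le_sum fun k _ => ?_
        rw [abs_mul]
        exact mul_le_mul (hCle H hHF i k) (hAR k j) (abs_nonneg _) hCpos.le
    _ = n * (C * R) := by
        rw [Finset.sum_const, Finset.card_univ, Fintype.card_fin, nsmul_eq_mul]
    _ ≤ (n + 1) * C * R := by nlinarith [mul_pos hCpos hR]

/-- the lattice points without nonzero vectors shorter than `ε`. -/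
def thick (n : ℕ) (ε : ℝ) : Set (ModSpace n) :=
  {x | ∀ g : SLR n, q g = x → ∀ v : Fin n → ℤ, v ≠ 0 → ε ≤ ‖rv v ᵥ* g.1‖}

/-- `γ ∈ SL_n(ℤ)` permutes the nonzero integer vectors. -/
lemma rv_vecMul_intPoints {γ : SLR n} (hγ : γ ∈ intPoints n) (v : Fin n → ℤ) (hv : v ≠ 0) :
    ∃ w : Fin n → ℤ, w ≠ 0 ∧ rv w = rv v ᵥ* γ.1 := by
  obtain ⟨c, rfl⟩ := hγ
  have h1 : rv (v ᵥ* c.1) =
      rv v ᵥ* (Matrix.SpecialLinearGroup.map (Int.castRingHom ℝ) c).1 := by
    funext i
    show (((v ᵥ* c.1) i : ℤ) : ℝ) = _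
    simp only [Matrix.vecMul, dotProduct]
    push_cast
    rfl
  refine ⟨v ᵥ* c.1, ?_, h1⟩
  intro h0
  rw [h0, rv_zero] at h1
  have h2 : rv v = 0 := by
    have h3 := congrArg (fun w => w ᵥ* (Matrix.SpecialLinearGroup.map (Int.castRingHom ℝ) c)⁻¹.1) h1
    simp only [Matrix.zero_vecMul, Matrix.vecMul_vecMul] at h3
    have h4 : (Matrix.SpecialLinearGroup.map (Int.castRingHom ℝ) c).1 *
        ((Matrix.SpecialLinearGroup.map (Int.castRingHom ℝ) c)⁻¹).1 = 1 := by
      have h5 := congrArg Subtype.val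
        (mul_inv_cancel (Matrix.SpecialLinearGroup.map (n := Fin n) (Int.castRingHom ℝ) c))
      exact h5
    rw [h4, Matrix.vecMul_one] at h3
    exact h3.symm
  exact rv_ne_zero hv h2

lemma q_mem_thick {g : SLR n} {ε : ℝ} :
    q g ∈ thick n ε ↔ ∀ v : Fin n → ℤ, v ≠ 0 → ε ≤ ‖rv v ᵥ* g.1‖ := by
  constructor
  · intro h v hv
    exact h g rfl v hv
  · intro h g' hg' v hv
    obtain ⟨γ, hγ, rfl⟩ := q_eq_iff'.1 hg'.symm
    obtain ⟨w, hw0, hw⟩ := rv_vecMul_intPoints hγ v hv
    have h1 : rv v ᵥ* (γ * g).1 = rv w ᵥ* g.1 := by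
      rw [hw, Matrix.vecMul_vecMul]
      rfl
    rw [h1]
    exact h w hw0


lemma isClosed_thick (n : ℕ) (ε : ℝ) : IsClosed (thick n ε) := by
  rw [← isOpenQuotientMap_q.isQuotientMap.isClosed_preimage]
  have h : q ⁻¹' (thick n ε) =
      ⋂ v : Fin n → ℤ, ⋂ _ : v ≠ 0, {g : SLR n | ε ≤ ‖rv v ᵥ* g.1‖} := by
    ext g
    simp only [Set.mem_preimage, q_mem_thick, Set.mem_iInter, Set.mem_ofPred_eq]
  rw [h]
  refine isClosed_iInter fun v => isClosed_iInter fun _ => isClosed_le continuous_const ?_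
  refine Continuous.norm ?_
  exact (continuous_const (y := rv v)).matrix_vecMul continuous_subtype_val

/-- the set of matrices in `SL_n(ℝ)` with bounded entries is compact. -/
lemma isCompact_bounded (n : ℕ) (R : ℝ) : IsCompact {g : SLR n | ∀ i j, |g.1 i j| ≤ R} := by
  have h1 : IsCompact (Set.univ.pi fun _ : Fin n => Set.univ.pi fun _ : Fin n => Set.Icc (-R) R) :=
    isCompact_univ_pi fun _ => isCompact_univ_pi fun _ => isCompact_Icc
  have h2 := (Matrix.SpecialLinearGroup.isClosedEmbedding_val (n := Fin n) (R := ℝ)).isCompact_preimage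
    (K := (Set.univ.pi fun _ : Fin n => Set.univ.pi fun _ : Fin n => Set.Icc (-R) R)) h1
  have h3 : {g : SLR n | ∀ i j, |g.1 i j| ≤ R} = Subtype.val ⁻¹'
      (Set.univ.pi fun _ : Fin n => Set.univ.pi fun _ : Fin n => Set.Icc (-R) R) := by
    refine Set.ext fun g => ⟨fun h => ?_, fun h i j => ?_⟩
    · exact fun i _ j _ => abs_le.1 (h i j)
    · exact abs_le.2 (h i (Set.mem_univ _) j (Set.mem_univ _))
  rw [h3]
  exact h2

/-- **Mahler's compactness criterion.** -/
theorem isCompact_thick (n : ℕ) {ε : ℝ} (hε : 0 < ε) : IsCompact (thick n ε) := by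
  obtain ⟨R, -, hR⟩ := exists_bounded_rep n ε hε
  refine ((isCompact_bounded n R).image continuous_q).of_isClosed_subset (isClosed_thick n ε) ?_
  intro x hx
  obtain ⟨g, rfl⟩ := q_surjective x
  obtain ⟨γ, hγ, hb⟩ := hR g (q_mem_thick.1 hx)
  exact ⟨γ * g, hb, q_mul_left hγ g⟩



end Crest.Agent.R014.Ms_667
end

-- ▼ part R014/Asm2_792

/-!
# Row 14: generation, Mahler and the final assembly  (helper792)
-/

set_option autoImplicit false

open MeasureTheory Filter Topology
open Crest.NumberTheoryR.Packets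
open Crest.Agent.R014.Iface_792 Crest.Agent.R014.Asm_792

universe u

namespace Crest.Agent.R014.Asm2_792

theorem gen (n : ℕ) : Gen n := by
  intro ν hν h
  have := hν
  exact (Ms_667.isHaarProbability_of_unipotents (ν := ν) (fun i j hij t => h i j hij t)).2

/-- `Thick` is 667's `thick`. -/
theorem thick_iff {n : ℕ} (x : ModSpace n) (r : ℝ) : x ∈ Ms_667.thick n r ↔ Thick x r := by
  constructor
  · rintro hx v ⟨g, hg, z, rfl⟩ hv
    refine hx g hg z ?_
    rintro rfl
    apply hv
    have : (fun i : Fin n => (((0 : Fin n → ℤ) i : ℤ) : ℝ)) = 0 := by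
      funext i; simp
    rw [this, Matrix.zero_vecMul]
  · intro hx g hg z hz
    refine hx _ ⟨g, hg, z, rfl⟩ ?_
    intro h0
    have h0' : Matrix.vecMul (Ms_667.rv z) g.1 = 0 := h0
    have h1 : Matrix.vecMul (Matrix.vecMul (Ms_667.rv z) g.1) (g⁻¹).1 = 0 := by
      rw [h0', Matrix.zero_vecMul]
    have h2 : g.1 * (g⁻¹).1 = 1 := congrArg Subtype.val (mul_inv_cancel g)
    rw [Matrix.vecMul_vecMul, h2, Matrix.vecMul_one] at h1
    exact Ms_667.rv_ne_zero hz h1

theorem setOf_thick (n : ℕ) (r : ℝ) : {x : ModSpace n | Thick x r} = Ms_667.thick n r := by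
  ext x
  exact (thick_iff x r).symm

theorem isCompact_thick (n : ℕ) {r : ℝ} (hr : 0 < r) : IsCompact {x : ModSpace n | Thick x r} := by
  rw [setOf_thick]
  exact Ms_667.isCompact_thick n hr

theorem measurableSet_thick (n : ℕ) {r : ℝ} (hr : 0 < r) :
    MeasurableSet {x : ModSpace n | Thick x r} :=
  haveI := Top1_458.instT2Mod (n := n)
  (isCompact_thick n hr).measurableSet

/-- no mass in the thin part ⇒ tight. -/
theorem tight_of_esc {n : ℕ} (μ : ℕ → Measure (ModSpace n))
    (hprob : ∀ i, IsProbabilityMeasure (μ i))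
    (h : ∀ e : ℝ, 0 < e → ∃ r : ℝ, 0 < r ∧ ∀ᶠ k in atTop,
      (μ k) {x | ¬ Thick x r} ≤ ENNReal.ofReal e) : Tight μ := by
  intro ε hε
  obtain ⟨r, hr, hev⟩ := h ε hε
  refine ⟨{x | Thick x r}, isCompact_thick n hr, hev.mono fun k hk => ?_⟩
  have := hprob k
  have hm : MeasurableSet {x : ModSpace n | Thick x r} := measurableSet_thick n hr
  have h1 : (μ k).real {x | Thick x r} + (μ k).real {x | Thick x r}ᶜ = 1 := by
    rw [measureReal_add_measureReal_compl hm]
    simp
  have h2 : (μ k).real {x | Thick x r}ᶜ ≤ ε := by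
    have h3 : {x : ModSpace n | Thick x r}ᶜ = {x | ¬ Thick x r} := rfl
    rw [h3]
    exact ENNReal.toReal_le_of_le_ofReal hε.le hk
  have h4 : ((μ k) {x | Thick x r}).toReal = (μ k).real {x | Thick x r} := rfl
  rw [h4]
  linarith

/-- the final assembly from the four inputs. -/
theorem main {d : ℕ} (hA : ThmA.{u} d) (hB : ThmB d) (hE : NoEsc d) (hP : Pack.{u} d)
    (K : ℕ → Type u) [∀ i, Field (K i)] [∀ i, NumberField (K i)] [∀ i, NumberField.IsTotallyReal (K i)]
    (hdeg : ∀ i, Module.finrank ℚ (K i) = d + 1) (hprim : ∀ i, IsPrimitiveField (K i))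
    (m : ∀ i, LatticeBasis (d + 1) (K i)) (σ : ∀ i, Fin (d + 1) ≃ (K i →+* ℝ))
    (hdisc : Tendsto (fun i => latticeDisc (m i)) atTop atTop) :
    ∃ ν : Measure (ModSpace (d + 1)), IsHaarProbability ν ∧
      (∀ i, ∃ μ : Measure (ModSpace (d + 1)), IsPacketMeasure (m i) (σ i) μ) ∧
      ∀ μ : ℕ → Measure (ModSpace (d + 1)), (∀ i, IsPacketMeasure (m i) (σ i) (μ i)) →
        (∀ f : ModSpace (d + 1) → ℝ, Continuous f → HasCompactSupport f →
          Tendsto (fun i => ∫ x, f x ∂(μ i)) atTop (𝓝 (∫ x, f x ∂ν))) ∧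
        (∀ ε : ℝ, 0 < ε → ∃ C : Set (ModSpace (d + 1)), IsCompact C ∧
          ∀ᶠ i in atTop, 1 - ε ≤ ((μ i) C).toReal) :=
  Asm_792.main (gen _) hA hB hE hP K hdeg hprim m σ hdisc

end Crest.Agent.R014.Asm2_792
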