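import Mathlib
import Crest.Agent.R014.Ms2_667
import Crest.Agent.R014.Iface_792
import Crest.Agent.R014.Nd1_837
import Crest.Agent.R014.Nz1_323
import Crest.Agent.R014.Top1_458

-- ▼ part R014/Nm1_884
section

/-!
R014, block D, leaf NOISE-SLAB MASS (helper884), part 1: bounded Borel section (SEC) and the
Fubini inequality (FUB).
-/

set_option autoImplicit false

open MeasureTheory Filter Topology
open Crest.NumberTheoryR.Packets
open scoped ENNReal

namespace Crest.Agent.R014.Nm_884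

open Crest.Agent.R014.Ms_667

variable {n : ℕ}

/-- matrices in `SL_n(ℝ)` with all entries at most `B` -/
def Ent (n : ℕ) (B : ℝ) : Set (SLR n) := {g | ∀ i j, |g.1 i j| ≤ B}

lemma continuous_entry (i j : Fin n) : Continuous fun g : SLR n => g.1 i j :=
  (continuous_apply j).comp ((continuous_apply i).comp continuous_subtype_val)

lemma isClosed_Ent (B : ℝ) : IsClosed (Ent n B) := by
  have : Ent n B = ⋂ i, ⋂ j, {g : SLR n | |g.1 i j| ≤ B} := by
    ext g; simp [Ent]
  rw [this]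
  refine isClosed_iInter fun i => isClosed_iInter fun j => ?_
  exact isClosed_le (continuous_entry i j).abs continuous_const

lemma measurableSet_Ent (B : ℝ) : MeasurableSet (Ent n B) := (isClosed_Ent B).measurableSet

/-- **bounded Borel section.** -/
theorem exists_bdd_section (B : ℝ) : ∃ s : ModSpace n → SLR n, Measurable s ∧ (∀ x, q (s x) = x) ∧
    ∀ x, (∃ g ∈ Ent n B, q g = x) → s x ∈ Ent n B := by
  classical
  obtain ⟨e, he⟩ := exists_surjective_nat (intPoints n)
  -- the set where the k-th translate is bounded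
  let A : ℕ → Set (ModSpace n) := fun k => {x | (e k : SLR n) * sec x ∈ Ent n B}
  have hA : ∀ k, MeasurableSet (A k) := fun k =>
    (measurable_mul_sec (e k : SLR n)) (measurableSet_Ent B)
  let good : ModSpace n → Prop := fun x => ∃ k, x ∈ A k
  let s : ModSpace n → SLR n := fun x =>
    if h : ∃ k, x ∈ A k then (e (Nat.find h) : SLR n) * sec x else sec x
  refine ⟨s, ?_, ?_, ?_⟩
  · -- measurability
    have hU : MeasurableSet (⋃ k, A k) := MeasurableSet.iUnion hA
    intro T hT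
    have : s ⁻¹' T = ((⋃ k, A k)ᶜ ∩ sec ⁻¹' T) ∪
        ⋃ k, ((A k ∩ ⋂ l ∈ Finset.range k, (A l)ᶜ) ∩ (fun x => (e k : SLR n) * sec x) ⁻¹' T) := by
      ext x
      by_cases h : ∃ k, x ∈ A k
      · have hs : s x = (e (Nat.find h) : SLR n) * sec x := dif_pos h
        simp only [Set.mem_preimage, hs, Set.mem_union, Set.mem_inter_iff, Set.mem_compl_iff,
          Set.mem_iUnion, h, not_true_eq_false, false_and, false_or, Set.mem_iInter,
          Finset.mem_range]
        constructor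
        · intro hx
          exact ⟨Nat.find h, ⟨Nat.find_spec h, fun l hl => Nat.find_min h hl⟩, hx⟩
        · rintro ⟨k, ⟨hk1, hk2⟩, hk3⟩
          have : Nat.find h = k := by
            apply le_antisymm (Nat.find_min' h hk1)
            by_contra hlt
            exact hk2 _ (not_le.1 hlt) (Nat.find_spec h)
          rw [this]
          exact hk3
      · have hs : s x = sec x := dif_neg h
        simp only [Set.mem_preimage, hs, Set.mem_union, Set.mem_inter_iff, Set.mem_compl_iff,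
          Set.mem_iUnion, h, not_false_eq_true, true_and]
        constructor
        · intro hx; exact Or.inl hx
        · rintro (hx | ⟨k, ⟨hk1, _⟩, _⟩)
          · exact hx
          · exact absurd ⟨k, hk1⟩ h
    rw [this]
    refine (hU.compl.inter (measurable_sec hT)).union (MeasurableSet.iUnion fun k => ?_)
    refine ((hA k).inter ?_).inter ((measurable_mul_sec _) hT)
    exact Finset.measurableSet_biInter _ fun l _ => (hA l).compl
  · intro x
    by_cases h : ∃ k, x ∈ A k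
    · have hs : s x = (e (Nat.find h) : SLR n) * sec x := dif_pos h
      rw [hs, q_mul_left (e _).2, q_sec]
    · have hs : s x = sec x := dif_neg h
      rw [hs, q_sec]
  · rintro x ⟨g, hg, rfl⟩
    have h : ∃ k, q g ∈ A k := by
      obtain ⟨γ, hγ⟩ := exists_coset g
      obtain ⟨k, hk⟩ := he γ
      refine ⟨k, ?_⟩
      show (e k : SLR n) * sec (q g) ∈ Ent n B
      rw [hk, ← hγ]
      exact hg
    have hs : s (q g) = (e (Nat.find h) : SLR n) * sec (q g) := dif_pos h
    rw [hs]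
    exact Nat.find_spec h

/-- **Fubini inequality (FUB).** `Hs` left invariant on `SL_n(ℝ)`, `κ ≤ A Hs|V`, `s` a Borel section
with `s(x) V ⊆ K` for `x ∈ E0`. -/
theorem fubini_ineq (Hs : Measure (SLR n)) [SFinite Hs]
    (hinv : ∀ g : SLR n, Measure.map (fun h => g * h) Hs = Hs)
    (μ : Measure (ModSpace n)) [IsFiniteMeasure μ]
    (κ : Measure (SLR n)) (A : ℝ≥0∞) (V : Set (SLR n)) (hV : MeasurableSet V)
    (hκ : κ ≤ A • Hs.restrict V)
    (s : ModSpace n → SLR n) (hs : Measurable s) (hqs : ∀ x, q (s x) = x)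
    (E0 : Set (ModSpace n)) (hE0 : MeasurableSet E0)
    (K : Set (SLR n)) (hK : MeasurableSet K) (hsK : ∀ x ∈ E0, ∀ v ∈ V, s x * v ∈ K)
    (σ : ℝ≥0∞) (hσ : ∀ h : SLR n, μ {x | x ∈ E0 ∧ (s x)⁻¹ * h ∈ V} ≤ σ)
    (B : Set (ModSpace n)) (hB : MeasurableSet B) :
    ∫⁻ x in E0, κ {g | act x g ∈ B} ∂μ ≤ A * σ * Hs {h | h ∈ K ∧ q h ∈ B} := by
  have hmq : Measurable (q (n := n)) := continuous_q.measurable
  have hqB : MeasurableSet {h : SLR n | q h ∈ B} := hmq hB
  -- step 1: bound κ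
  have h1 : ∀ x ∈ E0, κ {g | act x g ∈ B}
      ≤ A * ∫⁻ h, Set.indicator {h | h ∈ K ∧ q h ∈ B} (fun h => Set.indicator V 1 ((s x)⁻¹ * h)) h
          ∂Hs := by
    intro x hx
    have hmeas : MeasurableSet {g | act x g ∈ B} :=
      (continuous_act.comp (Continuous.prodMk_right x)).measurable hB
    calc κ {g | act x g ∈ B} ≤ (A • Hs.restrict V) {g | act x g ∈ B} := hκ _
      _ = A * Hs ({g | act x g ∈ B} ∩ V) := by
          rw [Measure.smul_apply, Measure.restrict_apply hmeas, smul_eq_mul]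
      _ = A * ∫⁻ g, Set.indicator ({g | act x g ∈ B} ∩ V) 1 g ∂Hs := by
          rw [lintegral_indicator_one (hmeas.inter hV)]
      _ ≤ A * ∫⁻ g, (fun h => Set.indicator {h | h ∈ K ∧ q h ∈ B}
            (fun h => Set.indicator V 1 ((s x)⁻¹ * h)) h) (s x * g) ∂Hs := by
          gcongr with g
          by_cases hg : g ∈ {g | act x g ∈ B} ∩ V
          · rw [Set.indicator_of_mem hg]
            have hg1 : act x g ∈ B := hg.1
            have hmem : s x * g ∈ {h | h ∈ K ∧ q h ∈ B} := by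
              refine ⟨hsK x hx g hg.2, ?_⟩
              rw [← act_q, hqs]
              exact hg1
            show (1 : SLR n → ℝ≥0∞) g ≤ Set.indicator {h | h ∈ K ∧ q h ∈ B}
              (fun h => Set.indicator V 1 ((s x)⁻¹ * h)) (s x * g)
            rw [Set.indicator_of_mem hmem, inv_mul_cancel_left, Set.indicator_of_mem hg.2]
          · rw [Set.indicator_of_notMem hg]
            exact zero_le
      _ = A * ∫⁻ h, Set.indicator {h | h ∈ K ∧ q h ∈ B}
            (fun h => Set.indicator V 1 ((s x)⁻¹ * h)) h ∂Hs := by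
          congr 1
          conv_rhs => rw [← hinv (s x)]
          rw [lintegral_map]
          · refine Measurable.indicator ?_ (hK.inter hqB)
            exact (measurable_one.indicator hV).comp (continuous_const_mul _).measurable
          · exact (continuous_const_mul _).measurable
  have hjm : Measurable (fun p : ModSpace n × SLR n => (s p.1)⁻¹ * p.2) :=
    ((hs.comp measurable_fst).inv).mul measurable_snd
  have hjoint : Measurable (fun p : ModSpace n × SLR n =>
      Set.indicator {h | h ∈ K ∧ q h ∈ B} (fun h => Set.indicator V (1 : SLR n → ℝ≥0∞)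
        ((s p.1)⁻¹ * h)) p.2) := by
    have : (fun p : ModSpace n × SLR n =>
      Set.indicator {h | h ∈ K ∧ q h ∈ B} (fun h => Set.indicator V (1 : SLR n → ℝ≥0∞)
        ((s p.1)⁻¹ * h)) p.2)
      = Set.indicator {p : ModSpace n × SLR n | p.2 ∈ K ∧ q p.2 ∈ B}
        (fun p => Set.indicator V (1 : SLR n → ℝ≥0∞) ((s p.1)⁻¹ * p.2)) := by
      funext p
      by_cases h : p.2 ∈ {h | h ∈ K ∧ q h ∈ B}
      · rw [Set.indicator_of_mem h, Set.indicator_of_mem (show p ∈ _ from h)]
      · rw [Set.indicator_of_notMem h, Set.indicator_of_notMem (show p ∉ _ from h)]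
    rw [this]
    exact ((measurable_one.indicator hV).comp hjm).indicator (measurable_snd (hK.inter hqB))
  calc ∫⁻ x in E0, κ {g | act x g ∈ B} ∂μ
      ≤ ∫⁻ x in E0, A * ∫⁻ h, Set.indicator {h | h ∈ K ∧ q h ∈ B}
          (fun h => Set.indicator V 1 ((s x)⁻¹ * h)) h ∂Hs ∂μ := setLIntegral_mono' hE0 h1
    _ = A * ∫⁻ x in E0, ∫⁻ h, Set.indicator {h | h ∈ K ∧ q h ∈ B}
          (fun h => Set.indicator V 1 ((s x)⁻¹ * h)) h ∂Hs ∂μ := by
        rw [lintegral_const_mul _ hjoint.lintegral_prod_right]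
    _ = A * ∫⁻ h, ∫⁻ x in E0, Set.indicator {h | h ∈ K ∧ q h ∈ B}
          (fun h => Set.indicator V 1 ((s x)⁻¹ * h)) h ∂μ ∂Hs := by
        rw [lintegral_lintegral_swap hjoint.aemeasurable]
    _ ≤ A * ∫⁻ h, Set.indicator {h | h ∈ K ∧ q h ∈ B} (fun _ => σ) h ∂Hs := by
        gcongr with h
        by_cases hh : h ∈ {h | h ∈ K ∧ q h ∈ B}
        · simp only [Set.indicator_of_mem hh]
          have e1 : (fun x => Set.indicator V (1 : SLR n → ℝ≥0∞) ((s x)⁻¹ * h))
              = Set.indicator {x | (s x)⁻¹ * h ∈ V} 1 := by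
            funext x
            by_cases hx : (s x)⁻¹ * h ∈ V
            · rw [Set.indicator_of_mem hx, Set.indicator_of_mem (show x ∈ _ from hx)]; rfl
            · rw [Set.indicator_of_notMem hx, Set.indicator_of_notMem (show x ∉ _ from hx)]
          have hm1 : MeasurableSet {x | (s x)⁻¹ * h ∈ V} :=
            (hs.inv.mul_const h) hV
          rw [e1, lintegral_indicator_one hm1, Measure.restrict_apply hm1]
          refine le_trans (measure_mono ?_) (hσ h)
          rintro x ⟨hx1, hx2⟩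
          exact ⟨hx2, hx1⟩
        · simp only [Set.indicator_of_notMem hh, lintegral_zero]
          exact le_rfl
    _ = A * (σ * Hs {h | h ∈ K ∧ q h ∈ B}) := by
        have hKB : MeasurableSet {h | h ∈ K ∧ q h ∈ B} := hK.inter hqB
        rw [lintegral_indicator hKB, setLIntegral_const]
    _ = A * σ * Hs {h | h ∈ K ∧ q h ∈ B} := by ring

end Crest.Agent.R014.Nm_884
end

-- ▼ part R014/Nm2_884
section

/-!
R014, block D, leaf NOISE-SLAB MASS (helper884), part 2: the numerator (NUM): the slab bound of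
Theorem A bounds the mass of the points `x` with `s(x)⁻¹ h v⁻¹` in a noise box.
-/

set_option autoImplicit false

open MeasureTheory Filter Topology
open Crest.NumberTheoryR.Packets
open scoped ENNReal

namespace Crest.Agent.R014.Nm_884

open Crest.Agent.R014.Ms_667 Crest.Agent.R014.Nd_837 Crest.Agent.R014.Iface_792

variable {n : ℕ}

/-- the image in `SL_n(ℝ)` of the noise box: some multiple `c g`, `1/2 ≤ c ≤ 2`, is in the box. -/
def VB (R : Fin n → Fin n → ℝ) : Set (SLR n) :=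
  {g | ∃ c ∈ Set.Icc (1 / 2 : ℝ) 2, ∀ i j, |(c • g.1 - 1) i j| ≤ (2 : ℝ) ^ (-(R i j))}

lemma aT_val (t : Fin n → ℝ) : (aT t).1 = ((dm t).det ^ (-(1 : ℝ) / n)) • dm t :=
  toSL_val (det_dm t)

/-- conjugation by the torus -/
lemma conj_entry (t : Fin n → ℝ) (g : SLR n) (i j : Fin n) :
    ((aT t)⁻¹ * g * aT t).1 i j = (2 : ℝ) ^ (-(t i - t j)) * g.1 i j := by
  set X : SLR n := (aT t)⁻¹ * g * aT t with hX
  have h1 : aT t * X = g * aT t := by rw [hX]; group
  have h2 : (aT t).1 * X.1 = g.1 * (aT t).1 := by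
    have := congrArg Subtype.val h1
    simpa using this
  have h3 := congrFun (congrFun h2 i) j
  rw [aT_val] at h3
  set lam := (dm t).det ^ (-(1 : ℝ) / n) with hlam
  have hlam0 : 0 < lam := Real.rpow_pos_of_pos (det_dm t) _
  have e1 : ((lam • dm t) * X.1) i j = lam * (2 : ℝ) ^ (t i) * X.1 i j := by
    rw [Matrix.smul_mul, Matrix.smul_apply, dm, Matrix.diagonal_mul, smul_eq_mul]
    ring
  have e2 : (g.1 * (lam • dm t)) i j = g.1 i j * (lam * (2 : ℝ) ^ (t j)) := by
    rw [Matrix.mul_smul, Matrix.smul_apply, dm, Matrix.mul_diagonal, smul_eq_mul]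
    ring
  rw [e1, e2] at h3
  have h2i : (0 : ℝ) < 2 ^ (t i) := by positivity
  have e3 : (2 : ℝ) ^ (-(t i - t j)) = (2 : ℝ) ^ (t j) / (2 : ℝ) ^ (t i) := by
    rw [neg_sub, Real.rpow_sub (by norm_num)]
  rw [e3]
  field_simp
  have h5 : lam * ((2 : ℝ) ^ (t i) * X.1 i j) = lam * (g.1 i j * (2 : ℝ) ^ (t j)) := by
    rw [← mul_assoc, h3]; ring
  have h6 := mul_left_cancel₀ hlam0.ne' h5
  linarith

lemma conj_mem_VB {R : Fin n → Fin n → ℝ} (t : Fin n → ℝ) {g : SLR n} (hg : g ∈ VB R) :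
    (aT t)⁻¹ * g * aT t ∈ VB (R + sh t) := by
  obtain ⟨c, hc, h⟩ := hg
  refine ⟨c, hc, fun i j => ?_⟩
  have h1 := h i j
  rw [Matrix.sub_apply, Matrix.smul_apply, conj_entry]
  rw [Matrix.sub_apply, Matrix.smul_apply] at h1
  have e1 : (2 : ℝ) ^ (-((R + sh t) i j)) = (2 : ℝ) ^ (-(t i - t j)) * (2 : ℝ) ^ (-(R i j)) := by
    rw [← Real.rpow_add (by norm_num)]
    congr 1
    simp only [Pi.add_apply, sh]
    ring
  rw [e1]
  have hp : (0 : ℝ) < (2 : ℝ) ^ (-(t i - t j)) := by positivity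
  by_cases hij : i = j
  · subst hij
    simp only [sub_self, neg_zero, Real.rpow_zero, one_mul] at *
    exact h1
  · rw [Matrix.one_apply_ne hij, sub_zero] at h1 ⊢
    rw [smul_eq_mul] at h1 ⊢
    have : c * ((2 : ℝ) ^ (-(t i - t j)) * g.1 i j) = (2 : ℝ) ^ (-(t i - t j)) * (c * g.1 i j) := by
      ring
    rw [this, abs_mul, abs_of_pos hp]
    gcongr

/-- division of two elements of a box whose cross entries are small -/
lemma div_bound (S : Finset (Fin n)) (R : Fin n → Fin n → ℝ) (c1 W : ℝ)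
    (hc1 : (n : ℝ) * 2 ^ (-c1) ≤ 1 / 2) (hR : ∀ i j, c1 ≤ R i j)
    (hW : ∀ i j, (i ∈ S ↔ j ∉ S) → W ≤ R i j) {g g₀ : SLR n} (hg : g ∈ VB R) (hg₀ : g₀ ∈ VB R) :
    (∀ i j, |(g₀ * g⁻¹).1 i j| ≤ 16) ∧
      ∀ i j, (i ∈ S ↔ j ∉ S) → |(g₀ * g⁻¹).1 i j| ≤ (8 + 32 * n) * 2 ^ (-W) := by
  classical
  obtain ⟨c, hc, h⟩ := hg
  obtain ⟨c₀, hc₀, h₀⟩ := hg₀
  rcases Nat.eq_zero_or_pos n with hn0 | hn0
  · subst hn0
    exact ⟨fun i => i.elim0, fun i => i.elim0⟩
  have hn : Nonempty (Fin n) := ⟨⟨0, hn0⟩⟩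
  have hn1 : (1 : ℝ) ≤ n := by exact_mod_cast hn0
  set p : SLR n := g₀ * g⁻¹ with hp
  set m : Matrix (Fin n) (Fin n) ℝ := c • g.1 - 1 with hm
  set m₀ : Matrix (Fin n) (Fin n) ℝ := c₀ • g₀.1 - 1 with hm₀
  have hcpos : 0 < c := lt_of_lt_of_le (by norm_num) hc.1
  have hc₀pos : 0 < c₀ := lt_of_lt_of_le (by norm_num) hc₀.1
  set r : ℝ := c / c₀ with hr
  have hrpos : 0 < r := by positivity
  have hr4 : r ≤ 4 := by
    rw [hr, div_le_iff₀ hc₀pos]
    nlinarith [hc.2, hc₀.1]
  have hpg : p.1 * g.1 = g₀.1 := by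
    have : p * g = g₀ := by rw [hp]; group
    have := congrArg Subtype.val this
    simpa using this
  -- p + p m = r (1 + m₀)
  have heq : p.1 + p.1 * m = r • (1 + m₀) := by
    have h1 : p.1 + p.1 * m = c • (p.1 * g.1) := by
      rw [hm, Matrix.mul_sub, Matrix.mul_smul, Matrix.mul_one]
      abel
    have h2 : r • (1 + m₀) = c • g₀.1 := by
      rw [hm₀, add_sub_cancel, smul_smul, hr, div_mul_cancel₀ _ hc₀pos.ne']
    rw [h1, h2, hpg]
  have hent : ∀ i j, p.1 i j = r * ((1 : Matrix (Fin n) (Fin n) ℝ) i j + m₀ i j)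
      - ∑ k, p.1 i k * m k j := by
    intro i j
    have := congrFun (congrFun heq i) j
    rw [Matrix.add_apply, Matrix.mul_apply, Matrix.smul_apply, Matrix.add_apply, smul_eq_mul]
      at this
    linarith
  have h2c1 : (2 : ℝ) ^ (-c1) ≤ 1 := by
    have : (0 : ℝ) < 2 ^ (-c1) := by positivity
    nlinarith
  have hmb : ∀ i j, |m i j| ≤ 2 ^ (-c1) := fun i j =>
    (h i j).trans (Real.rpow_le_rpow_of_exponent_le (by norm_num) (neg_le_neg (hR i j)))
  have hm₀b : ∀ i j, |m₀ i j| ≤ 2 ^ (-c1) := fun i j =>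
    (h₀ i j).trans (Real.rpow_le_rpow_of_exponent_le (by norm_num) (neg_le_neg (hR i j)))
  have hone : ∀ i j, |(1 : Matrix (Fin n) (Fin n) ℝ) i j| ≤ 1 := by
    intro i j
    by_cases hij : i = j
    · subst hij; simp
    · rw [Matrix.one_apply_ne hij]; simp
  -- the maximal entry
  obtain ⟨⟨i₁, j₁⟩, -, hmax⟩ := Finset.exists_max_image (Finset.univ : Finset (Fin n × Fin n))
    (fun q => |p.1 q.1 q.2|) ⟨(hn.some, hn.some), Finset.mem_univ _⟩
  set P : ℝ := |p.1 i₁ j₁| with hP
  have hPle : ∀ i j, |p.1 i j| ≤ P := fun i j => hmax (i, j) (Finset.mem_univ _)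
  have hP0 : 0 ≤ P := abs_nonneg _
  have hP16 : P ≤ 16 := by
    have e0 : P = |r * ((1 : Matrix (Fin n) (Fin n) ℝ) i₁ j₁ + m₀ i₁ j₁)
        - ∑ k, p.1 i₁ k * m k j₁| := congrArg abs (hent i₁ j₁)
    have h1 : P ≤ 4 * (1 + 1) + n * (P * 2 ^ (-c1)) := by
      refine e0.le.trans ((abs_sub _ _).trans (add_le_add ?_ ?_))
      · rw [abs_mul, abs_of_pos hrpos]
        gcongr
        refine (abs_add_le _ _).trans (add_le_add (hone _ _) ((hm₀b _ _).trans h2c1))
      · refine (Finset.abs_sum_le_sum_abs _ _).trans ?_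
        calc ∑ k, |p.1 i₁ k * m k j₁| ≤ ∑ _k : Fin n, P * 2 ^ (-c1) := by
              apply Finset.sum_le_sum
              intro k _
              rw [abs_mul]
              exact mul_le_mul (hPle i₁ k) (hmb k j₁) (abs_nonneg _) hP0
          _ = n * (P * 2 ^ (-c1)) := by
              rw [Finset.sum_const, Finset.card_univ, Fintype.card_fin, nsmul_eq_mul]
    have h2 : n * (P * (2 : ℝ) ^ (-c1)) ≤ 1 / 2 * P := by
      calc n * (P * (2 : ℝ) ^ (-c1)) = (n * 2 ^ (-c1)) * P := by ring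
        _ ≤ 1 / 2 * P := by gcongr
    linarith
  refine ⟨fun i j => (hPle i j).trans hP16, ?_⟩
  -- cross entries
  by_cases hne : ((Finset.univ : Finset (Fin n × Fin n)).filter
      (fun q => (q.1 ∈ S ↔ q.2 ∉ S))).Nonempty
  swap
  · intro i j hij
    exact absurd ⟨(i, j), Finset.mem_filter.2 ⟨Finset.mem_univ _, hij⟩⟩ hne
  obtain ⟨⟨i₂, j₂⟩, h₂, hmax₂⟩ := Finset.exists_max_image _ (fun q => |p.1 q.1 q.2|) hne
  rw [Finset.mem_filter] at h₂
  have hcross : i₂ ∈ S ↔ j₂ ∉ S := h₂.2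
  set Q : ℝ := |p.1 i₂ j₂| with hQ
  have hQle : ∀ i j, (i ∈ S ↔ j ∉ S) → |p.1 i j| ≤ Q := fun i j hij =>
    hmax₂ (i, j) (Finset.mem_filter.2 ⟨Finset.mem_univ _, hij⟩)
  have hQ0 : 0 ≤ Q := abs_nonneg _
  have hWb : ∀ i j, (i ∈ S ↔ j ∉ S) → |m i j| ≤ 2 ^ (-W) := fun i j hij =>
    (h i j).trans (Real.rpow_le_rpow_of_exponent_le (by norm_num) (neg_le_neg (hW i j hij)))
  have hWb₀ : ∀ i j, (i ∈ S ↔ j ∉ S) → |m₀ i j| ≤ 2 ^ (-W) := fun i j hij =>
    (h₀ i j).trans (Real.rpow_le_rpow_of_exponent_le (by norm_num) (neg_le_neg (hW i j hij)))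
  have e0 : Q = |r * ((1 : Matrix (Fin n) (Fin n) ℝ) i₂ j₂ + m₀ i₂ j₂)
      - ∑ k, p.1 i₂ k * m k j₂| := congrArg abs (hent i₂ j₂)
  have h1 : Q ≤ 4 * 2 ^ (-W) + n * (16 * 2 ^ (-W) + Q * 2 ^ (-c1)) := by
    refine e0.le.trans ((abs_sub _ _).trans (add_le_add ?_ ?_))
    · have hne : i₂ ≠ j₂ := by
        intro h; subst h; tauto
      rw [Matrix.one_apply_ne hne, zero_add, abs_mul, abs_of_pos hrpos]
      gcongr
      exact hWb₀ _ _ hcross
    · refine (Finset.abs_sum_le_sum_abs _ _).trans ?_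
      calc ∑ k, |p.1 i₂ k * m k j₂| ≤ ∑ _k : Fin n, (16 * 2 ^ (-W) + Q * 2 ^ (-c1)) := by
            apply Finset.sum_le_sum
            intro k _
            rw [abs_mul]
            by_cases hk : (k ∈ S ↔ j₂ ∉ S)
            · have h5 : |p.1 i₂ k| * |m k j₂| ≤ 16 * 2 ^ (-W) :=
                mul_le_mul ((hPle i₂ k).trans hP16) (hWb k j₂ hk) (abs_nonneg _) (by norm_num)
              have h6 : 0 ≤ Q * (2 : ℝ) ^ (-c1) := by positivity
              linarith
            · have hk' : (i₂ ∈ S ↔ k ∉ S) := by tauto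
              have h5 : |p.1 i₂ k| * |m k j₂| ≤ Q * 2 ^ (-c1) :=
                mul_le_mul (hQle i₂ k hk') (hmb k j₂) (abs_nonneg _) hQ0
              have h6 : (0 : ℝ) ≤ 16 * 2 ^ (-W) := by positivity
              linarith
        _ = n * (16 * 2 ^ (-W) + Q * 2 ^ (-c1)) := by
            rw [Finset.sum_const, Finset.card_univ, Fintype.card_fin, nsmul_eq_mul]
  have h2 : n * (Q * (2 : ℝ) ^ (-c1)) ≤ 1 / 2 * Q := by
    calc n * (Q * (2 : ℝ) ^ (-c1)) = (n * 2 ^ (-c1)) * Q := by ring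
      _ ≤ 1 / 2 * Q := by gcongr
  intro i j hij
  refine (hQle i j hij).trans ?_
  nlinarith [h1, h2]

/-- **NUM.** -/
theorem num_bound (μ : Measure (ModSpace n)) (hμ : AInv μ) (X' : Set (ModSpace n))
    (D C e κ : ℝ) (S : Finset (Fin n))
    (hX' : ∀ x : ModSpace n, Thick x (D ^ (-e)) → ∀ δ : ℝ, D ^ (-κ) ≤ δ → δ ≤ 1 →
      μ (X' ∩ (act x) '' Box S (D ^ e) δ) ≤ ENNReal.ofReal (D ^ (C * e) * δ))
    (hD : 16 ≤ D ^ e) (R : Fin n → Fin n → ℝ) (t : Fin n → ℝ) (c1 W : ℝ)
    (hc1 : (n : ℝ) * 2 ^ (-c1) ≤ 1 / 2) (hR : ∀ i j, c1 ≤ (R + sh t) i j)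
    (hW : ∀ i j, (i ∈ S ↔ j ∉ S) → W ≤ (R + sh t) i j)
    (hδ0 : D ^ (-κ) ≤ (8 + 32 * n) * 2 ^ (-W)) (hδ1 : (8 + 32 * n) * (2 : ℝ) ^ (-W) ≤ 1)
    (G : Set (ModSpace n))
    (hG : ∀ x ∈ G, act x (aT t) ∈ X' ∧ Thick (act x (aT t)) (D ^ (-e)))
    (s : ModSpace n → SLR n) (hqs : ∀ x, q (s x) = x) (h v : SLR n) :
    μ {x | x ∈ G ∧ (s x)⁻¹ * h * v⁻¹ ∈ VB R}
      ≤ ENNReal.ofReal (D ^ (C * e) * ((8 + 32 * n) * 2 ^ (-W))) := by
  by_cases hne : ({x | x ∈ G ∧ (s x)⁻¹ * h * v⁻¹ ∈ VB R} : Set (ModSpace n)).Nonempty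
  swap
  · rw [Set.not_nonempty_iff_eq_empty.1 hne, measure_empty]
    exact zero_le
  obtain ⟨x₀, hx₀G, hx₀⟩ := hne
  set a : SLR n := aT t with ha
  set T : Set (ModSpace n) := X' ∩ (act (act x₀ a)) '' Box S (D ^ e) ((8 + 32 * n) * 2 ^ (-W))
    with hT
  have hsub : {x | x ∈ G ∧ (s x)⁻¹ * h * v⁻¹ ∈ VB R} ⊆ (fun x => act x a) ⁻¹' T := by
    rintro x ⟨hxG, hx⟩
    refine ⟨(hG x hxG).1, ?_⟩
    set g₀ : SLR n := (s x₀)⁻¹ * h * v⁻¹ with hg₀
    set g : SLR n := (s x)⁻¹ * h * v⁻¹ with hg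
    have hsx : s x = s x₀ * (g₀ * g⁻¹) := by
      rw [hg₀, hg]; group
    have hx1 : x = act x₀ (g₀ * g⁻¹) := by
      conv_lhs => rw [← hqs x, hsx]
      rw [← act_q, hqs]
    have hc₀ := conj_mem_VB t hx₀
    have hc := conj_mem_VB t hx
    have hd1 := div_bound S (R + sh t) c1 W hc1 hR hW hc hc₀
    have hd2 := div_bound S (R + sh t) c1 W hc1 hR hW hc₀ hc
    refine ⟨(a⁻¹ * g₀ * a) * (a⁻¹ * g * a)⁻¹, ?_, ?_⟩
    · have hinv : ((a⁻¹ * g₀ * a) * (a⁻¹ * g * a)⁻¹)⁻¹ = (a⁻¹ * g * a) * (a⁻¹ * g₀ * a)⁻¹ := by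
        group
      refine ⟨fun i j => ⟨(hd1.1 i j).trans hD, ?_⟩, fun i j hij => ⟨hd1.2 i j hij, ?_⟩⟩
      · rw [hinv]; exact (hd2.1 i j).trans hD
      · rw [hinv]; exact hd2.2 i j hij
    · show act (act x₀ a) ((a⁻¹ * g₀ * a) * (a⁻¹ * g * a)⁻¹) = act x a
      rw [act_act]
      conv_rhs => rw [hx1]
      rw [act_act]
      congr 1
      group
  have hmap : μ ((fun x => act x a) ⁻¹' T) = μ T := by
    have h1 : μ.map (fun x => act x a) = μ := hμ t
    have h2 : (μ.map ((actHomeo a).toMeasurableEquiv)) T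
        = μ ((actHomeo a).toMeasurableEquiv ⁻¹' T) := MeasurableEquiv.map_apply _ _
    have h3 : ((actHomeo a).toMeasurableEquiv : ModSpace n → ModSpace n)
        = fun x => act x a := rfl
    rw [h3, h1] at h2
    exact h2.symm
  calc μ {x | x ∈ G ∧ (s x)⁻¹ * h * v⁻¹ ∈ VB R} ≤ μ ((fun x => act x a) ⁻¹' T) :=
        measure_mono hsub
    _ = μ T := hmap
    _ ≤ _ := hX' (act x₀ a) (hG x₀ hx₀G).2 _ hδ0 hδ1

end Crest.Agent.R014.Nm_884
end

-- ▼ part R014/Nm3_884
section

/-!
R014, block D, leaf NOISE-SLAB MASS (helper884), part 3: the mass bound for a random last factor.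
-/

set_option autoImplicit false

open MeasureTheory Filter Topology
open Crest.NumberTheoryR.Packets
open scoped ENNReal

namespace Crest.Agent.R014.Nm_884

open Crest.Agent.R014.Ms_667 Crest.Agent.R014.Nd_837 Crest.Agent.R014.Iface_792

variable {n : ℕ}

/-- **Mass bound, abstract form.** `Hs` bi-invariant, `Z ≤ A Hs|V0`, `π` any probability law. -/
theorem mass_of (Hs : Measure (SLR n)) [SFinite Hs]
    (hL : ∀ g : SLR n, Measure.map (fun h => g * h) Hs = Hs)
    (hR : ∀ g : SLR n, Measure.map (fun h => h * g) Hs = Hs)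
    (μ : Measure (ModSpace n)) [IsFiniteMeasure μ]
    (Z : Measure (SLR n)) [IsProbabilityMeasure Z] (A : ℝ≥0∞) (V0 : Set (SLR n)) (hV0 : MeasurableSet V0)
    (hZ : Z ≤ A • Hs.restrict V0)
    (s : ModSpace n → SLR n) (hs : Measurable s) (hqs : ∀ x, q (s x) = x)
    (G : Set (ModSpace n)) (hG : MeasurableSet G)
    (P0 : Set (SLR n)) (π : Measure (SLR n)) [IsProbabilityMeasure π] (hπ : ∀ᵐ v ∂π, v ∈ P0)
    (K : Set (SLR n)) (hK : MeasurableSet K)
    (hsK : ∀ x ∈ G, ∀ g ∈ V0, ∀ v ∈ P0, s x * g * v ∈ K)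
    (σ : ℝ≥0∞) (hσ : ∀ h v : SLR n, μ {x | x ∈ G ∧ (s x)⁻¹ * h * v⁻¹ ∈ V0} ≤ σ)
    (B : Set (ModSpace n)) (hB : MeasurableSet B) :
    stp (μ.restrict G) (cv Z π) B ≤ A * σ * Hs {h | h ∈ K ∧ q h ∈ B} := by
  -- for fixed v
  have hfix : ∀ v ∈ P0, ∫⁻ x in G, (Z.map fun g => g * v) {g | act x g ∈ B} ∂μ
      ≤ A * σ * Hs {h | h ∈ K ∧ q h ∈ B} := by
    intro v hv
    set V : Set (SLR n) := {g | g * v⁻¹ ∈ V0} with hVdef
    have hmv : Measurable fun g : SLR n => g * v := (continuous_mul_const v).measurable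
    have hmv' : Measurable fun g : SLR n => g * v⁻¹ := (continuous_mul_const v⁻¹).measurable
    have hV : MeasurableSet V := hmv' hV0
    apply fubini_ineq Hs hL μ (Z.map fun g => g * v) A V hV ?_ s hs hqs G hG K hK ?_ σ ?_ B hB
    · refine Measure.le_iff.2 fun T hT => ?_
      rw [Measure.map_apply hmv hT, Measure.smul_apply, Measure.restrict_apply hT, smul_eq_mul]
      refine (hZ _).trans ?_
      rw [Measure.smul_apply, Measure.restrict_apply (hmv hT), smul_eq_mul]
      have e1 : Hs (T ∩ V) = Hs (((fun g => g * v) ⁻¹' T) ∩ V0) := by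
        conv_lhs => rw [← hR v]
        rw [Measure.map_apply hmv (hT.inter hV)]
        congr 1
        ext g
        simp [hVdef]
      rw [e1]
    · intro x hx g hg
      have h1 := hsK x hx (g * v⁻¹) hg v hv
      have h2 : s x * (g * v⁻¹) * v = s x * g := by group
      rwa [h2] at h1
    · intro h
      exact hσ h v
  -- unfold the left side
  have h3 : Measurable fun p : (ModSpace n × SLR n) × SLR n => act p.1.1 (p.2 * p.1.2) :=
    measurable_act₂.comp ((measurable_fst.comp measurable_fst).prodMk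
      (measurable_snd.mul (measurable_snd.comp measurable_fst)))
  have hjm : Measurable fun p : ModSpace n × SLR n => Z {g | act p.1 (g * p.2) ∈ B} :=
    measurable_measure_prodMk_left (h3 hB)
  have e1 : stp (μ.restrict G) (cv Z π) B
      = ∫⁻ x in G, ∫⁻ v, Z {g | act x (g * v) ∈ B} ∂π ∂μ := by
    unfold stp
    rw [Measure.map_apply measurable_act₂ hB, Measure.prod_apply (measurable_act₂ hB)]
    congr 1
    funext x
    have hx : MeasurableSet {g : SLR n | act x g ∈ B} :=
      (continuous_act.comp (Continuous.prodMk_right x)).measurable hB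
    show (cv Z π) {g | act x g ∈ B} = _
    unfold cv
    rw [Measure.map_apply measurable_mul₂ hx]
    have hm2 : MeasurableSet ((fun p : SLR n × SLR n => p.1 * p.2) ⁻¹' {g | act x g ∈ B}) :=
      measurable_mul₂ hx
    rw [Measure.prod_apply_symm hm2]
    rfl
  rw [e1, lintegral_lintegral_swap hjm.aemeasurable]
  calc ∫⁻ v, ∫⁻ x in G, Z {g | act x (g * v) ∈ B} ∂μ ∂π
      ≤ ∫⁻ _v, A * σ * Hs {h | h ∈ K ∧ q h ∈ B} ∂π := by
        apply lintegral_mono_ae
        filter_upwards [hπ] with v hv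
        refine le_trans (le_of_eq ?_) (hfix v hv)
        congr 1
        funext x
        have hx : MeasurableSet {g : SLR n | act x g ∈ B} :=
          (continuous_act.comp (Continuous.prodMk_right x)).measurable hB
        rw [Measure.map_apply (continuous_mul_const v).measurable hx]
        rfl
    _ = A * σ * Hs {h | h ∈ K ∧ q h ∈ B} := by
        rw [lintegral_const, measure_univ, mul_one]

/-! ### the noise box in `SL_n(ℝ)` -/

lemma isClosed_VB (R : Fin n → Fin n → ℝ) : IsClosed (VB R) := by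
  have hcl : IsClosed {p : Set.Icc (1 / 2 : ℝ) 2 × SLR n |
      ∀ i j, |((p.1 : ℝ) • p.2.1 - 1) i j| ≤ (2 : ℝ) ^ (-(R i j))} := by
    have : {p : Set.Icc (1 / 2 : ℝ) 2 × SLR n |
        ∀ i j, |((p.1 : ℝ) • p.2.1 - 1) i j| ≤ (2 : ℝ) ^ (-(R i j))}
        = ⋂ i, ⋂ j, {p | |((p.1 : ℝ) • p.2.1 - 1) i j| ≤ (2 : ℝ) ^ (-(R i j))} := by
      ext p; simp
    rw [this]
    refine isClosed_iInter fun i => isClosed_iInter fun j => isClosed_le ?_ continuous_const
    refine Continuous.abs ?_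
    have h1 : (fun p : Set.Icc (1 / 2 : ℝ) 2 × SLR n => ((p.1 : ℝ) • p.2.1 - 1) i j)
        = fun p => (p.1 : ℝ) * p.2.1 i j - (1 : Matrix (Fin n) (Fin n) ℝ) i j := by
      funext p
      rw [Matrix.sub_apply, Matrix.smul_apply, smul_eq_mul]
    rw [h1]
    exact ((continuous_subtype_val.comp continuous_fst).mul
      ((continuous_entry i j).comp continuous_snd)).sub continuous_const
  have himg : VB R = Prod.snd '' {p : Set.Icc (1 / 2 : ℝ) 2 × SLR n |
      ∀ i j, |((p.1 : ℝ) • p.2.1 - 1) i j| ≤ (2 : ℝ) ^ (-(R i j))} := by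
    ext g
    constructor
    · rintro ⟨c, hc, h⟩
      exact ⟨(⟨c, hc⟩, g), h, rfl⟩
    · rintro ⟨⟨c, g'⟩, h, rfl⟩
      exact ⟨c, c.2, h⟩
  rw [himg]
  exact isClosedMap_snd_of_compactSpace _ hcl

lemma measurableSet_VB (R : Fin n → Fin n → ℝ) : MeasurableSet (VB R) :=
  (isClosed_VB R).measurableSet

/-- entries of an element of a noise box -/
lemma VB_subset_Ent {R : Fin n → Fin n → ℝ} (hR : ∀ i j, 0 ≤ R i j) : VB R ⊆ Ent n 4 := by
  rintro g ⟨c, hc, h⟩ i j
  have hcpos : (0 : ℝ) < c := lt_of_lt_of_le (by norm_num) hc.1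
  have h1 := h i j
  rw [Matrix.sub_apply, Matrix.smul_apply, smul_eq_mul] at h1
  have h2 : (2 : ℝ) ^ (-(R i j)) ≤ 1 := by
    have := Real.rpow_le_rpow_of_exponent_le (show (1 : ℝ) ≤ 2 by norm_num)
      (neg_nonpos.2 (hR i j))
    simpa using this
  have h3 : |(1 : Matrix (Fin n) (Fin n) ℝ) i j| ≤ 1 := by
    by_cases hij : i = j
    · subst hij; simp
    · rw [Matrix.one_apply_ne hij]; simp
  have h4 : |c * g.1 i j| ≤ 2 := by
    calc |c * g.1 i j| = |(c * g.1 i j - (1 : Matrix (Fin n) (Fin n) ℝ) i j)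
          + (1 : Matrix (Fin n) (Fin n) ℝ) i j| := by ring_nf
      _ ≤ _ := (abs_add_le _ _).trans (add_le_add (h1.trans h2) h3)
      _ = 2 := by norm_num
  rw [abs_mul, abs_of_pos hcpos] at h4
  have h5 : (1 / 2 : ℝ) * |g.1 i j| ≤ c * |g.1 i j| :=
    mul_le_mul_of_nonneg_right hc.1 (abs_nonneg _)
  linarith

lemma Ent_mul {B C : ℝ} (_hB : 0 ≤ B) {g h : SLR n} (hg : g ∈ Ent n B) (hh : h ∈ Ent n C) :
    g * h ∈ Ent n (n * (B * C)) := by
  intro i j
  show |(g.1 * h.1) i j| ≤ _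
  rw [Matrix.mul_apply]
  refine (Finset.abs_sum_le_sum_abs _ _).trans ?_
  calc ∑ k, |g.1 i k * h.1 k j| ≤ ∑ _k : Fin n, B * C := by
        apply Finset.sum_le_sum
        intro k _
        rw [abs_mul]
        exact mul_le_mul (hg i k) (hh k j) (abs_nonneg _) _hB
    _ = n * (B * C) := by
        rw [Finset.sum_const, Finset.card_univ, Fintype.card_fin, nsmul_eq_mul]

end Crest.Agent.R014.Nm_884
end

-- ▼ part R014/Nm4_884
section

/-!
R014, block D, leaf NOISE-SLAB MASS (helper884), part 4 (HS): the measure `Hs` on `SL_n(ℝ)`, image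
of the Haar measure of `GL_n^+` on `1/2 ≤ det ≤ 2`; bi-invariance, mass of boxes, noise ≤ `Hs`.
-/

set_option autoImplicit false

open MeasureTheory Filter Topology
open Crest.NumberTheoryR.Packets
open scoped ENNReal

namespace Crest.Agent.R014.Nm_884

open Crest.Agent.R014.Ms_667 Crest.Agent.R014.Nd_837 Crest.Agent.R014.Iface_792
open Crest.Agent.R014.Nz_323 (haar bx bxc Adm un vb rho)

variable {n : ℕ}

/-- matrices with determinant between `1/2` and `2` -/
def Dt (n : ℕ) : Set (Nd_837.Mt n) := {g | 1 / 2 ≤ g.det ∧ g.det ≤ 2}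

lemma measurableSet_Dt : MeasurableSet (Dt n) :=
  (measurableSet_le measurable_const Nz_323.measurable_det).inter
    (measurableSet_le Nz_323.measurable_det measurable_const)

/-- inclusion of `SL_n(ℝ)` into the matrices -/
def vl (g : SLR n) : Nd_837.Mt n := g.1

lemma isClosedEmbedding_vl : IsClosedEmbedding (vl (n := n)) := by
  refine ⟨⟨⟨rfl⟩, Subtype.val_injective⟩, ?_⟩
  have : Set.range (vl (n := n)) = {A : Nd_837.Mt n | A.det = 1} := by
    ext A
    constructor
    · rintro ⟨g, rfl⟩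
      exact g.2
    · intro h
      exact ⟨⟨A, h⟩, rfl⟩
  rw [this]
  exact isClosed_eq (by fun_prop) continuous_const

lemma measurable_toSL' : Measurable (toSL : Nd_837.Mt n → SLR n) := by
  have hme : MeasurableEmbedding (vl (n := n)) := isClosedEmbedding_vl.measurableEmbedding
  rw [← hme.measurable_comp_iff]
  have : (vl ∘ (toSL : Nd_837.Mt n → SLR n)) = toSLM := rfl
  rw [this]
  unfold toSLM
  refine Measurable.ite (measurableSet_lt measurable_const Nz_323.measurable_det) ?_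
    measurable_const
  have h1 : Measurable fun g : Nd_837.Mt n => g.det ^ (-(1 : ℝ) / n) :=
    Nz_323.measurable_det.pow_const _
  refine measurable_pi_lambda _ fun i => measurable_pi_lambda _ fun j => ?_
  have : (fun g : Nd_837.Mt n => ((g.det ^ (-(1 : ℝ) / n)) • g) i j)
      = fun g => g.det ^ (-(1 : ℝ) / n) * g i j := by
    funext g; rw [Matrix.smul_apply, smul_eq_mul]
  rw [this]
  exact h1.mul (Nz_323.measurable_entry i j)

/-- The bi-invariant measure on `SL_n(ℝ)`. -/
noncomputable def Hs (n : ℕ) : Measure (SLR n) := ((haar n).restrict (Dt n)).map toSL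

lemma Hs_apply {T : Set (SLR n)} (hT : MeasurableSet T) :
    Hs n T = haar n (toSL ⁻¹' T ∩ Dt n) := by
  unfold Hs
  rw [Measure.map_apply measurable_toSL' hT, Measure.restrict_apply (measurable_toSL' hT)]

/-- a finite measure on bounded sets; in particular `Hs` is s-finite -/
instance : SFinite (haar n) := by unfold haar; infer_instance

instance : SFinite (Hs n) := by unfold Hs; infer_instance

theorem Hs_mul_left (g : SLR n) : Measure.map (fun h => g * h) (Hs n) = Hs n := by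
  ext T hT
  have hm : Measurable fun h : SLR n => g * h := (continuous_const_mul g).measurable
  have hM : Measurable fun m : Nd_837.Mt n => g.1 * m := Nz_323.measurable_mul_left g.1
  have hdet : 0 < g.1.det := by rw [g.2]; norm_num
  rw [Measure.map_apply hm hT, Hs_apply (hm hT), Hs_apply hT]
  conv_rhs => rw [← Nz_323.haar_mul_left hdet]
  rw [Measure.map_apply hM ((measurable_toSL' hT).inter measurableSet_Dt)]
  congr 1
  ext m
  simp only [Set.mem_inter_iff, Set.mem_preimage, Dt, Set.mem_ofPred_eq, Matrix.det_mul]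
  have hd : g.1.det * m.det = m.det := by rw [g.2, one_mul]
  rw [hd]
  constructor
  · rintro ⟨h1, h2⟩
    refine ⟨?_, h2⟩
    have hmpos : 0 < m.det := lt_of_lt_of_le (by norm_num) h2.1
    rw [toSL_mul hdet hmpos, toSL_coe]
    exact h1
  · rintro ⟨h1, h2⟩
    refine ⟨?_, h2⟩
    have hmpos : 0 < m.det := lt_of_lt_of_le (by norm_num) h2.1
    rw [toSL_mul hdet hmpos, toSL_coe] at h1
    exact h1

theorem Hs_mul_right (g : SLR n) : Measure.map (fun h => h * g) (Hs n) = Hs n := by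
  ext T hT
  have hm : Measurable fun h : SLR n => h * g := (continuous_mul_const g).measurable
  have hM : Measurable fun m : Nd_837.Mt n => m * g.1 := Nz_323.measurable_mul_right g.1
  have hdet : 0 < g.1.det := by rw [g.2]; norm_num
  rw [Measure.map_apply hm hT, Hs_apply (hm hT), Hs_apply hT]
  conv_rhs => rw [← Nz_323.haar_mul_right hdet]
  rw [Measure.map_apply hM ((measurable_toSL' hT).inter measurableSet_Dt)]
  congr 1
  ext m
  simp only [Set.mem_inter_iff, Set.mem_preimage, Dt, Set.mem_ofPred_eq, Matrix.det_mul]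
  have hd : m.det * g.1.det = m.det := by rw [g.2, mul_one]
  rw [hd]
  constructor
  · rintro ⟨h1, h2⟩
    refine ⟨?_, h2⟩
    have hmpos : 0 < m.det := lt_of_lt_of_le (by norm_num) h2.1
    rw [toSL_mul hmpos hdet, toSL_coe]
    exact h1
  · rintro ⟨h1, h2⟩
    refine ⟨?_, h2⟩
    have hmpos : 0 < m.det := lt_of_lt_of_le (by norm_num) h2.1
    rw [toSL_mul hmpos hdet, toSL_coe] at h1
    exact h1

/-- `c = det^{1/n}` lies in `[1/2, 2]`. -/
lemma det_root_mem (hn : 0 < n) {g : Nd_837.Mt n} (hg : g ∈ Dt n) :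
    g.det ^ ((1 : ℝ) / n) ∈ Set.Icc (1 / 2 : ℝ) 2 := by
  have hn1 : (1 : ℝ) ≤ n := by exact_mod_cast hn
  have hinv : (1 : ℝ) / n ≤ 1 := by
    rw [div_le_one (by linarith)]; exact hn1
  have hinv0 : (0 : ℝ) ≤ 1 / n := by positivity
  constructor
  · calc (1 / 2 : ℝ) = (1 / 2 : ℝ) ^ (1 : ℝ) := (Real.rpow_one _).symm
      _ ≤ (1 / 2 : ℝ) ^ ((1 : ℝ) / n) :=
          Real.rpow_le_rpow_of_exponent_ge (by norm_num) (by norm_num) hinv
      _ ≤ g.det ^ ((1 : ℝ) / n) := Real.rpow_le_rpow (by norm_num) hg.1 hinv0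
  · calc g.det ^ ((1 : ℝ) / n) ≤ (2 : ℝ) ^ ((1 : ℝ) / n) :=
          Real.rpow_le_rpow (by linarith [hg.1]) hg.2 hinv0
      _ ≤ (2 : ℝ) ^ (1 : ℝ) := Real.rpow_le_rpow_of_exponent_le (by norm_num) hinv
      _ = 2 := Real.rpow_one _

lemma root_smul_toSL {g : Nd_837.Mt n} (hg : 0 < g.det) :
    (g.det ^ ((1 : ℝ) / n)) • (toSL g).1 = g := by
  rw [toSL_val hg, smul_smul, ← Real.rpow_add hg]
  have : (1 : ℝ) / n + -(1 : ℝ) / n = 0 := by ring
  rw [this, Real.rpow_zero, one_smul]

/-- volume of `Hs` of a bounded set -/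
theorem Hs_Ent_le (hn : 0 < n) {B : ℝ} (hB : 0 ≤ B) :
    Hs n (Ent n B) ≤ ENNReal.ofReal (2 ^ n * (2 * (2 * B + 1)) ^ (n ^ 2)) := by
  rw [Hs_apply (measurableSet_Ent B)]
  have hsub : toSL ⁻¹' (Ent n B) ∩ Dt n ⊆ bxc (2 * B + 1) 0 ∩ Dt n := by
    rintro g ⟨h1, h2⟩
    refine ⟨fun i j => ?_, h2⟩
    have hpos : 0 < g.det := lt_of_lt_of_le (by norm_num) h2.1
    have hroot := det_root_mem hn h2
    have e1 : g i j = g.det ^ ((1 : ℝ) / n) * (toSL g).1 i j := by
      conv_lhs => rw [← root_smul_toSL hpos]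
      rw [Matrix.smul_apply, smul_eq_mul]
    have h3 : |g i j| ≤ 2 * B := by
      rw [e1, abs_mul, abs_of_nonneg (by linarith [hroot.1])]
      exact mul_le_mul hroot.2 (h1 i j) (abs_nonneg _) (by norm_num)
    have h4 : |(1 : Matrix (Fin n) (Fin n) ℝ) i j| ≤ 1 := by
      by_cases hij : i = j
      · subst hij; simp
      · rw [Matrix.one_apply_ne hij]; simp
    rw [Matrix.sub_apply]
    have : (2 * B + 1) * (2 : ℝ) ^ (-((0 : Fin n → Fin n → ℝ) i j)) = 2 * B + 1 := by simp
    rw [this]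
    exact (abs_sub _ _).trans (add_le_add h3 h4)
  refine (measure_mono hsub).trans ?_
  unfold haar
  rw [withDensity_apply _ ((Nz_323.measurableSet_bxc _ _).inter measurableSet_Dt)]
  calc ∫⁻ g in bxc (2 * B + 1) 0 ∩ Dt n, rho g
      ≤ ∫⁻ _ in bxc (2 * B + 1) 0 ∩ Dt n, ENNReal.ofReal ((2 : ℝ) ^ n) := by
        refine setLIntegral_mono measurable_const fun g hg => ?_
        have := Nz_323.rho_le_of_det (by norm_num : (0 : ℝ) < 1 / 2) hg.2.1
        simpa using this
    _ ≤ ENNReal.ofReal ((2 : ℝ) ^ n) * volume (bxc (2 * B + 1) (0 : Fin n → Fin n → ℝ)) := by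
        rw [setLIntegral_const]
        gcongr
        exact Set.inter_subset_left
    _ = ENNReal.ofReal (2 ^ n * (2 * (2 * B + 1)) ^ (n ^ 2)) := by
        rw [Nz_323.volume_bxc (by linarith), ← ENNReal.ofReal_mul (by positivity)]
        congr 1
        have : vb (0 : Fin n → Fin n → ℝ) = 2 ^ (n ^ 2) := by
          unfold vb
          simp only [Pi.zero_apply, neg_zero, Real.rpow_zero, mul_one, Finset.prod_const,
            Finset.card_univ, Fintype.card_fin]
          rw [← pow_mul, sq]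
        rw [this, mul_pow 2 (2 * B + 1)]
        ring

/-- the noise law in `SL_n(ℝ)` is at most a multiple of `Hs` on the box. -/
theorem map_un_le (hn : 0 < n) {R : Fin n → Fin n → ℝ} (hR : Adm R) :
    (un R).map toSL ≤ ENNReal.ofReal (2 ^ n * (vb R)⁻¹) • (Hs n).restrict (VB R) := by
  refine Measure.le_iff.2 fun T hT => ?_
  rw [Measure.map_apply measurable_toSL' hT, Measure.smul_apply, Measure.restrict_apply hT,
    smul_eq_mul, Nz_323.un_apply R (measurable_toSL' hT), Hs_apply (hT.inter (measurableSet_VB R))]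
  have h1 : (haar n (bx R))⁻¹ ≤ ENNReal.ofReal (2 ^ n * (vb R)⁻¹) := by
    have h2 := Nz_323.le_haar_bx hR
    have h3 : (haar n (bx R))⁻¹ ≤ (ENNReal.ofReal ((2 : ℝ)⁻¹ ^ n * vb R))⁻¹ :=
      ENNReal.inv_le_inv.2 h2
    refine h3.trans (le_of_eq ?_)
    have hv := Nz_323.vb_pos R
    rw [← ENNReal.ofReal_inv_of_pos (by positivity)]
    congr 1
    rw [mul_inv, inv_pow, inv_inv]
  refine mul_le_mul' h1 (measure_mono ?_)
  rintro g ⟨hgT, hgR⟩
  have hdet := hR g hgR
  have hpos : 0 < g.det := lt_of_lt_of_le (by norm_num) hdet.1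
  refine ⟨⟨hgT, ?_⟩, hdet⟩
  refine ⟨g.det ^ ((1 : ℝ) / n), det_root_mem hn hdet, fun i j => ?_⟩
  rw [root_smul_toSL hpos]
  exact hgR i j

end Crest.Agent.R014.Nm_884
end

-- ▼ part R014/Cell1_433

/-!
R014 / Cell1_433: short bases and the injectivity radius of `SL_n(ℤ)\SL_n(ℝ)`.

* `nrm A = ∑ |A i j|` (submultiplicative);
* `mm g = min (1, shortest nonzero vector of ℤⁿ g)` (sup norm), `rad g = (mm g)^n`;
* `exists_short`: some `γ * g` has all entries `≤ n (2^n / mm g)^(n-1)`;
* `eq_one_of_small`: `nrm (g⁻¹ γ g - 1) * KK n ≤ rad g → γ = 1`.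
-/

set_option autoImplicit false

open MeasureTheory Topology Filter Set
open Crest.NumberTheoryR.Packets Crest.Agent.R014.Top1_458
open scoped Matrix InnerProductSpace

noncomputable section

namespace Crest.Agent.R014.Cell_433

variable {n : ℕ}

/-! ### the norm -/

/-- the entrywise `ℓ¹` norm of a matrix -/
def nrm (A : Matrix (Fin n) (Fin n) ℝ) : ℝ := ∑ i, ∑ j, |A i j|

theorem nrm_nonneg (A : Matrix (Fin n) (Fin n) ℝ) : 0 ≤ nrm A :=
  Finset.sum_nonneg fun _ _ => Finset.sum_nonneg fun _ _ => abs_nonneg _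













theorem norm_vecMul_le (v : Fin n → ℝ) (A : Matrix (Fin n) (Fin n) ℝ) :
    ‖v ᵥ* A‖ ≤ ‖v‖ * nrm A := by
  rw [pi_norm_le_iff_of_nonneg (mul_nonneg (norm_nonneg _) (nrm_nonneg _))]
  intro j
  rw [Real.norm_eq_abs, Matrix.vecMul, dotProduct]
  calc |∑ i, v i * A i j| ≤ ∑ i, |v i * A i j| := Finset.abs_sum_le_sum_abs _ _
    _ ≤ ∑ i, ‖v‖ * |A i j| := by
        refine Finset.sum_le_sum fun i _ => ?_
        rw [abs_mul]
        exact mul_le_mul_of_nonneg_right (by simpa using norm_le_pi_norm v i) (abs_nonneg _)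
    _ ≤ ∑ i, ∑ j, ‖v‖ * |A i j| :=
        Finset.sum_le_sum fun i _ => Finset.single_le_sum (f := fun j => ‖v‖ * |A i j|)
          (fun _ _ => mul_nonneg (norm_nonneg _) (abs_nonneg _)) (Finset.mem_univ j)
    _ = ‖v‖ * nrm A := by simp only [nrm, Finset.mul_sum]

theorem coe_mul_inv (g : SLR n) : g.1 * (g⁻¹).1 = 1 := by
  have h : (g * g⁻¹).1 = (1 : SLR n).1 := by rw [mul_inv_cancel]
  exact h

theorem coe_inv_mul (g : SLR n) : (g⁻¹).1 * g.1 = 1 := by
  have h : (g⁻¹ * g).1 = (1 : SLR n).1 := by rw [inv_mul_cancel]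
  exact h



/-! ### the shortest vector -/

/-- an integer vector as a real vector -/
def rv (z : Fin n → ℤ) : Fin n → ℝ := fun i => (z i : ℝ)

/-- `min (1, shortest nonzero vector of ℤⁿ g)` -/
def mm (g : SLR n) : ℝ :=
  sInf (insert 1 (range fun z : {z : Fin n → ℤ // z ≠ 0} => ‖rv z.1 ᵥ* g.1‖))

theorem le_mm_iff {g : SLR n} {t : ℝ} :
    t ≤ mm g ↔ t ≤ 1 ∧ ∀ z : Fin n → ℤ, z ≠ 0 → t ≤ ‖rv z ᵥ* g.1‖ := by
  unfold mm
  rw [le_csInf_iff ⟨0, by
    rintro x (rfl | ⟨z, rfl⟩)
    · exact zero_le_one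
    · exact norm_nonneg _⟩ ⟨1, mem_insert _ _⟩]
  constructor
  · intro h
    exact ⟨h 1 (mem_insert _ _), fun z hz => h _ (mem_insert_of_mem _ ⟨⟨z, hz⟩, rfl⟩)⟩
  · rintro ⟨h1, h2⟩ x (rfl | ⟨z, rfl⟩)
    · exact h1
    · exact h2 z.1 z.2


theorem mm_le (g : SLR n) {z : Fin n → ℤ} (hz : z ≠ 0) : mm g ≤ ‖rv z ᵥ* g.1‖ :=
  (le_mm_iff.1 le_rfl).2 z hz


theorem one_le_norm_rv {z : Fin n → ℤ} (hz : z ≠ 0) : 1 ≤ ‖rv z‖ := by
  obtain ⟨i, hi⟩ : ∃ i, z i ≠ 0 := by
    by_contra h
    push Not at h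
    exact hz (funext h)
  have h1 : (1 : ℝ) ≤ |(z i : ℝ)| := by
    have : (1 : ℤ) ≤ |z i| := Int.one_le_abs hi
    exact_mod_cast this
  exact h1.trans (by simpa [rv] using norm_le_pi_norm (rv z) i)

theorem mm_pos (g : SLR n) : 0 < mm g := by
  have h0 : 0 ≤ nrm (g⁻¹).1 := nrm_nonneg _
  have h1 : 0 < 1 / (1 + nrm (g⁻¹).1) := by positivity
  refine h1.trans_le (le_mm_iff.2 ⟨?_, fun z hz => ?_⟩)
  · rw [div_le_one (by positivity)]
    linarith
  · have h2 : ‖rv z‖ ≤ ‖rv z ᵥ* g.1‖ * nrm (g⁻¹).1 := by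
      have := norm_vecMul_le (rv z ᵥ* g.1) (g⁻¹).1
      rwa [Matrix.vecMul_vecMul, coe_mul_inv, Matrix.vecMul_one] at this
    have h3 := one_le_norm_rv hz
    rw [div_le_iff₀ (by positivity)]
    have h4 := norm_nonneg (rv z ᵥ* g.1)
    nlinarith



theorem rv_eq_zero_iff {z : Fin n → ℤ} : rv z = 0 ↔ z = 0 := by
  constructor
  · intro h
    funext i
    have := congrFun h i
    simpa [rv] using this
  · rintro rfl
    funext i
    simp [rv]












/-! ### reduced bases of discrete subgroups -/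

section HKZ

variable {E : Type*} [NormedAddCommGroup E] [InnerProductSpace ℝ E] [FiniteDimensional ℝ E]

omit [InnerProductSpace ℝ E] [FiniteDimensional ℝ E] in
theorem exists_almost_min {L : AddSubgroup E} {η : ℝ} (hη : 0 < η)
    (hL : ∀ v ∈ L, v ≠ 0 → η ≤ ‖v‖) (h0 : ∃ v ∈ L, v ≠ 0) :
    ∃ v ∈ L, v ≠ 0 ∧ ∀ w ∈ L, w ≠ 0 → 9 / 10 * ‖v‖ ^ 2 ≤ ‖w‖ ^ 2 := by
  obtain ⟨v₀, hv₀, hv₀'⟩ := h0
  set S : Set ℝ := {x | ∃ w ∈ L, w ≠ 0 ∧ x = ‖w‖ ^ 2} with hS
  have hne : S.Nonempty := ⟨_, v₀, hv₀, hv₀', rfl⟩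
  have hbdd : BddBelow S := ⟨0, by rintro x ⟨w, _, _, rfl⟩; positivity⟩
  have hpos : η ^ 2 ≤ sInf S := le_csInf hne (by
    rintro x ⟨w, hw, hw0, rfl⟩
    exact pow_le_pow_left₀ hη.le (hL w hw hw0) 2)
  have hpos' : 0 < sInf S := lt_of_lt_of_le (by positivity) hpos
  obtain ⟨x, ⟨v, hv, hv0, rfl⟩, hx⟩ :=
    exists_lt_of_csInf_lt hne (show sInf S < 10 / 9 * sInf S by linarith)
  refine ⟨v, hv, hv0, fun w hw hw0 => ?_⟩
  have := csInf_le hbdd (show ‖w‖ ^ 2 ∈ S from ⟨w, hw, hw0, rfl⟩)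
  linarith

/-- coefficient of `w` along `v` -/
def cf (v w : E) : ℝ := ⟪v, w⟫_ℝ / ‖v‖ ^ 2

/-- projection along `v` -/
def pj (v : E) : E →ₗ[ℝ] E where
  toFun w := w - cf v w • v
  map_add' x y := by
    simp only [cf, inner_add_right, add_div, add_smul]
    abel
  map_smul' t x := by
    simp only [cf, inner_smul_right, RingHom.id_apply, smul_sub, smul_smul, mul_div_assoc]

omit [FiniteDimensional ℝ E] in
theorem pj_add (v w : E) : pj v w + cf v w • v = w := by
  simp [pj]

omit [FiniteDimensional ℝ E] in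
theorem inner_pj {v : E} (hv : v ≠ 0) (w : E) : ⟪v, pj v w⟫_ℝ = 0 := by
  have h : ‖v‖ ^ 2 ≠ 0 := pow_ne_zero 2 (norm_ne_zero_iff.2 hv)
  simp only [pj, cf, LinearMap.coe_mk, AddHom.coe_mk, inner_sub_right, inner_smul_right,
    real_inner_self_eq_norm_sq]
  field_simp
  ring

omit [FiniteDimensional ℝ E] in
theorem norm_sq_eq {v : E} (hv : v ≠ 0) (w : E) :
    ‖w‖ ^ 2 = ‖pj v w‖ ^ 2 + cf v w ^ 2 * ‖v‖ ^ 2 := by
  conv_lhs => rw [← pj_add v w, norm_add_sq_real, inner_smul_right, real_inner_comm,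
    inner_pj hv, norm_smul, mul_pow, Real.norm_eq_abs, sq_abs]
  ring

omit [FiniteDimensional ℝ E] in
theorem cf_self {v : E} (hv : v ≠ 0) : cf v v = 1 := by
  have h : ‖v‖ ^ 2 ≠ 0 := pow_ne_zero 2 (norm_ne_zero_iff.2 hv)
  rw [cf, real_inner_self_eq_norm_sq, div_self h]

omit [FiniteDimensional ℝ E] in
theorem pj_self {v : E} (hv : v ≠ 0) : pj v v = 0 := by
  simp [pj, cf_self hv]

omit [FiniteDimensional ℝ E] in
theorem cf_sub_zsmul {v : E} (hv : v ≠ 0) (w : E) (k : ℤ) : cf v (w - k • v) = cf v w - k := by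
  have h : ‖v‖ ^ 2 ≠ 0 := pow_ne_zero 2 (norm_ne_zero_iff.2 hv)
  rw [← Int.cast_smul_eq_zsmul ℝ k v, cf, cf, inner_sub_right, inner_smul_right,
    real_inner_self_eq_norm_sq]
  field_simp

omit [FiniteDimensional ℝ E] in
theorem pj_sub_zsmul {v : E} (hv : v ≠ 0) (w : E) (k : ℤ) : pj v (w - k • v) = pj v w := by
  rw [map_sub, map_zsmul, pj_self hv, smul_zero, sub_zero]

theorem hkz : ∀ (d : ℕ) (L : AddSubgroup E) (η : ℝ), 0 < η → (∀ v ∈ L, v ≠ 0 → η ≤ ‖v‖) →
    Module.finrank ℝ (Submodule.span ℝ (L : Set E)) ≤ d →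
    ∃ (k : ℕ) (b e : Fin k → E) (μ : Fin k → Fin k → ℝ),
      (∀ i, b i ∈ L) ∧ (∀ i j, i ≠ j → ⟪e i, e j⟫_ℝ = 0) ∧ (∀ i, η / 2 ^ d ≤ ‖e i‖) ∧
      (∀ i, e i ∈ Submodule.span ℝ (L : Set E)) ∧
      (∀ i, b i = ∑ j, μ i j • e j) ∧ (∀ i, μ i i = 1) ∧ (∀ i j, i < j → μ i j = 0) ∧
      (∀ i j, |μ i j| ≤ 1) ∧ L ≤ AddSubgroup.closure (range b) := by
  intro d
  induction d with
  | zero =>
    intro L η hη hL hd
    have h1 : Submodule.span ℝ (L : Set E) = ⊥ := by
      rw [← Submodule.finrank_eq_zero (R := ℝ)]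
      omega
    refine ⟨0, Fin.elim0, Fin.elim0, Fin.elim0, fun i => i.elim0, fun i => i.elim0,
      fun i => i.elim0, fun i => i.elim0, fun i => i.elim0, fun i => i.elim0, fun i => i.elim0,
      fun i => i.elim0, fun x hx => ?_⟩
    have h2 : x ∈ Submodule.span ℝ (L : Set E) := Submodule.subset_span hx
    rw [h1, Submodule.mem_bot] at h2
    rw [h2]
    exact zero_mem _
  | succ d ih =>
    intro L η hη hL hd
    by_cases h0 : ∃ v ∈ L, v ≠ 0
    · obtain ⟨v, hvL, hv0, hvmin⟩ := exists_almost_min hη hL h0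
      have hvpos : 0 < ‖v‖ := norm_pos_iff.2 hv0
      have hvη : η ≤ ‖v‖ := hL v hvL hv0
      -- rounding
      have hround : ∀ w ∈ L, ∃ w' ∈ L, pj v w' = pj v w ∧ |cf v w'| ≤ 1 / 2 := by
        intro w hw
        refine ⟨w - round (cf v w) • v, L.sub_mem hw (L.zsmul_mem hvL _), pj_sub_zsmul hv0 _ _, ?_⟩
        rw [cf_sub_zsmul hv0]
        exact abs_sub_round _
      -- the projected lattice
      set L' : AddSubgroup E := L.map (pj v).toAddMonoidHom with hL'def
      have hmem' : ∀ {x : E}, x ∈ L' ↔ ∃ w ∈ L, pj v w = x := by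
        intro x
        rw [hL'def, AddSubgroup.mem_map]
        rfl
      have hL' : ∀ x ∈ L', x ≠ 0 → η / 2 ≤ ‖x‖ := by
        intro x hx hx0
        obtain ⟨w, hw, rfl⟩ := hmem'.1 hx
        obtain ⟨w', hw', hpw, hcw⟩ := hround w hw
        rw [← hpw] at hx0 ⊢
        have hw'0 : w' ≠ 0 := by
          rintro rfl
          exact hx0 (map_zero _)
        have h1 := hvmin w' hw' hw'0
        have h2 := norm_sq_eq hv0 w'
        have h3 : cf v w' ^ 2 ≤ 1 / 4 := by
          have := sq_le_sq' (by linarith [abs_nonneg (cf v w')]) hcw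
          rw [sq_abs] at this
          linarith
        have h4 : cf v w' ^ 2 * ‖v‖ ^ 2 ≤ 1 / 4 * ‖v‖ ^ 2 :=
          mul_le_mul_of_nonneg_right h3 (by positivity)
        have h5 : η ^ 2 ≤ ‖v‖ ^ 2 := pow_le_pow_left₀ hη.le hvη 2
        refine le_of_sq_le_sq (a := η / 2) ?_ (norm_nonneg _)
        nlinarith
      have hperp : ∀ x ∈ Submodule.span ℝ (L' : Set E), ⟪v, x⟫_ℝ = 0 := by
        intro x hx
        induction hx using Submodule.span_induction with
        | mem x hx =>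
          obtain ⟨w, hw, rfl⟩ := hmem'.1 hx
          exact inner_pj hv0 w
        | zero => simp
        | add x y _ _ hx hy => rw [inner_add_right, hx, hy, add_zero]
        | smul t x _ hx => rw [inner_smul_right, hx, mul_zero]
      have hvspan : v ∈ Submodule.span ℝ (L : Set E) := Submodule.subset_span hvL
      have hle : Submodule.span ℝ (L' : Set E) ≤ Submodule.span ℝ (L : Set E) := by
        rw [Submodule.span_le]
        intro x hx
        obtain ⟨w, hw, rfl⟩ := hmem'.1 hx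
        have : pj v w = w - cf v w • v := rfl
        rw [this]
        exact Submodule.sub_mem _ (Submodule.subset_span hw) (Submodule.smul_mem _ _ hvspan)
      have hlt : Submodule.span ℝ (L' : Set E) < Submodule.span ℝ (L : Set E) := by
        refine lt_of_le_of_ne hle fun heq => ?_
        have := hperp v (heq ▸ hvspan)
        rw [real_inner_self_eq_norm_sq] at this
        exact hv0 (norm_eq_zero.1 (by simpa using this))
      have hfin : Module.finrank ℝ (Submodule.span ℝ (L' : Set E)) ≤ d := by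
        have := Submodule.finrank_lt_finrank_of_lt hlt
        omega
      obtain ⟨k, b', e', μ', hb', horth, hlow, hspan, hbe, hdiag, htri, hμ, hcl⟩ :=
        ih L' (η / 2) (by positivity) hL' hfin
      have hlift : ∀ i, ∃ w ∈ L, pj v w = b' i ∧ |cf v w| ≤ 1 / 2 := by
        intro i
        obtain ⟨w, hw, hwb⟩ := hmem'.1 (hb' i)
        obtain ⟨w', hw', h1, h2⟩ := hround w hw
        exact ⟨w', hw', h1.trans hwb, h2⟩
      choose w hwL hwb hwc using hlift
      refine ⟨k + 1, Fin.cons v w, Fin.cons v e',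
        Fin.cons (Fin.cons 1 0) (fun i => Fin.cons (cf v (w i)) (μ' i)), ?_, ?_, ?_, ?_, ?_, ?_,
        ?_, ?_, ?_⟩
      · intro i
        refine Fin.cases ?_ (fun i => ?_) i
        · exact hvL
        · exact hwL i
      · intro i j
        refine Fin.cases ?_ (fun i => ?_) i
        · refine Fin.cases ?_ (fun j => ?_) j
          · intro h; exact absurd rfl h
          · intro _
            exact hperp _ (hspan j)
        · refine Fin.cases ?_ (fun j => ?_) j
          · intro _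
            rw [real_inner_comm]
            exact hperp _ (hspan i)
          · intro h
            exact horth i j (fun h' => h (by rw [h']))
      · intro i
        refine Fin.cases ?_ (fun i => ?_) i
        · change η / 2 ^ (d + 1) ≤ ‖v‖
          exact (div_le_self hη.le (one_le_pow₀ (by norm_num))).trans hvη
        · change η / 2 ^ (d + 1) ≤ ‖e' i‖
          have := hlow i
          rwa [div_div, ← pow_succ'] at this
      · intro i
        refine Fin.cases ?_ (fun i => ?_) i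
        · exact hvspan
        · exact hle (hspan i)
      · intro i
        rw [Fin.sum_univ_succ]
        refine Fin.cases ?_ (fun i => ?_) i
        · simp
        · simp only [Fin.cons_succ, Fin.cons_zero]
          rw [← hbe i, ← hwb i, add_comm, pj_add]
      · intro i
        refine Fin.cases ?_ (fun i => ?_) i
        · simp
        · simpa using hdiag i
      · intro i j
        refine Fin.cases ?_ (fun i => ?_) i
        · refine Fin.cases ?_ (fun j => ?_) j
          · intro h; exact absurd h (lt_irrefl _)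
          · intro _
            simp
        · refine Fin.cases ?_ (fun j => ?_) j
          · intro h; exact absurd h (not_lt.2 (Fin.zero_le _))
          · intro h
            simpa using htri i j (Fin.succ_lt_succ_iff.1 h)
      · intro i j
        refine Fin.cases ?_ (fun i => ?_) i
        · refine Fin.cases ?_ (fun j => ?_) j
          · simp
          · simp
        · refine Fin.cases ?_ (fun j => ?_) j
          · simp only [Fin.cons_succ, Fin.cons_zero]
            exact (hwc i).trans (by norm_num)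
          · simpa using hμ i j
      · -- generation
        intro x hx
        have hlift2 : ∀ y ∈ AddSubgroup.closure (range b'), ∃ z ∈ AddSubgroup.closure
            (range (Fin.cons v w : Fin (k + 1) → E)), pj v z = y := by
          intro y hy
          induction hy using AddSubgroup.closure_induction with
          | mem y hy =>
            obtain ⟨i, rfl⟩ := hy
            exact ⟨w i, AddSubgroup.subset_closure ⟨i.succ, rfl⟩, hwb i⟩
          | zero => exact ⟨0, zero_mem _, map_zero _⟩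
          | add y₁ y₂ _ _ h₁ h₂ =>
            obtain ⟨z₁, hz₁, e₁⟩ := h₁
            obtain ⟨z₂, hz₂, e₂⟩ := h₂
            exact ⟨z₁ + z₂, add_mem hz₁ hz₂, by rw [map_add, e₁, e₂]⟩
          | neg y _ h =>
            obtain ⟨z, hz, e⟩ := h
            exact ⟨-z, neg_mem hz, by rw [map_neg, e]⟩
        have hclL : AddSubgroup.closure (range (Fin.cons v w : Fin (k + 1) → E)) ≤ L := by
          rw [AddSubgroup.closure_le]
          rintro _ ⟨i, rfl⟩
          refine Fin.cases ?_ (fun i => ?_) i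
          · exact hvL
          · exact hwL i
        obtain ⟨z, hz, hzx⟩ := hlift2 (pj v x) (hcl (hmem'.2 ⟨x, hx, rfl⟩))
        -- `x - z` is an integer multiple of `v`
        have hxz : x - z ∈ L := L.sub_mem hx (hclL hz)
        have hpj0 : pj v (x - z) = 0 := by rw [map_sub, hzx, sub_self]
        have hvcl : v ∈ AddSubgroup.closure (range (Fin.cons v w : Fin (k + 1) → E)) :=
          AddSubgroup.subset_closure ⟨0, rfl⟩
        set t : ℤ := round (cf v (x - z)) with ht
        have hy : x - z - t • v ∈ L := L.sub_mem hxz (L.zsmul_mem hvL _)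
        have hy0 : x - z - t • v = 0 := by
          by_contra hne
          have h1 := hvmin _ hy hne
          have h2 := norm_sq_eq hv0 (x - z - t • v)
          rw [pj_sub_zsmul hv0, hpj0, norm_zero, cf_sub_zsmul hv0] at h2
          have h3 : |cf v (x - z) - t| ≤ 1 / 2 := abs_sub_round _
          have h4 : (cf v (x - z) - t) ^ 2 ≤ 1 / 4 := by
            have := sq_le_sq' (by linarith [abs_nonneg (cf v (x - z) - t)]) h3
            rw [sq_abs] at this
            linarith
          have h5 : 0 < ‖v‖ ^ 2 := by positivity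
          nlinarith
        have : x = z + t • v := by
          rw [sub_eq_zero] at hy0
          rw [← hy0]
          abel
        rw [this]
        exact add_mem hz (AddSubgroup.zsmul_mem _ hvcl _)
    · push Not at h0
      refine ⟨0, Fin.elim0, Fin.elim0, Fin.elim0, fun i => i.elim0, fun i => i.elim0,
        fun i => i.elim0, fun i => i.elim0, fun i => i.elim0, fun i => i.elim0, fun i => i.elim0,
        fun i => i.elim0, fun x hx => ?_⟩
      rw [h0 x hx]
      exact zero_mem _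

end HKZ

/-! ### short bases -/

/-- the lattice `ℤⁿ g` in Euclidean space -/
def latHom (g : SLR n) : (Fin n → ℤ) →+ EuclideanSpace ℝ (Fin n) where
  toFun z := WithLp.toLp 2 (rv z ᵥ* g.1)
  map_zero' := by
    rw [rv_eq_zero_iff.2 rfl, Matrix.zero_vecMul]
    rfl
  map_add' x y := by
    have : rv (x + y) = rv x + rv y := by
      funext i
      simp [rv]
    rw [this, Matrix.add_vecMul]
    rfl

theorem latHom_apply (g : SLR n) (z : Fin n → ℤ) (j : Fin n) :
    latHom g z j = ∑ i, (z i : ℝ) * g.1 i j := rfl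

theorem mem_closure_range {k : ℕ} {E : Type*} [AddCommGroup E] {b : Fin k → E} {x : E}
    (hx : x ∈ AddSubgroup.closure (range b)) : ∃ w : Fin k → ℤ, x = ∑ j, w j • b j := by
  induction hx using AddSubgroup.closure_induction with
  | mem x hx =>
    obtain ⟨i, rfl⟩ := hx
    refine ⟨Pi.single i 1, ?_⟩
    rw [Finset.sum_eq_single i]
    · simp
    · intro j _ hj
      simp [Pi.single_eq_of_ne hj]
    · simp
  | zero => exact ⟨0, by simp⟩
  | add x y _ _ hx hy =>
    obtain ⟨w, rfl⟩ := hx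
    obtain ⟨w', rfl⟩ := hy
    exact ⟨w + w', by simp [add_smul, Finset.sum_add_distrib]⟩
  | neg x _ hx =>
    obtain ⟨w, rfl⟩ := hx
    exact ⟨-w, by simp [Finset.sum_neg_distrib]⟩

/-- **short basis**: every `SL_n(ℤ)`-orbit has a representative with polynomially bounded
entries -/
theorem exists_short (g : SLR n) :
    ∃ γ ∈ intPoints n, ∀ i j, |(γ * g).1 i j| ≤ n * (2 ^ n / mm g) ^ (n - 1) := by
  classical
  set L : AddSubgroup (EuclideanSpace ℝ (Fin n)) := (latHom g).range with hLdef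
  have hmm := mm_pos g
  have hL : ∀ v ∈ L, v ≠ 0 → mm g ≤ ‖v‖ := by
    rintro _ ⟨z, rfl⟩ hz
    have hz0 : z ≠ 0 := by
      rintro rfl
      exact hz (map_zero _)
    refine (mm_le g hz0).trans ?_
    rw [pi_norm_le_iff_of_nonneg (norm_nonneg _)]
    intro i
    exact PiLp.norm_apply_le (latHom g z) i
  have hfin : Module.finrank ℝ (Submodule.span ℝ (L : Set (EuclideanSpace ℝ (Fin n)))) ≤ n := by
    have := Submodule.finrank_le (Submodule.span ℝ (L : Set (EuclideanSpace ℝ (Fin n))))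
    rwa [finrank_euclideanSpace_fin] at this
  obtain ⟨k, b, e, μ, hbL, horth, hlow, hspan, hbe, hdiag, htri, hμ, hcl⟩ :=
    hkz n L (mm g) hmm hL hfin
  have hepos : ∀ i, 0 < ‖e i‖ := fun i => lt_of_lt_of_le (by positivity) (hlow i)
  -- rows of `g`
  have hrow : ∀ i, latHom g (Pi.single i 1) ∈ AddSubgroup.closure (range b) :=
    fun i => hcl ⟨_, rfl⟩
  have hrow' : ∀ i j, latHom g (Pi.single i 1) j = g.1 i j := by
    intro i j
    rw [latHom_apply, Finset.sum_eq_single i]
    · simp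
    · intro l _ hl
      simp [Pi.single_eq_of_ne hl]
    · simp
  -- `k = n`
  have hk : k = n := by
    have hli : LinearIndependent ℝ e :=
      linearIndependent_of_ne_zero_of_inner_eq_zero (fun i => norm_pos_iff.1 (hepos i))
        (fun i j hij => horth i j hij)
    have h1 : k ≤ n := by
      have := hli.fintype_card_le_finrank
      rwa [Fintype.card_fin, finrank_euclideanSpace_fin] at this
    have hbspan : ∀ i, b i ∈ Submodule.span ℝ (range e) := by
      intro i
      rw [hbe i]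
      exact Submodule.sum_mem _ fun j _ => Submodule.smul_mem _ _ (Submodule.subset_span ⟨j, rfl⟩)
    have hclspan : ∀ x ∈ AddSubgroup.closure (range b), x ∈ Submodule.span ℝ (range e) := by
      intro x hx
      have : AddSubgroup.closure (range b) ≤ (Submodule.span ℝ (range e)).toAddSubgroup := by
        rw [AddSubgroup.closure_le]
        rintro _ ⟨i, rfl⟩
        exact hbspan i
      exact this hx
    have htop : Submodule.span ℝ (range e) = ⊤ := by
      rw [Submodule.eq_top_iff']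
      intro x
      have hx : x = ∑ i, ((WithLp.ofLp x) ᵥ* (g⁻¹).1) i • latHom g (Pi.single i 1) := by
        have h2 : ((WithLp.ofLp x) ᵥ* (g⁻¹).1) ᵥ* g.1 = WithLp.ofLp x := by
          rw [Matrix.vecMul_vecMul, coe_inv_mul, Matrix.vecMul_one]
        ext j
        have h3 := congrFun h2 j
        rw [← h3]
        simp only [WithLp.ofLp_sum, WithLp.ofLp_smul, Finset.sum_apply, Pi.smul_apply,
          smul_eq_mul, Matrix.vecMul, dotProduct]
        refine Finset.sum_congr rfl fun i _ => ?_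
        have := hrow' i j
        rw [this]
      rw [hx]
      exact Submodule.sum_mem _ fun i _ => Submodule.smul_mem _ _ (hclspan _ (hrow i))
    have h2 : n ≤ k := by
      have h3 := finrank_range_le_card (R := ℝ) e
      rw [Set.finrank, htop, finrank_top, finrank_euclideanSpace_fin, Fintype.card_fin] at h3
      exact h3
    omega
  subst hk
  -- matrices
  set B : Matrix (Fin k) (Fin k) ℝ := fun i j => b i j with hB
  set Em : Matrix (Fin k) (Fin k) ℝ := fun i j => e i j with hEm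
  set M : Matrix (Fin k) (Fin k) ℝ := μ with hM
  have hBME : B = M * Em := by
    ext i j
    rw [hB, Matrix.mul_apply]
    show b i j = ∑ l, μ i l * e l j
    rw [hbe i]
    simp only [WithLp.ofLp_sum, WithLp.ofLp_smul, Finset.sum_apply, Pi.smul_apply, smul_eq_mul]
    rfl
  have hMdet : M.det = 1 := by
    rw [Matrix.det_of_isLowerTriangular M (fun i j hij => htri i j hij)]
    exact Finset.prod_eq_one fun i _ => hdiag i
  have hEE : Em * Emᵀ = Matrix.diagonal (fun i => ‖e i‖ ^ 2) := by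
    ext i j
    have h1 : (Em * Emᵀ) i j = ⟪e i, e j⟫_ℝ := by
      rw [Matrix.mul_apply, PiLp.inner_apply]
      refine Finset.sum_congr rfl fun l _ => ?_
      show e i l * e j l = ⟪(e i) l, (e j) l⟫_ℝ
      simp [mul_comm]
    rw [h1]
    by_cases hij : i = j
    · subst hij
      rw [Matrix.diagonal_apply_eq, real_inner_self_eq_norm_sq]
    · rw [Matrix.diagonal_apply_ne _ hij, horth i j hij]
  have hEdet : Em.det ^ 2 = ∏ i, ‖e i‖ ^ 2 := by
    have := congrArg Matrix.det hEE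
    rwa [Matrix.det_mul, Matrix.det_transpose, Matrix.det_diagonal, ← sq] at this
  -- integrality
  choose z hz using hbL
  have hBZ : B = (Matrix.of z).map (Int.cast : ℤ → ℝ) * g.1 := by
    ext i j
    rw [Matrix.mul_apply]
    show b i j = _
    rw [← hz i, latHom_apply]
    rfl
  have hW : ∀ i, ∃ w : Fin k → ℤ, latHom g (Pi.single i 1) = ∑ j, w j • b j :=
    fun i => mem_closure_range (hrow i)
  choose w hw using hW
  have hgW : g.1 = (Matrix.of w).map (Int.cast : ℤ → ℝ) * B := by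
    ext i j
    rw [Matrix.mul_apply, ← hrow' i j, hw i]
    simp [WithLp.ofLp_sum, hB]
  have hWZ : (Matrix.of w).map (Int.cast : ℤ → ℝ) * (Matrix.of z).map (Int.cast : ℤ → ℝ) = 1 := by
    have h1 : (Matrix.of w).map (Int.cast : ℤ → ℝ) * (Matrix.of z).map (Int.cast : ℤ → ℝ) * g.1
        = g.1 := by
      conv_rhs => rw [hgW, hBZ]
      rw [mul_assoc]
    calc _ = (Matrix.of w).map (Int.cast : ℤ → ℝ) * (Matrix.of z).map (Int.cast : ℤ → ℝ) *
          (g.1 * (g⁻¹).1) := by rw [coe_mul_inv, mul_one]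
      _ = 1 := by rw [← mul_assoc, h1, coe_mul_inv]
  have hdet : (Matrix.of w).det * (Matrix.of z).det = 1 := by
    have h1 := congrArg Matrix.det hWZ
    rw [Matrix.det_mul, Matrix.det_one] at h1
    have h2 : ∀ A : Matrix (Fin k) (Fin k) ℤ, (A.map (Int.cast : ℤ → ℝ)).det = (A.det : ℝ) := by
      intro A
      have := (Int.castRingHom ℝ).map_det A
      rw [RingHom.mapMatrix_apply] at this
      exact this.symm
    rw [h2, h2] at h1
    exact_mod_cast h1
  have hzdet : (Matrix.of z).det = 1 ∨ (Matrix.of z).det = -1 := by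
    rcases Int.eq_one_or_neg_one_of_mul_eq_one' hdet with h | h
    · exact Or.inl h.2
    · exact Or.inr h.2
  have hBdet : B.det ^ 2 = 1 := by
    have h2 : ((Matrix.of z).map (Int.cast : ℤ → ℝ)).det = ((Matrix.of z).det : ℝ) := by
      have := (Int.castRingHom ℝ).map_det (Matrix.of z)
      rw [RingHom.mapMatrix_apply] at this
      exact this.symm
    rw [hBZ, Matrix.det_mul, g.2, mul_one, h2]
    rcases hzdet with h | h <;> rw [h] <;> norm_num
  have hprod : ∏ i, ‖e i‖ ^ 2 = 1 := by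
    rw [← hEdet, ← hBdet, hBME, Matrix.det_mul, hMdet, one_mul]
  have hprod1 : ∏ i, ‖e i‖ = 1 := by
    rw [Finset.prod_pow] at hprod
    have h0 : 0 ≤ ∏ i, ‖e i‖ := Finset.prod_nonneg fun i _ => norm_nonneg _
    exact (pow_eq_one_iff_of_nonneg h0 two_ne_zero).1 hprod
  have hebd : ∀ i, ‖e i‖ ≤ (2 ^ k / mm g) ^ (k - 1) := by
    intro i
    have h1 : ‖e i‖ * ∏ j ∈ Finset.univ.erase i, ‖e j‖ = 1 := by
      rw [← hprod1]
      exact Finset.mul_prod_erase Finset.univ (fun j => ‖e j‖) (Finset.mem_univ i)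
    have h2 : (mm g / 2 ^ k) ^ (k - 1) ≤ ∏ j ∈ Finset.univ.erase i, ‖e j‖ := by
      have h3 : (Finset.univ.erase i).card = k - 1 := by
        rw [Finset.card_erase_of_mem (Finset.mem_univ i), Finset.card_univ, Fintype.card_fin]
      rw [← h3, ← Finset.prod_const]
      exact Finset.prod_le_prod (fun _ _ => by positivity) fun j _ => hlow j
    have h4 : 0 < (mm g / 2 ^ k) ^ (k - 1) := by positivity
    have h5 : (2 ^ k / mm g) ^ (k - 1) = ((mm g / 2 ^ k) ^ (k - 1))⁻¹ := by
      rw [← inv_pow, inv_div]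
    rw [h5, ← one_div, le_div_iff₀ h4]
    calc ‖e i‖ * (mm g / 2 ^ k) ^ (k - 1) ≤ ‖e i‖ * ∏ j ∈ Finset.univ.erase i, ‖e j‖ :=
          mul_le_mul_of_nonneg_left h2 (norm_nonneg _)
      _ = 1 := h1
  have hbbd : ∀ i j, |B i j| ≤ k * (2 ^ k / mm g) ^ (k - 1) := by
    intro i j
    have h1 : |b i j| ≤ ‖b i‖ := PiLp.norm_apply_le (b i) j
    refine h1.trans ?_
    rw [hbe i]
    refine (norm_sum_le _ _).trans ?_
    calc ∑ l, ‖μ i l • e l‖ ≤ ∑ _l : Fin k, (2 ^ k / mm g) ^ (k - 1) := by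
          refine Finset.sum_le_sum fun l _ => ?_
          rw [norm_smul, Real.norm_eq_abs]
          calc |μ i l| * ‖e l‖ ≤ 1 * ‖e l‖ := mul_le_mul_of_nonneg_right (hμ i l) (norm_nonneg _)
            _ ≤ _ := by rw [one_mul]; exact hebd l
      _ = k * (2 ^ k / mm g) ^ (k - 1) := by simp
  rcases hzdet with h | h
  · refine ⟨(Matrix.SpecialLinearGroup.map (n := Fin k) (Int.castRingHom ℝ)) ⟨Matrix.of z, h⟩,
      ⟨_, rfl⟩, fun i j => ?_⟩
    have : ((Matrix.SpecialLinearGroup.map (n := Fin k) (Int.castRingHom ℝ)) ⟨Matrix.of z, h⟩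
        * g).1 = B := by
      rw [hBZ]
      rfl
    rw [this]
    exact hbbd i j
  · have hk0 : 0 < k := by
      rcases Nat.eq_zero_or_pos k with hk | hk
      · subst hk
        rw [Matrix.det_isEmpty] at h
        norm_num at h
      · exact hk
    set D : Matrix (Fin k) (Fin k) ℤ :=
      Matrix.diagonal (fun i => if i = ⟨0, hk0⟩ then -1 else 1) with hD
    have hDdet : D.det = -1 := by
      rw [hD, Matrix.det_diagonal, Finset.prod_ite_eq']
      simp
    have hDZ : (D * Matrix.of z).det = 1 := by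
      rw [Matrix.det_mul, hDdet, h]
      norm_num
    refine ⟨(Matrix.SpecialLinearGroup.map (n := Fin k) (Int.castRingHom ℝ)) ⟨D * Matrix.of z, hDZ⟩,
      ⟨_, rfl⟩, fun i j => ?_⟩
    have h1 : ((Matrix.SpecialLinearGroup.map (n := Fin k) (Int.castRingHom ℝ))
        ⟨D * Matrix.of z, hDZ⟩ * g).1 = D.map (Int.cast : ℤ → ℝ) * B := by
      have h2 : (D * Matrix.of z).map (Int.cast : ℤ → ℝ)
          = D.map (Int.cast : ℤ → ℝ) * (Matrix.of z).map (Int.cast : ℤ → ℝ) := by
        have := Matrix.map_mul (L := D) (M := Matrix.of z) (f := Int.castRingHom ℝ)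
        exact this
      rw [hBZ, ← mul_assoc, ← h2]
      rfl
    rw [h1, hD, Matrix.diagonal_map Int.cast_zero, Matrix.diagonal_mul, abs_mul]
    have h3 : |((if i = ⟨0, hk0⟩ then (-1 : ℤ) else 1 : ℤ) : ℝ)| = 1 := by
      split_ifs <;> simp
    rw [h3, one_mul]
    exact hbbd i j

/-- the constant of the injectivity radius -/
def KK (n : ℕ) : ℝ := (n + 1) ^ 3 * 2 ^ (n * n)




end Crest.Agent.R014.Cell_433
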