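import Mathlib
import Crest.Agent.R014.Iface_792
import Crest.Agent.R014.Nd1_837
import Crest.Agent.R014.Top1_458

-- ▼ part R014/Comb_583
section

/-!
Row 14, block D, leaf COMB-AIJ: pure finite combinatorics of the additive sets `A i j`.
-/

set_option autoImplicit false
open Finset

namespace Crest.Agent.R014.Comb_583

open Classical in
/-- number of elements of `A` in `[a,b)` -/
noncomputable def cnt (A : Set ℤ) (a b : ℤ) : ℝ :=
  (((Finset.Ico a b).filter (fun x => x ∈ A)).card : ℝ)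

open Classical in
/-- the pairs violating `X + Y ⊆ Z` inside `[-L,L]` -/
noncomputable def badPairs (X Y Z : Set ℤ) (L : ℕ) : Finset (ℤ × ℤ) :=
  (Finset.Icc (-(L : ℤ)) L ×ˢ Finset.Icc (-(L : ℤ)) L).filter
    (fun p => p.1 ∈ X ∧ p.2 ∈ Y ∧ |p.1 + p.2| ≤ (L : ℤ) ∧ p.1 + p.2 ∉ Z)

open Classical in
/-- `x ∈ X` with `x + r ∉ Z` -/
noncomputable def badOne (X Z : Set ℤ) (L : ℕ) (r : ℤ) : Finset ℤ :=
  (Finset.Icc (-(L : ℤ)) L).filter (fun x => x ∈ X ∧ |x + r| ≤ (L : ℤ) ∧ x + r ∉ Z)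

open Classical in
/-- points where `A` and its shift by `s` differ -/
noncomputable def dif (A : Set ℤ) (L : ℕ) (s : ℤ) : ℝ :=
  (((Finset.Icc (-(L : ℤ)) L).filter (fun x => ¬ (x ∈ A ↔ x + s ∈ A))).card : ℝ)

lemma cnt_nonneg (A : Set ℤ) (a b : ℤ) : 0 ≤ cnt A a b := by
  unfold cnt; positivity

lemma cnt_mono (A : Set ℤ) {a b a' b' : ℤ} (h1 : a' ≤ a) (h2 : b ≤ b') : cnt A a b ≤ cnt A a' b' := by
  classical
  unfold cnt
  have : (Finset.Ico a b).filter (fun x => x ∈ A) ⊆ (Finset.Ico a' b').filter (fun x => x ∈ A) := by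
    intro x hx
    simp only [mem_filter, mem_Ico] at hx ⊢
    exact ⟨⟨h1.trans hx.1.1, hx.1.2.trans_le h2⟩, hx.2⟩
  exact_mod_cast Finset.card_le_card this

/-- composition: if most sums are good then the count is transported -/
lemma comp (X Y Z : Set ℤ) (L : ℕ) (E : ℝ) (hE : ((badPairs X Y Z L).card : ℝ) ≤ E)
    (a b c d : ℤ) (ha : -(L : ℤ) ≤ a) (hb : b ≤ L) (hc : -(L : ℤ) ≤ c) (hd : d ≤ L)
    (h1 : -(L : ℤ) ≤ a + c) (h2 : b + d ≤ L)
    (hpos : 2 * E ≤ cnt X a b * cnt Y c d) (hY : 0 < cnt Y c d) :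
    cnt X a b ≤ 2 * cnt Z (a + c) (b + d) := by
  classical
  set PX := (Finset.Ico a b).filter (fun x => x ∈ X) with hPX
  set PY := (Finset.Ico c d).filter (fun x => x ∈ Y) with hPY
  set PZ := (Finset.Ico (a + c) (b + d)).filter (fun x => x ∈ Z) with hPZ
  have hX' : cnt X a b = (PX.card : ℝ) := by
    simp only [cnt, hPX]
  have hY' : cnt Y c d = (PY.card : ℝ) := by
    simp only [cnt, hPY]
  have hZ' : cnt Z (a + c) (b + d) = (PZ.card : ℝ) := by
    simp only [cnt, hPZ]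
  have hbad : ((PX ×ˢ PY).filter (fun p => p.1 + p.2 ∉ Z)).card ≤ (badPairs X Y Z L).card := by
    apply Finset.card_le_card
    intro p hp
    simp only [hPX, hPY, badPairs, mem_filter, mem_product, mem_Ico, mem_Icc] at hp ⊢
    obtain ⟨⟨⟨⟨p1, p2⟩, p3⟩, ⟨⟨p4, p5⟩, p6⟩⟩, p7⟩ := hp
    refine ⟨⟨⟨by omega, by omega⟩, ⟨by omega, by omega⟩⟩, p3, p6, ?_, p7⟩
    rw [abs_le]; constructor <;> omega
  have hgood : ((PX ×ˢ PY).filter (fun p => p.1 + p.2 ∈ Z)).card ≤ PY.card * PZ.card := by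
    have : ((PX ×ˢ PY).filter (fun p => p.1 + p.2 ∈ Z)).card
        = ∑ s ∈ PY, (PX.filter (fun r => r + s ∈ Z)).card := by
      rw [Finset.card_filter, Finset.sum_product_right]
      apply Finset.sum_congr rfl
      intro s _
      rw [Finset.card_filter]
    rw [this]
    calc ∑ s ∈ PY, (PX.filter (fun r => r + s ∈ Z)).card ≤ ∑ s ∈ PY, PZ.card := by
          apply Finset.sum_le_sum
          intro s hs
          apply Finset.card_le_card_of_injOn (fun r => r + s)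
          · intro r hr
            simp only [hPX, hPY, hPZ, coe_filter, mem_filter, mem_Ico, Set.mem_ofPred_eq] at hr hs ⊢
            exact ⟨⟨by omega, by omega⟩, hr.2⟩
          · intro r _ r' _ h
            simpa using h
      _ = PY.card * PZ.card := by simp
  have hsplit : ((PX ×ˢ PY).filter (fun p => p.1 + p.2 ∈ Z)).card
      + ((PX ×ˢ PY).filter (fun p => p.1 + p.2 ∉ Z)).card = PX.card * PY.card := by
    rw [Finset.card_filter_add_card_filter_not, Finset.card_product]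
  have hs' : (((PX ×ˢ PY).filter (fun p => p.1 + p.2 ∈ Z)).card : ℝ)
      + (((PX ×ˢ PY).filter (fun p => p.1 + p.2 ∉ Z)).card : ℝ) = (PX.card : ℝ) * PY.card := by
    exact_mod_cast hsplit
  have hb' : (((PX ×ˢ PY).filter (fun p => p.1 + p.2 ∉ Z)).card : ℝ) ≤ (badPairs X Y Z L).card := by
    exact_mod_cast hbad
  have hg' : (((PX ×ˢ PY).filter (fun p => p.1 + p.2 ∈ Z)).card : ℝ) ≤ (PY.card : ℝ) * PZ.card := by
    exact_mod_cast hgood
  rw [hX', hY'] at hpos
  rw [hY'] at hY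
  rw [hX', hZ']
  have h3 : (PX.card : ℝ) * PY.card ≤ 2 * ((PY.card : ℝ) * PZ.card) := by nlinarith
  have h4 : (PY.card : ℝ) * (PX.card : ℝ) ≤ (PY.card : ℝ) * (2 * (PZ.card : ℝ)) := by nlinarith
  exact le_of_mul_le_mul_left h4 hY

/-- half of the elements `r` of `Y` in a window have few bad partners -/
lemma popular (X Y Z : Set ℤ) (L : ℕ) (E : ℝ) (hE : ((badPairs X Y Z L).card : ℝ) ≤ E)
    (a b : ℤ) (ha : -(L : ℤ) ≤ a) (hb : b ≤ L) :
    ∃ G : Finset ℤ, (∀ r ∈ G, a ≤ r ∧ r < b ∧ r ∈ Y ∧ ((badOne X Z L r).card : ℝ) * cnt Y a b ≤ 2 * E) ∧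
      cnt Y a b ≤ 2 * (G.card : ℝ) := by
  classical
  set P := (Finset.Ico a b).filter (fun x => x ∈ Y) with hP
  have hY' : cnt Y a b = (P.card : ℝ) := by
    simp only [cnt, hP]
  refine ⟨P.filter (fun r => ((badOne X Z L r).card : ℝ) * cnt Y a b ≤ 2 * E), ?_, ?_⟩
  · intro r hr
    simp only [hP, mem_filter, mem_Ico] at hr
    exact ⟨hr.1.1.1, hr.1.1.2, hr.1.2, hr.2⟩
  · set G := P.filter (fun r => ((badOne X Z L r).card : ℝ) * cnt Y a b ≤ 2 * E) with hG
    set G' := P.filter (fun r => ¬ ((badOne X Z L r).card : ℝ) * cnt Y a b ≤ 2 * E) with hG'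
    have hsum : G.card + G'.card = P.card := Finset.card_filter_add_card_filter_not _
    have htot : ∑ r ∈ P, ((badOne X Z L r).card : ℝ) ≤ E := by
      refine le_trans ?_ hE
      have : ∑ r ∈ P, (badOne X Z L r).card ≤ (badPairs X Y Z L).card := by
        rw [← Finset.card_sigma]
        apply Finset.card_le_card_of_injOn (fun q => (q.2, q.1))
        · intro q hq
          simp only [hP, badOne, badPairs, coe_sigma, Set.mem_sigma_iff, mem_coe, mem_filter, mem_Ico,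
            mem_Icc, coe_filter, mem_product, Set.mem_ofPred_eq] at hq ⊢
          obtain ⟨⟨⟨q1, q2⟩, q3⟩, ⟨q4, q5⟩, q6, q7, q8⟩ := hq
          exact ⟨⟨⟨q4, q5⟩, by omega, by omega⟩, q6, q3, q7, q8⟩
        · rintro ⟨q1, q2⟩ _ ⟨r1, r2⟩ _ h
          simp only [Prod.mk.injEq] at h
          obtain ⟨h1, h2⟩ := h
          subst h1; subst h2; rfl
      exact_mod_cast this
    have hsub : ∑ r ∈ G', ((badOne X Z L r).card : ℝ) ≤ E :=
      le_trans (Finset.sum_le_sum_of_subset_of_nonneg (Finset.filter_subset _ _)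
        (fun _ _ _ => by positivity)) htot
    by_contra hcon
    push Not at hcon
    have hPr : (G.card : ℝ) + G'.card = P.card := by exact_mod_cast hsum
    have hE0 : 0 ≤ E := le_trans (by positivity) hE
    have hPpos : 0 < (P.card : ℝ) := by
      rw [hY'] at hcon
      have : (0 : ℝ) ≤ G.card := by positivity
      linarith
    have hG'big : (P.card : ℝ) < 2 * G'.card := by rw [hY'] at hcon; linarith
    have hG'pos : 0 < (G'.card : ℝ) := by linarith
    have hlow : (G'.card : ℝ) * (2 * E) < ∑ r ∈ G', ((badOne X Z L r).card : ℝ) * cnt Y a b := by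
      have hne : G'.Nonempty := by
        rw [← Finset.card_pos]; exact_mod_cast hG'pos
      calc (G'.card : ℝ) * (2 * E) = ∑ _r ∈ G', 2 * E := by simp
        _ < ∑ r ∈ G', ((badOne X Z L r).card : ℝ) * cnt Y a b := by
            apply Finset.sum_lt_sum_of_nonempty hne
            intro r hr
            simp only [hG', mem_filter, not_le] at hr
            exact hr.2
    rw [← Finset.sum_mul, hY'] at hlow
    have h5 : (∑ r ∈ G', ((badOne X Z L r).card : ℝ)) * (P.card : ℝ) ≤ E * P.card :=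
      mul_le_mul_of_nonneg_right hsub hPpos.le
    nlinarith



/-- shifting a window costs at most the shift -/
lemma card_shift_le (Q : ℤ → Prop) [DecidablePred Q] (L : ℕ) (s : ℤ) :
    (((Finset.Icc (-(L : ℤ)) L).filter (fun x => Q (x + s))).card : ℝ)
      ≤ (((Finset.Icc (-(L : ℤ)) L).filter (fun x => Q x)).card : ℝ) + |(s : ℝ)| := by
  classical
  have h1 : ((Finset.Icc (-(L : ℤ)) L).filter (fun x => Q (x + s))).card
      ≤ (((Finset.Icc (-(L : ℤ)) L).filter (fun x => Q x)) ∪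
          (Finset.Icc (-(L : ℤ) + s) (-(L : ℤ) - 1) ∪ Finset.Icc ((L : ℤ) + 1) (L + s))).card := by
    apply Finset.card_le_card_of_injOn (fun x => x + s)
    · intro x hx
      simp only [coe_filter, mem_Icc, Set.mem_ofPred_eq, coe_union, coe_Icc, Set.mem_union,
        Set.mem_Icc] at hx ⊢
      by_cases h : -(L : ℤ) ≤ x + s ∧ x + s ≤ L
      · exact Or.inl ⟨h, hx.2⟩
      · right
        rcases not_and_or.mp h with h | h
        · left; constructor <;> omega
        · right; constructor <;> omega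
    · intro x _ y _ h
      simpa using h
  have h2 : (Finset.Icc (-(L : ℤ) + s) (-(L : ℤ) - 1) ∪ Finset.Icc ((L : ℤ) + 1) (L + s)).card
      ≤ s.natAbs := by
    refine (Finset.card_union_le _ _).trans ?_
    simp only [Int.card_Icc]
    omega
  have h3 := h1.trans ((Finset.card_union_le _ _).trans (Nat.add_le_add_left h2 _))
  have h4 : (s.natAbs : ℝ) = |(s : ℝ)| := by
    rw [Nat.cast_natAbs]; simp
  rw [← h4]
  exact_mod_cast h3

lemma dif_add (A : Set ℤ) (L : ℕ) (s t : ℤ) : dif A L (s + t) ≤ dif A L s + dif A L t + |(s : ℝ)| := by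
  classical
  have h1 := card_shift_le (fun y => ¬ (y ∈ A ↔ y + t ∈ A)) L s
  have h2 : (((Finset.Icc (-(L : ℤ)) L).filter (fun x => ¬ (x ∈ A ↔ x + (s + t) ∈ A))).card : ℝ)
      ≤ (((Finset.Icc (-(L : ℤ)) L).filter (fun x => ¬ (x ∈ A ↔ x + s ∈ A))).card : ℝ)
        + (((Finset.Icc (-(L : ℤ)) L).filter (fun x => ¬ (x + s ∈ A ↔ x + s + t ∈ A))).card : ℝ) := by
    have : ((Finset.Icc (-(L : ℤ)) L).filter (fun x => ¬ (x ∈ A ↔ x + (s + t) ∈ A))) ⊆
        ((Finset.Icc (-(L : ℤ)) L).filter (fun x => ¬ (x ∈ A ↔ x + s ∈ A))) ∪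
        ((Finset.Icc (-(L : ℤ)) L).filter (fun x => ¬ (x + s ∈ A ↔ x + s + t ∈ A))) := by
      intro x hx
      simp only [mem_filter, mem_union] at hx ⊢
      rw [← add_assoc] at hx
      tauto
    exact_mod_cast (Finset.card_le_card this).trans (Finset.card_union_le _ _)
  unfold dif
  linarith

lemma dif_neg (A : Set ℤ) (L : ℕ) (s : ℤ) : dif A L (-s) ≤ dif A L s + |(s : ℝ)| := by
  classical
  have h1 := card_shift_le (fun y => ¬ (y ∈ A ↔ y + s ∈ A)) L (-s)
  have h2 : ((Finset.Icc (-(L : ℤ)) L).filter (fun x => ¬ (x ∈ A ↔ x + -s ∈ A))) =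
      ((Finset.Icc (-(L : ℤ)) L).filter (fun x => ¬ (x + -s ∈ A ↔ x + -s + s ∈ A))) := by
    apply Finset.filter_congr
    intro x _
    rw [neg_add_cancel_right]; tauto
  unfold dif
  rw [h2]
  simpa using h1

lemma dif_zero (A : Set ℤ) (L : ℕ) : dif A L 0 = 0 := by
  classical
  unfold dif
  simp

lemma dif_mul (A : Set ℤ) (L : ℕ) (s : ℤ) (m : ℕ) :
    dif A L (m * s) ≤ m * (dif A L s + |(s : ℝ)|) := by
  induction m with
  | zero => simp [dif_zero]
  | succ m ih =>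
    have h := dif_add A L s (m * s)
    have e : ((m + 1 : ℕ) : ℤ) * s = s + m * s := by push_cast; ring
    rw [e]
    push_cast
    linarith

/-- from one sided loss to the symmetric difference -/
lemma dif_le_loss (A : Set ℤ) (L : ℕ) (s : ℤ) :
    dif A L s ≤ 2 * ((badOne A A L s).card : ℝ) + 3 * |(s : ℝ)| := by
  classical
  set W := Finset.Icc (-(L : ℤ)) L with hW
  set a1 := (W.filter (fun x => x ∈ A ∧ x + s ∉ A)).card with ha1
  set a2 := (W.filter (fun x => x ∉ A ∧ x + s ∈ A)).card with ha2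
  set a3 := (W.filter (fun x => x ∈ A ∧ x + s ∈ A)).card with ha3
  have hd : dif A L s = (a1 : ℝ) + a2 := by
    unfold dif
    have : (W.filter (fun x => ¬ (x ∈ A ↔ x + s ∈ A))).card = a1 + a2 := by
      rw [ha1, ha2, ← Finset.card_union_of_disjoint]
      · congr 1
        ext x
        simp only [mem_filter, mem_union]
        tauto
      · rw [Finset.disjoint_filter]
        intro x _ h1 h2
        exact h2.1 h1.1
    exact_mod_cast this
  have hA : (W.filter (fun x => x ∈ A)).card = a1 + a3 := by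
    rw [ha1, ha3, ← Finset.card_union_of_disjoint]
    · congr 1
      ext x
      simp only [mem_filter, mem_union]
      tauto
    · rw [Finset.disjoint_filter]
      intro x _ h1 h2
      exact h1.2 h2.2
  have hAs : (W.filter (fun x => x + s ∈ A)).card = a2 + a3 := by
    rw [ha2, ha3, ← Finset.card_union_of_disjoint]
    · congr 1
      ext x
      simp only [mem_filter, mem_union]
      tauto
    · rw [Finset.disjoint_filter]
      intro x _ h1 h2
      exact h1.1 h2.1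
  have h1 := card_shift_le (fun y => y ∈ A) L s
  rw [← hW] at h1
  rw [hA, hAs] at h1
  push_cast at h1
  -- a1 ≤ loss + |s|
  have h2 : (a1 : ℝ) ≤ ((badOne A A L s).card : ℝ) + |(s : ℝ)| := by
    have hsub : W.filter (fun x => x ∈ A ∧ x + s ∉ A) ⊆
        badOne A A L s ∪ (Finset.Icc (-(L : ℤ)) (-(L : ℤ) - 1 - s) ∪ Finset.Icc ((L : ℤ) + 1 - s) L) := by
      intro x hx
      simp only [hW, badOne, mem_filter, mem_Icc, mem_union] at hx ⊢
      by_cases h : |x + s| ≤ (L : ℤ)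
      · left; exact ⟨hx.1, hx.2.1, h, hx.2.2⟩
      · right
        rw [abs_le] at h
        rcases not_and_or.mp h with h | h
        · left; constructor <;> omega
        · right; constructor <;> omega
    have hc : (Finset.Icc (-(L : ℤ)) (-(L : ℤ) - 1 - s) ∪ Finset.Icc ((L : ℤ) + 1 - s) L).card
        ≤ s.natAbs := by
      refine (Finset.card_union_le _ _).trans ?_
      simp only [Int.card_Icc]
      omega
    have h3 := (Finset.card_le_card hsub).trans
      ((Finset.card_union_le _ _).trans (Nat.add_le_add_left hc _))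
    have h4 : (s.natAbs : ℝ) = |(s : ℝ)| := by
      rw [Nat.cast_natAbs]; simp
    rw [← h4]
    exact_mod_cast h3
  rw [hd]
  linarith

/-- pigeonhole form of the slab positivity -/
lemma exists_dense (n : ℕ) (A : Fin n → Fin n → Set ℤ) (a b : ℤ) (t : ℝ) (ht : 0 ≤ t) (S : Finset (Fin n))
    (h : t ≤ ∑ i ∈ S, ∑ j ∈ Sᶜ, cnt (A i j) a b) (hS : S.Nonempty) (hS' : S ≠ univ) :
    ∃ i ∈ S, ∃ j, j ∉ S ∧ t / (n : ℝ) ^ 2 ≤ cnt (A i j) a b := by
  by_contra hcon
  push Not at hcon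
  have hn : 0 < n := by
    obtain ⟨i, _⟩ := hS
    exact Fin.pos i
  have hSc : Sᶜ.Nonempty := by
    rw [Finset.nonempty_iff_ne_empty]
    intro h0
    exact hS' (by simpa using h0)
  have h1 : ∑ i ∈ S, ∑ j ∈ Sᶜ, cnt (A i j) a b < ∑ _i ∈ S, ∑ _j ∈ Sᶜ, t / (n : ℝ) ^ 2 := by
    apply Finset.sum_lt_sum_of_nonempty hS
    intro i hi
    apply Finset.sum_lt_sum_of_nonempty hSc
    intro j hj
    exact hcon i hi j (by simpa using hj)
  have h2 : ∑ _i ∈ S, ∑ _j ∈ Sᶜ, t / (n : ℝ) ^ 2 ≤ t := by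
    simp only [Finset.sum_const, nsmul_eq_mul]
    have hc1 : (S.card : ℝ) ≤ n := by
      have := Finset.card_le_univ S
      simp only [Fintype.card_fin] at this
      exact_mod_cast this
    have hc2 : ((Sᶜ).card : ℝ) ≤ n := by
      have := Finset.card_le_univ Sᶜ
      simp only [Fintype.card_fin] at this
      exact_mod_cast this
    have hn' : (0 : ℝ) < n := by exact_mod_cast hn
    have : (S.card : ℝ) * (((Sᶜ).card : ℝ) * (t / (n : ℝ) ^ 2)) ≤ n * (n * (t / (n : ℝ) ^ 2)) := by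
      apply mul_le_mul hc1 _ (by positivity) (by positivity)
      apply mul_le_mul_of_nonneg_right hc2 (by positivity)
    refine this.trans (le_of_eq ?_)
    field_simp
  linarith

/-- every pair is dense near `0` -/
lemma dense_small (n : ℕ) (hn : 3 ≤ n) (A : Fin n → Fin n → Set ℤ) (L v : ℕ) (hv : 0 < v) (E c' : ℝ)
    (hc' : 0 < c')
    (H1 : ∀ i j k : Fin n, i ≠ j → j ≠ k → i ≠ k →
      ((badPairs (A i j) (A j k) (A i k) L).card : ℝ) ≤ E)
    (hV : ∀ S : Finset (Fin n), S.Nonempty → S ≠ univ →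
      ∃ i ∈ S, ∃ j, j ∉ S ∧ c' * (2 * v) ≤ cnt (A i j) (-(v : ℤ)) v)
    (hu : 2 ^ n * v ≤ L) (hE : 2 * E ≤ ((1 / 2 : ℝ) ^ n * (c' * (2 * v))) ^ 2)
    (i j : Fin n) (hij : i ≠ j) :
    (1 / 2 : ℝ) ^ n * (c' * (2 * v)) ≤ cnt (A i j) (-((2 ^ n * v : ℕ) : ℤ)) ((2 ^ n * v : ℕ) : ℤ) := by
  classical
  set R : ℕ → Finset (Fin n) := fun m => univ.filter (fun j => j ≠ i ∧
    (1 / 2 : ℝ) ^ m * (c' * (2 * v)) ≤ cnt (A i j) (-((2 ^ m * v : ℕ) : ℤ)) ((2 ^ m * v : ℕ) : ℤ)) with hR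
  have hvr : (0 : ℝ) < v := by exact_mod_cast hv
  have hmono : ∀ m, R m ⊆ R (m + 1) := by
    intro m x hx
    simp only [hR, mem_filter, mem_univ, true_and] at hx ⊢
    refine ⟨hx.1, ?_⟩
    have hle : 2 ^ m * v ≤ 2 ^ (m + 1) * v :=
      Nat.mul_le_mul_right _ (Nat.pow_le_pow_right (by norm_num) (Nat.le_succ m))
    refine le_trans (le_trans ?_ hx.2) (cnt_mono _ (by omega) (by omega))
    rw [pow_succ]
    have : 0 ≤ (1 / 2 : ℝ) ^ m * (c' * (2 * v)) := by positivity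
    nlinarith
  have h0m : ∀ m, R 0 ⊆ R m := by
    intro m
    induction m with
    | zero => exact subset_rfl
    | succ m ih => exact ih.trans (hmono m)
  have key : ∀ m, m ≤ n → (m + 1 ≤ (R m).card ∨ insert i (R m) = univ) := by
    intro m
    induction m with
    | zero =>
      intro _
      left
      have hne : ({i} : Finset (Fin n)) ≠ univ := by
        intro h
        have := congrArg Finset.card h
        simp at this
        omega
      obtain ⟨k, hk, l, hl, hkl⟩ := hV {i} (by simp) hne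
      have hk' : k = i := by simpa using hk
      subst hk'
      have : l ∈ R 0 := by
        simp only [hR, mem_filter, mem_univ, true_and, pow_zero, one_mul]
        exact ⟨by simpa using hl, hkl⟩
      exact Finset.card_pos.mpr ⟨l, this⟩
    | succ m ih =>
      intro hm
      rcases ih (by omega) with h | h
      · by_cases hfull : insert i (R m) = univ
        · right
          apply Finset.eq_univ_of_forall
          intro x
          have hx : x ∈ insert i (R m) := by rw [hfull]; simp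
          exact Finset.insert_subset_insert i (hmono m) hx
        · left
          obtain ⟨k, hk, l, hl, hkl⟩ := hV (insert i (R m)) (by simp) hfull
          have hli : l ≠ i := fun h => hl (by rw [h]; simp)
          have hlR : l ∉ R m := fun h => hl (by simp [h])
          have hki : k ≠ i := by
            intro h
            subst h
            apply hlR
            apply h0m m
            simp only [hR, mem_filter, mem_univ, true_and, pow_zero, one_mul]
            exact ⟨hli, hkl⟩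
          have hkR : k ∈ R m := by
            rcases Finset.mem_insert.mp hk with h | h
            · exact absurd h hki
            · exact h
          have hkl' : k ≠ l := fun h => hlR (h ▸ hkR)
          simp only [hR, mem_filter, mem_univ, true_and] at hkR
          have hpow : (1 / 2 : ℝ) ^ n ≤ (1 / 2 : ℝ) ^ m :=
            pow_le_pow_of_le_one (by norm_num) (by norm_num) (by omega)
          have hpow1 : (1 / 2 : ℝ) ^ n ≤ 1 := pow_le_one₀ (by norm_num) (by norm_num)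
          have hcv : 0 < c' * (2 * (v : ℝ)) := by positivity
          have hle : 2 ^ (m + 1) * v ≤ L := by
            refine le_trans ?_ hu
            exact Nat.mul_le_mul_right _ (Nat.pow_le_pow_right (by norm_num) hm)
          have hle2 : 2 ^ m * v + v ≤ 2 ^ (m + 1) * v := by
            have : 1 ≤ 2 ^ m := Nat.one_le_two_pow
            rw [pow_succ]; nlinarith
          have hcomp := comp (A i k) (A k l) (A i l) L E (H1 i k l hki.symm hkl' hli.symm)
            (-((2 ^ m * v : ℕ) : ℤ)) ((2 ^ m * v : ℕ) : ℤ) (-(v : ℤ)) v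
            (by omega) (by omega) (by omega) (by omega) (by omega) (by omega)
            (by
              refine hE.trans ?_
              rw [sq]
              have e1 : (1 / 2 : ℝ) ^ n * (c' * (2 * v)) ≤
                  cnt (A i k) (-((2 ^ m * v : ℕ) : ℤ)) ((2 ^ m * v : ℕ) : ℤ) :=
                (mul_le_mul_of_nonneg_right hpow hcv.le).trans hkR.2
              have e2 : (1 / 2 : ℝ) ^ n * (c' * (2 * v)) ≤ cnt (A k l) (-(v : ℤ)) v := by
                refine le_trans ?_ hkl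
                nlinarith
              exact mul_le_mul e1 e2 (by positivity) (cnt_nonneg _ _ _))
            (lt_of_lt_of_le hcv hkl)
          have hl' : l ∈ R (m + 1) := by
            simp only [hR, mem_filter, mem_univ, true_and]
            refine ⟨hli, ?_⟩
            have hm2 : cnt (A i l) (-((2 ^ m * v : ℕ) : ℤ) + -(v : ℤ)) (((2 ^ m * v : ℕ) : ℤ) + v) ≤
                cnt (A i l) (-((2 ^ (m + 1) * v : ℕ) : ℤ)) ((2 ^ (m + 1) * v : ℕ) : ℤ) :=
              cnt_mono _ (by omega) (by omega)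
            have h7 := hkR.2
            rw [pow_succ]
            linarith
          have hsub : insert l (R m) ⊆ R (m + 1) := by
            intro x hx
            rcases Finset.mem_insert.mp hx with h | h
            · rw [h]; exact hl'
            · exact hmono m h
          have hc := Finset.card_le_card hsub
          rw [Finset.card_insert_of_notMem hlR] at hc
          omega
      · right
        apply Finset.eq_univ_of_forall
        intro x
        have hx : x ∈ insert i (R m) := by rw [h]; simp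
        exact Finset.insert_subset_insert i (hmono m) hx
  have hfin : insert i (R n) = univ := by
    rcases key n le_rfl with h | h
    · exfalso
      have := Finset.card_le_univ (R n)
      simp only [Fintype.card_fin] at this
      omega
    · exact h
  have hj : j ∈ insert i (R n) := by rw [hfin]; simp
  rcases Finset.mem_insert.mp hj with h | h
  · exact absurd h.symm hij
  · simp only [hR, mem_filter, mem_univ, true_and] at h
    exact h.2

/-- the almost invariance of `A i j` under `q * h`, `q = N!` -/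
lemma almost_inv (X Y1 X2 Y2 : Set ℤ) (L u N : ℕ) (E κ : ℝ) (hκ : 0 < κ) (hE0 : 0 ≤ E)
    (hu : u ≤ L)
    (B1 : ((badPairs X Y1 X2 L).card : ℝ) ≤ E) (B2 : ((badPairs X2 Y2 X L).card : ℝ) ≤ E)
    (d1 : κ ≤ cnt Y1 (-(u : ℤ)) u) (d2 : κ ≤ cnt Y2 (-(u : ℤ)) u)
    (hEu : 16 * E ≤ κ * u)
    (hN : (12 * u + 2 : ℝ) < (N + 1) * κ) (h : ℤ) (hh : N * |h| ≤ u) :
    dif X L ((N.factorial : ℤ) * h) ≤ 22 * N.factorial * u := by
  classical
  obtain ⟨G1, hG1, hc1⟩ := popular X Y1 X2 L E B1 (-(u : ℤ)) u (by omega) (by omega)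
  obtain ⟨G2, hG2, hc2⟩ := popular X2 Y2 X L E B2 (-(u : ℤ)) u (by omega) (by omega)
  have hG1ne : G1.Nonempty := by
    rw [← Finset.card_pos]
    have : (0 : ℝ) < G1.card := by linarith
    exact_mod_cast this
  obtain ⟨r0, hr0⟩ := hG1ne
  obtain ⟨r1, r2, -, r4⟩ := hG1 r0 hr0
  have hur : (0 : ℝ) ≤ u := by positivity
  have hbad1 : ((badOne X X2 L r0).card : ℝ) * κ ≤ 2 * E :=
    le_trans (mul_le_mul_of_nonneg_left d1 (by positivity)) r4
  have hb1 : ((badOne X X2 L r0).card : ℝ) ≤ u / 8 := by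
    by_contra hcon
    push Not at hcon
    nlinarith
  have habs0 : |(r0 : ℝ)| ≤ u := by
    have : |r0| ≤ (u : ℤ) := by rw [abs_le]; constructor <;> omega
    exact_mod_cast this
  -- one sided loss for s = r0 + r'
  have hloss : ∀ r' ∈ G2, dif X L (r0 + r') ≤ (17 / 2) * u := by
    intro r' hr'
    obtain ⟨t1, t2, -, t4⟩ := hG2 r' hr'
    have hbad2 : ((badOne X2 X L r').card : ℝ) * κ ≤ 2 * E :=
      le_trans (mul_le_mul_of_nonneg_left d2 (by positivity)) t4
    have hb2 : ((badOne X2 X L r').card : ℝ) ≤ u / 8 := by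
      by_contra hcon
      push Not at hcon
      nlinarith
    have hsub : badOne X X L (r0 + r') ⊆ badOne X X2 L r0 ∪
        ((badOne X2 X L r').image (fun y => y - r0) ∪
          (Finset.Icc (-(L : ℤ)) (-(L : ℤ) - 1 - r0) ∪ Finset.Icc ((L : ℤ) + 1 - r0) L)) := by
      intro x hx
      simp only [badOne, mem_filter, mem_Icc, mem_union, mem_image] at hx ⊢
      obtain ⟨⟨x1, x2⟩, x3, x4, x5⟩ := hx
      by_cases hw : |x + r0| ≤ (L : ℤ)
      · by_cases hx2 : x + r0 ∈ X2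
        · right; left
          refine ⟨x + r0, ⟨⟨(abs_le.mp hw).1, (abs_le.mp hw).2⟩, hx2, ?_, ?_⟩, by ring⟩
          · rwa [add_assoc]
          · rwa [add_assoc]
        · left; exact ⟨⟨x1, x2⟩, x3, hw, hx2⟩
      · right; right
        rw [abs_le] at hw
        rcases not_and_or.mp hw with hw | hw
        · left; constructor <;> omega
        · right; constructor <;> omega
    have hc : (Finset.Icc (-(L : ℤ)) (-(L : ℤ) - 1 - r0) ∪ Finset.Icc ((L : ℤ) + 1 - r0) L).card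
        ≤ u := by
      refine (Finset.card_union_le _ _).trans ?_
      simp only [Int.card_Icc]
      omega
    have h3 := (Finset.card_le_card hsub).trans ((Finset.card_union_le _ _).trans
      (Nat.add_le_add_left ((Finset.card_union_le _ _).trans
        (Nat.add_le_add (Finset.card_image_le) hc)) _))
    have h3' : ((badOne X X L (r0 + r')).card : ℝ) ≤
        (badOne X X2 L r0).card + ((badOne X2 X L r').card + u) := by exact_mod_cast h3
    have h4 := dif_le_loss X L (r0 + r')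
    have h5 : |((r0 + r' : ℤ) : ℝ)| ≤ 2 * u := by
      have : |r0 + r'| ≤ 2 * (u : ℤ) := by rw [abs_le]; constructor <;> omega
      exact_mod_cast this
    linarith
  -- pigeonhole
  have hpig : ∃ m : ℕ, 1 ≤ m ∧ m ≤ N ∧ dif X L (m * h) ≤ 21 * u := by
    have hmaps : ∀ p ∈ (Finset.range (N + 1)) ×ˢ G2, (fun p : ℕ × ℤ => r0 + p.2 + (p.1 : ℤ) * h) p ∈
        Finset.Icc (-(3 * (u : ℤ))) (3 * u) := by
      rintro ⟨a, t⟩ hp
      simp only [mem_product, mem_range, mem_Icc] at hp ⊢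
      obtain ⟨t1, t2, -, -⟩ := hG2 t hp.2
      have ha : |(a : ℤ) * h| ≤ u := by
        rw [abs_mul]
        have : |(a : ℤ)| ≤ N := by
          rw [abs_of_nonneg (by positivity)]; omega
        exact (mul_le_mul_of_nonneg_right this (abs_nonneg h)).trans hh
      obtain ⟨ha1, ha2⟩ := abs_le.mp ha
      constructor <;> linarith
    have hcard : (Finset.Icc (-(3 * (u : ℤ))) (3 * u)).card < ((Finset.range (N + 1)) ×ˢ G2).card := by
      rw [Finset.card_product, Finset.card_range, Int.card_Icc]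
      have e1 : ((3 * (u : ℤ)) + 1 - (-(3 * (u : ℤ)))).toNat = 6 * u + 1 := by omega
      rw [e1]
      have : ((6 * u + 1 : ℕ) : ℝ) < (((N + 1) * G2.card : ℕ) : ℝ) := by
        push_cast
        have : ((N : ℝ) + 1) * κ ≤ (N + 1) * (2 * G2.card) :=
          mul_le_mul_of_nonneg_left (d2.trans hc2) (by positivity)
        linarith
      exact_mod_cast this
    obtain ⟨⟨a, t⟩, hp, ⟨b, t'⟩, hp', hne, heq⟩ :=
      Finset.exists_ne_map_eq_of_card_lt_of_maps_to hcard hmaps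
    simp only [mem_product, mem_range] at hp hp'
    simp only at heq
    have hab : a ≠ b := by
      intro hab
      subst hab
      apply hne
      have : t = t' := by linarith
      rw [this]
    have main : ∀ (a b : ℕ) (t t' : ℤ), a < N + 1 → t ∈ G2 → t' ∈ G2 → b < a →
        r0 + t + (a : ℤ) * h = r0 + t' + (b : ℤ) * h →
        ∃ m : ℕ, 1 ≤ m ∧ m ≤ N ∧ dif X L (m * h) ≤ 21 * u := by
      intro a b t t' ha ht ht' hba heq
      refine ⟨a - b, by omega, by omega, ?_⟩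
      have e : ((a - b : ℕ) : ℤ) * h = (r0 + t') + -(r0 + t) := by
        rw [Nat.cast_sub hba.le]; linarith
      rw [e]
      have k1 := dif_add X L (r0 + t') (-(r0 + t))
      have k2 := dif_neg X L (r0 + t)
      have k3 := hloss t ht
      have k4 := hloss t' ht'
      obtain ⟨t1, t2, -, -⟩ := hG2 t ht
      obtain ⟨t3, t4, -, -⟩ := hG2 t' ht'
      have h5 : |((r0 + t' : ℤ) : ℝ)| ≤ 2 * u := by
        have : |r0 + t'| ≤ 2 * (u : ℤ) := by rw [abs_le]; constructor <;> omega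
        exact_mod_cast this
      have h6 : |((r0 + t : ℤ) : ℝ)| ≤ 2 * u := by
        have : |r0 + t| ≤ 2 * (u : ℤ) := by rw [abs_le]; constructor <;> omega
        exact_mod_cast this
      linarith
    rcases lt_or_gt_of_ne hab with hlt | hlt
    · exact main b a t' t hp'.1 hp'.2 hp.2 hlt heq.symm
    · exact main a b t t' hp.1 hp.2 hp'.2 hlt heq
  obtain ⟨m, hm1, hmN, hm⟩ := hpig
  have hdvd : m ∣ N.factorial := Nat.dvd_factorial hm1 hmN
  obtain ⟨k, hk⟩ := hdvd
  have hkle : k ≤ N.factorial := by rw [hk]; exact Nat.le_mul_of_pos_left _ hm1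
  have e : (N.factorial : ℤ) * h = (k : ℤ) * ((m : ℤ) * h) := by rw [hk]; push_cast; ring
  rw [e]
  have h1 := dif_mul X L ((m : ℤ) * h) k
  have h2 : |(((m : ℤ) * h : ℤ) : ℝ)| ≤ u := by
    have : |(m : ℤ) * h| ≤ u := by
      rw [abs_mul]
      have : |(m : ℤ)| ≤ N := by
        rw [abs_of_nonneg (by positivity)]; exact_mod_cast hmN
      exact (mul_le_mul_of_nonneg_right this (abs_nonneg h)).trans hh
    exact_mod_cast this
  have h3 : (k : ℝ) ≤ N.factorial := by exact_mod_cast hkle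
  calc dif X L ((k : ℤ) * ((m : ℤ) * h)) ≤ k * (dif X L ((m : ℤ) * h) + |(((m : ℤ) * h : ℤ) : ℝ)|) := h1
    _ ≤ k * (21 * u + u) := by
        apply mul_le_mul_of_nonneg_left _ (by positivity)
        linarith
    _ ≤ N.factorial * (21 * u + u) := mul_le_mul_of_nonneg_right h3 (by positivity)
    _ = 22 * N.factorial * u := by ring

open Classical in
/-- counting: a set of points without elements of `X` in `[x,x+q)`, although every window of length
`q*H` has many elements, is small if `X` is almost invariant under `q*h`, `h < H`. -/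
lemma gaps_le (X : Set ℤ) (L q H : ℕ) (D t : ℝ)
    (hD : ∀ h < H, dif X L ((q : ℤ) * h) ≤ D)
    (hwin : ∀ a : ℤ, -(L : ℤ) ≤ a → a + q * H ≤ L → t ≤ cnt X a (a + q * H)) :
    (((Finset.Icc (-(L : ℤ)) L).filter
      (fun r => r + q * H ≤ (L : ℤ) ∧ ∀ s : ℤ, r ≤ s → s < r + q → s ∉ X)).card : ℝ) * t
      ≤ q * H * D := by
  classical
  set Bd := (Finset.Icc (-(L : ℤ)) L).filter
      (fun r => r + q * H ≤ (L : ℤ) ∧ ∀ s : ℤ, r ≤ s → s < r + q → s ∉ X) with hBd
  -- for each bad r the count is a double sum of differences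
  have h1 : ∀ r ∈ Bd, t ≤ ∑ h ∈ Finset.range H, ∑ j ∈ Finset.range q,
      (if ¬ ((r + j) ∈ X ↔ (r + j) + (q : ℤ) * h ∈ X) then (1 : ℝ) else 0) := by
    intro r hr
    simp only [hBd, mem_filter, mem_Icc] at hr
    obtain ⟨⟨hr1, hr2⟩, hr3, hr4⟩ := hr
    refine (hwin r hr1 hr3).trans ?_
    have hcard : ((Finset.Ico r (r + q * H)).filter (fun x => x ∈ X)).card ≤
        (((Finset.range H) ×ˢ (Finset.range q)).filter
          (fun p : ℕ × ℕ => ¬ ((r + p.2) ∈ X ↔ (r + p.2) + (q : ℤ) * p.1 ∈ X))).card := by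
      apply Finset.card_le_card_of_injOn
        (fun x => (((x - r) / q).toNat, ((x - r) % q).toNat))
      · intro x hx
        simp only [coe_filter, mem_Ico, Set.mem_ofPred_eq, mem_product, mem_range] at hx ⊢
        obtain ⟨⟨hx1, hx2⟩, hx3⟩ := hx
        have hq : 0 < (q : ℤ) := by
          rcases Nat.eq_zero_or_pos q with h | h
          · subst h; simp at hx2; omega
          · exact_mod_cast h
        have hd1 : 0 ≤ (x - r) / q := Int.ediv_nonneg (by omega) hq.le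
        have hd2 : (x - r) / q < H := by
          apply Int.ediv_lt_of_lt_mul hq; linarith
        have hm1 : 0 ≤ (x - r) % q := Int.emod_nonneg _ hq.ne'
        have hm2 : (x - r) % q < q := Int.emod_lt_of_pos _ hq
        have e : r + (((x - r) % q).toNat : ℤ) + (q : ℤ) * (((x - r) / q).toNat : ℤ) = x := by
          rw [Int.toNat_of_nonneg hd1, Int.toNat_of_nonneg hm1]
          have := Int.emod_add_mul_ediv (x - r) q
          linarith
        refine ⟨⟨by omega, by omega⟩, ?_⟩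
        rw [e]
        intro hiff
        exact hr4 (r + (((x - r) % q).toNat : ℤ)) (by omega) (by omega) (hiff.mpr hx3)
      · intro x hx y hy hxy
        simp only [coe_filter, mem_Ico, Set.mem_ofPred_eq] at hx hy
        simp only [Prod.mk.injEq] at hxy
        have hq : 0 < (q : ℤ) := by
          rcases Nat.eq_zero_or_pos q with h | h
          · subst h
            have := hx.1.2
            simp at this; omega
          · exact_mod_cast h
        have hd1 : 0 ≤ (x - r) / q := Int.ediv_nonneg (by omega) hq.le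
        have hd1' : 0 ≤ (y - r) / q := Int.ediv_nonneg (by omega) hq.le
        have hm1 : 0 ≤ (x - r) % q := Int.emod_nonneg _ hq.ne'
        have hm1' : 0 ≤ (y - r) % q := Int.emod_nonneg _ hq.ne'
        have e1 : (x - r) / q = (y - r) / q := by omega
        have e2 : (x - r) % q = (y - r) % q := by omega
        have e3 := Int.emod_add_mul_ediv (x - r) q
        have e4 := Int.emod_add_mul_ediv (y - r) q
        rw [e1, e2] at e3
        linarith
    have hsum : ((((Finset.range H) ×ˢ (Finset.range q)).filter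
          (fun p : ℕ × ℕ => ¬ ((r + p.2) ∈ X ↔ (r + p.2) + (q : ℤ) * p.1 ∈ X))).card : ℝ) =
        ∑ h ∈ Finset.range H, ∑ j ∈ Finset.range q,
          (if ¬ ((r + j) ∈ X ↔ (r + j) + (q : ℤ) * h ∈ X) then (1 : ℝ) else 0) := by
      rw [Finset.card_filter, Finset.sum_product]
      push_cast
      rfl
    rw [← hsum]
    unfold cnt
    exact_mod_cast hcard
  have h2 : (Bd.card : ℝ) * t ≤ ∑ r ∈ Bd, ∑ h ∈ Finset.range H, ∑ j ∈ Finset.range q,
      (if ¬ ((r + j) ∈ X ↔ (r + j) + (q : ℤ) * h ∈ X) then (1 : ℝ) else 0) := by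
    rw [← nsmul_eq_mul, ← Finset.sum_const]
    exact Finset.sum_le_sum h1
  refine h2.trans ?_
  rw [Finset.sum_comm]
  have h3 : ∀ h ∈ Finset.range H, ∑ r ∈ Bd, ∑ j ∈ Finset.range q,
      (if ¬ ((r + j) ∈ X ↔ (r + j) + (q : ℤ) * h ∈ X) then (1 : ℝ) else 0) ≤ q * D := by
    intro h hh
    rw [Finset.sum_comm]
    have h4 : ∀ j ∈ Finset.range q, ∑ r ∈ Bd,
        (if ¬ ((r + j) ∈ X ↔ (r + j) + (q : ℤ) * h ∈ X) then (1 : ℝ) else 0) ≤ D := by
      intro j hj
      refine le_trans ?_ (hD h (Finset.mem_range.mp hh))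
      rw [← Finset.sum_filter, Finset.sum_const, nsmul_eq_mul, mul_one]
      unfold dif
      have : (Bd.filter (fun r : ℤ => ¬ ((r + j) ∈ X ↔ (r + j) + (q : ℤ) * h ∈ X))).card ≤
          ((Finset.Icc (-(L : ℤ)) L).filter (fun x => ¬ (x ∈ X ↔ x + (q : ℤ) * h ∈ X))).card := by
        apply Finset.card_le_card_of_injOn (fun r => r + (j : ℤ))
        · intro r hr
          simp only [hBd, coe_filter, mem_filter, mem_Icc, Set.mem_ofPred_eq] at hr ⊢
          obtain ⟨⟨⟨hr1, hr2⟩, hr3, -⟩, hr5⟩ := hr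
          have hj' := Finset.mem_range.mp hj
          have hH : 1 ≤ H := by
            have := Finset.mem_range.mp hh
            omega
          have hqH : (q : ℤ) ≤ q * H := by
            have : (1 : ℤ) ≤ H := by exact_mod_cast hH
            nlinarith
          exact ⟨⟨by omega, by linarith [show (j : ℤ) < q by exact_mod_cast hj']⟩, hr5⟩
        · intro x _ y _ h
          simpa using h
      exact_mod_cast this
    calc ∑ j ∈ Finset.range q, ∑ r ∈ Bd,
        (if ¬ ((r + j) ∈ X ↔ (r + j) + (q : ℤ) * h ∈ X) then (1 : ℝ) else 0)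
        ≤ ∑ _j ∈ Finset.range q, D := Finset.sum_le_sum h4
      _ = q * D := by simp
  calc ∑ h ∈ Finset.range H, ∑ r ∈ Bd, ∑ j ∈ Finset.range q,
      (if ¬ ((r + j) ∈ X ↔ (r + j) + (q : ℤ) * h ∈ X) then (1 : ℝ) else 0)
      ≤ ∑ _h ∈ Finset.range H, (q : ℝ) * D := Finset.sum_le_sum h3
    _ = q * H * D := by simp; ring

open Classical in
set_option maxHeartbeats 2000000 in
/-- **COMB-AIJ**. -/
theorem comb (n : ℕ) (hn : 3 ≤ n) (c ε : ℝ) (hc : 0 < c) (hε : 0 < ε) :
    ∃ (G : ℕ) (δ η : ℝ) (L0 : ℕ), 0 < δ ∧ 0 < η ∧ ∀ L : ℕ, L0 ≤ L →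
      ∀ A : Fin n → Fin n → Set ℤ,
      (∀ i j k : Fin n, i ≠ j → j ≠ k → i ≠ k →
        ((badPairs (A i j) (A j k) (A i k) L).card : ℝ) ≤ η * (L : ℝ) ^ 2) →
      (∀ a b : ℤ, -(L : ℤ) ≤ a → b ≤ L → δ * L ≤ ((b - a : ℤ) : ℝ) →
        ∀ S : Finset (Fin n), S.Nonempty → S ≠ univ →
        c * ((b - a : ℤ) : ℝ) ≤ ∑ i ∈ S, ∑ j ∈ Sᶜ, cnt (A i j) a b) →
      ∀ i j : Fin n, i ≠ j →
        (((Finset.Icc (-(L : ℤ)) L).filter
          (fun r => ∀ s : ℤ, r ≤ s → s < r + G → s ∉ A i j)).card : ℝ) ≤ ε * L := by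
  have hnr : (0 : ℝ) < n := by
    have : 0 < n := by omega
    exact_mod_cast this
  set c' : ℝ := c / (n : ℝ) ^ 2 with hc'def
  have hc' : 0 < c' := by positivity
  set κ0 : ℝ := (1 / 2 : ℝ) ^ n * (c' * 2) with hκ0
  have hκ0pos : 0 < κ0 := by positivity
  set N : ℕ := ⌈(12 * 2 ^ n + 2 : ℝ) / κ0⌉₊ + 2 ^ (n + 2) + 2 with hN
  have hN1 : (12 * 2 ^ n + 2 : ℝ) < (N + 1) * κ0 := by
    have h1 : (12 * 2 ^ n + 2 : ℝ) / κ0 ≤ ⌈(12 * 2 ^ n + 2 : ℝ) / κ0⌉₊ := Nat.le_ceil _
    have h2 : (⌈(12 * 2 ^ n + 2 : ℝ) / κ0⌉₊ : ℝ) < N + 1 := by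
      have : ⌈(12 * 2 ^ n + 2 : ℝ) / κ0⌉₊ < N + 1 := by
        rw [hN]; have := Nat.one_le_two_pow (n := n + 2); omega
      exact_mod_cast this
    rw [← div_lt_iff₀ hκ0pos]
    linarith
  have hN2 : 2 ^ (n + 2) + 2 ≤ N := by
    rw [hN]; exact Nat.add_le_add_right (Nat.le_add_left _ _) 2
  have hNpos : 1 ≤ N := by
    rw [hN]; exact le_trans (by norm_num) (Nat.le_add_left 2 _)
  clear_value N
  set q : ℕ := N.factorial with hq
  have hqge : 4 * (2 ^ n * N) ≤ q := by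
    have h1 : q = N * (N - 1).factorial := by
      rw [hq]; exact (Nat.mul_factorial_pred (by omega)).symm
    have h2 : N - 1 ≤ (N - 1).factorial := Nat.self_le_factorial _
    have h3 : 2 ^ (n + 2) ≤ (N - 1).factorial := by omega
    rw [h1]
    calc 4 * (2 ^ n * N) = N * 2 ^ (n + 2) := by ring
      _ ≤ N * (N - 1).factorial := Nat.mul_le_mul_left _ h3
  have hqpos : 1 ≤ q := Nat.factorial_pos _
  set C1 : ℝ := 88 * q * (2 ^ n * N) / c' + q with hC1
  have hC1pos : 0 < C1 := by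
    have : (0 : ℝ) < q := by exact_mod_cast hqpos
    positivity
  set B : ℕ := ⌈C1 / ε⌉₊ + q + 1 with hB
  have hB1 : C1 ≤ ε * B := by
    have h1 : C1 / ε ≤ ⌈C1 / ε⌉₊ := Nat.le_ceil _
    have h2 : (⌈C1 / ε⌉₊ : ℝ) ≤ B := by
      have : ⌈C1 / ε⌉₊ ≤ B := by rw [hB]; omega
      exact_mod_cast this
    have h3 : C1 / ε ≤ B := h1.trans h2
    rw [div_le_iff₀ hε] at h3
    linarith
  have hBq : q ≤ B := by rw [hB]; omega
  have hBpos : 0 < B := by omega
  clear_value B
  have hBr : (0 : ℝ) < B := by exact_mod_cast hBpos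
  refine ⟨q, 1 / (2 * B), min (κ0 ^ 2) κ0 / (64 * B ^ 2), B, by positivity,
    div_pos (lt_min (by positivity) hκ0pos) (by positivity), ?_⟩
  intro L hL A H1 H2 i j hij
  set η : ℝ := min (κ0 ^ 2) κ0 / (64 * (B : ℝ) ^ 2) with hη
  set H : ℕ := L / B with hH
  have hHpos : 1 ≤ H := (Nat.one_le_div_iff hBpos).mpr hL
  have hBH : B * H ≤ L := Nat.mul_div_le L B
  have hLB : L < B * (H + 1) := by
    rw [hH]; exact Nat.lt_mul_div_succ L hBpos
  clear_value H
  have hHr : (1 : ℝ) ≤ H := by exact_mod_cast hHpos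
  have hLr2 : (L : ℝ) ≤ 2 * B * H := by
    have h1 : (L : ℝ) < B * (H + 1) := by exact_mod_cast hLB
    nlinarith
  set v : ℕ := N * H with hv
  have hvpos : 0 < v := Nat.mul_pos (by omega) (by omega)
  have hHv : H ≤ v := Nat.le_mul_of_pos_left _ (by omega)
  set u : ℕ := 2 ^ n * v with hu
  have hvu : v ≤ u := Nat.le_mul_of_pos_left _ (by positivity)
  have h4u : 4 * u ≤ q * H := by
    calc 4 * u = 4 * (2 ^ n * N) * H := by rw [hu, hv]; ring
      _ ≤ q * H := Nat.mul_le_mul_right _ hqge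
  have hqHL : q * H ≤ L := (Nat.mul_le_mul_right _ hBq).trans hBH
  have huL : u ≤ L := by omega
  have hLrpos : (0 : ℝ) < L := by
    have : 0 < L := by omega
    exact_mod_cast this
  -- the bound on E
  have hHvr : (H : ℝ) ≤ v := by exact_mod_cast hHv
  have hvur : (v : ℝ) ≤ u := by exact_mod_cast hvu
  have hvr : (0 : ℝ) < v := by linarith
  have hEH : η * (L : ℝ) ^ 2 ≤ min (κ0 ^ 2) κ0 / 16 * H ^ 2 := by
    have h1 : (L : ℝ) ^ 2 ≤ (2 * B * H) ^ 2 := by gcongr
    have h2 : 0 ≤ η := by rw [hη]; exact div_nonneg (le_min (by positivity) hκ0pos.le) (by positivity)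
    calc η * (L : ℝ) ^ 2 ≤ η * (2 * B * H) ^ 2 := mul_le_mul_of_nonneg_left h1 h2
      _ = min (κ0 ^ 2) κ0 / 16 * H ^ 2 := by rw [hη]; field_simp; ring
  have hH2v : (H : ℝ) ^ 2 ≤ v ^ 2 := by gcongr
  have hE1 : 2 * (η * (L : ℝ) ^ 2) ≤ (κ0 * v) ^ 2 := by
    have h1 : min (κ0 ^ 2) κ0 ≤ κ0 ^ 2 := min_le_left _ _
    have h2 : min (κ0 ^ 2) κ0 / 16 * (H : ℝ) ^ 2 ≤ κ0 ^ 2 / 16 * v ^ 2 := by gcongr
    have h3 : 0 ≤ κ0 ^ 2 * (v : ℝ) ^ 2 := by positivity
    rw [mul_pow]
    linarith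
  have hE2 : 16 * (η * (L : ℝ) ^ 2) ≤ (κ0 * v) * u := by
    have h1 : min (κ0 ^ 2) κ0 ≤ κ0 := min_le_right _ _
    have h2 : min (κ0 ^ 2) κ0 / 16 * (H : ℝ) ^ 2 ≤ κ0 / 16 * v ^ 2 := by gcongr
    have h3 : κ0 * (v : ℝ) ^ 2 ≤ κ0 * v * u := by
      rw [sq, ← mul_assoc]
      exact mul_le_mul_of_nonneg_left hvur (by positivity)
    linarith
  have hE0 : 0 ≤ η * (L : ℝ) ^ 2 := by
    have h2 : 0 ≤ η := by rw [hη]; exact div_nonneg (le_min (by positivity) hκ0pos.le) (by positivity)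
    positivity
  -- base windows
  have hV : ∀ S : Finset (Fin n), S.Nonempty → S ≠ univ →
      ∃ i ∈ S, ∃ j, j ∉ S ∧ c' * (2 * v) ≤ cnt (A i j) (-(v : ℤ)) v := by
    intro S hS hS'
    have hw : 1 / (2 * (B : ℝ)) * L ≤ (((v : ℤ) - (-(v : ℤ)) : ℤ) : ℝ) := by
      push_cast
      rw [div_mul_eq_mul_div, div_le_iff₀ (by positivity)]
      nlinarith
    have h := H2 (-(v : ℤ)) v (by omega) (by omega) hw S hS hS'
    obtain ⟨i, hi, j, hj, hij⟩ := exists_dense n A _ _ _ (by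
      have : (0 : ℝ) ≤ (((v : ℤ) - (-(v : ℤ)) : ℤ) : ℝ) := by push_cast; linarith
      positivity) S h hS hS'
    refine ⟨i, hi, j, hj, le_trans (le_of_eq ?_) hij⟩
    rw [hc'def]; push_cast; ring
  have hsmall : ∀ i j : Fin n, i ≠ j → κ0 * v ≤ cnt (A i j) (-(u : ℤ)) u := by
    intro i j hij
    have h := dense_small n hn A L v hvpos (η * (L : ℝ) ^ 2) c' hc' H1 hV huL (by
      refine hE1.trans (le_of_eq ?_)
      rw [hκ0]; ring) i j hij
    refine le_trans (le_of_eq ?_) h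
    rw [hκ0]; ring
  -- a third index
  obtain ⟨k, hki, hkj⟩ : ∃ k : Fin n, k ≠ i ∧ k ≠ j := by
    by_contra hcon
    push Not at hcon
    have hsub : (univ : Finset (Fin n)) ⊆ {i, j} := by
      intro k _
      by_cases h : k = i
      · simp [h]
      · simp [hcon k h]
    have := Finset.card_le_card hsub
    have h2 : ({i, j} : Finset (Fin n)).card ≤ 2 := Finset.card_le_two
    simp only [Finset.card_univ, Fintype.card_fin] at this
    omega
  -- almost invariance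
  have hinv : ∀ h < H, dif (A i j) L ((q : ℤ) * h) ≤ 22 * q * u := by
    intro h hh
    apply almost_inv (A i j) (A j k) (A i k) (A k j) L u N (η * (L : ℝ) ^ 2) (κ0 * v)
      (by positivity) hE0 huL (H1 i j k hij hkj.symm hki.symm) (H1 i k j hki.symm hkj hij)
      (hsmall j k hkj.symm) (hsmall k j hkj) hE2
    · have h1 : (12 * (u : ℝ) + 2) ≤ (12 * 2 ^ n + 2) * v := by
        have : (u : ℝ) = 2 ^ n * v := by rw [hu]; push_cast; ring
        rw [this]
        nlinarith [show (1 : ℝ) ≤ v by exact_mod_cast hvpos]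
      have h2 : (12 * 2 ^ n + 2 : ℝ) * v < (N + 1) * κ0 * v := mul_lt_mul_of_pos_right hN1 hvr
      linarith
    · have h1 : (N : ℤ) * |(h : ℤ)| ≤ N * H := by
        rw [abs_of_nonneg (by positivity)]
        have : (h : ℤ) ≤ H := by exact_mod_cast hh.le
        exact mul_le_mul_of_nonneg_left this (by positivity)
      have h2 : (N : ℤ) * H ≤ u := by
        have : N * H ≤ u := hvu
        exact_mod_cast this
      linarith
  -- all windows of length q*H
  have hwin : ∀ a : ℤ, -(L : ℤ) ≤ a → a + q * H ≤ L → c' * (q * H) / 4 ≤ cnt (A i j) a (a + q * H) := by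
    intro a ha hb
    have h4u' : 4 * (u : ℤ) ≤ q * H := by exact_mod_cast h4u
    have h4ur : 4 * (u : ℝ) ≤ q * H := by exact_mod_cast h4u
    have hqr : (4 : ℝ) ≤ q := by
      have h1 : 4 ≤ q := by
        have : 1 ≤ 2 ^ n * N := Nat.mul_pos (by positivity) (by omega)
        omega
      exact_mod_cast h1
    have hw : 1 / (2 * (B : ℝ)) * L ≤ (((a + q * H - u) - (a + u) : ℤ) : ℝ) := by
      push_cast
      rw [div_mul_eq_mul_div, div_le_iff₀ (by positivity)]
      have h5 : (H : ℝ) ≤ q * H / 2 := by nlinarith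
      have h6 : (q : ℝ) * H / 2 ≤ (a + q * H - u) - (a + u) := by linarith
      have h7 : (H : ℝ) ≤ (a + q * H - u) - (a + u) := h5.trans h6
      have h8 : (H : ℝ) * (2 * B) ≤ ((a + q * H - u) - (a + u)) * (2 * B) :=
        mul_le_mul_of_nonneg_right h7 (by positivity)
      linarith
    have hne : ({i} : Finset (Fin n)) ≠ univ := by
      intro h
      have := congrArg Finset.card h
      simp at this
      omega
    have h := H2 (a + u) (a + q * H - u) (by omega) (by omega) hw {i} (by simp) hne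
    have hwr : (q : ℝ) * H / 2 ≤ (((a + q * H - u) - (a + u) : ℤ) : ℝ) := by
      push_cast; linarith
    obtain ⟨i', hi', l, hl, hil⟩ := exists_dense n A _ _ _ (by
      have : (0 : ℝ) ≤ (((a + q * H - u) - (a + u) : ℤ) : ℝ) := le_trans (by positivity) hwr
      positivity) {i} h (by simp) hne
    have hi'' : i' = i := by simpa using hi'
    subst hi''
    have hli : l ≠ i' := by simpa using hl
    have hX : c' * (q * H / 2) ≤ cnt (A i' l) (a + u) (a + q * H - u) := by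
      refine le_trans ?_ hil
      rw [hc'def, div_mul_eq_mul_div]
      gcongr
    by_cases hlj : l = j
    · subst hlj
      refine le_trans ?_ (hX.trans (cnt_mono _ (by omega) (by omega)))
      have : 0 ≤ c' * (q * H) := by positivity
      linarith
    · have hY := hsmall l j hlj
      have hκX : κ0 * v ≤ cnt (A i' l) (a + u) (a + q * H - u) := by
        refine le_trans ?_ hX
        have h1 : κ0 ≤ c' * 2 := by
          rw [hκ0]
          have : (1 / 2 : ℝ) ^ n ≤ 1 := pow_le_one₀ (by norm_num) (by norm_num)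
          nlinarith
        calc κ0 * v ≤ (c' * 2) * u := mul_le_mul h1 hvur hvr.le (by positivity)
          _ ≤ c' * (q * H / 2) := by nlinarith
      have hcomp := comp (A i' l) (A l j) (A i' j) L (η * (L : ℝ) ^ 2)
        (H1 i' l j hli.symm hlj hij) (a + u) (a + q * H - u) (-(u : ℤ)) u
        (by omega) (by omega) (by omega) (by omega) (by omega) (by omega)
        (by
          refine hE1.trans ?_
          rw [sq]
          exact mul_le_mul hκX hY (by positivity) (cnt_nonneg _ _ _))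
        (lt_of_lt_of_le (by positivity) hY)
      have e1 : a + (u : ℤ) + -(u : ℤ) = a := by ring
      have e2 : a + (q : ℤ) * H - u + u = a + q * H := by ring
      rw [e1, e2] at hcomp
      linarith
  have hgap := gaps_le (A i j) L q H (22 * q * u) (c' * (q * H) / 4) hinv hwin
  -- conclusion
  have hqr : (0 : ℝ) < q := by exact_mod_cast hqpos
  have hHr0 : (0 : ℝ) < H := by linarith
  have hcard1 : (((Finset.Icc (-(L : ℤ)) L).filter
      (fun r => r + q * H ≤ (L : ℤ) ∧ ∀ s : ℤ, r ≤ s → s < r + q → s ∉ A i j)).card : ℝ)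
      ≤ 88 * q * u / c' := by
    rw [le_div_iff₀ hc']
    have h1 : (((Finset.Icc (-(L : ℤ)) L).filter
      (fun r => r + q * H ≤ (L : ℤ) ∧ ∀ s : ℤ, r ≤ s → s < r + q → s ∉ A i j)).card : ℝ) * c' *
        (q * H) ≤ 88 * q * u * (q * H) := by linarith
    exact le_of_mul_le_mul_right h1 (by positivity)
  have hsub : (Finset.Icc (-(L : ℤ)) L).filter
      (fun r => ∀ s : ℤ, r ≤ s → s < r + q → s ∉ A i j) ⊆
      (Finset.Icc (-(L : ℤ)) L).filter
        (fun r => r + q * H ≤ (L : ℤ) ∧ ∀ s : ℤ, r ≤ s → s < r + q → s ∉ A i j) ∪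
      Finset.Ioc ((L : ℤ) - q * H) L := by
    intro x hx
    simp only [mem_filter, mem_Icc, mem_union, mem_Ioc] at hx ⊢
    by_cases h : x + q * H ≤ (L : ℤ)
    · exact Or.inl ⟨hx.1, h, hx.2⟩
    · right; constructor <;> omega
  have hcard2 := (Finset.card_le_card hsub).trans (Finset.card_union_le _ _)
  have hIoc : (Finset.Ioc ((L : ℤ) - q * H) L).card = q * H := by
    rw [Int.card_Ioc]
    have : (L : ℤ) - ((L : ℤ) - q * H) = ((q * H : ℕ) : ℤ) := by push_cast; ring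
    rw [this, Int.toNat_natCast]
  rw [hIoc] at hcard2
  have hcard3 : (((Finset.Icc (-(L : ℤ)) L).filter
      (fun r => ∀ s : ℤ, r ≤ s → s < r + q → s ∉ A i j)).card : ℝ) ≤ 88 * q * u / c' + q * H := by
    have : (((Finset.Icc (-(L : ℤ)) L).filter
      (fun r => ∀ s : ℤ, r ≤ s → s < r + q → s ∉ A i j)).card : ℝ) ≤
      (((Finset.Icc (-(L : ℤ)) L).filter
        (fun r => r + q * H ≤ (L : ℤ) ∧ ∀ s : ℤ, r ≤ s → s < r + q → s ∉ A i j)).card : ℝ) + q * H := by
      exact_mod_cast hcard2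
    linarith
  refine hcard3.trans ?_
  have hfin : 88 * q * (u : ℝ) / c' + q * H = H * C1 := by
    have : (u : ℝ) = 2 ^ n * (N * H) := by rw [hu, hv]; push_cast; ring
    rw [this, hC1]
    field_simp
  rw [hfin]
  have hBHr : (B : ℝ) * H ≤ L := by exact_mod_cast hBH
  calc (H : ℝ) * C1 ≤ H * (ε * B) := mul_le_mul_of_nonneg_left hB1 hHr0.le
    _ = ε * (B * H) := by ring
    _ ≤ ε * L := mul_le_mul_of_nonneg_left hBHr hε.le

end Crest.Agent.R014.Comb_583
end

-- ▼ part R014/Chain_891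
section

/-!
# Row 14, block D: abstract top assembly (helper891, task 1021 D-CHAIN)

`chain` derives from near invariance `P1`, the commutator step `P2` and the slab density `P3` for a
nested family `Fr 0 ⊆ Fr 1 ⊆ …` of free sets that for most points some depth in `[0, G)` is free.
-/

set_option autoImplicit false

noncomputable section

open MeasureTheory Finset
open scoped BigOperators Classical

namespace Crest.Agent.R014.Chain_891

universe u

open Crest.Agent.R014.Comb_583 (cnt badPairs comb)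

/-- a measure preserving action of `ℤ^n` -/
structure Sys (n : ℕ) {Ω : Type u} [MeasurableSpace Ω] (μ : Measure Ω) where
  τ : (Fin n → ℤ) → Ω → Ω
  mp : ∀ z, MeasurePreserving (τ z) μ μ
  add : ∀ z w x, τ (z + w) x = τ z (τ w x)

/-- the unit vector `r e_i` -/
def ev {n : ℕ} (i : Fin n) (r : ℤ) : Fin n → ℤ := Pi.single i r

variable {n : ℕ} {Ω : Type u} [MeasurableSpace Ω] {μ : Measure Ω}

/-- (P0)-(P3) -/
structure Hyp (n : ℕ) {Ω : Type u} [MeasurableSpace Ω] (μ : Measure Ω) (T : Sys n μ)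
    (Fr : ℕ → Fin n → Fin n → Set Ω) (M L : ℕ) (c δ ε : ℝ) : Prop where
  meas : ∀ m i j, MeasurableSet (Fr m i j)
  P0 : ∀ m < M, ∀ i j, i ≠ j → μ.real (Fr m i j \ Fr (m + 1) i j) ≤ ε
  P1 : ∀ m < M, ∀ i j, i ≠ j → ∀ z : Fin n → ℤ, z i = z j → (∀ l, |z l| ≤ 3 * L) →
    μ.real (Fr m i j \ T.τ z ⁻¹' Fr (m + 1) i j) ≤ ε
  P2 : ∀ m < M, ∀ i j k, i ≠ j → j ≠ k → i ≠ k →
    μ.real ((Fr m i j ∩ Fr m j k) \ Fr (m + 1) i k) ≤ ε
  P3 : ∃ B : Set Ω, MeasurableSet B ∧ μ.real B ≤ ε ∧ ∀ x, x ∉ B → ∀ a b : ℤ, -(L : ℤ) ≤ a →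
    b ≤ L → δ * L ≤ ((b - a : ℤ) : ℝ) → ∀ S : Finset (Fin n), S.Nonempty → S ≠ univ →
      c * ((b - a : ℤ) : ℝ) ≤ ∑ i ∈ S, ∑ j ∈ Sᶜ, cnt {r | T.τ (ev i r) x ∈ Fr 0 i j} a b

/-! ### Markov for counting functions -/

omit [MeasurableSpace Ω] in
theorem card_filter_eq {ι : Type*} (I : Finset ι) (E : ι → Set Ω) (x : Ω) :
    ((I.filter (fun a => x ∈ E a)).card : ℝ) = ∑ a ∈ I, (E a).indicator (fun _ => (1 : ℝ)) x := by
  rw [Finset.card_filter]
  push_cast
  refine Finset.sum_congr rfl fun a _ => ?_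
  by_cases h : x ∈ E a <;> simp [h]

theorem integral_card [IsProbabilityMeasure μ] {ι : Type*} (I : Finset ι) (E : ι → Set Ω)
    (hE : ∀ a, MeasurableSet (E a)) :
    Integrable (fun x => ((I.filter (fun a => x ∈ E a)).card : ℝ)) μ ∧
      ∫ x, ((I.filter (fun a => x ∈ E a)).card : ℝ) ∂μ = ∑ a ∈ I, μ.real (E a) := by
  have h1 : (fun x => ((I.filter (fun a => x ∈ E a)).card : ℝ)) =
      fun x => ∑ a ∈ I, (E a).indicator (fun _ => (1 : ℝ)) x := by
    funext x; exact card_filter_eq I E x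
  have h2 : ∀ a ∈ I, Integrable ((E a).indicator (fun _ => (1 : ℝ))) μ := fun a _ =>
    (integrable_const (1 : ℝ)).indicator (hE a)
  rw [h1]
  refine ⟨integrable_finsetSum I h2, ?_⟩
  rw [integral_finsetSum I h2]
  refine Finset.sum_congr rfl fun a _ => ?_
  rw [integral_indicator (hE a)]
  simp

theorem meas_card {ι : Type*} (I : Finset ι) (E : ι → Set Ω)
    (hE : ∀ a, MeasurableSet (E a)) (t : ℝ) :
    MeasurableSet {x | t < ((I.filter (fun a => x ∈ E a)).card : ℝ)} := by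
  have h1 : (fun x => ((I.filter (fun a => x ∈ E a)).card : ℝ)) =
      fun x => ∑ a ∈ I, (E a).indicator (fun _ => (1 : ℝ)) x := by
    funext x; exact card_filter_eq I E x
  have h2 : Measurable (fun x => ((I.filter (fun a => x ∈ E a)).card : ℝ)) := by
    rw [h1]
    exact Finset.measurable_sum _ fun a _ => measurable_const.indicator (hE a)
  exact measurableSet_lt measurable_const h2

theorem markov [IsProbabilityMeasure μ] {ι : Type*} (I : Finset ι) (E : ι → Set Ω)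
    (hE : ∀ a, MeasurableSet (E a)) {t b : ℝ} (ht : 0 < t) (hb : ∑ a ∈ I, μ.real (E a) ≤ t * b) :
    μ.real {x | t < ((I.filter (fun a => x ∈ E a)).card : ℝ)} ≤ b := by
  obtain ⟨h1, h2⟩ := integral_card (μ := μ) I E hE
  have h3 := mul_meas_ge_le_integral_of_nonneg (μ := μ)
    (f := fun x => ((I.filter (fun a => x ∈ E a)).card : ℝ))
    (Filter.Eventually.of_forall fun x => by positivity) h1 t
  have h4 : μ.real {x | t < ((I.filter (fun a => x ∈ E a)).card : ℝ)} ≤
      μ.real {x | t ≤ ((I.filter (fun a => x ∈ E a)).card : ℝ)} :=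
    measureReal_mono (fun x (hx : t < _) => show t ≤ _ from le_of_lt hx) (measure_ne_top _ _)
  rw [h2] at h3
  have h5 : t * μ.real {x | t < ((I.filter (fun a => x ∈ E a)).card : ℝ)} ≤ t * b :=
    (mul_le_mul_of_nonneg_left h4 ht.le).trans (h3.trans hb)
  exact le_of_mul_le_mul_left h5 ht

/-! ### consequences of (P0) -/

theorem chain_step [IsProbabilityMeasure μ] {T : Sys n μ} {Fr : ℕ → Fin n → Fin n → Set Ω}
    {M L : ℕ} {c δ ε : ℝ} (h : Hyp n μ T Fr M L c δ ε) {i j : Fin n} (hij : i ≠ j) :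
    ∀ (q m : ℕ), m + q ≤ M → μ.real (Fr m i j \ Fr (m + q) i j) ≤ q * ε := by
  intro q
  induction q with
  | zero => intro m _; simp
  | succ q ih =>
    intro m hm
    have h1 := ih m (by omega)
    have h2 := h.P0 (m + q) (by omega) i j hij
    have h3 : Fr m i j \ Fr (m + (q + 1)) i j ⊆
        (Fr m i j \ Fr (m + q) i j) ∪ (Fr (m + q) i j \ Fr (m + q + 1) i j) := by
      intro x hx
      by_cases hx2 : x ∈ Fr (m + q) i j
      · right; exact ⟨hx2, by have := hx.2; rwa [← add_assoc] at this⟩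
      · left; exact ⟨hx.1, hx2⟩
    calc μ.real (Fr m i j \ Fr (m + (q + 1)) i j)
        ≤ μ.real ((Fr m i j \ Fr (m + q) i j) ∪ (Fr (m + q) i j \ Fr (m + q + 1) i j)) :=
          measureReal_mono h3 (measure_ne_top _ _)
      _ ≤ μ.real (Fr m i j \ Fr (m + q) i j) + μ.real (Fr (m + q) i j \ Fr (m + q + 1) i j) :=
          measureReal_union_le _ _
      _ ≤ q * ε + ε := add_le_add h1 h2
      _ = ((q + 1 : ℕ) : ℝ) * ε := by push_cast; ring

/-- the exceptional mass between index `m` and `m + 3` -/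
theorem diff_back [IsProbabilityMeasure μ] {T : Sys n μ} {Fr : ℕ → Fin n → Fin n → Set Ω}
    {M L : ℕ} {c δ ε : ℝ} (h : Hyp n μ T Fr M L c δ ε) {i j : Fin n} (hij : i ≠ j)
    {m : ℕ} (hm : m + 3 ≤ M) :
    μ.real (Fr (m + 3) i j \ Fr m i j) ≤ μ.real (Fr (m + 3) i j) - μ.real (Fr m i j) + 3 * ε := by
  have h1 := chain_step h hij 3 m hm
  have h2 : μ.real (Fr (m + 3) i j) =
      μ.real (Fr (m + 3) i j ∩ Fr m i j) + μ.real (Fr (m + 3) i j \ Fr m i j) :=
    (measureReal_inter_add_sdiff (h.meas m i j)).symm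
  have h3 : μ.real (Fr m i j) =
      μ.real (Fr m i j ∩ Fr (m + 3) i j) + μ.real (Fr m i j \ Fr (m + 3) i j) :=
    (measureReal_inter_add_sdiff (h.meas (m + 3) i j)).symm
  rw [Set.inter_comm] at h3
  push_cast at h1
  linarith

/-- the pairs `i ≠ j` -/
def prs (n : ℕ) : Finset (Fin n × Fin n) := Finset.univ.filter (fun p => p.1 ≠ p.2)

theorem prs_card (n : ℕ) : ((prs n).card : ℝ) ≤ (n : ℝ) ^ 2 := by
  have : (prs n).card ≤ n * n := by
    refine (Finset.card_filter_le _ _).trans ?_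
    simp
  calc ((prs n).card : ℝ) ≤ ((n * n : ℕ) : ℝ) := by exact_mod_cast this
    _ = (n : ℝ) ^ 2 := by push_cast; ring

/-- pigeonhole on the index -/
theorem pigeon [IsProbabilityMeasure μ] {T : Sys n μ} {Fr : ℕ → Fin n → Fin n → Set Ω}
    {Q L : ℕ} (hQ : 0 < Q) {c δ ε : ℝ} (hε : 0 ≤ ε) (h : Hyp n μ T Fr (3 * Q) L c δ ε) :
    ∃ m, m + 3 ≤ 3 * Q ∧ ∀ i j, i ≠ j →
      μ.real (Fr (m + 3) i j \ Fr m i j) ≤ (n : ℝ) ^ 2 / Q + 3 * n ^ 2 * ε := by
  set g : ℕ → ℝ := fun m => ∑ p ∈ prs n, μ.real (Fr m p.1 p.2) with hg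
  have hg0 : ∀ m, 0 ≤ g m := fun m => Finset.sum_nonneg fun p _ => measureReal_nonneg
  have hg1 : ∀ m, g m ≤ (n : ℝ) ^ 2 := by
    intro m
    calc g m ≤ ∑ p ∈ prs n, (1 : ℝ) := Finset.sum_le_sum fun p _ => measureReal_le_one
      _ = (prs n).card := by simp
      _ ≤ (n : ℝ) ^ 2 := prs_card n
  have hsum : ∑ q ∈ Finset.range Q, (g (3 * (q + 1)) - g (3 * q)) = g (3 * Q) - g (3 * 0) :=
    Finset.sum_range_sub (fun q => g (3 * q)) Q
  have hex : ∃ q ∈ Finset.range Q, g (3 * (q + 1)) - g (3 * q) ≤ (n : ℝ) ^ 2 / Q := by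
    by_contra hcon
    push Not at hcon
    have h1 : ∑ q ∈ Finset.range Q, (n : ℝ) ^ 2 / Q <
        ∑ q ∈ Finset.range Q, (g (3 * (q + 1)) - g (3 * q)) :=
      Finset.sum_lt_sum_of_nonempty (Finset.nonempty_range_iff.2 hQ.ne') hcon
    rw [hsum, Finset.sum_const, Finset.card_range, nsmul_eq_mul] at h1
    have hQ' : (Q : ℝ) ≠ 0 := by exact_mod_cast hQ.ne'
    rw [mul_div_cancel₀ _ hQ'] at h1
    have h2 := hg1 (3 * Q)
    have h3 := hg0 (3 * 0)
    linarith
  obtain ⟨q, hq, hle⟩ := hex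
  have hq' : q < Q := Finset.mem_range.1 hq
  refine ⟨3 * q, by omega, fun i j hij => ?_⟩
  have h3 : 3 * q + 3 ≤ 3 * Q := by omega
  have hd : ∀ p ∈ prs n, μ.real (Fr (3 * q + 3) p.1 p.2 \ Fr (3 * q) p.1 p.2) ≤
      μ.real (Fr (3 * q + 3) p.1 p.2) - μ.real (Fr (3 * q) p.1 p.2) + 3 * ε := fun p hp =>
    diff_back h (Finset.mem_filter.1 hp).2 h3
  have hmem : (i, j) ∈ prs n := by simp [prs, hij]
  have h4 : μ.real (Fr (3 * q + 3) i j \ Fr (3 * q) i j) ≤
      ∑ p ∈ prs n, μ.real (Fr (3 * q + 3) p.1 p.2 \ Fr (3 * q) p.1 p.2) :=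
    Finset.single_le_sum (f := fun p : Fin n × Fin n =>
      μ.real (Fr (3 * q + 3) p.1 p.2 \ Fr (3 * q) p.1 p.2)) (fun p _ => measureReal_nonneg) hmem
  have h5 : ∑ p ∈ prs n, μ.real (Fr (3 * q + 3) p.1 p.2 \ Fr (3 * q) p.1 p.2) ≤
      (g (3 * (q + 1)) - g (3 * q)) + (prs n).card * (3 * ε) := by
    refine (Finset.sum_le_sum hd).trans (le_of_eq ?_)
    rw [Finset.sum_add_distrib, Finset.sum_sub_distrib, Finset.sum_const, nsmul_eq_mul]
    have : 3 * (q + 1) = 3 * q + 3 := by ring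
    rw [this]
  have h6 : ((prs n).card : ℝ) * (3 * ε) ≤ (n : ℝ) ^ 2 * (3 * ε) :=
    mul_le_mul_of_nonneg_right (prs_card n) (by linarith)
  calc μ.real (Fr (3 * q + 3) i j \ Fr (3 * q) i j)
      ≤ (g (3 * (q + 1)) - g (3 * q)) + (prs n).card * (3 * ε) := h4.trans h5
    _ ≤ (n : ℝ) ^ 2 / Q + (n : ℝ) ^ 2 * (3 * ε) := add_le_add hle h6
    _ = (n : ℝ) ^ 2 / Q + 3 * n ^ 2 * ε := by ring

/-! ### one pair of depths -/

theorem real_pre (T : Sys n μ) (z : Fin n → ℤ) {E : Set Ω} (hE : MeasurableSet E) :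
    μ.real (T.τ z ⁻¹' E) = μ.real E := by
  unfold Measure.real
  rw [(T.mp z).measure_preimage hE.nullMeasurableSet]

theorem ev_abs {i j : Fin n} {r s : ℤ} {L : ℕ} (hr : |r| ≤ L) (hs : |s| ≤ L) (l : Fin n) :
    |(ev i r + ev j s : Fin n → ℤ) l| ≤ 3 * L := by
  have h1 : |(ev i r : Fin n → ℤ) l| ≤ L := by
    unfold ev
    by_cases h : l = i
    · subst h; simpa using hr
    · rw [Pi.single_eq_of_ne h]; simp
  have h2 : |(ev j s : Fin n → ℤ) l| ≤ L := by
    unfold ev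
    by_cases h : l = j
    · subst h; simpa using hs
    · rw [Pi.single_eq_of_ne h]; simp
  calc |(ev i r + ev j s : Fin n → ℤ) l| ≤ |(ev i r : Fin n → ℤ) l| + |(ev j s : Fin n → ℤ) l| :=
        abs_add_le _ _
    _ ≤ 3 * L := by omega

theorem ev_add (i : Fin n) (r s : ℤ) : (ev i (r + s) : Fin n → ℤ) = ev i r + ev i s := by
  unfold ev; rw [Pi.single_add]

theorem ev_neg (i : Fin n) (r : ℤ) : (ev i (-r) : Fin n → ℤ) = -ev i r := by
  unfold ev; rw [Pi.single_neg]

theorem ev_zero (i : Fin n) : (ev i 0 : Fin n → ℤ) = 0 := by unfold ev; simp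

theorem pair_bd [IsProbabilityMeasure μ] {T : Sys n μ} {Fr : ℕ → Fin n → Fin n → Set Ω}
    {M L : ℕ} {c δ ε κ : ℝ} (h : Hyp n μ T Fr M L c δ ε) {m : ℕ} (hm : m + 3 ≤ M)
    (hκ : ∀ i j, i ≠ j → μ.real (Fr (m + 3) i j \ Fr m i j) ≤ κ)
    {i j k : Fin n} (hij : i ≠ j) (hjk : j ≠ k) (hik : i ≠ k) {r s : ℤ}
    (hs : |s| ≤ L) (hrs : |r + s| ≤ L) :
    μ.real {x | T.τ (ev i r) x ∈ Fr m i j ∧ T.τ (ev j s) x ∈ Fr m j k ∧
      T.τ (ev i (r + s)) x ∉ Fr m i k} ≤ 4 * ε + κ := by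
  set z : Fin n → ℤ := ev i (r + s) + ev j s with hz
  set w1 : Fin n → ℤ := ev i s + ev j s with hw1
  set w2 : Fin n → ℤ := ev i (r + s) with hw2
  set w3 : Fin n → ℤ := ev j (-s) with hw3
  have e1 : z = w1 + ev i r := by
    rw [hz, hw1, hw2, ev_add]
    abel
  have e2 : z = w2 + ev j s := by rw [hz, hw2]
  have e3 : w3 + z = ev i (r + s) := by
    rw [hz, hw3, hw2, ev_neg]
    abel
  set E1 : Set Ω := T.τ (ev i r) ⁻¹' (Fr m i j \ T.τ w1 ⁻¹' Fr (m + 1) i j) with hE1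
  set E2 : Set Ω := T.τ (ev j s) ⁻¹' (Fr m j k \ T.τ w2 ⁻¹' Fr (m + 1) j k) with hE2
  set E3 : Set Ω := T.τ z ⁻¹' ((Fr (m + 1) i j ∩ Fr (m + 1) j k) \ Fr (m + 2) i k) with hE3
  set E4 : Set Ω := T.τ z ⁻¹' (Fr (m + 2) i k \ T.τ w3 ⁻¹' Fr (m + 3) i k) with hE4
  set E5 : Set Ω := T.τ (ev i (r + s)) ⁻¹' (Fr (m + 3) i k \ Fr m i k) with hE5
  have hsub : {x | T.τ (ev i r) x ∈ Fr m i j ∧ T.τ (ev j s) x ∈ Fr m j k ∧
      T.τ (ev i (r + s)) x ∉ Fr m i k} ⊆ ((((E1 ∪ E2) ∪ E3) ∪ E4) ∪ E5) := by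
    rintro x ⟨hx1, hx2, hx3⟩
    by_cases g1 : x ∈ E1
    · exact Or.inl (Or.inl (Or.inl (Or.inl g1)))
    by_cases g2 : x ∈ E2
    · exact Or.inl (Or.inl (Or.inl (Or.inr g2)))
    by_cases g3 : x ∈ E3
    · exact Or.inl (Or.inl (Or.inr g3))
    by_cases g4 : x ∈ E4
    · exact Or.inl (Or.inr g4)
    right
    have p1 : T.τ z x ∈ Fr (m + 1) i j := by
      by_contra hcon
      apply g1
      refine ⟨hx1, fun hmem => hcon ?_⟩
      have : T.τ w1 (T.τ (ev i r) x) ∈ Fr (m + 1) i j := hmem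
      rwa [← T.add, ← e1] at this
    have p2 : T.τ z x ∈ Fr (m + 1) j k := by
      by_contra hcon
      apply g2
      refine ⟨hx2, fun hmem => hcon ?_⟩
      have : T.τ w2 (T.τ (ev j s) x) ∈ Fr (m + 1) j k := hmem
      rwa [← T.add, ← e2] at this
    have p3 : T.τ z x ∈ Fr (m + 2) i k := by
      by_contra hcon
      exact g3 ⟨⟨p1, p2⟩, hcon⟩
    have p4 : T.τ (ev i (r + s)) x ∈ Fr (m + 3) i k := by
      by_contra hcon
      apply g4
      refine ⟨p3, fun hmem => hcon ?_⟩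
      have : T.τ w3 (T.τ z x) ∈ Fr (m + 3) i k := hmem
      rwa [← T.add, e3] at this
    exact ⟨p4, hx3⟩
  have hmeas1 : MeasurableSet (Fr m i j \ T.τ w1 ⁻¹' Fr (m + 1) i j) :=
    (h.meas _ _ _).diff ((T.mp w1).measurable (h.meas _ _ _))
  have hmeas2 : MeasurableSet (Fr m j k \ T.τ w2 ⁻¹' Fr (m + 1) j k) :=
    (h.meas _ _ _).diff ((T.mp w2).measurable (h.meas _ _ _))
  have hmeas3 : MeasurableSet ((Fr (m + 1) i j ∩ Fr (m + 1) j k) \ Fr (m + 2) i k) :=
    ((h.meas _ _ _).inter (h.meas _ _ _)).diff (h.meas _ _ _)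
  have hmeas4 : MeasurableSet (Fr (m + 2) i k \ T.τ w3 ⁻¹' Fr (m + 3) i k) :=
    (h.meas _ _ _).diff ((T.mp w3).measurable (h.meas _ _ _))
  have hmeas5 : MeasurableSet (Fr (m + 3) i k \ Fr m i k) := (h.meas _ _ _).diff (h.meas _ _ _)
  have b1 : μ.real E1 ≤ ε := by
    rw [hE1, real_pre T _ hmeas1]
    refine h.P1 m (by omega) i j hij w1 ?_ (fun l => ev_abs hs hs l)
    rw [hw1]; unfold ev
    simp [hij, hij.symm]
  have b2 : μ.real E2 ≤ ε := by
    rw [hE2, real_pre T _ hmeas2]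
    refine h.P1 m (by omega) j k hjk w2 ?_ ?_
    · rw [hw2]; unfold ev
      simp [hij.symm, hik.symm]
    · intro l
      have := ev_abs (n := n) (i := i) (j := j) (r := r + s) (s := 0) (L := L) hrs (by simp) l
      rw [ev_zero, add_zero] at this
      exact this
  have b3 : μ.real E3 ≤ ε := by
    rw [hE3, real_pre T _ hmeas3]
    exact h.P2 (m + 1) (by omega) i j k hij hjk hik
  have b4 : μ.real E4 ≤ ε := by
    rw [hE4, real_pre T _ hmeas4]
    refine h.P1 (m + 2) (by omega) i k hik w3 ?_ ?_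
    · rw [hw3]; unfold ev
      simp [hij, hjk.symm]
    · intro l
      have := ev_abs (n := n) (i := i) (j := j) (r := 0) (s := -s) (L := L) (by simp)
        (by rw [abs_neg]; exact hs) l
      rw [ev_zero, zero_add] at this
      exact this
  have b5 : μ.real E5 ≤ κ := by
    rw [hE5, real_pre T _ hmeas5]
    exact hκ i k hik
  calc μ.real {x | T.τ (ev i r) x ∈ Fr m i j ∧ T.τ (ev j s) x ∈ Fr m j k ∧
      T.τ (ev i (r + s)) x ∉ Fr m i k} ≤ μ.real ((((E1 ∪ E2) ∪ E3) ∪ E4) ∪ E5) :=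
        measureReal_mono hsub (measure_ne_top _ _)
    _ ≤ (((μ.real E1 + μ.real E2) + μ.real E3) + μ.real E4) + μ.real E5 := by
        have u1 := measureReal_union_le (μ := μ) (((E1 ∪ E2) ∪ E3) ∪ E4) E5
        have u2 := measureReal_union_le (μ := μ) ((E1 ∪ E2) ∪ E3) E4
        have u3 := measureReal_union_le (μ := μ) (E1 ∪ E2) E3
        have u4 := measureReal_union_le (μ := μ) E1 E2
        linarith
    _ ≤ 4 * ε + κ := by linarith

/-! ### the main theorem -/

/-- a counting function that is small off a bad set: the mean of the measures is small -/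
theorem mean_bd [IsProbabilityMeasure μ] {ι : Type*} (I : Finset ι) (E : ι → Set Ω)
    (hE : ∀ a, MeasurableSet (E a)) {B : Set Ω} (hB : MeasurableSet B) {t : ℝ} (ht : 0 ≤ t)
    (h : ∀ x, x ∉ B → ((I.filter (fun a => x ∈ E a)).card : ℝ) ≤ t) :
    ∑ a ∈ I, μ.real (E a) ≤ t + I.card * μ.real B := by
  obtain ⟨h1, h2⟩ := integral_card (μ := μ) I E hE
  rw [← h2]
  have h3 : Integrable (fun x => t + (I.card : ℝ) * B.indicator (fun _ => (1 : ℝ)) x) μ :=
    (integrable_const t).add (((integrable_const (1 : ℝ)).indicator hB).const_mul _)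
  have h4 : ∫ x, (t + (I.card : ℝ) * B.indicator (fun _ => (1 : ℝ)) x) ∂μ =
      t + I.card * μ.real B := by
    rw [integral_add (integrable_const t) (((integrable_const (1 : ℝ)).indicator hB).const_mul _),
      integral_const_mul, integral_indicator hB]
    simp
  rw [← h4]
  refine integral_mono h1 h3 fun x => ?_
  by_cases hx : x ∈ B
  · have : ((I.filter (fun a => x ∈ E a)).card : ℝ) ≤ I.card := by
      exact_mod_cast Finset.card_filter_le _ _
    simp only [Set.indicator_of_mem hx]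
    linarith
  · simp only [Set.indicator_of_notMem hx]
    have := h x hx
    linarith

/-- density of the free depths in windows -/
theorem windows {S : Finset (Fin n)} {A0 A : Fin n → Fin n → Set ℤ} {L : ℕ} {c δ : ℝ}
    (hn : 0 < n)
    (hD : ∀ i j, i ≠ j → (((Finset.Icc (-(L : ℤ)) L).filter
      (fun r => r ∈ A0 i j \ A i j)).card : ℝ) ≤ c * δ / (2 * n ^ 2) * L)
    {a b : ℤ} (ha : -(L : ℤ) ≤ a) (hb : b ≤ L) (hab : δ * L ≤ ((b - a : ℤ) : ℝ)) (hc : 0 < c)
    (h : c * ((b - a : ℤ) : ℝ) ≤ ∑ i ∈ S, ∑ j ∈ Sᶜ, cnt (A0 i j) a b) (hδ : 0 < δ) :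
    c / 2 * ((b - a : ℤ) : ℝ) ≤ ∑ i ∈ S, ∑ j ∈ Sᶜ, cnt (A i j) a b := by
  have hn' : (0 : ℝ) < n := by exact_mod_cast hn
  have h1 : ∀ i ∈ S, ∀ j ∈ Sᶜ, cnt (A0 i j) a b ≤ cnt (A i j) a b + c * δ / (2 * n ^ 2) * L := by
    intro i hi j hj
    have hij : i ≠ j := by
      rintro rfl
      exact (Finset.mem_compl.1 hj) hi
    refine le_trans ?_ (add_le_add_right (hD i j hij) _)
    unfold cnt
    have : ((Finset.Ico a b).filter (fun x => x ∈ A0 i j)).card ≤
        ((Finset.Ico a b).filter (fun x => x ∈ A i j)).card +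
        ((Finset.Icc (-(L : ℤ)) L).filter (fun r => r ∈ A0 i j \ A i j)).card := by
      refine le_trans (Finset.card_le_card ?_) (Finset.card_union_le _ _)
      intro x hx
      rw [Finset.mem_filter, Finset.mem_Ico] at hx
      rw [Finset.mem_union, Finset.mem_filter, Finset.mem_filter, Finset.mem_Ico, Finset.mem_Icc]
      by_cases hxA : x ∈ A i j
      · exact Or.inl ⟨hx.1, hxA⟩
      · exact Or.inr ⟨⟨by omega, by omega⟩, hx.2, hxA⟩
    exact_mod_cast this
  have h2 : ∑ i ∈ S, ∑ j ∈ Sᶜ, cnt (A0 i j) a b ≤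
      ∑ i ∈ S, ∑ j ∈ Sᶜ, (cnt (A i j) a b + c * δ / (2 * n ^ 2) * L) :=
    Finset.sum_le_sum fun i hi => Finset.sum_le_sum fun j hj => h1 i hi j hj
  have h3 : ∑ i ∈ S, ∑ j ∈ Sᶜ, (cnt (A i j) a b + c * δ / (2 * n ^ 2) * L) =
      ∑ i ∈ S, ∑ j ∈ Sᶜ, cnt (A i j) a b + (S.card * Sᶜ.card : ℝ) * (c * δ / (2 * n ^ 2) * L) := by
    simp only [Finset.sum_add_distrib, Finset.sum_const, nsmul_eq_mul]
    ring
  have h4 : (S.card * Sᶜ.card : ℝ) ≤ (n : ℝ) ^ 2 := by
    have e1 : (S.card : ℝ) ≤ n := by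
      have := Finset.card_le_univ S
      rw [Fintype.card_fin] at this
      exact_mod_cast this
    have e2 : (Sᶜ.card : ℝ) ≤ n := by
      have := Finset.card_le_univ Sᶜ
      rw [Fintype.card_fin] at this
      exact_mod_cast this
    calc (S.card * Sᶜ.card : ℝ) ≤ n * n := mul_le_mul e1 e2 (by positivity) (by positivity)
      _ = (n : ℝ) ^ 2 := by ring
  have h5 : (S.card * Sᶜ.card : ℝ) * (c * δ / (2 * n ^ 2) * L) ≤
      (n : ℝ) ^ 2 * (c * δ / (2 * n ^ 2) * L) :=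
    mul_le_mul_of_nonneg_right h4 (by positivity)
  have h6 : (n : ℝ) ^ 2 * (c * δ / (2 * n ^ 2) * L) = c / 2 * (δ * L) := by
    field_simp
  have h7 : c / 2 * (δ * L) ≤ c / 2 * ((b - a : ℤ) : ℝ) :=
    mul_le_mul_of_nonneg_left hab (by positivity)
  rw [h3] at h2
  linarith

/-- the depths `r` at which `x` is free -/
def dep (T : Sys n μ) (F : Fin n → Fin n → Set Ω) (x : Ω) (i j : Fin n) : Set ℤ :=
  {r | T.τ (ev i r) x ∈ F i j}

theorem meas_pre (T : Sys n μ) (z : Fin n → ℤ) {E : Set Ω} (hE : MeasurableSet E) :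
    MeasurableSet (T.τ z ⁻¹' E) := (T.mp z).measurable hE

theorem card_IL (L : ℕ) : ((Finset.Icc (-(L : ℤ)) L).card : ℝ) = 2 * L + 1 := by
  rw [Int.card_Icc]
  have : ((L : ℤ) + 1 - -(L : ℤ)).toNat = 2 * L + 1 := by omega
  rw [this]; push_cast; ring

/-- the exceptional set for (H1) -/
theorem bad_pairs [IsProbabilityMeasure μ] {T : Sys n μ} {Fr : ℕ → Fin n → Fin n → Set Ω}
    {M L : ℕ} {c δ ε κ η : ℝ} (h : Hyp n μ T Fr M L c δ ε) {m : ℕ} (hm : m + 3 ≤ M) (hL : 1 ≤ L)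
    (hε : 0 ≤ ε) (hη : 0 < η) (hκ0 : 0 ≤ κ)
    (hκ : ∀ i j, i ≠ j → μ.real (Fr (m + 3) i j \ Fr m i j) ≤ κ)
    {i j k : Fin n} (hij : i ≠ j) (hjk : j ≠ k) (hik : i ≠ k) :
    ∃ B : Set Ω, MeasurableSet B ∧ μ.real B ≤ 9 * (4 * ε + κ) / η ∧ ∀ x, x ∉ B →
      ((badPairs (dep T (Fr m) x i j) (dep T (Fr m) x j k) (dep T (Fr m) x i k) L).card : ℝ) ≤
        η * (L : ℝ) ^ 2 := by
  set E : ℤ × ℤ → Set Ω := fun p => if |p.1 + p.2| ≤ (L : ℤ) then
    {x | T.τ (ev i p.1) x ∈ Fr m i j ∧ T.τ (ev j p.2) x ∈ Fr m j k ∧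
      T.τ (ev i (p.1 + p.2)) x ∉ Fr m i k} else ∅ with hE
  have hEm : ∀ p, MeasurableSet (E p) := by
    intro p
    simp only [hE]
    split_ifs
    · exact (meas_pre T _ (h.meas _ _ _)).inter ((meas_pre T _ (h.meas _ _ _)).inter
        (meas_pre T _ (h.meas _ _ _)).compl)
    · exact MeasurableSet.empty
  have hEb : ∀ p ∈ Finset.Icc (-(L : ℤ)) L ×ˢ Finset.Icc (-(L : ℤ)) L,
      μ.real (E p) ≤ 4 * ε + κ := by
    intro p hp
    rw [Finset.mem_product, Finset.mem_Icc, Finset.mem_Icc] at hp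
    simp only [hE]
    split_ifs with hpp
    · exact pair_bd h hm hκ hij hjk hik (abs_le.2 hp.2) hpp
    · simp; positivity
  have hLr : (1 : ℝ) ≤ L := by exact_mod_cast hL
  have hsum : ∑ p ∈ Finset.Icc (-(L : ℤ)) L ×ˢ Finset.Icc (-(L : ℤ)) L, μ.real (E p) ≤
      η * (L : ℝ) ^ 2 * (9 * (4 * ε + κ) / η) := by
    refine (Finset.sum_le_card_nsmul _ _ _ hEb).trans ?_
    rw [nsmul_eq_mul, Finset.card_product, Nat.cast_mul, card_IL]
    have e1 : η * (L : ℝ) ^ 2 * (9 * (4 * ε + κ) / η) = (3 * L) * (3 * L) * (4 * ε + κ) := by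
      field_simp
      ring
    rw [e1]
    have e2 : (2 * (L : ℝ) + 1) ≤ 3 * L := by linarith
    exact mul_le_mul_of_nonneg_right (mul_le_mul e2 e2 (by positivity) (by positivity))
      (by positivity)
  refine ⟨{x | η * (L : ℝ) ^ 2 < (((Finset.Icc (-(L : ℤ)) L ×ˢ Finset.Icc (-(L : ℤ)) L).filter
    (fun p => x ∈ E p)).card : ℝ)}, meas_card _ E hEm _, markov _ E hEm (by positivity) hsum, ?_⟩
  intro x hx
  rw [Set.mem_ofPred_eq, not_lt] at hx
  refine le_trans ?_ hx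
  have : (badPairs (dep T (Fr m) x i j) (dep T (Fr m) x j k) (dep T (Fr m) x i k) L) ⊆
      ((Finset.Icc (-(L : ℤ)) L ×ˢ Finset.Icc (-(L : ℤ)) L).filter (fun p => x ∈ E p)) := by
    intro p hp
    unfold badPairs at hp
    rw [Finset.mem_filter] at hp ⊢
    refine ⟨hp.1, ?_⟩
    simp only [hE]
    rw [if_pos hp.2.2.2.1]
    exact ⟨hp.2.1, hp.2.2.1, hp.2.2.2.2⟩
  exact_mod_cast Finset.card_le_card this

/-- the exceptional set for (H2) -/
theorem bad_dep [IsProbabilityMeasure μ] {T : Sys n μ} {Fr : ℕ → Fin n → Fin n → Set Ω}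
    {M L : ℕ} {c δ ε : ℝ} (h : Hyp n μ T Fr M L c δ ε) {m : ℕ} (hm : m ≤ M) (hL : 1 ≤ L)
    (hn : 0 < n) (hc : 0 < c) (hδ : 0 < δ) (hε : 0 ≤ ε) {i j : Fin n} (hij : i ≠ j) :
    ∃ B : Set Ω, MeasurableSet B ∧ μ.real B ≤ 6 * n ^ 2 * M * ε / (c * δ) ∧ ∀ x, x ∉ B →
      (((Finset.Icc (-(L : ℤ)) L).filter
        (fun r => r ∈ dep T (Fr 0) x i j \ dep T (Fr m) x i j)).card : ℝ) ≤
          c * δ / (2 * n ^ 2) * L := by
  have hn' : (0 : ℝ) < n := by exact_mod_cast hn
  set E : ℤ → Set Ω := fun r => T.τ (ev i r) ⁻¹' (Fr 0 i j \ Fr m i j) with hE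
  have hEm : ∀ p, MeasurableSet (E p) := fun p =>
    meas_pre T _ ((h.meas _ _ _).diff (h.meas _ _ _))
  have hEb : ∀ p ∈ Finset.Icc (-(L : ℤ)) L, μ.real (E p) ≤ M * ε := by
    intro p _
    simp only [hE]
    rw [real_pre T _ ((h.meas _ _ _).diff (h.meas _ _ _))]
    have h1 := chain_step h hij m 0 (by omega)
    rw [Nat.zero_add] at h1
    refine h1.trans (mul_le_mul_of_nonneg_right ?_ hε)
    exact_mod_cast hm
  have hLr : (1 : ℝ) ≤ L := by exact_mod_cast hL
  have hsum : ∑ p ∈ Finset.Icc (-(L : ℤ)) L, μ.real (E p) ≤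
      c * δ / (2 * n ^ 2) * L * (6 * n ^ 2 * M * ε / (c * δ)) := by
    refine (Finset.sum_le_card_nsmul _ _ _ hEb).trans ?_
    rw [nsmul_eq_mul, card_IL]
    have e1 : c * δ / (2 * n ^ 2) * L * (6 * n ^ 2 * M * ε / (c * δ)) = 3 * L * (M * ε) := by
      field_simp
      ring
    rw [e1]
    exact mul_le_mul_of_nonneg_right (by linarith) (by positivity)
  refine ⟨{x | c * δ / (2 * n ^ 2) * L < (((Finset.Icc (-(L : ℤ)) L).filter
    (fun p => x ∈ E p)).card : ℝ)}, meas_card _ E hEm _, markov _ E hEm (by positivity) hsum, ?_⟩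
  intro x hx
  rw [Set.mem_ofPred_eq, not_lt] at hx
  refine le_trans ?_ hx
  have : (Finset.Icc (-(L : ℤ)) L).filter (fun r => r ∈ dep T (Fr 0) x i j \ dep T (Fr m) x i j) ⊆
      (Finset.Icc (-(L : ℤ)) L).filter (fun p => x ∈ E p) := by
    intro r hr
    rw [Finset.mem_filter] at hr ⊢
    exact hr
  exact_mod_cast Finset.card_le_card this

/-- **D-CHAIN**. -/
theorem chain (n : ℕ) (hn : 3 ≤ n) (c ε' : ℝ) (hc : 0 < c) (hε' : 0 < ε') :
    ∃ (G M : ℕ) (δ ε : ℝ) (L0 : ℕ), 0 < δ ∧ 0 < ε ∧ ∀ L : ℕ, L0 ≤ L →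
      ∀ {Ω : Type u} [MeasurableSpace Ω] (μ : Measure Ω) [IsProbabilityMeasure μ] (T : Sys n μ)
        (Fr : ℕ → Fin n → Fin n → Set Ω), Hyp n μ T Fr M L c δ ε →
        ∀ i j, i ≠ j → μ.real {x | ∀ s : ℕ, s < G → T.τ (ev i s) x ∉ Fr M i j} ≤ ε' := by
  obtain ⟨G, δ, η, L1, hδ, hη, hcomb⟩ := comb n hn (c / 2) (ε' / 4) (by positivity) (by positivity)
  obtain ⟨Q0, hQ0⟩ := exists_nat_gt (9 * (n : ℝ) ^ 5 * 16 / (η * ε'))
  set Q : ℕ := Q0 + 1 with hQ
  have hQpos : 0 < Q := by omega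
  have hQr : (0 : ℝ) < Q := by exact_mod_cast hQpos
  have hQb : 9 * (n : ℝ) ^ 5 / (Q * η) ≤ ε' / 16 := by
    have h1 : 9 * (n : ℝ) ^ 5 * 16 / (η * ε') ≤ Q := by
      refine hQ0.le.trans ?_
      rw [hQ]; push_cast; linarith
    rw [div_le_iff₀ (by positivity)] at h1 ⊢
    nlinarith
  set K : ℝ := 1 + G * (3 * Q : ℕ) + (n : ℝ) ^ 2 * (6 * n ^ 2 * (3 * Q : ℕ) / (c * δ)) +
    (n : ℝ) ^ 3 * (9 * (4 + 3 * n ^ 2) / η) with hK
  have hK1 : 1 ≤ K := by
    have : 0 ≤ (G : ℝ) * (3 * Q : ℕ) + (n : ℝ) ^ 2 * (6 * n ^ 2 * (3 * Q : ℕ) / (c * δ)) +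
      (n : ℝ) ^ 3 * (9 * (4 + 3 * n ^ 2) / η) := by positivity
    rw [hK]; linarith
  set ε : ℝ := ε' / (16 * K) with hε
  have hεpos : 0 < ε := by positivity
  have hεK : K * ε = ε' / 16 := by rw [hε]; field_simp
  refine ⟨G, 3 * Q, δ, ε, max L1 1, hδ, hεpos, ?_⟩
  intro L hL Ω _ μ _ T Fr h i0 j0 hij0
  have hL1 : L1 ≤ L := le_trans (le_max_left _ _) hL
  have hL2 : 1 ≤ L := le_trans (le_max_right _ _) hL
  have hLr : (1 : ℝ) ≤ L := by exact_mod_cast hL2
  have hnr : (0 : ℝ) < n := by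
    have : 0 < n := by omega
    exact_mod_cast this
  obtain ⟨m, hm, hκ⟩ := pigeon hQpos hεpos.le h
  set κ : ℝ := (n : ℝ) ^ 2 / Q + 3 * n ^ 2 * ε with hκdef
  have hκ0 : 0 ≤ κ := by positivity
  -- the exceptional sets
  obtain ⟨B1, hB1m, hB1, hP3⟩ := h.P3
  have h2 : ∀ p : Fin n × Fin n, ∃ B : Set Ω, MeasurableSet B ∧
      μ.real B ≤ 6 * n ^ 2 * (3 * Q : ℕ) * ε / (c * δ) ∧ (p.1 ≠ p.2 → ∀ x, x ∉ B →
      (((Finset.Icc (-(L : ℤ)) L).filter
        (fun r => r ∈ dep T (Fr 0) x p.1 p.2 \ dep T (Fr m) x p.1 p.2)).card : ℝ) ≤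
          c * δ / (2 * n ^ 2) * L) := by
    intro p
    by_cases hp : p.1 ≠ p.2
    · obtain ⟨B, e1, e2, e3⟩ := bad_dep h (m := m) (by omega) hL2 (by omega) hc hδ hεpos.le hp
      exact ⟨B, e1, e2, fun _ => e3⟩
    · exact ⟨∅, MeasurableSet.empty, by simp; positivity, fun h => absurd h hp⟩
  choose B2 hB2m hB2 hB2p using h2
  have h3 : ∀ p : Fin n × Fin n × Fin n, ∃ B : Set Ω, MeasurableSet B ∧
      μ.real B ≤ 9 * (4 * ε + κ) / η ∧ (p.1 ≠ p.2.1 → p.2.1 ≠ p.2.2 → p.1 ≠ p.2.2 → ∀ x, x ∉ B →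
      ((badPairs (dep T (Fr m) x p.1 p.2.1) (dep T (Fr m) x p.2.1 p.2.2)
        (dep T (Fr m) x p.1 p.2.2) L).card : ℝ) ≤ η * (L : ℝ) ^ 2) := by
    intro p
    by_cases hp : p.1 ≠ p.2.1 ∧ p.2.1 ≠ p.2.2 ∧ p.1 ≠ p.2.2
    · obtain ⟨B, e1, e2, e3⟩ := bad_pairs h hm hL2 hεpos.le hη hκ0 hκ hp.1 hp.2.1 hp.2.2
      exact ⟨B, e1, e2, fun _ _ _ => e3⟩
    · exact ⟨∅, MeasurableSet.empty, by simp; positivity, fun h1 h2 h3 => absurd ⟨h1, h2, h3⟩ hp⟩
  choose B3 hB3m hB3 hB3p using h3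
  set B : Set Ω := B1 ∪ (⋃ p ∈ (Finset.univ : Finset (Fin n × Fin n)), B2 p) ∪
    (⋃ p ∈ (Finset.univ : Finset (Fin n × Fin n × Fin n)), B3 p) with hB
  have hBm : MeasurableSet B := by
    refine (hB1m.union ?_).union ?_
    · exact Finset.measurableSet_biUnion _ fun p _ => hB2m p
    · exact Finset.measurableSet_biUnion _ fun p _ => hB3m p
  have hBb : μ.real B ≤ ε + (n : ℝ) ^ 2 * (6 * n ^ 2 * (3 * Q : ℕ) * ε / (c * δ)) +
      (n : ℝ) ^ 3 * (9 * (4 * ε + κ) / η) := by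
    have e1 : μ.real (⋃ p ∈ (Finset.univ : Finset (Fin n × Fin n)), B2 p) ≤
        (n : ℝ) ^ 2 * (6 * n ^ 2 * (3 * Q : ℕ) * ε / (c * δ)) := by
      refine (measureReal_biUnion_finset_le _ _).trans ?_
      refine (Finset.sum_le_card_nsmul _ _ _ fun p _ => hB2 p).trans ?_
      rw [nsmul_eq_mul, Finset.card_univ, Fintype.card_prod, Fintype.card_fin]
      push_cast
      exact le_of_eq (by ring)
    have e2 : μ.real (⋃ p ∈ (Finset.univ : Finset (Fin n × Fin n × Fin n)), B3 p) ≤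
        (n : ℝ) ^ 3 * (9 * (4 * ε + κ) / η) := by
      refine (measureReal_biUnion_finset_le _ _).trans ?_
      refine (Finset.sum_le_card_nsmul _ _ _ fun p _ => hB3 p).trans ?_
      rw [nsmul_eq_mul, Finset.card_univ, Fintype.card_prod, Fintype.card_prod, Fintype.card_fin]
      push_cast
      exact le_of_eq (by ring)
    have u1 := measureReal_union_le (μ := μ) (B1 ∪ (⋃ p ∈ (Finset.univ : Finset (Fin n × Fin n)), B2 p))
      (⋃ p ∈ (Finset.univ : Finset (Fin n × Fin n × Fin n)), B3 p)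
    have u2 := measureReal_union_le (μ := μ) B1 (⋃ p ∈ (Finset.univ : Finset (Fin n × Fin n)), B2 p)
    rw [hB]
    linarith
  have hBb2 : μ.real B + G * ((3 * Q : ℕ) * ε) ≤ ε' / 8 := by
    have e0 : K * ε = ε + G * ((3 * Q : ℕ) * ε) + (n : ℝ) ^ 2 * (6 * n ^ 2 * (3 * Q : ℕ) * ε / (c * δ))
        + (n : ℝ) ^ 3 * (9 * (4 + 3 * n ^ 2) * ε / η) := by
      rw [hK]; ring
    have e1 : (n : ℝ) ^ 3 * (9 * (4 * ε + κ) / η) =
        (n : ℝ) ^ 3 * (9 * (4 + 3 * n ^ 2) * ε / η) + 9 * (n : ℝ) ^ 5 / (Q * η) := by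
      rw [hκdef]
      field_simp
      ring
    rw [e1] at hBb
    linarith
  -- comb off the exceptional set
  have hgood : ∀ x, x ∉ B → ∀ i j, i ≠ j →
      (((Finset.Icc (-(L : ℤ)) L).filter
        (fun r => ∀ s : ℤ, r ≤ s → s < r + G → s ∉ dep T (Fr m) x i j)).card : ℝ) ≤ ε' / 4 * L := by
    intro x hx
    rw [hB, Set.mem_union, Set.mem_union, not_or, not_or] at hx
    obtain ⟨⟨hx1, hx2⟩, hx3⟩ := hx
    simp only [Finset.mem_univ, Set.iUnion_true, Set.mem_iUnion, not_exists] at hx2 hx3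
    refine hcomb L hL1 (fun i j => dep T (Fr m) x i j) ?_ ?_
    · intro i j k hij hjk hik
      exact hB3p (i, j, k) hij hjk hik x (hx3 _)
    · intro a b ha hb hab S hS1 hS2
      exact windows (A0 := fun i j => dep T (Fr 0) x i j) (by omega)
        (fun i j hij => hB2p (i, j) hij x (hx2 _)) ha hb hab hc
        (hP3 x hx1 a b ha hb hab S hS1 hS2) hδ
  -- mean over the depths
  set F : ℤ → Set Ω := fun r => {x | ∀ s : ℤ, r ≤ s → s < r + G → s ∉ dep T (Fr m) x i0 j0} with hF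
  set F0 : Set Ω := {x | ∀ s : ℕ, s < G → T.τ (ev i0 s) x ∉ Fr m i0 j0} with hF0
  have hF0m : MeasurableSet F0 := by
    have : F0 = ⋂ s : ℕ, ⋂ (_ : s < G), (T.τ (ev i0 s) ⁻¹' Fr m i0 j0)ᶜ := by
      ext x; simp [hF0]
    rw [this]
    exact MeasurableSet.iInter fun s => MeasurableSet.iInter fun _ =>
      (meas_pre T _ (h.meas _ _ _)).compl
  have hFF : ∀ r, F r = T.τ (ev i0 r) ⁻¹' F0 := by
    intro r
    ext x
    simp only [hF, hF0, dep, Set.mem_ofPred_eq, Set.mem_preimage]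
    constructor
    · intro hx s hs
      have := hx (r + s) (by omega) (by omega)
      rw [add_comm, ev_add, T.add] at this
      exact this
    · intro hx s hs1 hs2
      obtain ⟨t, rfl⟩ : ∃ t : ℕ, s = r + t := ⟨(s - r).toNat, by omega⟩
      have := hx t (by omega)
      rw [← T.add, ← ev_add, add_comm] at this
      exact this
  have hFm : ∀ r, MeasurableSet (F r) := fun r => by rw [hFF]; exact meas_pre T _ hF0m
  have hFr : ∀ r, μ.real (F r) = μ.real F0 := fun r => by rw [hFF]; exact real_pre T _ hF0m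
  have hmean := mean_bd (μ := μ) (Finset.Icc (-(L : ℤ)) L) F hFm hBm (t := ε' / 4 * L)
    (by positivity) (fun x hx => by
      convert hgood x hx i0 j0 hij0
      exact Iff.rfl)
  simp only [hFr, Finset.sum_const, nsmul_eq_mul, card_IL] at hmean
  have hF0b : μ.real F0 ≤ ε' / 4 + μ.real B := by
    have e1 : (2 * (L : ℝ) + 1) * μ.real F0 ≤ (2 * (L : ℝ) + 1) * (ε' / 4 + μ.real B) := by
      have : ε' / 4 * L ≤ (2 * (L : ℝ) + 1) * (ε' / 4) := by nlinarith
      linarith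
    exact le_of_mul_le_mul_left e1 (by positivity)
  -- conclusion
  have hlast : ∀ s ∈ Finset.range G, μ.real (T.τ (ev i0 (s : ℤ)) ⁻¹' (Fr m i0 j0 \ Fr (3 * Q) i0 j0)) ≤
      (3 * Q : ℕ) * ε := by
    intro s _
    rw [real_pre T _ ((h.meas _ _ _).diff (h.meas _ _ _))]
    have e1 := chain_step h hij0 (3 * Q - m) m (by omega)
    have e2 : m + (3 * Q - m) = 3 * Q := by omega
    rw [e2] at e1
    refine e1.trans (mul_le_mul_of_nonneg_right ?_ hεpos.le)
    exact_mod_cast Nat.sub_le _ _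
  have hsub : {x | ∀ s : ℕ, s < G → T.τ (ev i0 s) x ∉ Fr (3 * Q) i0 j0} ⊆
      F0 ∪ ⋃ s ∈ Finset.range G, T.τ (ev i0 (s : ℤ)) ⁻¹' (Fr m i0 j0 \ Fr (3 * Q) i0 j0) := by
    intro x hx
    by_cases hx0 : x ∈ F0
    · exact Or.inl hx0
    · right
      simp only [hF0, Set.mem_ofPred_eq, not_forall, not_not] at hx0
      obtain ⟨s, hs, hmem⟩ := hx0
      simp only [Set.mem_iUnion, Finset.mem_range]
      exact ⟨s, hs, hmem, hx s hs⟩
  calc μ.real {x | ∀ s : ℕ, s < G → T.τ (ev i0 s) x ∉ Fr (3 * Q) i0 j0}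
      ≤ μ.real (F0 ∪ ⋃ s ∈ Finset.range G,
          T.τ (ev i0 (s : ℤ)) ⁻¹' (Fr m i0 j0 \ Fr (3 * Q) i0 j0)) :=
        measureReal_mono hsub (measure_ne_top _ _)
    _ ≤ μ.real F0 + μ.real (⋃ s ∈ Finset.range G,
          T.τ (ev i0 (s : ℤ)) ⁻¹' (Fr m i0 j0 \ Fr (3 * Q) i0 j0)) := measureReal_union_le _ _
    _ ≤ μ.real F0 + G * ((3 * Q : ℕ) * ε) := by
        have := (measureReal_biUnion_finset_le (μ := μ) (Finset.range G) fun s : ℕ =>
          T.τ (ev i0 (s : ℤ)) ⁻¹' (Fr m i0 j0 \ Fr (3 * Q) i0 j0)).trans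
            (Finset.sum_le_card_nsmul _ _ _ hlast)
        rw [nsmul_eq_mul, Finset.card_range] at this
        linarith
    _ ≤ ε' := by linarith

end Crest.Agent.R014.Chain_891
end
end

-- ▼ part R014/DSkel_792

/-!
# Row 14, block D: order of constants, Theorem B from the block D output for ONE measure (helper792)

`tz z x = x a^{-z}`: the root `(i, j)` at depth `z i - z j` of `x` is at depth `0` at `tz z x`.
`P1`, `P2`, `P3`, `Fin`: the four outputs of the noise formalism (#3844) for a single measure `μ`,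
with the functions `Psi i j` existentially quantified.  The abstract top theorem is
`Chain_891.chain`.  `main : 2 ≤ d → MainStmt (d + 1) → ThmB d`.
-/

set_option autoImplicit false

open MeasureTheory Filter Topology
open Crest.NumberTheoryR.Packets
open Crest.Agent.R014.Iface_792
open Crest.Agent.R014.Nd_837

universe u

namespace Crest.Agent.R014.DSkel_792

section Shift

variable {n : ℕ}

/-- the shift `x ↦ x a^{-z}`. -/
noncomputable def tz (z : Fin n → ℤ) (x : ModSpace n) : ModSpace n :=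
  act x (aT fun i => -(z i : ℝ))

theorem tz_add (z w : Fin n → ℤ) (x : ModSpace n) : tz (z + w) x = tz z (tz w x) := by
  unfold tz
  rw [← Top1_458.act_mul, ← aT_add]
  congr 2
  funext i
  simp only [Pi.add_apply, Int.cast_add]
  ring


theorem measurable_tz (z : Fin n → ℤ) : Measurable (tz z : ModSpace n → ModSpace n) :=
  Top1_458.measurable_act _

theorem measurePreserving_tz {μ : Measure (ModSpace n)} (h : AInv μ) (z : Fin n → ℤ) :
    MeasurePreserving (tz z) μ μ := ⟨measurable_tz z, h _⟩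

end Shift

/-- invariance under `diagFlow` gives `AInv`. -/
theorem aInv_of_orbitMap {d : ℕ} {μ : Measure (ModSpace (d + 1))}
    (h : ∀ u : Fin d → ℝ, Measure.map (fun x => orbitMap x u) μ = μ) : AInv μ := by
  intro t
  set m : ℝ := (∑ i, t i) / (d + 1) with hm
  have key : aT t = diagFlow (fun i : Fin d => (t i.castSucc - m) * Real.log 2) := by
    apply Subtype.ext
    have h2 : (0 : ℝ) < 2 := two_pos
    unfold aT
    rw [toSL_val (det_dm t)]
    show _ = Matrix.diagonal _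
    have hdet : (dm t).det = (2 : ℝ) ^ (∑ i, t i) := by
      rw [dm, Matrix.det_diagonal, Real.rpow_sum_of_pos h2]
    rw [hdet, dm, ← Matrix.diagonal_smul, ← Real.rpow_mul h2.le]
    congr 1
    funext i
    rw [Pi.smul_apply, smul_eq_mul, ← Real.rpow_add h2]
    have hexp : (∑ i, t i) * (-(1 : ℝ) / ((d + 1 : ℕ) : ℝ)) = -m := by
      rw [hm]; push_cast; ring
    rw [hexp]
    refine Fin.lastCases ?_ (fun k => ?_) i
    · rw [Fin.snoc_last, Real.rpow_def_of_pos h2]
      congr 1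
      have hs : ∑ i : Fin d, t i.castSucc = (∑ i, t i) - t (Fin.last d) := by
        rw [Fin.sum_univ_castSucc]; ring
      rw [← Finset.sum_mul, Finset.sum_sub_distrib, hs]
      simp only [Finset.sum_const, Finset.card_univ, Fintype.card_fin, nsmul_eq_mul]
      have hd : ((d : ℝ) + 1) * m = ∑ i, t i := by
        rw [hm]; field_simp
      linear_combination (-(Real.log 2)) * hd
    · rw [Fin.snoc_castSucc, Real.rpow_def_of_pos h2]
      congr 1
      ring
  rw [key]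
  exact h _

section Stmts

variable {n : ℕ}

/-- near invariance under `ker (ij)`. -/
def P1 (μ : Measure (ModSpace n)) (Psi : Fin n → Fin n → ModSpace n → ℝ) (L : ℕ) (ε : ℝ) : Prop :=
  ∀ i j : Fin n, i ≠ j → ∀ z : Fin n → ℤ, z i = z j → (∀ l, |z l| ≤ 4 * (L : ℤ)) →
    μ.real {x | Psi i j (tz z x) < Psi i j x - ε} ≤ ε

/-- commutator step at one point. -/
def P2 (μ : Measure (ModSpace n)) (Psi : Fin n → Fin n → ModSpace n → ℝ) (c₂ ε : ℝ) : Prop :=
  ∀ i j k : Fin n, i ≠ j → j ≠ k → i ≠ k →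
    μ.real {x | Psi i k x < c₂ * Psi i j x * Psi j k x - ε} ≤ ε

/-- number of free depths in the window `[a, b)` for the roots crossing `S | Sᶜ`. -/
noncomputable def cross (Psi : Fin n → Fin n → ModSpace n → ℝ) (τ₀ : ℝ) (S : Finset (Fin n))
    (a b : ℤ) (x : ModSpace n) : ℝ :=
  ∑ i ∈ S, ∑ j ∈ Sᶜ, (((Finset.Ico a b).filter fun r => τ₀ ≤ Psi i j (tz (Pi.single i r) x)).card : ℝ)

/-- positive density of free depths in every window of length `≥ δ L`. -/
def P3 (μ : Measure (ModSpace n)) (Psi : Fin n → Fin n → ModSpace n → ℝ) (L : ℕ)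
    (δ c τ₀ ε : ℝ) : Prop :=
  ∃ B : Set (ModSpace n), MeasurableSet B ∧ μ.real B ≤ ε ∧ ∀ x, x ∉ B → ∀ a b : ℤ,
    -(L : ℤ) ≤ a → b ≤ L → δ * L ≤ ((b - a : ℤ) : ℝ) →
    ∀ S : Finset (Fin n), S.Nonempty → S ≠ Finset.univ →
      c * ((b - a : ℤ) : ℝ) ≤ cross Psi τ₀ S a b x

/-- the end: free depths for most points give near invariance. -/
def Fin' (μ : Measure (ModSpace n)) (Psi : Fin n → Fin n → ModSpace n → ℝ) (G : ℕ)
    (τ ε' ε'' : ℝ) (f : ModSpace n → ℝ) (i j : Fin n) (hij : i ≠ j) (v : ℝ) : Prop :=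
  (∀ i j : Fin n, i ≠ j →
    μ.real {x | ∀ r : ℕ, r < G → Psi i j (tz (Pi.single i (r : ℤ)) x) < τ} ≤ ε') →
  |∫ x, f (act x (elem i j hij v)) ∂μ - ∫ x, f x ∂μ| ≤ ε''

end Stmts

/-- The output of block D for one measure: order of the constants. -/
def MainStmt (n : ℕ) : Prop :=
  ∀ κ C : ℝ, 0 < κ → 0 < C →
  ∃ c c₂ : ℝ, 0 < c ∧ 0 < c₂ ∧ c₂ ≤ 1 ∧
  ∀ (f : ModSpace n → ℝ), RUC f → ∀ (i j : Fin n) (hij : i ≠ j) (v : ℝ) (ε'' : ℝ), 0 < ε'' →
  ∃ ε' : ℝ, 0 < ε' ∧
  ∀ (ε δ : ℝ), 0 < ε → 0 < δ →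
  ∃ τ₀ : ℝ, 0 < τ₀ ∧ τ₀ ≤ 1 ∧
  ∀ (G : ℕ) (τ : ℝ), 0 < τ → ∀ ε₁ : ℝ, 0 < ε₁ → ∀ L₀ : ℕ,
  ∃ e : ℝ, 0 < e ∧ ∀ η : ℝ, 0 < η → ∃ D₀ : ℝ, ∀ D : ℝ, D₀ ≤ D →
  ∀ μ : Measure (ModSpace n), IsProbabilityMeasure μ → AInv μ → SlabBd μ D κ C e η →
  ∃ L : ℕ, L₀ ≤ L ∧ ∃ Psi : Fin n → Fin n → ModSpace n → ℝ, (∀ i j, Measurable (Psi i j)) ∧
    P1 μ Psi L ε₁ ∧ P2 μ Psi c₂ ε₁ ∧ P3 μ Psi L δ c τ₀ ε ∧ Fin' μ Psi G τ ε' ε'' f i j hij v

/-- thresholds. -/
noncomputable def th (c₂ τ₀ : ℝ) : ℕ → ℝ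
  | 0 => τ₀
  | m + 1 => c₂ * th c₂ τ₀ m ^ 2 / 2

theorem th_pos {c₂ τ₀ : ℝ} (hc : 0 < c₂) (ht : 0 < τ₀) (m : ℕ) : 0 < th c₂ τ₀ m := by
  induction m with
  | zero => exact ht
  | succ m ih => simp only [th]; positivity

theorem th_le_one {c₂ τ₀ : ℝ} (hc : 0 < c₂) (hc1 : c₂ ≤ 1) (ht : 0 < τ₀) (ht1 : τ₀ ≤ 1) (m : ℕ) :
    th c₂ τ₀ m ≤ 1 := by
  induction m with
  | zero => exact ht1
  | succ m ih =>
    simp only [th]
    have h0 := th_pos hc ht m
    nlinarith [mul_le_mul hc1 (pow_le_one₀ (n := 2) h0.le ih) (by positivity) (by norm_num)]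

theorem th_succ_le {c₂ τ₀ : ℝ} (hc : 0 < c₂) (hc1 : c₂ ≤ 1) (ht : 0 < τ₀) (ht1 : τ₀ ≤ 1) (m : ℕ) :
    th c₂ τ₀ (m + 1) ≤ th c₂ τ₀ m / 2 := by
  simp only [th]
  have h0 := th_pos hc ht m
  have h1 := th_le_one hc hc1 ht ht1 m
  have h2 : c₂ * th c₂ τ₀ m ^ 2 ≤ 1 * th c₂ τ₀ m := by
    refine mul_le_mul hc1 ?_ (by positivity) (by norm_num)
    nlinarith
  linarith

theorem th_anti {c₂ τ₀ : ℝ} (hc : 0 < c₂) (hc1 : c₂ ≤ 1) (ht : 0 < τ₀) (ht1 : τ₀ ≤ 1) {m k : ℕ}
    (h : m ≤ k) : th c₂ τ₀ k ≤ th c₂ τ₀ m := by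
  induction k, h using Nat.le_induction with
  | base => exact le_rfl
  | succ k _ ih =>
    have := th_succ_le hc hc1 ht ht1 k
    have := th_pos hc ht k
    linarith

/-- the shift system. -/
noncomputable def sys {n : ℕ} {μ : Measure (ModSpace n)} (h : AInv μ) : Chain_891.Sys n μ where
  τ := tz
  mp := measurePreserving_tz h
  add := tz_add

theorem main {d : ℕ} (hd : 2 ≤ d) (hM : MainStmt (d + 1)) : ThmB d := by
  rintro μ ⟨hprob, hinv, D, hD, κ, C, hκ, hC0, hslab⟩ f hf i j hij v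
  obtain ⟨c, c₂, hc, hc₂, hc₂1, hM1⟩ := hM κ C hκ hC0
  rw [Metric.tendsto_nhds]
  intro ρ hρ
  obtain ⟨ε', hε', hM2⟩ := hM1 f hf i j hij v (ρ / 2) (by positivity)
  obtain ⟨G, M, δ, ε, L₀, hδ, hε, hch⟩ := Chain_891.chain (d + 1) (by omega) c ε' hc hε'
  obtain ⟨τ₀, hτ₀, hτ₀1, hM3⟩ := hM2 ε δ hε hδ
  have hthM : 0 < th c₂ τ₀ M := th_pos hc₂ hτ₀ M
  obtain ⟨e, he, hM4⟩ := hM3 G (th c₂ τ₀ M) hthM (min ε (th c₂ τ₀ M / 2))
    (lt_min hε (by positivity)) L₀
  obtain ⟨η, hη, hev⟩ := hslab e he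
  obtain ⟨D₀, hM5⟩ := hM4 η hη
  filter_upwards [hev, hD.eventually_ge_atTop D₀] with k hk hDk
  have := hprob k
  have hA : AInv (μ k) := aInv_of_orbitMap (hinv k)
  obtain ⟨L, hL, Psi, hPsi, h1, h2, ⟨B, hB, hBm, h3⟩, h4⟩ := hM5 (D k) hDk (μ k) (hprob k) hA hk
  have hfin := hch L hL (μ k) (sys hA) (fun m i j => {x | th c₂ τ₀ m ≤ Psi i j x})
    { meas := fun m i j => measurableSet_le measurable_const (hPsi i j)
      P0 := by
        intro m hm i j _
        have : {x | th c₂ τ₀ m ≤ Psi i j x} \ {x | th c₂ τ₀ (m + 1) ≤ Psi i j x} = ∅ := by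
          rw [Set.sdiff_eq_empty]
          intro x hx
          exact (th_anti hc₂ hc₂1 hτ₀ hτ₀1 (Nat.le_succ m)).trans hx
        rw [this]
        simpa using hε.le
      P1 := by
        intro m hm i j hij z hz hzl
        refine le_trans (measureReal_mono ?_ (measure_ne_top _ _))
          ((h1 i j hij z hz (fun l => (hzl l).trans (by omega))).trans (min_le_left _ _))
        rintro x ⟨hx1, hx2⟩
        have hx1' : th c₂ τ₀ m ≤ Psi i j x := hx1
        have hx2' : Psi i j (tz z x) < th c₂ τ₀ (m + 1) := lt_of_not_ge hx2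
        have e1 := th_succ_le hc₂ hc₂1 hτ₀ hτ₀1 m
        have e2 := th_anti hc₂ hc₂1 hτ₀ hτ₀1 hm.le
        have e3 := min_le_right ε (th c₂ τ₀ M / 2)
        show Psi i j (tz z x) < Psi i j x - _
        linarith
      P2 := by
        intro m hm i j k' hij hjk hik
        refine le_trans (measureReal_mono ?_ (measure_ne_top _ _))
          ((h2 i j k' hij hjk hik).trans (min_le_left _ _))
        rintro x ⟨⟨hx1, hx2⟩, hx3⟩
        have hx1' : th c₂ τ₀ m ≤ Psi i j x := hx1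
        have hx2' : th c₂ τ₀ m ≤ Psi j k' x := hx2
        have hx3' : Psi i k' x < th c₂ τ₀ (m + 1) := lt_of_not_ge hx3
        have e2 := th_anti hc₂ hc₂1 hτ₀ hτ₀1 (Nat.succ_le_of_lt hm)
        have e3 := min_le_right ε (th c₂ τ₀ M / 2)
        have e0 := th_pos hc₂ hτ₀ m
        have e4 : th c₂ τ₀ (m + 1) = c₂ * th c₂ τ₀ m ^ 2 / 2 := rfl
        have e5 : c₂ * th c₂ τ₀ m ^ 2 ≤ c₂ * Psi i j x * Psi j k' x := by
          rw [mul_assoc, pow_two]
          exact mul_le_mul_of_nonneg_left (mul_le_mul hx1' hx2' e0.le (e0.le.trans hx1')) hc₂.le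
        show Psi i k' x < c₂ * Psi i j x * Psi j k' x - _
        have e6 : th c₂ τ₀ M ≤ th c₂ τ₀ (m + 1) := e2
        linarith
      P3 := by
        refine ⟨B, hB, hBm, fun x hx a b ha hb hab S hS hS' => ?_⟩
        refine (h3 x hx a b ha hb hab S hS hS').trans (le_of_eq ?_)
        unfold cross
        refine Finset.sum_congr rfl fun i _ => Finset.sum_congr rfl fun j _ => ?_
        unfold Comb_583.cnt
        congr 2 }
  have h5 := h4 (by
    intro i j hij
    refine le_trans (le_of_eq ?_) (hfin i j hij)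
    congr 1
    ext x
    exact forall_congr' fun r => imp_congr_right fun _ => (not_le (α := ℝ)).symm)
  rw [Real.dist_eq, sub_zero]
  linarith

end Crest.Agent.R014.DSkel_792
private theorem rz_1d19b05917 : type_of% @_root_.Crest.Agent.R014.DSkel_792.th.eq_def := @_root_.Crest.Agent.R014.DSkel_792.th.eq_def -- L143
private theorem rz_3db47a3909 : type_of% @_root_.Crest.Agent.R014.DSkel_792.th.eq_1 := @_root_.Crest.Agent.R014.DSkel_792.th.eq_1 -- L143
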