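import Crest.Agent.R014.Nz1_323

-- ▼ part R014/Nz2_323
section

set_option autoImplicit false

open MeasureTheory Set Matrix
open scoped ENNReal

namespace Crest.Agent.R014.Nz_323

variable {n : ℕ}

/-- `g ↦ p g q` as a measurable equivalence. -/
def eqv (p p' q q' : Mt n) (hp : p * p' = 1) (hq : q * q' = 1) : Mt n ≃ᵐ Mt n where
  toFun g := p * g * q
  invFun g := p' * g * q'
  left_inv g := by
    have hp' : p' * p = 1 := mul_eq_one_comm.1 hp
    calc p' * (p * g * q) * q' = (p' * p) * g * (q * q') := by simp only [mul_assoc]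
      _ = g := by rw [hp', hq, one_mul, mul_one]
  right_inv g := by
    have hq' : q' * q = 1 := mul_eq_one_comm.1 hq
    calc p * (p' * g * q') * q = (p * p') * g * (q' * q) := by simp only [mul_assoc]
      _ = g := by rw [hp, hq', one_mul, mul_one]
  measurable_toFun := (by fun_prop : Continuous fun g : Mt n => p * g * q).measurable
  measurable_invFun := (by fun_prop : Continuous fun g : Mt n => p' * g * q').measurable

theorem eqv_apply (p p' q q' : Mt n) (hp : p * p' = 1) (hq : q * q' = 1) (g : Mt n) :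
    eqv p p' q q' hp hq g = p * g * q := rfl

theorem haar_lr {p q : Mt n} (hp : 0 < p.det) (hq : 0 < q.det) :
    (haar n).map (fun g => p * g * q) = haar n := by
  have h1 : (fun g : Mt n => p * g * q) = (fun g => g * q) ∘ (fun g => p * g) := rfl
  rw [h1, ← Measure.map_map (measurable_mul_right q) (measurable_mul_left p), haar_mul_left hp,
    haar_mul_right hq]

theorem adm_of_le {R R' : Fin n → Fin n → ℝ} (hR : Adm R) (h : ∀ i j, R i j ≤ R' i j) :
    Adm R' := by
  intro g hg
  refine hR g fun i j => (hg i j).trans ?_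
  exact Real.rpow_le_rpow_of_exponent_le (by norm_num) (by linarith [h i j])

theorem bx_subset_of_le {R R' : Fin n → Fin n → ℝ} (h : ∀ i j, R i j ≤ R' i j) :
    bx R' ⊆ bx R := by
  intro g hg i j
  refine (hg i j).trans ?_
  exact Real.rpow_le_rpow_of_exponent_le (by norm_num) (by linarith [h i j])

theorem one_le_CN_mul {w e : ℝ} (hn : e ≤ (n + 4) * 2 ^ (-w)) (he : 1 ≤ e) :
    1 ≤ CN n * 2 ^ (-w) := by
  unfold CN
  have h1 : (1:ℝ) ≤ 8 ^ n * 2 ^ (n ^ 2) :=
    one_le_mul_of_one_le_of_one_le (one_le_pow₀ (by norm_num)) (one_le_pow₀ (by norm_num))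
  have h2 : (0:ℝ) < (n + 4) * 2 ^ (-w) := by positivity
  nlinarith

theorem tv_of_box' {R : Fin n → Fin n → ℝ} (hR : Adm R) (T : Mt n ≃ᵐ Mt n)
    (hT : (haar n).map T = haar n) {e w : ℝ} (he0 : 0 ≤ e) (hew : e ≤ (n + 4) * 2 ^ (-w))
    (hbox : ∀ g ∈ bx R, T g ∈ bxc (1 + e) R) (hdet : ∀ g ∈ bx R, 1 / 4 ≤ (T g).det)
    {A : Set (Mt n)} (hA : MeasurableSet A) :
    |((un R).map T).real A - (un R).real A| ≤ CN n * 2 ^ (-w) := by
  rcases le_or_gt e 1 with he1 | he1
  · refine (tv_of_box hR T hT he0 he1 hbox hdet hA).trans ?_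
    unfold CN
    have h1 : (0:ℝ) < 8 ^ n * 2 ^ (n ^ 2) := by positivity
    nlinarith
  · have := isProb_un hR
    have h2 : IsProbabilityMeasure ((un R).map T) :=
      Measure.isProbabilityMeasure_map T.measurable.aemeasurable
    refine le_trans ?_ (one_le_CN_mul hew he1.le)
    have h3 : ((un R).map T).real A ≤ 1 := measureReal_le_one
    have h4 : (un R).real A ≤ 1 := measureReal_le_one
    have h5 : 0 ≤ ((un R).map T).real A := measureReal_nonneg
    have h6 : 0 ≤ (un R).real A := measureReal_nonneg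
    rw [abs_le]
    constructor <;> linarith

theorem entry_mul (p m : Mt n) (i j : Fin n) : (p * m) i j = ∑ k, p i k * m k j :=
  Matrix.mul_apply

/-- **(L1), left**: a negligible factor is absorbed. -/
theorem L1_left {w : ℝ} (hw : 0 ≤ w) {R R' : Fin n → Fin n → ℝ} (hR : Adm R) (hN : Neg w R' R)
    {q : Mt n} (hq : q ∈ bx R') {A : Set (Mt n)} (hA : MeasurableSet A) :
    |((un R).map (fun g => q * g)).real A - (un R).real A| ≤ CN n * 2 ^ (-w) := by
  have hle : ∀ i j, R i j ≤ R' i j := fun i j => by linarith [hN.1 i j]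
  have hqd : 1 / 2 ≤ q.det := (hR q (bx_subset_of_le hle hq)).1
  have hq0 : 0 < q.det := by linarith
  have hqu : IsUnit q.det := hq0.ne'.isUnit
  have hqi : q * q⁻¹ = 1 := Matrix.mul_nonsing_inv q hqu
  set T := eqv q q⁻¹ 1 1 hqi (one_mul 1) with hTdef
  have hTf : (T : Mt n → Mt n) = fun g => q * g := by
    funext g
    rw [hTdef, eqv_apply, mul_one]
  have hT : (haar n).map T = haar n := by rw [hTf]; exact haar_mul_left hq0
  rw [← hTf]
  refine tv_of_box' hR T hT (e := (n + 1) * 2 ^ (-w)) (by positivity) ?_ ?_ ?_ hA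
  · have : (0:ℝ) < 2 ^ (-w) := by positivity
    nlinarith
  · intro g hg i j
    rw [hTf]
    have h1 : q * g - 1 = (g - 1) + (q - 1) + (q - 1) * (g - 1) := by noncomm_ring
    show |(q * g - 1) i j| ≤ _
    rw [h1, Matrix.add_apply, Matrix.add_apply, entry_mul]
    have h2 : |∑ k, (q - 1) i k * (g - 1) k j| ≤ n * (2 ^ (-w) * 2 ^ (-(R i j))) := by
      refine (Finset.abs_sum_le_sum_abs _ _).trans ?_
      calc ∑ k, |(q - 1) i k * (g - 1) k j| ≤ ∑ _k : Fin n, 2 ^ (-w) * (2:ℝ) ^ (-(R i j)) := by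
            refine Finset.sum_le_sum fun k _ => ?_
            rw [abs_mul]
            calc |(q - 1) i k| * |(g - 1) k j| ≤ (2:ℝ) ^ (-(R' i k)) * (2:ℝ) ^ (-(R k j)) := by
                  gcongr
                  · exact hq i k
                  · exact hg k j
              _ = (2:ℝ) ^ (-(R' i k) + -(R k j)) := by rw [Real.rpow_add (by norm_num)]
              _ ≤ (2:ℝ) ^ (-w + -(R i j)) := by
                  refine Real.rpow_le_rpow_of_exponent_le (by norm_num) ?_
                  linarith [(hN.2 i k j).1]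
              _ = 2 ^ (-w) * (2:ℝ) ^ (-(R i j)) := by rw [Real.rpow_add (by norm_num)]
        _ = n * (2 ^ (-w) * 2 ^ (-(R i j))) := by simp
    have h3 : |(q - 1) i j| ≤ 2 ^ (-w) * 2 ^ (-(R i j)) := by
      refine (hq i j).trans ?_
      rw [← Real.rpow_add (by norm_num)]
      refine Real.rpow_le_rpow_of_exponent_le (by norm_num) ?_
      linarith [hN.1 i j]
    have h4 : |(g - 1) i j| ≤ 2 ^ (-(R i j)) := hg i j
    calc |(g - 1) i j + (q - 1) i j + ∑ k, (q - 1) i k * (g - 1) k j|
        ≤ |(g - 1) i j| + |(q - 1) i j| + |∑ k, (q - 1) i k * (g - 1) k j| := abs_add_three _ _ _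
      _ ≤ 2 ^ (-(R i j)) + 2 ^ (-w) * 2 ^ (-(R i j)) + n * (2 ^ (-w) * 2 ^ (-(R i j))) := by
          linarith
      _ = (1 + (n + 1) * 2 ^ (-w)) * 2 ^ (-(R i j)) := by ring
  · intro g hg
    rw [hTf]
    show 1 / 4 ≤ (q * g).det
    rw [Matrix.det_mul]
    have := (hR g hg).1
    nlinarith


theorem trans_mul_neg {i j : Fin n} (hij : i ≠ j) (t : ℝ) :
    Matrix.transvection i j t * Matrix.transvection i j (-t) = 1 := by
  rw [Matrix.transvection_mul_transvection_same i j hij, add_neg_cancel, Matrix.transvection_zero]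

theorem trans_neg_mul {i j : Fin n} (hij : i ≠ j) (t : ℝ) :
    Matrix.transvection i j (-t) * Matrix.transvection i j t = 1 := by
  rw [Matrix.transvection_mul_transvection_same i j hij, neg_add_cancel, Matrix.transvection_zero]

theorem conj_entry {i j : Fin n} (hij : i ≠ j) (t : ℝ) (m : Mt n) (k l : Fin n) :
    (Matrix.transvection i j (-t) * m * Matrix.transvection i j t) k l
      = m k l + (if l = j then t * m k i else 0) - (if k = i then t * m j l else 0)
        - (if k = i then (if l = j then t ^ 2 * m j i else 0) else 0) := by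
  by_cases hl : l = j
  · subst hl
    rw [Matrix.mul_transvection_apply_same]
    by_cases hk : k = i
    · subst hk
      rw [Matrix.transvection_mul_apply_same, Matrix.transvection_mul_apply_same]
      simp
      ring
    · rw [Matrix.transvection_mul_apply_of_ne _ _ _ _ hk,
        Matrix.transvection_mul_apply_of_ne _ _ _ _ hk]
      simp [hk]
  · rw [Matrix.mul_transvection_apply_of_ne _ _ _ _ hl]
    by_cases hk : k = i
    · subst hk
      rw [Matrix.transvection_mul_apply_same]
      simp [hl]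
      ring
    · rw [Matrix.transvection_mul_apply_of_ne _ _ _ _ hk]
      simp [hk, hl]

/-- **(L2)**: conjugation by an element of a clean root group is absorbed. -/
theorem L2 {i j : Fin n} (hij : i ≠ j) {r w t : ℝ} {R : Fin n → Fin n → ℝ} (hR : Adm R)
    (hC : Clean i j r w R) (ht : |t| ≤ 2 ^ (-r)) {A : Set (Mt n)} (hA : MeasurableSet A) :
    |((un R).map (fun g => Matrix.transvection i j (-t) * g * Matrix.transvection i j t)).real A
      - (un R).real A| ≤ CN n * 2 ^ (-w) := by
  set T := eqv (Matrix.transvection i j (-t)) (Matrix.transvection i j t)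
    (Matrix.transvection i j t) (Matrix.transvection i j (-t))
    (trans_neg_mul hij t) (trans_mul_neg hij t) with hTdef
  have hTf : (T : Mt n → Mt n)
      = fun g => Matrix.transvection i j (-t) * g * Matrix.transvection i j t := rfl
  have hd1 : ∀ s : ℝ, (Matrix.transvection i j s).det = 1 := fun s =>
    Matrix.det_transvection_of_ne i j hij s
  have hT : (haar n).map T = haar n := by
    rw [hTf]
    exact haar_lr (by rw [hd1]; norm_num) (by rw [hd1]; norm_num)
  rw [← hTf]
  refine tv_of_box' hR T hT (e := 3 * 2 ^ (-w)) (by positivity) ?_ ?_ ?_ hA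
  · have : (0:ℝ) < 2 ^ (-w) := by positivity
    have h2 : (0:ℝ) ≤ n := Nat.cast_nonneg n
    nlinarith
  · intro g hg k l
    rw [hTf]
    have h1 : Matrix.transvection i j (-t) * g * Matrix.transvection i j t - 1
        = Matrix.transvection i j (-t) * (g - 1) * Matrix.transvection i j t := by
      rw [mul_sub, sub_mul, mul_one, trans_neg_mul hij]
    show |(Matrix.transvection i j (-t) * g * Matrix.transvection i j t - 1) k l| ≤ _
    rw [h1, conj_entry hij]
    set m := g - 1 with hm
    have hmk : ∀ a b, |m a b| ≤ 2 ^ (-(R a b)) := hg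
    have key : ∀ (a b x : ℝ), |x| ≤ 2 ^ (-b) → a ≤ b → |x| ≤ 2 ^ (-a) := by
      intro a b x h1 h2
      refine h1.trans (Real.rpow_le_rpow_of_exponent_le (by norm_num) (by linarith))
    have e1 : |(if l = j then t * m k i else 0)| ≤ 2 ^ (-w) * 2 ^ (-(R k l)) := by
      split_ifs with hl
      · subst hl
        rw [abs_mul, ← Real.rpow_add (by norm_num)]
        calc |t| * |m k i| ≤ 2 ^ (-r) * 2 ^ (-(R k i)) := by
              gcongr
              exact hmk k i
          _ = (2:ℝ) ^ (-r + -(R k i)) := by rw [Real.rpow_add (by norm_num)]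
          _ ≤ (2:ℝ) ^ (-w + -(R k l)) := by
              refine Real.rpow_le_rpow_of_exponent_le (by norm_num) ?_
              linarith [hC.1 k]
      · rw [abs_zero]; positivity
    have e2 : |(if k = i then t * m j l else 0)| ≤ 2 ^ (-w) * 2 ^ (-(R k l)) := by
      split_ifs with hk
      · subst hk
        rw [abs_mul, ← Real.rpow_add (by norm_num)]
        calc |t| * |m j l| ≤ 2 ^ (-r) * 2 ^ (-(R j l)) := by
              gcongr
              exact hmk j l
          _ = (2:ℝ) ^ (-r + -(R j l)) := by rw [Real.rpow_add (by norm_num)]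
          _ ≤ (2:ℝ) ^ (-w + -(R k l)) := by
              refine Real.rpow_le_rpow_of_exponent_le (by norm_num) ?_
              linarith [hC.2.1 l]
      · rw [abs_zero]; positivity
    have e3 : |(if k = i then (if l = j then t ^ 2 * m j i else 0) else 0)|
        ≤ 2 ^ (-w) * 2 ^ (-(R k l)) := by
      split_ifs with hk hl
      · subst hk hl
        rw [abs_mul, abs_pow, ← Real.rpow_add (by norm_num)]
        calc |t| ^ 2 * |m l k| ≤ (2 ^ (-r)) ^ 2 * 2 ^ (-(R l k)) := by
              gcongr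
              exact hmk l k
          _ = (2:ℝ) ^ (-r + -r + -(R l k)) := by
              rw [Real.rpow_add (by norm_num), Real.rpow_add (by norm_num), sq]
          _ ≤ (2:ℝ) ^ (-w + -(R k l)) := by
              refine Real.rpow_le_rpow_of_exponent_le (by norm_num) ?_
              linarith [hC.2.2]
      · rw [abs_zero]; positivity
      · rw [abs_zero]; positivity
    have e0 := hmk k l
    calc |m k l + (if l = j then t * m k i else 0) - (if k = i then t * m j l else 0)
          - (if k = i then (if l = j then t ^ 2 * m j i else 0) else 0)|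
        ≤ |m k l| + |(if l = j then t * m k i else 0)| + |(if k = i then t * m j l else 0)|
          + |(if k = i then (if l = j then t ^ 2 * m j i else 0) else 0)| := by
          refine (abs_sub _ _).trans ?_
          gcongr
          refine (abs_sub _ _).trans ?_
          gcongr
          exact abs_add_le _ _
      _ ≤ (1 + 3 * 2 ^ (-w)) * 2 ^ (-(R k l)) := by linarith
  · intro g hg
    rw [hTf]
    show 1 / 4 ≤ (Matrix.transvection i j (-t) * g * Matrix.transvection i j t).det
    rw [Matrix.det_mul, Matrix.det_mul, hd1, hd1, one_mul, mul_one]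
    linarith [(hR g hg).1]

end Crest.Agent.R014.Nz_323
end

-- ▼ part R014/Nz3_323

set_option autoImplicit false

open MeasureTheory Set Matrix
open scoped ENNReal

namespace Crest.Agent.R014.Nz_323

variable {n : ℕ}

/-! ### Exact equivariance under the diagonal group -/

theorem dg_mul_dg (s t : Fin n → ℝ) : dg s * dg t = dg (s + t) := by
  unfold dg
  rw [Matrix.diagonal_mul_diagonal]
  congr 1
  funext i
  rw [Pi.add_apply, Real.rpow_add (by norm_num)]

theorem dg_zero : dg (0 : Fin n → ℝ) = 1 := by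
  unfold dg
  simp


theorem dg_neg_mul_dg (t : Fin n → ℝ) : dg (-t) * dg t = 1 := by
  rw [dg_mul_dg, neg_add_cancel, dg_zero]

theorem det_dg_pos (t : Fin n → ℝ) : 0 < (dg t).det := by
  unfold dg
  rw [Matrix.det_diagonal]
  exact Finset.prod_pos fun i _ => by positivity

theorem conj_dg_entry (t : Fin n → ℝ) (m : Mt n) (i j : Fin n) :
    (dg (-t) * m * dg t) i j = 2 ^ (-(sh t i j)) * m i j := by
  unfold dg sh
  rw [Matrix.mul_diagonal, Matrix.diagonal_mul]
  rw [show -(t i - t j) = -t i + t j by ring, Real.rpow_add (by norm_num)]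
  simp only [Pi.neg_apply]
  ring

theorem conj_mem_bx {t : Fin n → ℝ} {R : Fin n → Fin n → ℝ} {g : Mt n} :
    dg (-t) * g * dg t ∈ bx (R + sh t) ↔ g ∈ bx R := by
  have h1 : dg (-t) * g * dg t - 1 = dg (-t) * (g - 1) * dg t := by
    rw [mul_sub, sub_mul, mul_one, dg_neg_mul_dg]
  unfold bx
  simp only [Set.mem_ofPred_eq]
  refine forall_congr' fun i => forall_congr' fun j => ?_
  rw [h1, conj_dg_entry, abs_mul, abs_of_pos (by positivity : (0:ℝ) < 2 ^ (-(sh t i j)))]
  have h2 : (2:ℝ) ^ (-((R + sh t) i j)) = 2 ^ (-(sh t i j)) * 2 ^ (-(R i j)) := by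
    rw [← Real.rpow_add (by norm_num)]
    congr 1
    simp only [Pi.add_apply]
    ring
  rw [h2]
  exact mul_le_mul_iff_right₀ (by positivity)

theorem det_conj_dg (t : Fin n → ℝ) (g : Mt n) : (dg (-t) * g * dg t).det = g.det := by
  rw [Matrix.det_mul, Matrix.det_mul]
  have h : (dg (-t)).det * (dg t).det = 1 := by rw [← Matrix.det_mul, dg_neg_mul_dg, Matrix.det_one]
  calc (dg (-t)).det * g.det * (dg t).det = ((dg (-t)).det * (dg t).det) * g.det := by ring
    _ = g.det := by rw [h, one_mul]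

theorem adm_sh_aux {t : Fin n → ℝ} {R : Fin n → Fin n → ℝ} (h : Adm (R + sh t)) : Adm R := by
  intro g hg
  have h1 := h _ (conj_mem_bx (t := t).2 hg)
  rwa [det_conj_dg] at h1

theorem sh_neg (t : Fin n → ℝ) : sh (-t) = -sh t := by
  funext i j
  simp only [sh, Pi.neg_apply]
  ring

theorem adm_sh {t : Fin n → ℝ} {R : Fin n → Fin n → ℝ} : Adm (R + sh t) ↔ Adm R := by
  refine ⟨adm_sh_aux, fun h => ?_⟩
  refine adm_sh_aux (t := -t) ?_
  rwa [sh_neg, add_neg_cancel_right]

theorem neg_sh {w : ℝ} {t : Fin n → ℝ} {R R' : Fin n → Fin n → ℝ} :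
    Neg w (R' + sh t) (R + sh t) ↔ Neg w R' R := by
  unfold Neg sh
  simp only [Pi.add_apply]
  constructor
  · rintro ⟨h1, h2⟩
    exact ⟨fun i j => by linarith [h1 i j], fun i k j =>
      ⟨by linarith [(h2 i k j).1], by linarith [(h2 i k j).2]⟩⟩
  · rintro ⟨h1, h2⟩
    exact ⟨fun i j => by linarith [h1 i j], fun i k j =>
      ⟨by linarith [(h2 i k j).1], by linarith [(h2 i k j).2]⟩⟩

theorem clean_sh {i j : Fin n} {r w : ℝ} {t : Fin n → ℝ} {R : Fin n → Fin n → ℝ} :
    Clean i j (r + (t i - t j)) w (R + sh t) ↔ Clean i j r w R := by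
  unfold Clean sh
  simp only [Pi.add_apply]
  constructor
  · rintro ⟨h1, h2, h3⟩
    exact ⟨fun k => by linarith [h1 k], fun l => by linarith [h2 l], by linarith⟩
  · rintro ⟨h1, h2, h3⟩
    exact ⟨fun k => by linarith [h1 k], fun l => by linarith [h2 l], by linarith⟩

/-- **exact equivariance of the noise**. -/
theorem un_conj_dg' (t : Fin n → ℝ) (R : Fin n → Fin n → ℝ) :
    (un R).map (fun g => dg (-t) * g * dg t) = un (R + sh t) := by
  have hcont : Measurable fun g : Mt n => dg (-t) * g * dg t :=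
    (by fun_prop : Continuous fun g : Mt n => dg (-t) * g * dg t).measurable
  have hT : (haar n).map (fun g => dg (-t) * g * dg t) = haar n :=
    haar_lr (det_dg_pos _) (det_dg_pos _)
  have hpre : ∀ E : Set (Mt n), MeasurableSet E →
      haar n ((fun g => dg (-t) * g * dg t) ⁻¹' E) = haar n E := by
    intro E hE
    rw [← Measure.map_apply hcont hE, hT]
  have hB : (fun g => dg (-t) * g * dg t) ⁻¹' (bx (R + sh t)) = bx R := by
    ext g
    exact conj_mem_bx
  ext A hA
  rw [Measure.map_apply hcont hA, un_apply _ (hcont hA), un_apply _ hA]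
  have h1 : haar n (bx R) = haar n (bx (R + sh t)) := by
    rw [← hB, hpre _ (measurableSet_bx _)]
  have h2 : haar n ((fun g => dg (-t) * g * dg t) ⁻¹' A ∩ bx R)
      = haar n (A ∩ bx (R + sh t)) := by
    rw [← hB, ← preimage_inter, hpre _ (hA.inter (measurableSet_bx _))]
  rw [h1, h2]


/-! ### A criterion for admissibility -/

/-- **cycle criterion**: all cycle sums (loops included) large. -/
theorem adm_of_cycle {R : Fin n → Fin n → ℝ} {c : ℝ}
    (hc : ((n.factorial : ℝ) + 1) * 2 ^ (n + 1) ≤ 2 ^ c)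
    (h1 : ∀ i, c ≤ R i i)
    (h2 : ∀ σ : Equiv.Perm (Fin n), σ ≠ 1 → c ≤ ∑ i with σ i ≠ i, R i (σ i)) : Adm R := by
  intro g hg
  have hc0 : (0:ℝ) < 2 ^ c := by positivity
  have hinv : (2:ℝ) ^ (-c) = (2 ^ c)⁻¹ := Real.rpow_neg (by norm_num) c
  have hcs : ((n.factorial : ℝ) + 1) * 2 ^ (n + 1) * 2 ^ (-c) ≤ 1 := by
    rw [hinv, ← div_eq_mul_inv, div_le_one hc0]
    exact hc
  have hge1 : (1:ℝ) ≤ ((n.factorial : ℝ) + 1) * 2 ^ (n + 1) := by
    have : (1:ℝ) ≤ (n.factorial : ℝ) + 1 := by
      have := Nat.cast_nonneg (α := ℝ) n.factorial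
      linarith
    exact one_le_mul_of_one_le_of_one_le this (one_le_pow₀ (by norm_num))
  have hcle1 : (2:ℝ) ^ (-c) ≤ 1 := by
    have h0 : (0:ℝ) < 2 ^ (-c) := by positivity
    nlinarith
  have hcpos : (0:ℝ) < 2 ^ (-c) := by positivity
  -- diagonal entries
  have hd : ∀ i, |g i i - 1| ≤ 2 ^ (-c) := by
    intro i
    have h3 := hg i i
    rw [Matrix.sub_apply, Matrix.one_apply_eq] at h3
    refine h3.trans (Real.rpow_le_rpow_of_exponent_le (by norm_num) (by linarith [h1 i]))
  have ho : ∀ i j, i ≠ j → |g i j| ≤ 2 ^ (-(R i j)) := by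
    intro i j hij
    have h3 := hg i j
    rwa [Matrix.sub_apply, Matrix.one_apply_ne hij, sub_zero] at h3
  have hd2 : ∀ i, |g i i| ≤ 2 := by
    intro i
    have h3 := abs_le.1 (hd i)
    rw [abs_le]
    constructor <;> linarith [h3.1, h3.2]
  -- product of the diagonal
  have hprod : ∀ s : Finset (Fin n), |∏ i ∈ s, g i i - 1| ≤ (2 ^ s.card - 1) * 2 ^ (-c) := by
    intro s
    induction s using Finset.induction_on with
    | empty => simp
    | insert a s ha ih =>
      rw [Finset.prod_insert ha, Finset.card_insert_of_notMem ha]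
      have h4 : g a a * ∏ i ∈ s, g i i - 1 = (g a a - 1) * (∏ i ∈ s, g i i - 1)
          + (g a a - 1) + (∏ i ∈ s, g i i - 1) := by ring
      rw [h4]
      have h5 : (1:ℝ) ≤ 2 ^ s.card := one_le_pow₀ (by norm_num)
      have h6 : |(g a a - 1) * (∏ i ∈ s, g i i - 1)| ≤ 1 * ((2 ^ s.card - 1) * 2 ^ (-c)) := by
        rw [abs_mul]
        gcongr
        exact (hd a).trans hcle1
      calc |(g a a - 1) * (∏ i ∈ s, g i i - 1) + (g a a - 1) + (∏ i ∈ s, g i i - 1)|
          ≤ |(g a a - 1) * (∏ i ∈ s, g i i - 1)| + |g a a - 1| + |∏ i ∈ s, g i i - 1| :=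
            abs_add_three _ _ _
        _ ≤ 1 * ((2 ^ s.card - 1) * 2 ^ (-c)) + 2 ^ (-c) + (2 ^ s.card - 1) * 2 ^ (-c) := by
            have := hd a
            gcongr
        _ = (2 ^ (s.card + 1) - 1) * 2 ^ (-c) := by rw [pow_succ]; ring
  have hoff : ∀ σ : Equiv.Perm (Fin n), σ ≠ 1 → |∏ i, g i (σ i)| ≤ 2 ^ n * 2 ^ (-c) := by
    intro σ hσ
    rw [Finset.abs_prod]
    have h3 : ∏ i, |g i (σ i)| = (∏ i with σ i ≠ i, |g i (σ i)|)
        * ∏ i with ¬ σ i ≠ i, |g i (σ i)| := by
      rw [Finset.prod_filter_mul_prod_filter_not]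
    rw [h3]
    have h4 : ∏ i with σ i ≠ i, |g i (σ i)| ≤ 2 ^ (-c) := by
      calc ∏ i with σ i ≠ i, |g i (σ i)| ≤ ∏ i with σ i ≠ i, (2:ℝ) ^ (-(R i (σ i))) := by
            refine Finset.prod_le_prod (fun i _ => abs_nonneg _) fun i hi => ?_
            rw [Finset.mem_filter] at hi
            exact ho i (σ i) (Ne.symm hi.2)
        _ = (2:ℝ) ^ (∑ i with σ i ≠ i, -(R i (σ i))) := by
            rw [Real.rpow_sum_of_pos (by norm_num)]
        _ ≤ 2 ^ (-c) := by
            refine Real.rpow_le_rpow_of_exponent_le (by norm_num) ?_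
            rw [Finset.sum_neg_distrib]
            linarith [h2 σ hσ]
    have h5 : ∏ i with ¬ σ i ≠ i, |g i (σ i)| ≤ 2 ^ n := by
      calc ∏ i with ¬ σ i ≠ i, |g i (σ i)| ≤ ∏ i with ¬ σ i ≠ i, (2:ℝ) := by
            refine Finset.prod_le_prod (fun i _ => abs_nonneg _) fun i hi => ?_
            rw [Finset.mem_filter, not_not] at hi
            rw [hi.2]
            exact hd2 i
        _ = 2 ^ (Finset.univ.filter fun i => ¬ σ i ≠ i).card := by simp
        _ ≤ 2 ^ n := by
            refine pow_le_pow_right₀ (by norm_num) ?_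
            exact (Finset.card_le_univ _).trans (by simp)
    calc (∏ i with σ i ≠ i, |g i (σ i)|) * ∏ i with ¬ σ i ≠ i, |g i (σ i)|
        ≤ 2 ^ (-c) * 2 ^ n := by
          gcongr
      _ = 2 ^ n * 2 ^ (-c) := mul_comm _ _
  have hdet : g.det - 1 = (∏ i, g i i - 1)
      + ∑ σ ∈ Finset.univ.erase (1 : Equiv.Perm (Fin n)), (Equiv.Perm.sign σ : ℝ) * ∏ i, g i (σ i) := by
    rw [← Matrix.det_transpose, Matrix.det_apply']
    rw [← Finset.add_sum_erase _ _ (Finset.mem_univ (1 : Equiv.Perm (Fin n)))]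
    simp only [Matrix.transpose_apply, Equiv.Perm.sign_one, Equiv.Perm.one_apply]
    push_cast
    ring
  have hbound : |g.det - 1| ≤ 1 / 2 := by
    rw [hdet]
    have h6 := hprod Finset.univ
    rw [Finset.card_univ, Fintype.card_fin] at h6
    have h7 : |∑ σ ∈ Finset.univ.erase (1 : Equiv.Perm (Fin n)),
        (Equiv.Perm.sign σ : ℝ) * ∏ i, g i (σ i)| ≤ n.factorial * (2 ^ n * 2 ^ (-c)) := by
      refine (Finset.abs_sum_le_sum_abs _ _).trans ?_
      calc ∑ σ ∈ Finset.univ.erase (1 : Equiv.Perm (Fin n)),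
            |(Equiv.Perm.sign σ : ℝ) * ∏ i, g i (σ i)|
          ≤ ∑ _σ ∈ Finset.univ.erase (1 : Equiv.Perm (Fin n)), (2 ^ n * (2:ℝ) ^ (-c)) := by
            refine Finset.sum_le_sum fun σ hσ => ?_
            rw [abs_mul]
            have h8 : |((Equiv.Perm.sign σ : ℤ) : ℝ)| = 1 := by
              rcases Int.units_eq_one_or (Equiv.Perm.sign σ) with h | h <;> simp [h]
            rw [h8, one_mul]
            exact hoff σ (Finset.ne_of_mem_erase hσ)
        _ = (Finset.univ.erase (1 : Equiv.Perm (Fin n))).card * (2 ^ n * (2:ℝ) ^ (-c)) := by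
            rw [Finset.sum_const, nsmul_eq_mul]
        _ ≤ n.factorial * (2 ^ n * 2 ^ (-c)) := by
            gcongr
            refine (Finset.card_le_card (Finset.erase_subset _ _)).trans ?_
            rw [Finset.card_univ, Fintype.card_perm, Fintype.card_fin]
    calc |(∏ i, g i i - 1) + ∑ σ ∈ Finset.univ.erase (1 : Equiv.Perm (Fin n)),
          (Equiv.Perm.sign σ : ℝ) * ∏ i, g i (σ i)|
        ≤ (2 ^ n - 1) * 2 ^ (-c) + n.factorial * (2 ^ n * 2 ^ (-c)) :=
          (abs_add_le _ _).trans (add_le_add h6 h7)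
      _ ≤ ((n.factorial : ℝ) + 1) * 2 ^ (n + 1) * 2 ^ (-c) / 2 := by
          rw [pow_succ]
          nlinarith
      _ ≤ 1 / 2 := by linarith
  have := abs_le.1 hbound
  constructor <;> linarith [this.1, this.2]

/-- all entries large implies admissible. -/
theorem adm_of_entries {R : Fin n → Fin n → ℝ} {c : ℝ}
    (hc : ((n.factorial : ℝ) + 1) * 2 ^ (n + 1) ≤ 2 ^ c)
    (h1 : ∀ i j, c ≤ R i j) : Adm R := by
  have hc0 : 0 ≤ c := by
    by_contra hneg
    push Not at hneg
    have h2 : (2:ℝ) ^ c < 1 := Real.rpow_lt_one_of_one_lt_of_neg (by norm_num) hneg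
    have h3 : (1:ℝ) ≤ ((n.factorial : ℝ) + 1) * 2 ^ (n + 1) := by
      have : (1:ℝ) ≤ (n.factorial : ℝ) + 1 := by
        have := Nat.cast_nonneg (α := ℝ) n.factorial
        linarith
      exact one_le_mul_of_one_le_of_one_le this (one_le_pow₀ (by norm_num))
    linarith
  refine adm_of_cycle hc (fun i => h1 i i) fun σ hσ => ?_
  obtain ⟨i, hi⟩ : ∃ i, σ i ≠ i := by
    by_contra hcon
    push Not at hcon
    exact hσ (Equiv.ext hcon)
  calc c ≤ R i (σ i) := h1 _ _
    _ ≤ ∑ i with σ i ≠ i, R i (σ i) :=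
      Finset.single_le_sum (f := fun i => R i (σ i)) (fun k _ => hc0.trans (h1 _ _))
        (by simpa using hi)

/-! ### total variation and integrals -/



end Crest.Agent.R014.Nz_323
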