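import Crest.Agent.R014.Sw3_640
import Mathlib
import Crest.Agent.R014.Sw5_640

-- ▼ part R014/ClF1_599
section

set_option autoImplicit false

/-!
Row 14, block D, noise formalism, section 4, (4.2): the exact exchange square.

For two commuting roots `P`, `Q` and an arbitrary noise `Z` on the left, observation
`x Z u_P(2^(-α) s) u_Q(2^(-γ) r)`:
`H(d_s; α, γ) + H(d_r; α + log₂ b, γ) = H(d_r; α, γ) + H(d_s; α, γ + log₂ b')`.
-/

open MeasureTheory Crest.NumberTheoryR.Packets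
open scoped ENNReal

namespace Crest.Agent.R014.ClF1_599

open Ms_667 Nd_837 Ne1_567 Ne2_567 Sw1_640 Sw3_640 NScD_395

variable {n : ℕ}


section Comm

variable {p q p' q' : Fin n} {hP : p ≠ q} {hQ : p' ≠ q'}

/-- The two roots commute. -/
def Co (hP : p ≠ q) (hQ : p' ≠ q') : Prop :=
  ∀ s t : ℝ, (uu hP s : SLR n) * uu hQ t = uu hQ t * uu hP s

theorem Co.symm (h : Co hP hQ) : Co hQ hP := fun s t => (h t s).symm

theorem cv_map_map {W W' : Type*} [MeasurableSpace W] [MeasurableSpace W'] {ρ : Measure W}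
    {ρ' : Measure W'} [IsProbabilityMeasure ρ] [IsProbabilityMeasure ρ'] {σ : W → ℝ} {τ : W' → ℝ}
    (hσ : Measurable σ) (hτ : Measurable τ) (h : Co hP hQ) :
    cv (ρ.map fun w => (uu hP (σ w) : SLR n)) (ρ'.map fun w => (uu hQ (τ w) : SLR n))
      = cv (ρ'.map fun w => (uu hQ (τ w) : SLR n)) (ρ.map fun w => (uu hP (σ w) : SLR n)) := by
  have m1 : Measurable fun w : W => (uu hP (σ w) : SLR n) := (measurable_uu hP).comp hσ
  have m2 : Measurable fun w : W' => (uu hQ (τ w) : SLR n) := (measurable_uu hQ).comp hτ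
  unfold cv
  rw [Measure.map_prod_map _ _ m1 m2, Measure.map_prod_map _ _ m2 m1,
    Measure.map_map measurable_mul₂ (m1.prodMap m2),
    Measure.map_map measurable_mul₂ (m2.prodMap m1), ← Measure.prod_swap,
    Measure.map_map (measurable_mul₂.comp (m1.prodMap m2)) measurable_swap]
  congr 1
  funext w
  simp only [Function.comp_apply, Prod.map_fst, Prod.map_snd, Prod.fst_swap, Prod.snd_swap]
  exact h _ _

theorem dirac_cv_map {W : Type*} [MeasurableSpace W] {ρ : Measure W}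
    [IsProbabilityMeasure ρ] {σ : W → ℝ} (hσ : Measurable σ) (h : Co hP hQ) (s : ℝ) :
    cv (Measure.dirac (uu hQ s : SLR n)) (ρ.map fun w => (uu hP (σ w) : SLR n))
      = cv (ρ.map fun w => (uu hP (σ w) : SLR n)) (Measure.dirac (uu hQ s : SLR n)) := by
  have m1 : Measurable fun w : W => (uu hP (σ w) : SLR n) := (measurable_uu hP).comp hσ
  have : IsProbabilityMeasure (ρ.map fun w => (uu hP (σ w) : SLR n)) :=
    Measure.isProbabilityMeasure_map m1.aemeasurable
  rw [dirac_cv, cv_dirac, Measure.map_map (measurable_const_mul _) m1,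
    Measure.map_map (measurable_mul_const _) m1]
  congr 1
  funext w
  exact (h _ _).symm

theorem dlaw_dlaw (h : Co hP hQ) (α γ : ℝ) {b b' : ℕ} (d : Fin b) (e : Fin b') :
    cv (dlaw hP α b d) (dlaw hQ γ b' e) = cv (dlaw hQ γ b' e) (dlaw hP α b d) :=
  cv_map_map (measurable_digit α d) (measurable_digit γ e) h

theorem wn_dlaw (h : Co hP hQ) (α γ : ℝ) {b' : ℕ} (e : Fin b') :
    cv (wn hP α) (dlaw hQ γ b' e) = cv (dlaw hQ γ b' e) (wn hP α) :=
  cv_map_map (measurable_const.mul measurable_id) (measurable_digit γ e) h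

/-- The noise is the mixture of the digit laws. -/
theorem wn_split (hP : p ≠ q) (α : ℝ) {b : ℕ} (hb : 0 < b) :
    (wn hP α : Measure (SLR n)) = (b : ℝ≥0∞)⁻¹ • ∑ d : Fin b, dlaw hP α b d := by
  have hm := measurable_wn (n := n) hP α
  unfold wn
  conv_lhs => rw [uni_split hb]
  rw [Measure.map_smul, Measure.map_finset_sum hm.aemeasurable]
  congr 1
  refine Finset.sum_congr rfl fun k _ => ?_
  rw [Measure.map_map hm (by fun_prop)]
  rfl

/-- The digit law is a translate of the finer noise. -/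
theorem dlaw_eq (hP : p ≠ q) (α : ℝ) {b : ℕ} (d : Fin b) :
    (dlaw hP α b d : Measure (SLR n)) = cv (wn hP (α + Real.logb 2 b))
      (Measure.dirac (uu hP ((2 : ℝ) ^ (-α) * cen b d))) := by
  rw [cv_dirac]
  unfold dlaw wn
  rw [Measure.map_map (measurable_mul_const _) (measurable_wn hP _)]
  congr 1
  funext θ
  simp only [Function.comp_apply]
  rw [← uu_add, rpow_sub_logb d.pos]
  congr 1
  ring

end Comm

section Square

variable {p q p' q' : Fin n} {hP : p ≠ q} {hQ : p' ≠ q'}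

/-- The joint family of the two digits. -/
noncomputable def W2 (μ : Measure (ModSpace n)) (Z : Measure (SLR n)) (hP : p ≠ q) (hQ : p' ≠ q')
    (α γ : ℝ) (b b' : ℕ) : Fin b × Fin b' → Measure (ModSpace n) :=
  fun c => ((b : ℝ≥0∞)⁻¹ * (b' : ℝ≥0∞)⁻¹) •
    stp μ (cv (cv Z (dlaw hP α b c.1)) (dlaw hQ γ b' c.2))

variable (μ : Measure (ModSpace n)) [IsProbabilityMeasure μ] (Z : Measure (SLR n))
  [IsProbabilityMeasure Z] (α γ : ℝ) {b b' : ℕ}

instance (c : Fin b × Fin b') : IsFiniteMeasure (W2 μ Z hP hQ α γ b b' c) := by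
  unfold W2
  have hb : (b : ℝ≥0∞)⁻¹ * (b' : ℝ≥0∞)⁻¹ ≠ ∞ := by
    have h1 : 0 < b := c.1.pos
    have h2 : 0 < b' := c.2.pos
    exact ENNReal.mul_ne_top (by simp [h1.ne']) (by simp [h2.ne'])
  exact Measure.smul_finite _ hb

theorem mf_W2 (h : Co hP hQ) (hb' : 0 < b') :
    mf (W2 μ Z hP hQ α γ b b') = lab μ (cv Z (wn hQ γ)) hP α b := by
  funext d
  have h1 : lab μ (cv Z (wn hQ γ)) hP α b d
      = (b : ℝ≥0∞)⁻¹ • stp (stp μ (cv Z (dlaw hP α b d))) (wn hQ γ) := by
    unfold lab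
    rw [stp_stp, stp_stp, cv_assoc, cv_assoc, wn_dlaw h.symm]
  have h2 : ∀ e : Fin b', W2 μ Z hP hQ α γ b b' (d, e)
      = ((b : ℝ≥0∞)⁻¹ * (b' : ℝ≥0∞)⁻¹) •
        stp (stp μ (cv Z (dlaw hP α b d))) (dlaw hQ γ b' e) := fun e => by
    unfold W2
    rw [stp_stp]
  unfold mf
  rw [Finset.sum_congr rfl fun e _ => h2 e, h1, wn_split hQ γ hb', stp_smul, stp_sum, smul_smul,
    Finset.smul_sum]

theorem W2_swap (h : Co hP hQ) (d : Fin b) (e : Fin b') :
    W2 μ Z hP hQ α γ b b' (d, e) = W2 μ Z hQ hP γ α b' b (e, d) := by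
  unfold W2
  rw [mul_comm, cv_assoc, dlaw_dlaw h, ← cv_assoc]

theorem ms_W2 (h : Co hP hQ) (hb : 0 < b) :
    ms (W2 μ Z hP hQ α γ b b') = lab μ (cv Z (wn hP α)) hQ γ b' := by
  rw [← mf_W2 μ Z γ α h.symm hb]
  funext e
  unfold ms mf
  exact Finset.sum_congr rfl fun d _ => W2_swap μ Z α γ h d e

theorem slice (h : Co hP hQ) (d : Fin b) :
    Hc (fun e => W2 μ Z hP hQ α γ b b' (d, e))
      = (b : ℝ)⁻¹ * Hc (lab μ (cv Z (wn hP (α + Real.logb 2 b))) hQ γ b') := by
  have hb : 0 < b := d.pos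
  have hbt : (b : ℝ≥0∞)⁻¹ ≠ ∞ := by simp [hb.ne']
  have hb0 : (b : ℝ≥0∞)⁻¹ ≠ 0 := by simp
  have h1 : (fun e => W2 μ Z hP hQ α γ b b' (d, e))
      = fun e => (b : ℝ≥0∞)⁻¹ • ((lab μ (cv Z (wn hP (α + Real.logb 2 b))) hQ γ b' e).map
        fun x => act x (uu hP ((2 : ℝ) ^ (-α) * cen b d))) := by
    funext e
    unfold W2 lab
    rw [Measure.map_smul, smul_smul, stp_stp, ← stp_dirac, stp_stp]
    congr 2
    rw [dlaw_eq hP α d, cv_assoc, cv_assoc, cv_assoc, cv_assoc]
    congr 2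
    exact dirac_cv_map (measurable_digit γ e) h.symm _
  have h2 := Hc_smul (fun e => (lab μ (cv Z (wn hP (α + Real.logb 2 b))) hQ γ b' e).map
        fun x => act x (uu hP ((2 : ℝ) ^ (-α) * cen b d))) hb0 hbt
  rw [h1, h2, Hc_act]
  simp

theorem sum_slice (h : Co hP hQ) (hb : 0 < b) :
    ∑ d, Hc (fun e => W2 μ Z hP hQ α γ b b' (d, e))
      = Hc (lab μ (cv Z (wn hP (α + Real.logb 2 b))) hQ γ b') := by
  rw [Finset.sum_congr rfl fun d _ => slice μ Z α γ h d, Finset.sum_const, Finset.card_univ,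
    Fintype.card_fin, nsmul_eq_mul, ← mul_assoc, mul_inv_cancel₀ (by exact_mod_cast hb.ne'), one_mul]

theorem sum_slice' (h : Co hP hQ) (hb' : 0 < b') :
    ∑ e, Hc (fun d => W2 μ Z hP hQ α γ b b' (d, e))
      = Hc (lab μ (cv Z (wn hQ (γ + Real.logb 2 b'))) hP α b) := by
  rw [← sum_slice μ Z γ α h.symm hb']
  refine Finset.sum_congr rfl fun e _ => ?_
  congr 1
  funext d
  exact W2_swap μ Z α γ h d e

/-- **(SQ), two commuting roots.** -/
theorem square (h : Co hP hQ) (hb : 0 < b) (hb' : 0 < b') :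
    Hc (lab μ (cv Z (wn hQ γ)) hP α b)
        + Hc (lab μ (cv Z (wn hP (α + Real.logb 2 b))) hQ γ b')
      = Hc (lab μ (cv Z (wn hP α)) hQ γ b')
        + Hc (lab μ (cv Z (wn hQ (γ + Real.logb 2 b'))) hP α b) := by
  have h1 := Hc_exchange (W2 μ Z hP hQ α γ b b')
  rw [ms_W2 μ Z α γ h hb, mf_W2 μ Z α γ h hb', sum_slice μ Z α γ h hb,
    sum_slice' μ Z α γ h hb'] at h1
  linarith


end Square

section Heis

variable {j k l : Fin n}

theorem co_jk_jl (hjk : j ≠ k) (hjl : j ≠ l) : Co hjk hjl := fun s t => comm_jk_jl hjk hjl s t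

variable (μ : Measure (ModSpace n)) [IsProbabilityMeasure μ] (Z : Measure (SLR n))
  [IsProbabilityMeasure Z] {b b' : ℕ}

/-- **(SQ)** for the Heisenberg order `Z · kl · jk · jl`. -/
theorem square_heis (hjk : j ≠ k) (hkl : k ≠ l) (hjl : j ≠ l) (α β γ : ℝ) (hb : 0 < b)
    (hb' : 0 < b') :
    Hc (lab μ (cv (cv Z (dl hkl β)) (dl hjl γ)) hjk α b)
        + Hc (lab μ (cv (cv Z (dl hkl β)) (dl hjk (α + Real.logb 2 b))) hjl γ b')
      = Hc (lab μ (cv (cv Z (dl hkl β)) (dl hjk α)) hjl γ b')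
        + Hc (lab μ (cv (cv Z (dl hkl β)) (dl hjl (γ + Real.logb 2 b'))) hjk α b) :=
  square μ (cv Z (dl hkl β)) α γ (co_jk_jl hjk hjl) hb hb'

end Heis

end Crest.Agent.R014.ClF1_599
end

-- ▼ part R014/Tel_599
section

/-!
Row 14, block D (noise formalism of #3844), CLAIM F by one exchange square.

`fs a g` : entropy of one `jk`-digit, `fr a g` : entropy of one `jl`-digit, `a` = depth of the
`jk`-window, `g` = depth of the `jl`-window (relative to the critical one), the `kl`-window is fixed.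
-/

open Finset

namespace Crest.Agent.R014.Tel_599

/-- Double telescoping: one kind of exchange square + near-constancy of `fs` give an upper bound
for the average of the critical `fr i i`. -/
theorem claimF (fs fr : ℕ → ℕ → ℝ) (e : ℕ → ℝ) (E cs cr η : ℝ) (I A : ℕ) (hIA : I ≤ A)
    (he : ∀ N, ∑ m ∈ range N, e m ≤ E)
    (hsq : ∀ a g, g ≤ a → a < A → g < I →
      fr a g - fr (a + 1) g ≤ fs a g - fs a (g + 1) + e (a - g))
    (hup : ∀ a, a < A → fs a 0 ≤ cs + η)
    (hlo : ∀ a g, a < A → g ≤ a + 1 → g ≤ I → cs - η ≤ fs a g)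
    (hfine : ∀ g < I, fr A g ≤ cr + η) :
    ∑ i ∈ range I, fr i i ≤ I * (cr + η) + 2 * η * A + I * E := by
  have key : ∀ i ∈ range I, fr i i ≤ fr A i + ∑ a ∈ Ico i A, (fs a i - fs a (i + 1)) + E := by
    intro i hi
    have hi' : i < I := mem_range.1 hi
    have h1 : ∑ a ∈ Ico i A, (fr a i - fr (a + 1) i) = fr i i - fr A i := by
      have : ∀ B, i ≤ B → ∑ a ∈ Ico i B, (fr a i - fr (a + 1) i) = fr i i - fr B i := by
        intro B hB
        induction B, hB using Nat.le_induction with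
        | base => simp
        | succ B hB ih => rw [Finset.sum_Ico_succ_top hB, ih]; ring
      exact this A (hi'.le.trans hIA)
    have h2 : ∑ a ∈ Ico i A, (fr a i - fr (a + 1) i)
        ≤ ∑ a ∈ Ico i A, ((fs a i - fs a (i + 1)) + e (a - i)) := by
      refine Finset.sum_le_sum fun a ha => ?_
      have ha' := Finset.mem_Ico.1 ha
      exact hsq a i ha'.1 ha'.2 hi'
    have h3 : ∑ a ∈ Ico i A, e (a - i) ≤ E := by
      rw [Finset.sum_Ico_eq_sum_range]
      have : ∑ k ∈ range (A - i), e (i + k - i) = ∑ k ∈ range (A - i), e k :=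
        Finset.sum_congr rfl fun k _ => by rw [Nat.add_sub_cancel_left]
      rw [this]
      exact he _
    rw [Finset.sum_add_distrib] at h2
    linarith
  have hswap : ∑ i ∈ range I, ∑ a ∈ Ico i A, (fs a i - fs a (i + 1))
      = ∑ a ∈ range A, ∑ i ∈ range (min (a + 1) I), (fs a i - fs a (i + 1)) := by
    rw [Finset.sum_sigma', Finset.sum_sigma']
    refine Finset.sum_bij' (fun x _ => ⟨x.2, x.1⟩) (fun x _ => ⟨x.2, x.1⟩) ?_ ?_ ?_ ?_ ?_
    · rintro ⟨i, a⟩ h
      simp only [Finset.mem_sigma, mem_range, Finset.mem_Ico] at h ⊢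
      omega
    · rintro ⟨a, i⟩ h
      simp only [Finset.mem_sigma, mem_range, Finset.mem_Ico, lt_min_iff] at h ⊢
      omega
    · rintro ⟨i, a⟩ _; rfl
    · rintro ⟨a, i⟩ _; rfl
    · rintro ⟨i, a⟩ _; rfl
  have hrow : ∀ a ∈ range A, ∑ i ∈ range (min (a + 1) I), (fs a i - fs a (i + 1)) ≤ 2 * η := by
    intro a ha
    have ha' := mem_range.1 ha
    rw [Finset.sum_range_sub']
    have h1 := hup a ha'
    have h2 := hlo a (min (a + 1) I) ha' (min_le_left _ _) (min_le_right _ _)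
    linarith
  calc ∑ i ∈ range I, fr i i
      ≤ ∑ i ∈ range I, (fr A i + ∑ a ∈ Ico i A, (fs a i - fs a (i + 1)) + E) :=
        Finset.sum_le_sum key
    _ = ∑ i ∈ range I, fr A i + ∑ i ∈ range I, ∑ a ∈ Ico i A, (fs a i - fs a (i + 1))
          + I * E := by
        rw [Finset.sum_add_distrib, Finset.sum_add_distrib]
        simp
    _ ≤ I * (cr + η) + A * (2 * η) + I * E := by
        have h1 : ∑ i ∈ range I, fr A i ≤ I * (cr + η) := by
          have := Finset.sum_le_sum (s := range I) (f := fun i => fr A i) (g := fun _ => cr + η)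
            fun i hi => hfine i (mem_range.1 hi)
          rw [Finset.sum_const, card_range, nsmul_eq_mul] at this
          exact this
        have h2 : ∑ a ∈ range A, ∑ i ∈ range (min (a + 1) I), (fs a i - fs a (i + 1))
            ≤ A * (2 * η) := by
          have := Finset.sum_le_sum hrow
          simpa using this
        rw [hswap]
        linarith
    _ = I * (cr + η) + 2 * η * A + I * E := by ring

/-- Pointwise form: if all critical terms `fr i i` dominate one number `φ` (shift-equivariance and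
monotonicity in the macroscopic entries), then `φ ≤ cr + η + 2ηA/I + E + w`. -/
theorem claimF_point (fs fr : ℕ → ℕ → ℝ) (e : ℕ → ℝ) (E cs cr η w φ : ℝ) (I A : ℕ)
    (hI : 0 < I) (hIA : I ≤ A)
    (he : ∀ N, ∑ m ∈ range N, e m ≤ E)
    (hsq : ∀ a g, g ≤ a → a < A → g < I →
      fr a g - fr (a + 1) g ≤ fs a g - fs a (g + 1) + e (a - g))
    (hup : ∀ a, a < A → fs a 0 ≤ cs + η)
    (hlo : ∀ a g, a < A → g ≤ a + 1 → g ≤ I → cs - η ≤ fs a g)
    (hfine : ∀ g < I, fr A g ≤ cr + η)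
    (hφ : ∀ i < I, φ ≤ fr i i + w) :
    φ ≤ cr + η + 2 * η * A / I + E + w := by
  have h := claimF fs fr e E cs cr η I A hIA he hsq hup hlo hfine
  have h1 : (I : ℝ) * φ ≤ ∑ i ∈ range I, fr i i + I * w := by
    have := Finset.sum_le_sum (s := range I) (f := fun _ => φ) (g := fun i => fr i i + w)
      fun i hi => hφ i (mem_range.1 hi)
    rw [Finset.sum_add_distrib] at this
    simpa using this
  have hI' : (0 : ℝ) < I := by exact_mod_cast hI
  have h2 : (I : ℝ) * φ ≤ I * (cr + η + 2 * η * A / I + E + w) := by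
    have h3 : (I : ℝ) * (cr + η + 2 * η * A / I + E + w)
        = I * (cr + η) + 2 * η * A + I * E + I * w := by
      field_simp
    rw [h3]; linarith
  exact le_of_mul_le_mul_left h2 hI'

end Crest.Agent.R014.Tel_599
end

-- ▼ part R014/ClF2_599
section

set_option autoImplicit false

/-!
Row 14, block D, noise formalism, section 4, (4.2) **CLAIM F**: the `jl`-digits at depth `γ` of the
observation `x ζ u_kl(2^(-β) t) u_jk(2^(-α) s) u_jl(2^(-γ) r)` have no more entropy than the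
reference value, up to small errors, as soon as `α + β - γ` is large (an absolute gap).
-/

open MeasureTheory Crest.NumberTheoryR.Packets
open scoped ENNReal

namespace Crest.Agent.R014.ClF2_599

open Ms_667 Ne1_567 Ne3_567 Sw1_640 Sw3_640 Sw4_640 Sw5_640
open Nd_837 hiding uni_ae
open Nz_323 (Adm CN)
open NScA_395 (rho)
open NScD_395 (dl)
open NScG_458 (RN)
open NScH_395 (NC)

variable {n : ℕ} {j k l : Fin n} {b : ℕ}

variable {μ : Measure (ModSpace n)} [IsProbabilityMeasure μ] (hμ : AInv μ)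
  {M M' u1 u2 w W α β γ η e : ℝ} {B : Finset ℕ}

theorem logb_ge_one {b : ℕ} (hb : 2 ≤ b) : 1 ≤ Real.logb 2 b := by
  rw [Real.le_logb_iff_rpow_le (by norm_num) (by exact_mod_cast (by omega : 0 < b)), Real.rpow_one]
  exact_mod_cast hb

theorem two_rpow_logb {b : ℕ} (hb : 2 ≤ b) : (2 : ℝ) ^ Real.logb 2 b = b :=
  Real.rpow_logb two_pos (by norm_num) (by exact_mod_cast (by omega : 0 < b))

/-- the window of the `jl`-entropy -/
noncomputable abbrev HR (μ : Measure (ModSpace n)) (M : ℝ) (hjk : j ≠ k) (hkl : k ≠ l) (hjl : j ≠ l)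
    (α β γ : ℝ) (b : ℕ) : ℝ :=
  Hc (lab μ (cv (cv (zt (RN j k l M)) (dl hkl β)) (dl hjk α)) hjl γ b)

/-- the window of the `jk`-entropy -/
noncomputable abbrev HS (μ : Measure (ModSpace n)) (M : ℝ) (hjk : j ≠ k) (hkl : k ≠ l) (hjl : j ≠ l)
    (α β γ : ℝ) (b : ℕ) : ℝ :=
  Hc (lab μ (cv (cv (zt (RN j k l M)) (dl hkl β)) (dl hjl γ)) hjk α b)

include hμ

/-- **CLAIM F**, explicit form. -/
theorem claimF (hjk : j ≠ k) (hkl : k ≠ l) (hjl : j ≠ l) (hb : 2 ≤ b)
    (h : Rg n M u1 u2 w (W + 12 * u1 + 4 * w + 4 * Real.logb 2 b)) (hN : NC μ u1 u2 B η)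
    (hbB : b ∈ B) (hη : 0 ≤ η) (hMM : 2 * M ≤ M') (hα : |α| ≤ W) (hβ : |β| ≤ W) (hγ : |γ| ≤ W)
    (hee : 3 * e0 n w + b * (2 : ℝ) ^ (γ - α - β) / 2 ≤ e) (he : 2 * e ≤ 1) :
    HR μ M' hjk hkl hjl α β γ b ≤ Hc (lab μ (zt (u1 • rho j l)) hjl 0 b)
      + 5 * (η + md b (2 * e)) + md b (4 * e0 n w) := by
  have hb0 : 0 < b := by omega
  have hb0' : (0 : ℝ) < b := by exact_mod_cast hb0
  set L : ℝ := Real.logb 2 b with hL
  have hL1 : 1 ≤ L := logb_ge_one hb
  have hL0 : 0 < L := by linarith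
  have hu1 := h.u1_nonneg
  have hw := h.hw
  have hM0 := h.M_nonneg
  have hM1 := h.hM1
  have h0 := e0_nonneg n w
  have hX : (0 : ℝ) < (2 : ℝ) ^ (γ - α - β) := Real.rpow_pos_of_pos two_pos _
  have hW : 0 ≤ W := le_trans (abs_nonneg _) hα
  have he0 : 0 ≤ e := le_trans (by positivity) hee
  -- the gap is nonnegative
  have hgap0 : 0 ≤ α + β - γ := by
    by_contra hcon
    push Not at hcon
    have h1 : (1 : ℝ) ≤ (2 : ℝ) ^ (γ - α - β) :=
      Real.one_le_rpow (by norm_num) (by linarith)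
    have h2 : (2 : ℝ) ≤ b := by exact_mod_cast hb
    nlinarith
  -- number of steps
  set I : ℕ := ⌈(6 * u1 + 2 * w) / L⌉₊ + 1 with hI
  have hIpos : 0 < I := by omega
  have hI1 : 6 * u1 + 2 * w ≤ I * L := by
    have h1 : (6 * u1 + 2 * w) / L ≤ (I : ℝ) := by
      refine (Nat.le_ceil _).trans ?_
      exact_mod_cast (by omega : ⌈(6 * u1 + 2 * w) / L⌉₊ ≤ I)
    rwa [div_le_iff₀ hL0] at h1
  have hI2 : I * L ≤ 6 * u1 + 2 * w + 2 * L := by
    have h1 : ((⌈(6 * u1 + 2 * w) / L⌉₊ : ℕ) : ℝ) < (6 * u1 + 2 * w) / L + 1 :=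
      Nat.ceil_lt_add_one (by positivity)
    have h2 : (I : ℝ) ≤ (6 * u1 + 2 * w) / L + 2 := by
      rw [hI]; push_cast; linarith
    calc (I : ℝ) * L ≤ ((6 * u1 + 2 * w) / L + 2) * L := mul_le_mul_of_nonneg_right h2 hL0.le
      _ = 6 * u1 + 2 * w + 2 * L := by field_simp
  have hIL : 0 ≤ (I : ℝ) * L := by positivity
  -- ranges of the depths
  have hdep : ∀ (m : ℕ) (x : ℝ), m ≤ 2 * I → |x| ≤ W →
      |x + m * L| ≤ W + 12 * u1 + 4 * w + 4 * L := fun m x hm hx => by
    have h1 : (m : ℝ) ≤ 2 * I := by exact_mod_cast hm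
    have h2 : (m : ℝ) * L ≤ 2 * I * L := mul_le_mul_of_nonneg_right h1 hL0.le
    have h3 : 0 ≤ (m : ℝ) * L := by positivity
    have h4 := abs_add_le x (m * L)
    rw [abs_of_nonneg h3] at h4
    linarith
  have hWβ : |β| ≤ W + 12 * u1 + 4 * w + 4 * L := by linarith
  -- near constancy of the `jk`-digits
  have hS : ∀ a g : ℕ, a < 2 * I → g ≤ a + 1 → g ≤ I →
      |HS μ M hjk hkl hjl (α + a * L) β (γ + g * L) b
        - Hc (lab μ (zt (u1 • rho j k)) hjk 0 b)| ≤ η + md b (2 * e) := by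
    intro a g ha hg hgI
    refine near_S hμ h hN hbB hb0 hη hjk hkl hjl (hdep a α (by omega) hα) hWβ
      (hdep g γ (by omega) hγ) (le_trans (add_le_add le_rfl ?_) hee) he
    have h1 : (g : ℝ) ≤ a + 1 := by exact_mod_cast hg
    have h2 : (g : ℝ) * L ≤ (a + 1) * L := mul_le_mul_of_nonneg_right h1 hL0.le
    have h3 : γ + g * L - (α + a * L) - β ≤ L + (γ - α - β) := by linarith
    have h4 : (2 : ℝ) ^ (γ + g * L - (α + a * L) - β) ≤ b * (2 : ℝ) ^ (γ - α - β) := by
      refine (Real.rpow_le_rpow_of_exponent_le (by norm_num) h3).trans (le_of_eq ?_)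
      rw [Real.rpow_add two_pos, hL, two_rpow_logb hb]
    linarith
  have hmd : md b (6 * e0 n w) ≤ md b (2 * e) := by
    refine md_mono b (by positivity) ?_ he
    have : 0 ≤ b * (2 : ℝ) ^ (γ - α - β) / 2 := by positivity
    linarith
  have hq : 0 ≤ b * (2 : ℝ) ^ (γ - α - β) / 2 := by positivity
  have key := Tel_599.claimF_point
    (fs := fun a g => HS μ M hjk hkl hjl (α + a * L) β (γ + g * L) b)
    (fr := fun a g => HR μ M hjk hkl hjl (α + a * L) β (γ + g * L) b)
    (e := fun _ => 0) (E := 0) (cs := Hc (lab μ (zt (u1 • rho j k)) hjk 0 b))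
    (cr := Hc (lab μ (zt (u1 • rho j l)) hjl 0 b)) (η := η + md b (2 * e))
    (w := md b (4 * e0 n w)) (φ := HR μ M' hjk hkl hjl α β γ b) (I := I) (A := 2 * I)
    hIpos (by omega) (fun N => by simp) ?_ ?_ ?_ ?_ ?_
  · have h1 : 2 * (η + md b (2 * e)) * ((2 * I : ℕ) : ℝ) / I = 4 * (η + md b (2 * e)) := by
      have : (I : ℝ) ≠ 0 := by exact_mod_cast hIpos.ne'
      push_cast
      field_simp
      ring
    rw [h1] at key
    linarith
  · -- the squares
    intro a g _ _ _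
    have hp := isProb_zt (h.adm_RN (j := j) (k := k) (l := l))
    have h1 := ClF1_599.square_heis μ (zt (RN j k l M)) hjk hkl hjl (α + a * L) β (γ + g * L)
      hb0 hb0
    have h2 : α + ((a + 1 : ℕ) : ℝ) * L = α + a * L + Real.logb 2 b := by
      rw [← hL]; push_cast; ring
    have h3 : γ + ((g + 1 : ℕ) : ℝ) * L = γ + g * L + Real.logb 2 b := by
      rw [← hL]; push_cast; ring
    simp only [HS, HR]
    rw [h2, h3]
    linarith
  · -- upper bound of `fs`
    intro a ha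
    have h1 := hS a 0 ha (by omega) (by omega)
    have h2 := (abs_le.1 h1).2
    linarith
  · -- lower bound of `fs`
    intro a g ha hg hgI
    have h1 := hS a g ha hg hgI
    have h2 := (abs_le.1 h1).1
    linarith
  · -- fine `jl`-digits
    intro g hg
    have h1 : (g : ℝ) + 1 ≤ I := by exact_mod_cast hg
    have h2 : ((g : ℝ) + 1) * L ≤ I * L := mul_le_mul_of_nonneg_right h1 hL0.le
    have hgap : 2 * (3 * u1 + w) ≤ (α + ((2 * I : ℕ) : ℝ) * L) + β - (γ + g * L) := by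
      push_cast
      linarith
    have h3 := near_R hμ h hN hbB hb0 hη hjk hkl hjl hWβ (hdep g γ (by omega) hγ) hgap
      (by linarith)
    have h4 := (abs_le.1 h3).2
    linarith
  · -- the diagonal terms dominate
    intro i hi
    have h1 : (i : ℝ) ≤ I := by exact_mod_cast hi.le
    have h2 : (i : ℝ) * L ≤ I * L := mul_le_mul_of_nonneg_right h1 hL0.le
    have h3 : 0 ≤ (i : ℝ) * L := by positivity
    set t : Fin n → ℝ := Pi.single j (-(i * L)) with ht
    have htj : t j = -(i * L) := by rw [ht, Pi.single_eq_same]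
    have htk : t k = 0 := by rw [ht, Pi.single_eq_of_ne hjk.symm]
    have htl : t l = 0 := by rw [ht, Pi.single_eq_of_ne hjl.symm]
    have htb : ∀ p, |t p| ≤ I * L := fun p => by
      by_cases hp : p = j
      · rw [hp, htj, abs_neg, abs_of_nonneg h3]; exact h2
      · rw [ht, Pi.single_eq_of_ne hp, abs_zero]; exact hIL
    have h5 : ∀ x : ℝ, |x| ≤ W → |x + i * L| ≤ W + I * L := fun x hx => by
      have h4 := abs_add_le x (i * L)
      rw [abs_of_nonneg h3] at h4
      linarith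
    have h6 := mono_shift_R hμ (b := b) (α := α + i * L) (β := β) (γ := γ + i * L) hjk hkl hjl hb0
      hw hM0 hMM htb (by linarith) (by linarith [h5 α hα]) (by linarith)
      (by linarith [h5 γ hγ]) h.adm_RN (by linarith)
    rw [htj, htk, htl] at h6
    have e1 : β + ((0 : ℝ) - 0) = β := by ring
    have e2 : α + i * L + (-(i * L) - 0) = α := by ring
    have e3 : γ + i * L + (-(i * L) - 0) = γ := by ring
    rw [e1, e2, e3] at h6
    exact h6

end Crest.Agent.R014.ClF2_599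
end

-- ▼ part R014/ClF3_599

set_option autoImplicit false

/-!
Row 14, block D, noise formalism, section 4, (4.2) CLAIM F, quantified forms.
-/

open MeasureTheory Crest.NumberTheoryR.Packets
open scoped ENNReal

namespace Crest.Agent.R014.ClF3_599

open Ms_667 Ne1_567 Ne3_567 Sw1_640 Sw3_640 Sw4_640 Sw5_640 ClF2_599
open Nd_837 hiding uni_ae
open Nz_323 (Adm CN)
open NScA_395 (rho)
open NScD_395 (dl)
open NScG_458 (RN)
open NScH_395 (NC c1N)

variable {n : ℕ}


theorem rpow_neg_small {C δ : ℝ} (hC : 0 ≤ C) (hδ : 0 < δ) :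
    ∃ w0 : ℝ, 0 < w0 ∧ ∀ w, w0 ≤ w → C * (2 : ℝ) ^ (-w) ≤ δ := by
  refine ⟨max 1 (Real.logb 2 ((C + 1) / δ)), lt_of_lt_of_le one_pos (le_max_left _ _),
    fun w hw => ?_⟩
  have h1 : Real.logb 2 ((C + 1) / δ) ≤ w := (le_max_right _ _).trans hw
  have hp : 0 < (C + 1) / δ := by positivity
  rw [Real.logb_le_iff_le_rpow (by norm_num) hp] at h1
  have h2 : 0 < (2 : ℝ) ^ w := Real.rpow_pos_of_pos two_pos _
  rw [Real.rpow_neg two_pos.le, mul_inv_le_iff₀ h2]
  rw [div_le_iff₀ hδ] at h1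
  nlinarith

/-- The ranges of `Sw4_640.Rg` from the regime. -/
theorem rg_of {M u1 u2 W : ℝ} (hc : 20 * c1N n ≤ u1) (hu : 0 ≤ u1) (hW : 0 ≤ W)
    (hM : 100 * (u1 + W) ≤ M) (hu2 : 2 * M ≤ u2 / 20) : Rg n M u1 u2 (u1 / 20) W where
  hw := by positivity
  hwu := le_rfl
  hW := hW
  hadm := by
    have h1 : c1N n ≤ u1 / 20 := by linarith
    unfold NScH_395.c1N at h1
    rwa [Real.logb_le_iff_le_rpow (by norm_num) (by positivity)] at h1
  hM1 := by linarith
  hM2 := by linarith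



end Crest.Agent.R014.ClF3_599
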