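import Crest.Agent.R014.NScD_395
import Crest.Agent.R014.DSkel_792

/-!
# Row 14, block D: from `Ψ` with base 2 to `Ψ` with a large base (helper792)

`Ψ₂ ≤ 2^q Ψ_b + B`, `∫ B ≤ 2 · 2^(-q)` (`b = 2 m`, `m ≥ 2^q`), for the same reference noise; hence a
positive density of depths with `Σ Ψ₂ ≥ c₁ w` gives a density `c₁ / 4` of depths with
`Ψ_b ≥ τ₀ = 2^(-q) c₁ / (4 n²)`.
-/

set_option autoImplicit false
set_option linter.unusedSectionVars false
set_option linter.style.haveILetI false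

open MeasureTheory Finset Crest.NumberTheoryR.Packets
open Crest.Agent.R014.Nd_837 Crest.Agent.R014.Ne1_567 Crest.Agent.R014.NScC_395
open Crest.Agent.R014.NScD_395 Crest.Agent.R014.Ms_667
open Crest.Agent.R014.Ne3_567 (pv measurable_pv pv_nonneg sum_pv pv_le_one pv_eq integral_pv_mul)
open scoped ENNReal

noncomputable section

namespace Crest.Agent.R014.Conv_792

variable {n : ℕ}

/-! ### Radon-Nikodym derivatives of finite sums -/

theorem rnDeriv_finset_sum {Y κ : Type*} [MeasurableSpace Y] (s : Finset κ) (ν : κ → Measure Y)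
    [∀ k, IsFiniteMeasure (ν k)] (T : Measure Y) [SigmaFinite T] :
    (∑ k ∈ s, ν k).rnDeriv T =ᵐ[T] fun y => ∑ k ∈ s, (ν k).rnDeriv T y := by
  classical
  induction s using Finset.induction_on with
  | empty =>
    simp only [Finset.sum_empty]
    exact Measure.rnDeriv_zero T
  | insert a s ha ih =>
    rw [Finset.sum_insert ha]
    filter_upwards [Measure.rnDeriv_add' (ν a) (∑ k ∈ s, ν k) T, ih] with y h1 h2
    rw [h1, Pi.add_apply, h2, Finset.sum_insert ha]

/-! ### base 2 versus base `2 m` -/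

section
variable (μ : Measure (ModSpace n)) (κ : Measure (SLR n)) [IsProbabilityMeasure μ]
  [IsProbabilityMeasure κ] {i j : Fin n} (hij : i ≠ j) (r : ℝ)

theorem tot_eq {m : ℕ} (hm : 0 < m) :
    tot (lab μ κ hij r (2 * m)) = tot (lab μ κ hij r 2) := by
  rw [NScD_395.tot_lab_eq μ κ hij r (by omega), NScD_395.tot_lab_eq μ κ hij r (by omega)]

theorem pr_coarse {m : ℕ} (hm : 0 < m) (c : Fin 2) :
    ∀ᵐ y ∂(tot (lab μ κ hij r (2 * m))), pr (lab μ κ hij r 2) c y
      = ∑ k : Fin m, pr (lab μ κ hij r (2 * m)) (finProdFinEquiv (c, k)) y := by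
  have h1 := rnDeriv_finset_sum Finset.univ
    (fun k : Fin m => lab μ κ hij r (2 * m) (finProdFinEquiv (c, k))) (tot (lab μ κ hij r (2 * m)))
  rw [sum_lab_mul μ κ hij r hm c] at h1
  have h2 : ∀ k : Fin m, ∀ᵐ y ∂(tot (lab μ κ hij r (2 * m))),
      (lab μ κ hij r (2 * m) (finProdFinEquiv (c, k))).rnDeriv (tot (lab μ κ hij r (2 * m))) y ≠ ∞ :=
    fun k => (Measure.rnDeriv_lt_top _ _).mono fun y hy => hy.ne
  have h3 := Filter.eventually_all.2 h2
  filter_upwards [h1, h3] with y hy1 hy2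
  unfold pr
  rw [← tot_eq μ κ hij r hm, hy1, ENNReal.toReal_sum fun k _ => hy2 k]

theorem pv_coarse {m : ℕ} (hm : 0 < m) :
    ∀ᵐ y ∂(tot (lab μ κ hij r (2 * m))), ∀ c : Fin 2, pv (lab μ κ hij r 2) c y
      = ∑ k : Fin m, pv (lab μ κ hij r (2 * m)) (finProdFinEquiv (c, k)) y := by
  have h1 := Filter.eventually_all.2 fun c : Fin 2 => pr_coarse μ κ hij r hm c
  have h2 := pv_eq (lab μ κ hij r (2 * m))
  have h3 := pv_eq (lab μ κ hij r 2)
  rw [← tot_eq μ κ hij r hm] at h3
  filter_upwards [h1, h2, h3] with y hy1 hy2 hy3 c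
  rw [hy3 c, hy1 c]
  exact Finset.sum_congr rfl fun k _ => (hy2 _).symm

end

/-! ### the pointwise inequality -/

theorem cen_lo {m : ℕ} (k : Fin m) :
    cen (2 * m) (finProdFinEquiv ((0 : Fin 2), k)) = -((2 * (m : ℝ) - 2 * (k : ℕ) - 1) / (2 * m)) := by
  have hm : (m : ℝ) ≠ 0 := by exact_mod_cast k.pos.ne'
  rw [cen_mul]
  unfold cen
  simp only [Fin.val_zero]
  push_cast
  field_simp
  ring

theorem cen_hi {m : ℕ} (k : Fin m) :
    cen (2 * m) (finProdFinEquiv ((1 : Fin 2), k)) = (2 * (k : ℕ) + 1) / (2 * m) := by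
  have hm : (m : ℝ) ≠ 0 := by exact_mod_cast k.pos.ne'
  rw [cen_mul]
  unfold cen
  simp only [Fin.val_one]
  push_cast
  field_simp
  ring

theorem cen_lo_neg {m : ℕ} (k : Fin m) : cen (2 * m) (finProdFinEquiv ((0 : Fin 2), k)) < 0 := by
  have hm : (0 : ℝ) < m := by exact_mod_cast k.pos
  have hk : ((k : ℕ) : ℝ) + 1 ≤ m := by exact_mod_cast k.2
  rw [cen_lo, neg_lt_zero]
  apply div_pos <;> linarith

theorem cen_hi_pos {m : ℕ} (k : Fin m) : 0 < cen (2 * m) (finProdFinEquiv ((1 : Fin 2), k)) := by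
  have hm : (0 : ℝ) < m := by exact_mod_cast k.pos
  rw [cen_hi]
  positivity

/-- the digits whose cells have centres close to `0`. -/
def nearB (q b : ℕ) : Finset (Fin b) := Finset.univ.filter fun d => |cen b d| < (2 : ℝ) ^ (-(q : ℝ))

theorem spr_two (p : Fin 2 → ℝ) : spr (cen 2) p = 2 * (p 0 * p 1) := by
  unfold spr cen
  simp only [Fin.sum_univ_two, Fin.val_zero, Fin.val_one]
  norm_num
  ring

theorem pointwise {m q : ℕ} (p : Fin (2 * m) → ℝ) (h0 : ∀ d, 0 ≤ p d) (h1 : ∑ d, p d = 1) :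
    2 * ((∑ k : Fin m, p (finProdFinEquiv ((0 : Fin 2), k)))
      * ∑ k : Fin m, p (finProdFinEquiv ((1 : Fin 2), k)))
      ≤ 2 ^ (q : ℝ) * spr (cen (2 * m)) p + ∑ d ∈ nearB q (2 * m), p d := by
  have hq : (0 : ℝ) < 2 ^ (q : ℝ) := Real.rpow_pos_of_pos two_pos _
  -- weights
  have hw : ∀ d d' : Fin (2 * m),
      (if ((finProdFinEquiv.symm d).1 ≠ (finProdFinEquiv.symm d').1) then (1 : ℝ) else 0)
        ≤ 2 ^ (q : ℝ) * |cen (2 * m) d - cen (2 * m) d'|
          + (if |cen (2 * m) d| < (2 : ℝ) ^ (-(q : ℝ)) then 1 else 0) := by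
    intro d d'
    obtain ⟨⟨c, k⟩, rfl⟩ := finProdFinEquiv.surjective d
    obtain ⟨⟨c', k'⟩, rfl⟩ := finProdFinEquiv.surjective d'
    simp only [Equiv.symm_apply_apply]
    have hnn : 0 ≤ 2 ^ (q : ℝ) * |cen (2 * m) (finProdFinEquiv (c, k))
        - cen (2 * m) (finProdFinEquiv (c', k'))| := by positivity
    by_cases h2 : c ≠ c'
    · have h4 : |cen (2 * m) (finProdFinEquiv (c, k))| ≤ |cen (2 * m) (finProdFinEquiv (c, k))
          - cen (2 * m) (finProdFinEquiv (c', k'))| := by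
        have hc : c = 0 ∨ c = 1 := by fin_cases c <;> simp
        have hc' : c' = 0 ∨ c' = 1 := by fin_cases c' <;> simp
        rcases hc with rfl | rfl <;> rcases hc' with rfl | rfl
        · exact absurd rfl h2
        · have e1 := cen_lo_neg k
          have e2 := cen_hi_pos k'
          rw [abs_of_neg e1, abs_of_neg (by linarith)]
          linarith
        · have e1 := cen_hi_pos k
          have e2 := cen_lo_neg k'
          rw [abs_of_pos e1, abs_of_pos (by linarith)]
          linarith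
        · exact absurd rfl h2
      rw [if_pos h2]
      by_cases h3 : |cen (2 * m) (finProdFinEquiv (c, k))| < (2 : ℝ) ^ (-(q : ℝ))
      · rw [if_pos h3]; linarith
      · rw [if_neg h3, add_zero]
        have h5 : (2 : ℝ) ^ (q : ℝ) * (2 : ℝ) ^ (-(q : ℝ)) = 1 := by
          rw [← Real.rpow_add two_pos, add_neg_cancel, Real.rpow_zero]
        rw [← h5]
        exact mul_le_mul_of_nonneg_left ((not_lt.1 h3).trans h4) hq.le
    · rw [if_neg h2]
      split_ifs <;> linarith
  have h2 : 2 * ((∑ k : Fin m, p (finProdFinEquiv ((0 : Fin 2), k)))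
      * ∑ k : Fin m, p (finProdFinEquiv ((1 : Fin 2), k)))
      = ∑ d : Fin (2 * m), ∑ d' : Fin (2 * m), p d * p d' *
        (if ((finProdFinEquiv.symm d).1 ≠ (finProdFinEquiv.symm d').1) then (1 : ℝ) else 0) := by
    simp_rw [← (finProdFinEquiv (m := 2) (n := m)).sum_comp, Fintype.sum_prod_type,
      Fin.sum_univ_two, Equiv.symm_apply_apply]
    simp only [ne_eq, not_true_eq_false, if_false, mul_zero, Finset.sum_const_zero, zero_add,
      zero_ne_one, not_false_eq_true, if_true, mul_one, one_ne_zero, add_zero]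
    rw [two_mul, Finset.sum_mul_sum]
    congr 1
    rw [Finset.sum_comm]
    exact Finset.sum_congr rfl fun k _ => Finset.sum_congr rfl fun k' _ => mul_comm _ _
  have h3 : ∑ d ∈ nearB q (2 * m), p d = ∑ d : Fin (2 * m), ∑ d' : Fin (2 * m), p d * p d' *
      (if |cen (2 * m) d| < (2 : ℝ) ^ (-(q : ℝ)) then 1 else 0) := by
    unfold nearB
    rw [Finset.sum_filter]
    refine Finset.sum_congr rfl fun d _ => ?_
    rw [← Finset.sum_mul, ← Finset.mul_sum, h1]
    split_ifs <;> simp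
  rw [h2, h3, spr, Finset.mul_sum, ← Finset.sum_add_distrib]
  refine Finset.sum_le_sum fun d _ => ?_
  rw [Finset.mul_sum, ← Finset.sum_add_distrib]
  refine Finset.sum_le_sum fun d' _ => ?_
  have h4 := mul_le_mul_of_nonneg_left (hw d d') (mul_nonneg (h0 d) (h0 d'))
  refine h4.trans (le_of_eq ?_)
  ring

/-! ### the number of central digits -/


/-! ### the correction term -/

/-- mean posterior mass of the central digits. -/
def Bd (μ : Measure (ModSpace n)) (κ : Measure (SLR n)) {i j : Fin n} (hij : i ≠ j) (r : ℝ)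
    (q b : ℕ) (x : ModSpace n) : ℝ :=
  ∫ g, ∑ d ∈ nearB q b, pv (lab μ κ hij r b) d (act x g) ∂(cv κ (dl hij r))

section
variable (μ : Measure (ModSpace n)) (κ : Measure (SLR n)) [IsProbabilityMeasure μ]
  [IsProbabilityMeasure κ] {i j : Fin n} (hij : i ≠ j) (r : ℝ)

/-- the integrand of `Bd`. -/
theorem measurable_near (q b : ℕ) :
    Measurable fun y : ModSpace n => ∑ d ∈ nearB q b, pv (lab μ κ hij r b) d y :=
  Finset.measurable_sum _ fun d _ => measurable_pv _ d

theorem near_nonneg (q b : ℕ) (y : ModSpace n) :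
    0 ≤ ∑ d ∈ nearB q b, pv (lab μ κ hij r b) d y :=
  Finset.sum_nonneg fun d _ => pv_nonneg _ d y

theorem near_le (q : ℕ) {b : ℕ} [NeZero b] (y : ModSpace n) :
    ∑ d ∈ nearB q b, pv (lab μ κ hij r b) d y ≤ 1 := by
  rw [← sum_pv (lab μ κ hij r b) y]
  exact Finset.sum_le_sum_of_subset_of_nonneg (Finset.subset_univ _)
    fun d _ _ => pv_nonneg _ d y

theorem measurable_Bd (q b : ℕ) : Measurable (Bd μ κ hij r q b) :=
  (((measurable_near μ κ hij r q b).comp measurable_act₂).stronglyMeasurable.integral_prod_right').measurable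

theorem Bd_nonneg (q b : ℕ) (x : ModSpace n) : 0 ≤ Bd μ κ hij r q b x :=
  integral_nonneg fun _ => near_nonneg μ κ hij r q b _

theorem Bd_le (q : ℕ) {b : ℕ} [NeZero b] (x : ModSpace n) : Bd μ κ hij r q b x ≤ 1 := by
  have h : Bd μ κ hij r q b x ≤ ∫ _, (1 : ℝ) ∂(cv κ (dl hij r)) :=
    integral_mono_of_nonneg (Filter.Eventually.of_forall fun _ => near_nonneg μ κ hij r q b _)
      (integrable_const _) (Filter.Eventually.of_forall fun _ => near_le μ κ hij r q _)
  simpa using h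


/-- `Ψ₂ ≤ 2^q Ψ_b + B` almost everywhere. -/
theorem psi_two_le (q m : ℕ) (hm : 0 < m) :
    ∀ᵐ x ∂μ, Psi μ κ hij r 2 x ≤ 2 ^ (q : ℝ) * Psi μ κ hij r (2 * m) x + Bd μ κ hij r q (2 * m) x := by
  haveI : NeZero (2 * m) := ⟨by omega⟩
  have h1 : ∀ᵐ y ∂(tot (lab μ κ hij r (2 * m))), ps (lab μ κ hij r 2) y
      ≤ 2 ^ (q : ℝ) * ps (lab μ κ hij r (2 * m)) y
        + ∑ d ∈ nearB q (2 * m), pv (lab μ κ hij r (2 * m)) d y := by
    filter_upwards [pv_coarse μ κ hij r hm] with y hy
    unfold ps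
    rw [spr_two, hy 0, hy 1]
    exact pointwise (fun d => pv (lab μ κ hij r (2 * m)) d y) (fun d => pv_nonneg _ d y) (sum_pv _ y)
  rw [NScD_395.tot_lab_eq μ κ hij r (by omega : 0 < 2 * m), stp] at h1
  have h2 := ae_of_ae_map measurable_act₂.aemeasurable h1
  have h3 := Measure.ae_ae_of_ae_prod h2
  filter_upwards [h3] with x hx
  have hi1 : Integrable (fun g => ps (lab μ κ hij r 2) (act x g)) (cv κ (dl hij r)) :=
    bdd_integrable ((measurable_ps _).comp (measurable_act₂.comp measurable_prodMk_left))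
      (M := 2) fun g => abs_ps_le _ _
  have hi2 : Integrable (fun g => ps (lab μ κ hij r (2 * m)) (act x g)) (cv κ (dl hij r)) :=
    bdd_integrable ((measurable_ps _).comp (measurable_act₂.comp measurable_prodMk_left))
      (M := 2) fun g => abs_ps_le _ _
  have hi3 : Integrable (fun g => ∑ d ∈ nearB q (2 * m), pv (lab μ κ hij r (2 * m)) d (act x g))
      (cv κ (dl hij r)) :=
    bdd_integrable ((measurable_near μ κ hij r q (2 * m)).comp
      (measurable_act₂.comp measurable_prodMk_left)) (M := 1) fun g => by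
        rw [abs_of_nonneg (near_nonneg μ κ hij r q _ _)]
        exact near_le μ κ hij r q _
  show ∫ g, ps (lab μ κ hij r 2) (act x g) ∂(cv κ (dl hij r)) ≤ 2 ^ (q : ℝ) *
    (∫ g, ps (lab μ κ hij r (2 * m)) (act x g) ∂(cv κ (dl hij r)))
    + ∫ g, ∑ d ∈ nearB q (2 * m), pv (lab μ κ hij r (2 * m)) d (act x g) ∂(cv κ (dl hij r))
  rw [← integral_const_mul, ← integral_add (hi2.const_mul _) hi3]
  exact integral_mono_ae hi1 ((hi2.const_mul _).add hi3) hx

end

/-! ### the conversion -/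

open Crest.Agent.R014.DSkel_792 (tz P3 cross measurable_tz measurePreserving_tz)



section
variable (μ : Measure (ModSpace n)) [IsProbabilityMeasure μ]
  (κ : Fin n → Fin n → Measure (SLR n)) [∀ i j, IsProbabilityMeasure (κ i j)]









variable {μ}


end

end Crest.Agent.R014.Conv_792
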