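import Mathlib

/-!
# Row 14, block D, END (noise formalism): near independence of two labels and a product
relation between two coordinates forces near invariance (everything integrated, no conditional laws)
-/

namespace Crest.Agent.R014.DEnd2_935

open MeasureTheory

/-- test functions `F z x`, measurable, bounded by one, Lipschitz in `x` -/
structure Tst {Z : Type*} [MeasurableSpace Z] (Λ : ℝ) (F : Z → ℝ → ℝ) : Prop where
  meas : Measurable (fun p : Z × ℝ => F p.1 p.2)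
  le : ∀ z x, |F z x| ≤ 1
  lip : ∀ z x y, |F z x - F z y| ≤ Λ * |x - y|

/-- weights: measurable functions of the observation with values in `[0,1]` -/
structure Wt {Z : Type*} [MeasurableSpace Z] (g : Z → ℝ) : Prop where
  meas : Measurable g
  nonneg : ∀ z, 0 ≤ g z
  le : ∀ z, g z ≤ 1

section
variable {Ω Z : Type*} [MeasurableSpace Ω] [MeasurableSpace Z]

theorem Wt.mul {g h : Z → ℝ} (hg : Wt g) (hh : Wt h) : Wt (fun z => g z * h z) where
  meas := hg.meas.mul hh.meas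
  nonneg z := mul_nonneg (hg.nonneg z) (hh.nonneg z)
  le z := mul_le_one₀ (hg.le z) (hh.nonneg z) (hh.le z)

theorem Tst.wt {Λ : ℝ} {F : Z → ℝ → ℝ} (hF : Tst Λ F) {g : Z → ℝ} (hg : Wt g) :
    Tst Λ (fun z x => g z * F z x) where
  meas := (hg.meas.comp measurable_fst).mul hF.meas
  le z x := by
    rw [abs_mul, abs_of_nonneg (hg.nonneg z)]
    exact mul_le_one₀ (hg.le z) (abs_nonneg _) (hF.le z x)
  lip z x y := by
    rw [← mul_sub, abs_mul, abs_of_nonneg (hg.nonneg z)]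
    calc g z * |F z x - F z y| ≤ 1 * |F z x - F z y| :=
          mul_le_mul_of_nonneg_right (hg.le z) (abs_nonneg _)
      _ = |F z x - F z y| := one_mul _
      _ ≤ _ := hF.lip z x y

theorem Tst.shift {Λ : ℝ} {F : Z → ℝ → ℝ} (hF : Tst Λ F) (c : ℝ) :
    Tst Λ (fun z x => F z (x + c)) where
  meas := hF.meas.comp (measurable_fst.prodMk (measurable_snd.add_const c))
  le z x := hF.le _ _
  lip z x y := by
    have := hF.lip z (x + c) (y + c)
    rwa [add_sub_add_right_eq_sub] at this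

theorem Tst.nonneg {Λ : ℝ} {F : Z → ℝ → ℝ} (hF : Tst Λ F) (z : Z) : 0 ≤ Λ := by
  have := hF.lip z 1 0
  have h2 := abs_nonneg (F z 1 - F z 0)
  norm_num at this
  linarith

theorem integrable_of_le {P : Measure Ω} [IsFiniteMeasure P] {f : Ω → ℝ} (hf : Measurable f)
    (h1 : ∀ ω, |f ω| ≤ 1) (s : Set Ω) : IntegrableOn f s P := by
  apply Measure.integrableOn_of_bounded (M := 1) (measure_ne_top _ _) hf.aestronglyMeasurable
  exact Filter.Eventually.of_forall (fun ω => by simpa using h1 ω)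

end

/-- the data of the END -/
structure Dat {Ω Z ι κ : Type*} [MeasurableSpace Ω] [MeasurableSpace Z] (P : Measure Ω)
    (z : Ω → Z) (σ : Ω → ι) (τ : Ω → κ) (r1 r2 : Ω → ℝ) (S : ι → ℝ) (T : κ → ℝ)
    (p : ι → Z → ℝ) (q : κ → Z → ℝ) (k0 e1 : ℝ) : Prop where
  hz : Measurable z
  hr1 : Measurable r1
  hr2 : Measurable r2
  hσ : ∀ i, MeasurableSet {ω | σ ω = i}
  hτ : ∀ k, MeasurableSet {ω | τ ω = k}
  link : ∀ ω, |r1 ω - r2 ω - S (σ ω) * T (τ ω)| ≤ k0
  hp : ∀ i, Wt (p i)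
  hq : ∀ k, Wt (q k)
  I1 : ∀ i k (F : Z → ℝ → ℝ), Measurable (fun p : Z × ℝ => F p.1 p.2) → (∀ z x, |F z x| ≤ 1) →
    |(∫ ω in {ω | σ ω = i} ∩ {ω | τ ω = k}, F (z ω) (r1 ω) ∂P)
      - ∫ ω in {ω | σ ω = i}, q k (z ω) * F (z ω) (r1 ω) ∂P| ≤ e1
  I2 : ∀ i k (F : Z → ℝ → ℝ), Measurable (fun p : Z × ℝ => F p.1 p.2) → (∀ z x, |F z x| ≤ 1) →
    |(∫ ω in {ω | σ ω = i} ∩ {ω | τ ω = k}, F (z ω) (r2 ω) ∂P)
      - ∫ ω in {ω | τ ω = k}, p i (z ω) * F (z ω) (r2 ω) ∂P| ≤ e1

section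
variable {Ω Z ι κ : Type*} [MeasurableSpace Ω] [MeasurableSpace Z] {P : Measure Ω}
  [IsProbabilityMeasure P]
  {z : Ω → Z} {σ : Ω → ι} {τ : Ω → κ} {r1 r2 : Ω → ℝ} {S : ι → ℝ} {T : κ → ℝ}
  {p : ι → Z → ℝ} {q : κ → Z → ℝ} {k0 e1 : ℝ}

theorem Dat.swap (D : Dat P z σ τ r1 r2 S T p q k0 e1) {Λ : ℝ} {F : Z → ℝ → ℝ} (hF : Tst Λ F)
    (hΛ : 0 ≤ Λ) (i : ι) (k : κ) :
    |(∫ ω in {ω | σ ω = i}, q k (z ω) * F (z ω) (r1 ω) ∂P)
      - ∫ ω in {ω | τ ω = k}, p i (z ω) * F (z ω) (r2 ω + S i * T k) ∂P| ≤ 2 * e1 + Λ * k0 := by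
  have h1 := D.I1 i k F hF.meas hF.le
  have hs := hF.shift (S i * T k)
  have h2 := D.I2 i k _ hs.meas hs.le
  have hm1 : Measurable (fun ω => F (z ω) (r1 ω)) := hF.meas.comp (D.hz.prodMk D.hr1)
  have hm2 : Measurable (fun ω => F (z ω) (r2 ω + S i * T k)) := hs.meas.comp (D.hz.prodMk D.hr2)
  have h3 : |(∫ ω in {ω | σ ω = i} ∩ {ω | τ ω = k}, F (z ω) (r1 ω) ∂P)
      - ∫ ω in {ω | σ ω = i} ∩ {ω | τ ω = k}, F (z ω) (r2 ω + S i * T k) ∂P| ≤ Λ * k0 := by
    rw [← integral_sub (integrable_of_le hm1 (fun ω => hF.le _ _) _)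
      (integrable_of_le hm2 (fun ω => hF.le _ _) _)]
    have hms : MeasurableSet ({ω | σ ω = i} ∩ {ω | τ ω = k}) := (D.hσ i).inter (D.hτ k)
    have := norm_setIntegral_le_of_norm_le_const (μ := P) (s := {ω | σ ω = i} ∩ {ω | τ ω = k})
      (f := fun ω => F (z ω) (r1 ω) - F (z ω) (r2 ω + S i * T k)) (C := Λ * k0)
      (measure_lt_top _ _) (by
        rintro ω ⟨hi, hk⟩
        replace hi : σ ω = i := hi
        replace hk : τ ω = k := hk
        have hl := D.link ω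
        rw [hi, hk] at hl
        rw [Real.norm_eq_abs]
        refine (hF.lip _ _ _).trans (mul_le_mul_of_nonneg_left ?_ hΛ)
        rwa [← sub_sub])
    rw [Real.norm_eq_abs] at this
    refine this.trans ?_
    have hk0 : 0 ≤ k0 := by
      rcases isEmpty_or_nonempty Ω with hΩ | ⟨⟨ω⟩⟩
      · exfalso
        have : P Set.univ = 1 := measure_univ
        rw [Set.univ_eq_empty_iff.2 hΩ] at this
        simp at this
      · exact (abs_nonneg _).trans (D.link ω)
    have h0 : (0:ℝ) ≤ Λ * k0 := mul_nonneg hΛ hk0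
    calc Λ * k0 * P.real ({ω | σ ω = i} ∩ {ω | τ ω = k}) ≤ Λ * k0 * 1 :=
          mul_le_mul_of_nonneg_left measureReal_le_one h0
      _ = Λ * k0 := mul_one _
  rw [abs_le] at h1 h2 h3 ⊢
  constructor <;> linarith [h1.1, h1.2, h2.1, h2.2, h3.1, h3.2]

/-- the closed walk `i0 - k - i - k' - i' - k - i0` -/
theorem Dat.walk (D : Dat P z σ τ r1 r2 S T p q k0 e1) {Λ : ℝ} {F : Z → ℝ → ℝ} (hF : Tst Λ F)
    (hΛ : 0 ≤ Λ) (i0 i i' : ι) (k k' : κ) {g : Z → ℝ} (hg : Wt g) :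
    |(∫ ω in {ω | σ ω = i0},
        (q k (z ω) * (p i (z ω) * q k' (z ω) * p i' (z ω) * q k (z ω) * g (z ω)))
          * F (z ω) (r1 ω) ∂P)
      - ∫ ω in {ω | σ ω = i0},
        (q k (z ω) * (p i (z ω) * q k' (z ω) * p i' (z ω) * q k (z ω) * g (z ω)))
          * F (z ω) (r1 ω - (S i - S i') * (T k - T k')) ∂P| ≤ 6 * (2 * e1 + Λ * k0) := by
  have key : ∀ (j : ι) (l : κ) (W : Z → ℝ) (_ : Wt W) (c : ℝ),
      |(∫ ω in {ω | σ ω = j}, (q l (z ω) * W (z ω)) * F (z ω) (r1 ω + c) ∂P)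
        - ∫ ω in {ω | τ ω = l}, (p j (z ω) * W (z ω)) * F (z ω) (r2 ω + (c + S j * T l)) ∂P|
        ≤ 2 * e1 + Λ * k0 := by
    intro j l W hW c
    have := D.swap ((hF.shift c).wt hW) hΛ j l
    have e1' : ∀ ω, q l (z ω) * (W (z ω) * F (z ω) (r1 ω + c))
        = (q l (z ω) * W (z ω)) * F (z ω) (r1 ω + c) := fun ω => by ring
    have e2' : ∀ ω, p j (z ω) * (W (z ω) * F (z ω) (r2 ω + S j * T l + c))
        = (p j (z ω) * W (z ω)) * F (z ω) (r2 ω + (c + S j * T l)) := fun ω => by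
      rw [show r2 ω + S j * T l + c = r2 ω + (c + S j * T l) by ring]; ring
    simp only [e1', e2'] at this
    exact this
  have hW1 : Wt (fun z => p i z * q k' z * p i' z * q k z * g z) :=
    ((((D.hp i).mul (D.hq k')).mul (D.hp i')).mul (D.hq k)).mul hg
  have hW2 : Wt (fun z => p i0 z * q k' z * p i' z * q k z * g z) :=
    ((((D.hp i0).mul (D.hq k')).mul (D.hp i')).mul (D.hq k)).mul hg
  have hW3 : Wt (fun z => q k z * p i0 z * p i' z * q k z * g z) :=
    ((((D.hq k).mul (D.hp i0)).mul (D.hp i')).mul (D.hq k)).mul hg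
  have hW4 : Wt (fun z => q k z * p i0 z * p i z * q k z * g z) :=
    ((((D.hq k).mul (D.hp i0)).mul (D.hp i)).mul (D.hq k)).mul hg
  have hW5 : Wt (fun z => q k' z * p i0 z * p i z * q k z * g z) :=
    ((((D.hq k').mul (D.hp i0)).mul (D.hp i)).mul (D.hq k)).mul hg
  set c1 : ℝ := 0 + S i0 * T k with hc1
  set c2 : ℝ := c1 - S i * T k with hc2
  set c3 : ℝ := c2 + S i * T k' with hc3
  set c4 : ℝ := c3 - S i' * T k' with hc4
  set c5 : ℝ := c4 + S i' * T k with hc5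
  set c6 : ℝ := c5 - S i0 * T k with hc6
  have s1 := key i0 k _ hW1 0
  have s2 := key i k _ hW2 c2
  have s3 := key i k' _ hW3 c2
  have s4 := key i' k' _ hW4 c4
  have s5 := key i' k _ hW5 c4
  have s6 := key i0 k _ hW1 c6
  rw [← hc1] at s1
  rw [show c2 + S i * T k = c1 by rw [hc2]; ring] at s2
  rw [← hc3] at s3
  rw [show c4 + S i' * T k' = c3 by rw [hc4]; ring] at s4
  rw [← hc5] at s5
  rw [show c6 + S i0 * T k = c5 by rw [hc6]; ring] at s6
  -- rewrite the weights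
  have w12 : ∀ ω, p i (z ω) * (p i0 (z ω) * q k' (z ω) * p i' (z ω) * q k (z ω) * g (z ω))
      = p i0 (z ω) * (p i (z ω) * q k' (z ω) * p i' (z ω) * q k (z ω) * g (z ω)) :=
    fun ω => by ring
  have w23 : ∀ ω, q k' (z ω) * (q k (z ω) * p i0 (z ω) * p i' (z ω) * q k (z ω) * g (z ω))
      = q k (z ω) * (p i0 (z ω) * q k' (z ω) * p i' (z ω) * q k (z ω) * g (z ω)) :=
    fun ω => by ring
  have w34 : ∀ ω, p i' (z ω) * (q k (z ω) * p i0 (z ω) * p i (z ω) * q k (z ω) * g (z ω))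
      = p i (z ω) * (q k (z ω) * p i0 (z ω) * p i' (z ω) * q k (z ω) * g (z ω)) :=
    fun ω => by ring
  have w45 : ∀ ω, q k (z ω) * (q k' (z ω) * p i0 (z ω) * p i (z ω) * q k (z ω) * g (z ω))
      = q k' (z ω) * (q k (z ω) * p i0 (z ω) * p i (z ω) * q k (z ω) * g (z ω)) :=
    fun ω => by ring
  have w56 : ∀ ω, p i' (z ω) * (q k' (z ω) * p i0 (z ω) * p i (z ω) * q k (z ω) * g (z ω))
      = p i0 (z ω) * (p i (z ω) * q k' (z ω) * p i' (z ω) * q k (z ω) * g (z ω)) :=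
    fun ω => by ring
  simp only [w12] at s2
  simp only [w23] at s3
  simp only [w34] at s4
  simp only [w45] at s5
  simp only [w56] at s5
  have hc : c6 = -((S i - S i') * (T k - T k')) := by
    rw [hc6, hc5, hc4, hc3, hc2, hc1]; ring
  have e0 : ∀ ω, r1 ω + 0 = r1 ω := fun ω => add_zero _
  have e6 : ∀ ω, r1 ω + c6 = r1 ω - (S i - S i') * (T k - T k') := fun ω => by rw [hc]; ring
  simp only [e0] at s1
  simp only [e6] at s6
  rw [abs_le] at s1 s2 s3 s4 s5 s6 ⊢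
  constructor <;>
  linarith [s1.1, s1.2, s2.1, s2.2, s3.1, s3.2, s4.1, s4.2, s5.1, s5.2, s6.1, s6.2]

/-- the set of observations at which the quadruple `(i,i',k,k')` has all four weights `≥ w` -/
def good (p : ι → Z → ℝ) (q : κ → Z → ℝ) (w : ℝ) (i i' : ι) (k k' : κ) : Set Z :=
  {y | w ≤ p i y ∧ w ≤ p i' y ∧ w ≤ q k y ∧ w ≤ q k' y}

omit [IsProbabilityMeasure P] in
theorem Dat.hgood (D : Dat P z σ τ r1 r2 S T p q k0 e1) (w : ℝ) (i i' : ι) (k k' : κ) :
    MeasurableSet (good p q w i i' k k') := by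
  have h1 : MeasurableSet {y | w ≤ p i y} := measurableSet_le measurable_const (D.hp i).meas
  have h2 : MeasurableSet {y | w ≤ p i' y} := measurableSet_le measurable_const (D.hp i').meas
  have h3 : MeasurableSet {y | w ≤ q k y} := measurableSet_le measurable_const (D.hq k).meas
  have h4 : MeasurableSet {y | w ≤ q k' y} := measurableSet_le measurable_const (D.hq k').meas
  exact h1.inter (h2.inter (h3.inter h4))

/-- one label, one quadruple, one step -/
theorem Dat.one_label (D : Dat P z σ τ r1 r2 S T p q k0 e1) {Λ : ℝ} {F : Z → ℝ → ℝ}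
    (hF : Tst Λ F) (hΛ : 0 ≤ Λ) {w : ℝ} (hw : 0 < w) (i0 i i' : ι) (k k' : κ) {G : Z → ℝ}
    (hG : Wt G) (hG0 : ∀ y, y ∉ good p q w i i' k k' → G y = 0) :
    |(∫ ω in {ω | σ ω = i0}, G (z ω) * F (z ω) (r1 ω) ∂P)
      - ∫ ω in {ω | σ ω = i0}, G (z ω) * F (z ω) (r1 ω - (S i - S i') * (T k - T k')) ∂P|
      ≤ 6 * (2 * e1 + Λ * k0) / w ^ 5 := by
  set g : Z → ℝ := fun y => (good p q w i i' k k').indicator
    (fun y => G y * (w / p i y) * (w / q k' y) * (w / p i' y) * (w / q k y) * (w / q k y)) y with hg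
  have hgW : Wt g := by
    refine ⟨?_, ?_, ?_⟩
    · refine Measurable.indicator ?_ (D.hgood w i i' k k')
      exact ((((hG.meas.mul (measurable_const.div (D.hp i).meas)).mul
        (measurable_const.div (D.hq k').meas)).mul (measurable_const.div (D.hp i').meas)).mul
        (measurable_const.div (D.hq k).meas)).mul (measurable_const.div (D.hq k).meas)
    · intro y
      refine Set.indicator_nonneg (fun y _ => ?_) y
      have := hG.nonneg y
      have h1 := (D.hp i).nonneg y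
      have h2 := (D.hp i').nonneg y
      have h3 := (D.hq k).nonneg y
      have h4 := (D.hq k').nonneg y
      positivity
    · intro y
      by_cases hy : y ∈ good p q w i i' k k'
      · rw [hg]
        simp only [Set.indicator_of_mem hy]
        obtain ⟨h1, h2, h3, h4⟩ := hy
        have d : ∀ x : ℝ, w ≤ x → 0 ≤ w / x ∧ w / x ≤ 1 := fun x hx =>
          ⟨div_nonneg hw.le (hw.le.trans hx), div_le_one_of_le₀ hx (hw.le.trans hx)⟩
        have a0 := hG.nonneg y
        have a1 := hG.le y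
        obtain ⟨b1, b1'⟩ := d _ h1
        obtain ⟨b2, b2'⟩ := d _ h2
        obtain ⟨b3, b3'⟩ := d _ h3
        obtain ⟨b4, b4'⟩ := d _ h4
        exact mul_le_one₀ (mul_le_one₀ (mul_le_one₀ (mul_le_one₀ (mul_le_one₀ a1 b1 b1') b4 b4')
          b2 b2') b3 b3') b3 b3'
      · rw [hg]
        simp only [Set.indicator_of_notMem hy]
        exact zero_le_one
  have hwalk := D.walk hF hΛ i0 i i' k k' hgW
  have e : ∀ y, (q k y * (p i y * q k' y * p i' y * q k y * g y)) = w ^ 5 * G y := by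
    intro y
    by_cases hy : y ∈ good p q w i i' k k'
    · rw [hg]
      simp only [Set.indicator_of_mem hy]
      obtain ⟨h1, h2, h3, h4⟩ := hy
      have n1 : p i y ≠ 0 := (hw.trans_le h1).ne'
      have n2 : p i' y ≠ 0 := (hw.trans_le h2).ne'
      have n3 : q k y ≠ 0 := (hw.trans_le h3).ne'
      have n4 : q k' y ≠ 0 := (hw.trans_le h4).ne'
      field_simp
    · rw [hg, hG0 y hy]
      simp only [Set.indicator_of_notMem hy]
      ring
  simp only [e] at hwalk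
  simp only [mul_assoc] at hwalk
  rw [integral_const_mul, integral_const_mul, ← mul_sub, abs_mul, abs_of_pos (pow_pos hw 5)]
    at hwalk
  rw [le_div_iff₀ (pow_pos hw 5)]
  linarith

variable [Fintype ι]

/-- all labels, one quadruple, one step -/
theorem Dat.one_step (D : Dat P z σ τ r1 r2 S T p q k0 e1) {Λ : ℝ} {F : Z → ℝ → ℝ}
    (hF : Tst Λ F) (hΛ : 0 ≤ Λ) {w : ℝ} (hw : 0 < w) (i i' : ι) (k k' : κ) {G : Z → ℝ}
    (hG : Wt G) (hG0 : ∀ y, y ∉ good p q w i i' k k' → G y = 0) :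
    |(∫ ω, G (z ω) * F (z ω) (r1 ω) ∂P)
      - ∫ ω, G (z ω) * F (z ω) (r1 ω - (S i - S i') * (T k - T k')) ∂P|
      ≤ Fintype.card ι * (6 * (2 * e1 + Λ * k0) / w ^ 5) := by
  have split : ∀ f : Ω → ℝ, Measurable f → (∀ ω, |f ω| ≤ 1) →
      ∫ ω, f ω ∂P = ∑ i0, ∫ ω in {ω | σ ω = i0}, f ω ∂P := by
    intro f hf h1
    have hU : (⋃ i0 ∈ (Finset.univ : Finset ι), {ω | σ ω = i0}) = Set.univ := by
      ext ω; simp
    rw [← integral_biUnion_finset Finset.univ (fun i _ => D.hσ i)]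
    · rw [hU, setIntegral_univ]
    · intro a _ b _ hab
      refine Set.disjoint_left.2 ?_
      intro ω ha hb
      exact hab (ha.symm.trans hb)
    · intro a _
      exact integrable_of_le hf h1 _
  have hs := (hF.shift (-((S i - S i') * (T k - T k')))).wt hG
  have h1 := hF.wt hG
  have m1 : Measurable (fun ω => G (z ω) * F (z ω) (r1 ω)) := h1.meas.comp (D.hz.prodMk D.hr1)
  have m2 : Measurable (fun ω => G (z ω) * F (z ω) (r1 ω - (S i - S i') * (T k - T k'))) := by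
    have := hs.meas.comp (D.hz.prodMk D.hr1)
    simpa [Function.comp_def, sub_eq_add_neg] using this
  rw [split _ m1 (fun ω => h1.le _ _), split _ m2 (fun ω => by
    have := hs.le (z ω) (r1 ω)
    simpa [sub_eq_add_neg] using this), ← Finset.sum_sub_distrib]
  refine (Finset.abs_sum_le_sum_abs _ _).trans ?_
  refine (Finset.sum_le_card_nsmul _ _ (6 * (2 * e1 + Λ * k0) / w ^ 5)
    (fun i0 _ => D.one_label hF hΛ hw i0 i i' k k' hG hG0)).trans ?_
  simp

/-- iteration: shift by a natural multiple of `|θ|` -/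
theorem Dat.iter (D : Dat P z σ τ r1 r2 S T p q k0 e1) {Λ : ℝ} {F : Z → ℝ → ℝ}
    (hF : Tst Λ F) (hΛ : 0 ≤ Λ) {w : ℝ} (hw : 0 < w) (i i' : ι) (k k' : κ) {G : Z → ℝ}
    (hG : Wt G) (hG0 : ∀ y, y ∉ good p q w i i' k k' → G y = 0) (m : ℕ) :
    |(∫ ω, G (z ω) * F (z ω) (r1 ω) ∂P)
      - ∫ ω, G (z ω) * F (z ω) (r1 ω + m * |(S i - S i') * (T k - T k')|) ∂P|
      ≤ m * (Fintype.card ι * (6 * (2 * e1 + Λ * k0) / w ^ 5)) := by
  have pos : ∀ (c : ℝ), |(∫ ω, G (z ω) * F (z ω) (r1 ω + c) ∂P)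
      - ∫ ω, G (z ω) * F (z ω) (r1 ω + (c + |(S i - S i') * (T k - T k')|)) ∂P|
      ≤ Fintype.card ι * (6 * (2 * e1 + Λ * k0) / w ^ 5) := by
    intro c
    set θ := (S i - S i') * (T k - T k') with hθ
    rcases le_total 0 θ with h | h
    · have := D.one_step (hF.shift (c + |θ|)) hΛ hw i i' k k' hG hG0
      rw [← hθ] at this
      have e : ∀ ω, r1 ω - θ + (c + |θ|) = r1 ω + c := fun ω => by
        rw [abs_of_nonneg h]; ring
      simp only [e] at this
      rw [abs_sub_comm]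
      exact this
    · have := D.one_step (hF.shift c) hΛ hw i i' k k' hG hG0
      rw [← hθ] at this
      have e : ∀ ω, r1 ω - θ + c = r1 ω + (c + |θ|) := fun ω => by
        rw [abs_of_nonpos h]; ring
      simp only [e] at this
      exact this
  induction m with
  | zero => simp
  | succ m ih =>
    have h2 := pos (m * |(S i - S i') * (T k - T k')|)
    have e : ((m + 1 : ℕ) : ℝ) * |(S i - S i') * (T k - T k')|
        = m * |(S i - S i') * (T k - T k')| + |(S i - S i') * (T k - T k')| := by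
      push_cast; ring
    rw [e]
    refine (abs_sub_le _ _ _).trans ((add_le_add ih h2).trans (le_of_eq ?_))
    push_cast
    ring


variable [Fintype κ]



end

end Crest.Agent.R014.DEnd2_935
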