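import Mathlib
import Crest.Agent.R014.Ms2_667

-- ▼ part R014/Esc1_296
section

/-!
# R014/Esc1_296 : entries of orthogonal projections (leaf NOESC, helper296)

For a subspace `V` of `EuclideanSpace ℝ (Fin n)` let `pm V i j = ⟪e_i, P_V e_j⟫`.
-/

set_option autoImplicit false

open scoped InnerProductSpace

namespace Crest.Agent.R014.Esc_296

variable {n : ℕ}

/-- The Euclidean space of row vectors. -/
abbrev EV (n : ℕ) : Type := EuclideanSpace ℝ (Fin n)

/-- standard basis vector. -/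
noncomputable abbrev ev (i : Fin n) : EV n := EuclideanSpace.single i (1 : ℝ)

/-- The matrix of the orthogonal projection onto `V`. -/
noncomputable def pm (V : Submodule ℝ (EV n)) (i j : Fin n) : ℝ :=
  ⟪ev i, V.starProjection (ev j)⟫_ℝ

lemma inner_ev (i : Fin n) (v : EV n) : ⟪ev i, v⟫_ℝ = v i := by
  have h := EuclideanSpace.inner_single_left (𝕜 := ℝ) i (1 : ℝ) v
  simpa using h

lemma pm_eq_coord (V : Submodule ℝ (EV n)) (i j : Fin n) :
    pm V i j = V.starProjection (ev j) i := inner_ev _ _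

lemma pm_symm (V : Submodule ℝ (EV n)) (i j : Fin n) : pm V i j = pm V j i := by
  unfold pm
  rw [← V.inner_starProjection_left_eq_right, real_inner_comm]

lemma inner_proj_self (V : Submodule ℝ (EV n)) (v : EV n) :
    ⟪v, V.starProjection v⟫_ℝ = ‖V.starProjection v‖ ^ 2 := by
  have h1 : ⟪v - V.starProjection v, V.starProjection v⟫_ℝ = 0 :=
    V.starProjection_inner_eq_zero v _ (V.starProjection_apply_mem v)
  rw [inner_sub_left, sub_eq_zero] at h1
  rw [h1, real_inner_self_eq_norm_sq]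

lemma sum_sq_pm (V : Submodule ℝ (EV n)) (i : Fin n) :
    ∑ j, (pm V j i) ^ 2 = pm V i i := by
  have h1 : pm V i i = ‖V.starProjection (ev i)‖ ^ 2 := inner_proj_self V _
  rw [h1, EuclideanSpace.norm_sq_eq]
  refine Finset.sum_congr rfl fun j _ => ?_
  rw [pm_eq_coord, Real.norm_eq_abs, sq_abs]

lemma pm_self_nonneg (V : Submodule ℝ (EV n)) (i : Fin n) : 0 ≤ pm V i i := by
  rw [← sum_sq_pm]
  exact Finset.sum_nonneg fun _ _ => sq_nonneg _

lemma pm_self_le_one (V : Submodule ℝ (EV n)) (i : Fin n) : pm V i i ≤ 1 := by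
  have h1 : (pm V i i) ^ 2 ≤ pm V i i := by
    conv_rhs => rw [← sum_sq_pm]
    exact Finset.single_le_sum (f := fun j => (pm V j i) ^ 2) (fun _ _ => sq_nonneg _)
      (Finset.mem_univ i)
  nlinarith [pm_self_nonneg V i]

lemma sq_pm_le (V : Submodule ℝ (EV n)) {i j : Fin n} (hij : i ≠ j) :
    (pm V i j) ^ 2 ≤ pm V i i * (1 - pm V i i) := by
  have h1 : (pm V i i) ^ 2 + (pm V j i) ^ 2 ≤ pm V i i := by
    conv_rhs => rw [← sum_sq_pm]
    have := Finset.sum_le_univ_sum_of_nonneg (s := {i, j})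
      (f := fun l => (pm V l i) ^ 2) (fun _ => sq_nonneg _)
    rwa [Finset.sum_pair hij] at this
  rw [pm_symm V i j]
  nlinarith

lemma abs_pm_le_one (V : Submodule ℝ (EV n)) (i j : Fin n) : |pm V i j| ≤ 1 := by
  have h1 : (pm V j i) ^ 2 ≤ pm V i i := by
    conv_rhs => rw [← sum_sq_pm]
    exact Finset.single_le_sum (f := fun j => (pm V j i) ^ 2) (fun _ _ => sq_nonneg _)
      (Finset.mem_univ j)
  rw [pm_symm V i j]
  have h2 := pm_self_le_one V i
  rw [abs_le_one_iff_mul_self_le_one]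
  nlinarith

lemma sum_pm_self (V : Submodule ℝ (EV n)) :
    ∑ i, pm V i i = (Module.finrank ℝ V : ℝ) := by
  have hproj : LinearMap.IsProj V (V.starProjection : EV n →L[ℝ] EV n).toLinearMap :=
    ⟨fun v => V.starProjection_apply_mem v, fun v hv => V.starProjection_eq_self_iff.2 hv⟩
  have h1 := hproj.trace
  rw [LinearMap.trace_eq_sum_inner _ (EuclideanSpace.basisFun (Fin n) ℝ)] at h1
  rw [← h1]
  refine Finset.sum_congr rfl fun i _ => ?_
  simp [pm, ev]

/-- The identity `n Σ P_ii (1 - P_ii) + Σ_{i<j} (P_ii - P_jj)² = k (n - k)`; here in the symmetric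
form (sum over all pairs, divided by two). -/
lemma identity (V : Submodule ℝ (EV n)) :
    (n : ℝ) * ∑ i, pm V i i * (1 - pm V i i) + (1 / 2) * ∑ i, ∑ j, (pm V i i - pm V j j) ^ 2
      = (Module.finrank ℝ V : ℝ) * (n - Module.finrank ℝ V) := by
  rw [← sum_pm_self]
  have h1 : ∑ i, ∑ j, (pm V i i - pm V j j) ^ 2
      = 2 * ((n : ℝ) * ∑ i, (pm V i i) ^ 2) - 2 * (∑ i, pm V i i) ^ 2 := by
    have h2 : ∀ i j : Fin n, (pm V i i - pm V j j) ^ 2
        = (pm V i i) ^ 2 + (pm V j j) ^ 2 - 2 * (pm V i i * pm V j j) := fun i j => by ring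
    simp only [h2, Finset.sum_sub_distrib, Finset.sum_add_distrib, Finset.sum_const,
      Finset.card_univ, Fintype.card_fin, nsmul_eq_mul, ← Finset.mul_sum, ← Finset.sum_mul]
    ring
  rw [h1]
  have h3 : ∑ i, pm V i i * (1 - pm V i i) = ∑ i, pm V i i - ∑ i, (pm V i i) ^ 2 := by
    rw [← Finset.sum_sub_distrib]
    exact Finset.sum_congr rfl fun i _ => by ring
  rw [h3]
  ring

/-- Comparison of the projections onto `V` and onto `V'`, when each is `δ`-close to the other. -/
lemma abs_pm_sub_le (V V' : Submodule ℝ (EV n)) (δ : ℝ)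
    (h1 : ∀ v ∈ V, ∃ v' ∈ V', ‖v - v'‖ ≤ δ * ‖v‖)
    (h2 : ∀ v' ∈ V', ∃ v ∈ V, ‖v' - v‖ ≤ δ * ‖v'‖) (hδ : 0 ≤ δ) (i j : Fin n) :
    |pm V' i j - pm V i j| ≤ 2 * δ := by
  set P := V.starProjection
  set P' := V'.starProjection
  have hn : ∀ l : Fin n, ‖(ev l : EV n)‖ = 1 := fun l => by simp [ev]
  have hsub : ∀ (U : Submodule ℝ (EV n)) (v : EV n), ‖v - U.starProjection v‖ ≤ ‖v‖ := by
    intro U v
    have h := Submodule.norm_sq_eq_add_norm_sq_starProjection v U
    have h' : Uᗮ.starProjection v = v - U.starProjection v := U.starProjection_orthogonal_val v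
    rw [h'] at h
    nlinarith [norm_nonneg (v - U.starProjection v), norm_nonneg v,
      sq_nonneg ‖U.starProjection v‖]
  have key : ∀ (U U' : Submodule ℝ (EV n)), (∀ v ∈ U, ∃ v' ∈ U', ‖v - v'‖ ≤ δ * ‖v‖) →
      ∀ l m : Fin n, |⟪U.starProjection (ev l), ev m - U'.starProjection (ev m)⟫_ℝ| ≤ δ := by
    intro U U' h l m
    obtain ⟨w, hw, hle⟩ := h _ (U.starProjection_apply_mem (ev l))
    have h0 : ⟪w, ev m - U'.starProjection (ev m)⟫_ℝ = 0 := by
      rw [real_inner_comm]
      exact U'.starProjection_inner_eq_zero _ _ hw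
    have h3 : ⟪U.starProjection (ev l), ev m - U'.starProjection (ev m)⟫_ℝ
        = ⟪U.starProjection (ev l) - w, ev m - U'.starProjection (ev m)⟫_ℝ := by
      rw [inner_sub_left, h0, sub_zero]
    rw [h3]
    refine (abs_real_inner_le_norm _ _).trans ?_
    have h4 : ‖ev m - U'.starProjection (ev m)‖ ≤ 1 := (hsub U' _).trans (hn m).le
    have h5 : ‖U.starProjection (ev l)‖ ≤ 1 :=
      (U.norm_starProjection_apply_le _).trans (hn l).le
    have h6 : ‖U.starProjection (ev l) - w‖ ≤ δ :=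
      hle.trans (by nlinarith)
    calc _ ≤ δ * 1 := mul_le_mul h6 h4 (norm_nonneg _) hδ
      _ = δ := mul_one _
  have e1 : pm V' i j - pm V i j
      = ⟪P' (ev i), ev j - P (ev j)⟫_ℝ - ⟪ev i - P' (ev i), P (ev j)⟫_ℝ := by
    have e2 : pm V' i j = ⟪P' (ev i), ev j⟫_ℝ :=
      (V'.inner_starProjection_left_eq_right _ _).symm
    rw [e2]
    show _ - ⟪ev i, P (ev j)⟫_ℝ = _
    rw [inner_sub_right, inner_sub_left]
    ring
  rw [e1]
  have k1 := key V' V h2 i j
  have k2 := key V V' h1 j i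
  rw [real_inner_comm] at k2
  calc _ ≤ |⟪P' (ev i), ev j - P (ev j)⟫_ℝ| + |⟪ev i - P' (ev i), P (ev j)⟫_ℝ| := abs_sub _ _
    _ ≤ δ + δ := add_le_add k1 k2
    _ = 2 * δ := by ring

end Crest.Agent.R014.Esc_296
end

-- ▼ part R014/Esc2_296
section

/-!
# R014/Esc2_296 : successive minima and gap subspaces on `ModSpace n` (leaf NOESC, helper296)
-/

set_option autoImplicit false

open MeasureTheory Filter Topology
open Crest.NumberTheoryR.Packets Crest.Agent.R014.Ms_667
open scoped InnerProductSpace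

namespace Crest.Agent.R014.Esc_296

variable {n : ℕ}

/-- right multiplication of row vectors by `h`. -/
noncomputable def Rc (h : SLR n) : EV n →L[ℝ] EV n :=
  Matrix.toEuclideanCLM (n := Fin n) (𝕜 := ℝ) h.1.transpose

lemma Rc_mul (g h : SLR n) : Rc (g * h) = (Rc h).comp (Rc g) := by
  unfold Rc
  rw [show ((g * h : SLR n)).1.transpose = h.1.transpose * g.1.transpose by
    rw [← Matrix.transpose_mul]; rfl, map_mul]
  rfl

lemma Rc_one : Rc (1 : SLR n) = ContinuousLinearMap.id ℝ (EV n) := by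
  unfold Rc
  rw [show ((1 : SLR n)).1.transpose = 1 by simp, map_one]
  rfl

lemma Rc_apply (h : SLR n) (v : EV n) (j : Fin n) : Rc h v j = ∑ i, v i * h.1 i j := by
  unfold Rc
  rw [Matrix.ofLp_toEuclideanCLM]
  simp only [Matrix.mulVec, dotProduct, Matrix.transpose_apply]
  exact Finset.sum_congr rfl fun i _ => mul_comm _ _

lemma Rc_inv_apply (h : SLR n) (v : EV n) : Rc h⁻¹ (Rc h v) = v := by
  have h1 : Rc (h * h⁻¹) v = Rc h⁻¹ (Rc h v) := by rw [Rc_mul]; rfl
  rw [← h1, mul_inv_cancel, Rc_one]; rfl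

lemma Rc_apply_inv (h : SLR n) (v : EV n) : Rc h (Rc h⁻¹ v) = v := by
  have h1 : Rc (h⁻¹ * h) v = Rc h (Rc h⁻¹ v) := by rw [Rc_mul]; rfl
  rw [← h1, inv_mul_cancel, Rc_one]; rfl

lemma Rc_injective (h : SLR n) : Function.Injective (Rc h) :=
  Function.LeftInverse.injective (Rc_inv_apply h)

/-- `Rc h` as a linear map. -/
noncomputable abbrev Rl (h : SLR n) : EV n →ₗ[ℝ] EV n := (Rc h).toLinearMap

lemma finrank_map (h : SLR n) (V : Submodule ℝ (EV n)) :
    Module.finrank ℝ (V.map (Rl h)) = Module.finrank ℝ V :=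
  (Submodule.equivMapOfInjective (Rl h) (Rc_injective h) V).finrank_eq.symm

/-- size of `h`. -/
noncomputable def nu (h : SLR n) : ℝ := max 1 (max ‖Rc h‖ ‖Rc h⁻¹‖)

lemma one_le_nu (h : SLR n) : 1 ≤ nu h := le_max_left _ _

lemma nu_pos (h : SLR n) : 0 < nu h := one_pos.trans_le (one_le_nu h)

lemma nu_inv (h : SLR n) : nu h⁻¹ = nu h := by
  unfold nu; rw [inv_inv, max_comm ‖Rc h⁻¹‖]

lemma norm_Rc_le (h : SLR n) (v : EV n) : ‖Rc h v‖ ≤ nu h * ‖v‖ :=
  ((Rc h).le_opNorm v).trans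
    (mul_le_mul_of_nonneg_right ((le_max_left _ _).trans (le_max_right _ _)) (norm_nonneg _))

/-- logarithmic size. -/
noncomputable def cc (h : SLR n) : ℝ := 2 * Real.log (nu h)

lemma cc_nonneg (h : SLR n) : 0 ≤ cc h := by
  unfold cc; have := Real.log_nonneg (one_le_nu h); linarith

lemma nu_of_isometry {h : SLR n} (H : ∀ v, ‖Rc h v‖ = ‖v‖) : nu h = 1 := by
  unfold nu
  refine max_eq_left (max_le ?_ ?_)
  · exact ContinuousLinearMap.opNorm_le_bound _ zero_le_one fun v => by rw [one_mul, H]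
  · refine ContinuousLinearMap.opNorm_le_bound _ zero_le_one fun v => ?_
    rw [one_mul, ← H (Rc h⁻¹ v), Rc_apply_inv]

lemma cc_of_isometry {h : SLR n} (H : ∀ v, ‖Rc h v‖ = ‖v‖) : cc h = 0 := by
  unfold cc; rw [nu_of_isometry H, Real.log_one, mul_zero]

lemma continuous_Rc : Continuous (Rc (n := n)) := by
  have h1 : Continuous fun M : Matrix (Fin n) (Fin n) ℝ =>
      Matrix.toEuclideanCLM (n := Fin n) (𝕜 := ℝ) M :=
    LinearMap.continuous_of_finiteDimensional
      (Matrix.toEuclideanCLM (n := Fin n) (𝕜 := ℝ)).toAlgEquiv.toLinearMap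
  exact h1.comp (continuous_subtype_val.matrix_transpose)

lemma continuous_nu : Continuous (nu (n := n)) :=
  continuous_const.max (continuous_Rc.norm.max (continuous_Rc.comp continuous_inv).norm)

lemma continuous_cc : Continuous (cc (n := n)) :=
  continuous_const.mul (continuous_nu.log fun h => (nu_pos h).ne')

lemma cc_one : cc (1 : SLR n) = 0 :=
  cc_of_isometry fun v => by rw [Rc_one]; rfl

/-! ### lattices -/

/-- the lattice of a point. -/
def Lat (x : ModSpace n) : Set (EV n) :=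
  {v | ∃ g : SLR n, q g = x ∧ ∃ z : Fin n → ℤ, v = Rc g (WithLp.toLp 2 fun i => (z i : ℝ))}

lemma mem_Lat_q {g : SLR n} {v : EV n} :
    v ∈ Lat (q g) ↔ ∃ z : Fin n → ℤ, v = Rc g (WithLp.toLp 2 fun i => (z i : ℝ)) := by
  constructor
  · rintro ⟨g', hg', z, rfl⟩
    obtain ⟨γ, ⟨γ', rfl⟩, hγ⟩ := q_eq_iff'.1 hg'.symm
    refine ⟨fun j => ∑ i, z i * γ'.1 i j, ?_⟩
    rw [hγ, Rc_mul]
    show Rc g (Rc _ _) = _
    congr 1
    ext j
    rw [Rc_apply]
    simp
  · rintro ⟨z, rfl⟩
    exact ⟨g, rfl, z, rfl⟩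

lemma Rc_mem_Lat {x : ModSpace n} {v : EV n} (hv : v ∈ Lat x) (h : SLR n) :
    Rc h v ∈ Lat (act x h) := by
  obtain ⟨g, rfl, z, rfl⟩ := hv
  refine ⟨g * h, rfl, z, ?_⟩
  rw [Rc_mul]; rfl

lemma Rc_inv_mem_Lat {x : ModSpace n} {h : SLR n} {v : EV n} (hv : v ∈ Lat (act x h)) :
    Rc h⁻¹ v ∈ Lat x := by
  have h1 := Rc_mem_Lat hv h⁻¹
  rwa [act_act, mul_inv_cancel, act_one] at h1

/-- span of the lattice vectors of norm `≤ r`. -/
def W (x : ModSpace n) (r : ℝ) : Submodule ℝ (EV n) :=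
  Submodule.span ℝ {v | v ∈ Lat x ∧ ‖v‖ ≤ r}

lemma W_mono (x : ModSpace n) {r s : ℝ} (h : r ≤ s) : W x r ≤ W x s :=
  Submodule.span_mono fun _ hv => ⟨hv.1, hv.2.trans h⟩

lemma map_W_le (x : ModSpace n) (h : SLR n) (r : ℝ) :
    (W x r).map (Rl h) ≤ W (act x h) (nu h * r) := by
  unfold W
  rw [Submodule.map_span, Submodule.span_le]
  rintro _ ⟨v, ⟨hv, hr⟩, rfl⟩
  exact Submodule.subset_span ⟨Rc_mem_Lat hv h,
    (norm_Rc_le h v).trans (mul_le_mul_of_nonneg_left hr (nu_pos h).le)⟩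

lemma W_act_le (x : ModSpace n) (h : SLR n) (r : ℝ) :
    W (act x h) r ≤ (W x (nu h * r)).map (Rl h) := by
  conv_lhs => unfold W
  rw [Submodule.span_le]
  rintro v ⟨hv, hr⟩
  refine ⟨Rc h⁻¹ v, Submodule.subset_span ⟨Rc_inv_mem_Lat hv, ?_⟩, Rc_apply_inv h v⟩
  rw [← nu_inv h]
  exact (norm_Rc_le h⁻¹ v).trans (mul_le_mul_of_nonneg_left hr (nu_pos _).le)

/-- every lattice is generated, over `ℝ`, by vectors of some bounded norm. -/
lemma exists_W_eq_top (x : ModSpace n) : ∃ r : ℝ, 0 ≤ r ∧ W x r = ⊤ := by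
  obtain ⟨g, rfl⟩ := q_surjective x
  refine ⟨nu g, (nu_pos g).le, ?_⟩
  rw [eq_top_iff]
  intro u _
  have h1 : u = Rc g (Rc g⁻¹ u) := (Rc_apply_inv g u).symm
  set w := Rc g⁻¹ u
  have h2 : w = ∑ i, w i • (ev i : EV n) := by
    ext j
    simp [ev, Finset.sum_apply, Pi.single_apply]
  rw [h1, h2, map_sum]
  refine Submodule.sum_mem _ fun i _ => ?_
  rw [map_smul]
  refine Submodule.smul_mem _ _ (Submodule.subset_span ⟨?_, ?_⟩)
  · rw [mem_Lat_q]
    refine ⟨Pi.single i 1, ?_⟩
    congr 1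
    ext j
    by_cases hj : j = i
    · subst hj; simp [ev]
    · simp [ev, hj]
  · refine (norm_Rc_le g _).trans ?_
    simp [ev]

lemma norm_ge_of_mem_Lat {g : SLR n} {v : EV n} (hv : v ∈ Lat (q g)) (h0 : v ≠ 0) :
    (nu g)⁻¹ ≤ ‖v‖ := by
  obtain ⟨z, rfl⟩ := mem_Lat_q.1 hv
  set w : EV n := WithLp.toLp 2 fun i => (z i : ℝ) with hw
  have hz : ∃ i, z i ≠ 0 := by
    by_contra hcon
    push Not at hcon
    apply h0
    have : w = 0 := by ext i; simp [hw, hcon i]
    rw [this, map_zero]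
  obtain ⟨i, hi⟩ := hz
  have h1 : (1 : ℝ) ≤ ‖w‖ := by
    have h2 : ‖w i‖ ≤ ‖w‖ := PiLp.norm_apply_le w i
    have h3 : (1 : ℝ) ≤ ‖w i‖ := by
      have : (1 : ℝ) ≤ |(z i : ℝ)| := by
        rw [← Int.cast_abs]
        exact_mod_cast Int.one_le_abs hi
      simpa [hw, Real.norm_eq_abs] using this
    exact h3.trans h2
  have h4 : ‖w‖ ≤ nu g * ‖Rc g w‖ := by
    have := norm_Rc_le g⁻¹ (Rc g w)
    rwa [Rc_inv_apply, nu_inv] at this
  rw [inv_le_iff_one_le_mul₀ (nu_pos g), mul_comm]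
  exact h1.trans h4

/-- successive minima. -/
noncomputable def lam (x : ModSpace n) (k : ℕ) : ℝ :=
  sInf {r : ℝ | 0 ≤ r ∧ k ≤ Module.finrank ℝ (W x r)}

lemma lam_bddBelow (x : ModSpace n) (k : ℕ) :
    BddBelow {r : ℝ | 0 ≤ r ∧ k ≤ Module.finrank ℝ (W x r)} := ⟨0, fun _ h => h.1⟩

lemma lam_nonempty (x : ModSpace n) {k : ℕ} (hk : k ≤ n) :
    {r : ℝ | 0 ≤ r ∧ k ≤ Module.finrank ℝ (W x r)}.Nonempty := by
  obtain ⟨r, hr, hW⟩ := exists_W_eq_top x
  refine ⟨r, hr, ?_⟩
  rw [hW, finrank_top, finrank_euclideanSpace_fin]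
  exact hk


lemma lt_of_lt_lam {x : ModSpace n} {k : ℕ} {r : ℝ} (hr0 : 0 ≤ r) (hr : r < lam x k) :
    Module.finrank ℝ (W x r) < k := by
  by_contra hcon
  push Not at hcon
  exact absurd (csInf_le (lam_bddBelow x k) ⟨hr0, hcon⟩) (not_le.2 hr)

lemma le_of_lam_lt {x : ModSpace n} {k : ℕ} (hk : k ≤ n) {r : ℝ} (hr : lam x k < r) :
    k ≤ Module.finrank ℝ (W x r) := by
  obtain ⟨s, hs, hsr⟩ := (csInf_lt_iff (lam_bddBelow x k) (lam_nonempty x hk)).1 hr
  exact hs.2.trans (Submodule.finrank_mono (W_mono x hsr.le))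

lemma lam_pos (x : ModSpace n) {k : ℕ} (hk0 : 0 < k) (hk : k ≤ n) : 0 < lam x k := by
  obtain ⟨g, rfl⟩ := q_surjective x
  refine (inv_pos.2 (nu_pos g)).trans_le ?_
  refine le_csInf (lam_nonempty _ hk) fun r hr => ?_
  by_contra hcon
  push Not at hcon
  have hbot : W (q g) r = ⊥ := by
    unfold W
    rw [Submodule.span_eq_bot]
    rintro v ⟨hv, hvr⟩
    by_contra h0
    exact absurd (norm_ge_of_mem_Lat hv h0) (not_le.2 (hvr.trans_lt hcon))
  have := hr.2
  rw [hbot, finrank_bot] at this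
  omega


lemma lam_act_le (x : ModSpace n) (h : SLR n) {k : ℕ} (hk : k ≤ n) :
    lam (act x h) k ≤ nu h * lam x k := by
  rw [← div_le_iff₀' (nu_pos h)]
  refine le_csInf (lam_nonempty x hk) fun r hr => ?_
  rw [div_le_iff₀' (nu_pos h)]
  refine csInf_le (lam_bddBelow _ k) ⟨mul_nonneg (nu_pos h).le hr.1, ?_⟩
  refine hr.2.trans ?_
  rw [← finrank_map h]
  exact Submodule.finrank_mono (map_W_le x h r)

lemma lam_le_act (x : ModSpace n) (h : SLR n) {k : ℕ} (hk : k ≤ n) :
    lam x k ≤ nu h * lam (act x h) k := by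
  have h1 := lam_act_le (act x h) h⁻¹ hk
  rwa [act_act, mul_inv_cancel, act_one, nu_inv] at h1

/-- logarithmic gap between consecutive minima. -/
noncomputable def gap (x : ModSpace n) (k : ℕ) : ℝ :=
  Real.log (lam x (k + 1)) - Real.log (lam x k)

lemma abs_log_lam_act (x : ModSpace n) (h : SLR n) {k : ℕ} (hk0 : 0 < k) (hk : k ≤ n) :
    |Real.log (lam (act x h) k) - Real.log (lam x k)| ≤ Real.log (nu h) := by
  have p1 := lam_pos x hk0 hk
  have p2 := lam_pos (act x h) hk0 hk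
  have h1 := Real.log_le_log p2 (lam_act_le x h hk)
  have h2 := Real.log_le_log p1 (lam_le_act x h hk)
  rw [Real.log_mul (nu_pos h).ne' p1.ne'] at h1
  rw [Real.log_mul (nu_pos h).ne' p2.ne'] at h2
  rw [abs_le]
  constructor <;> linarith

lemma abs_gap_act (x : ModSpace n) (h : SLR n) {k : ℕ} (hk0 : 0 < k) (hk : k < n) :
    |gap (act x h) k - gap x k| ≤ cc h := by
  have h1 := abs_log_lam_act x h hk0 hk.le
  have h2 := abs_log_lam_act x h (Nat.succ_pos k) hk
  unfold gap cc
  rw [abs_le] at *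
  constructor <;> linarith [h1.1, h1.2, h2.1, h2.2]


/-- the geometric midpoint of the `k`-th gap. -/
noncomputable def mid (x : ModSpace n) (k : ℕ) : ℝ :=
  Real.exp ((Real.log (lam x k) + Real.log (lam x (k + 1))) / 2)

lemma mid_pos (x : ModSpace n) (k : ℕ) : 0 < mid x k := Real.exp_pos _

lemma lam_lt_mid {x : ModSpace n} {k : ℕ} (hk0 : 0 < k) (hk : k < n) (hg : 0 < gap x k) :
    lam x k < mid x k := by
  unfold mid
  rw [← Real.log_lt_iff_lt_exp (lam_pos x hk0 hk.le)]
  unfold gap at hg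
  linarith

/-- The canonical subspace at the `k`-th gap. -/
noncomputable def Vk (x : ModSpace n) (k : ℕ) : Submodule ℝ (EV n) := W x (mid x k)

lemma mul_mid_lt {x : ModSpace n} {k : ℕ} (hk : k < n) {t : ℝ} (ht : 0 < t)
    (hg : 2 * Real.log t < gap x k) : t * mid x k < lam x (k + 1) := by
  unfold mid
  rw [← Real.exp_log ht, ← Real.exp_add,
    ← Real.lt_log_iff_exp_lt (lam_pos x (Nat.succ_pos k) hk)]
  unfold gap at hg
  show _ < Real.log (lam x (k + 1))
  linarith

lemma finrank_Vk {x : ModSpace n} {k : ℕ} (hk0 : 0 < k) (hk : k < n) (hg : 0 < gap x k) :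
    Module.finrank ℝ (Vk x k) = k := by
  refine le_antisymm ?_ (le_of_lam_lt hk.le (lam_lt_mid hk0 hk hg))
  have h1 := mul_mid_lt (x := x) hk one_pos (by rw [Real.log_one, mul_zero]; exact hg)
  rw [one_mul] at h1
  exact Nat.lt_succ_iff.1 (lt_of_lt_lam (mid_pos x k).le h1)

lemma abs_log_mid_act (x : ModSpace n) (h : SLR n) {k : ℕ} (hk0 : 0 < k) (hk : k < n) :
    |Real.log (mid (act x h) k) - Real.log (mid x k)| ≤ Real.log (nu h) := by
  have h1 := abs_log_lam_act x h hk0 hk.le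
  have h2 := abs_log_lam_act x h (Nat.succ_pos k) hk
  unfold mid
  rw [Real.log_exp, Real.log_exp]
  rw [abs_le] at *
  constructor <;> linarith [h1.1, h1.2, h2.1, h2.2]

/-- equivariance of the canonical subspace, when the gap is large compared to `h`. -/
lemma Vk_act {x : ModSpace n} {h : SLR n} {k : ℕ} (hk0 : 0 < k) (hk : k < n)
    (hg : 2 * cc h < gap x k) : Vk (act x h) k = (Vk x k).map (Rl h) := by
  have hc := cc_nonneg h
  have hg' : 0 < gap (act x h) k := by
    have := abs_gap_act x h hk0 hk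
    rw [abs_le] at this
    linarith [this.1]
  have hm := abs_log_mid_act x h hk0 hk
  rw [abs_le] at hm
  have hcc : cc h = 2 * Real.log (nu h) := rfl
  have m1 : nu h * mid (act x h) k < lam x (k + 1) := by
    have e1 := mul_mid_lt (x := x) hk (t := nu h ^ 2) (by have := nu_pos h; positivity)
      (by rw [Real.log_pow]; push_cast; linarith)
    refine lt_of_le_of_lt ?_ e1
    have e2 : mid (act x h) k ≤ nu h * mid x k := by
      rw [← Real.log_le_log_iff (mid_pos _ _) (mul_pos (nu_pos h) (mid_pos _ _)),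
        Real.log_mul (nu_pos h).ne' (mid_pos _ _).ne']
      linarith [hm.2]
    calc nu h * mid (act x h) k ≤ nu h * (nu h * mid x k) :=
          mul_le_mul_of_nonneg_left e2 (nu_pos h).le
      _ = nu h ^ 2 * mid x k := by ring
  have m2 : mid x k ≤ nu h * mid (act x h) k := by
    rw [← Real.log_le_log_iff (mid_pos _ _) (mul_pos (nu_pos h) (mid_pos _ _)),
      Real.log_mul (nu_pos h).ne' (mid_pos _ _).ne']
    linarith [hm.1]
  have f1 : Module.finrank ℝ (W x (nu h * mid (act x h) k)) ≤ k :=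
    Nat.lt_succ_iff.1 (lt_of_lt_lam (mul_nonneg (nu_pos h).le (mid_pos _ _).le) m1)
  have f2 := finrank_Vk hk0 hk (x := x) (by linarith)
  have f3 := finrank_Vk hk0 hk hg'
  have s1 : Vk x k = W x (nu h * mid (act x h) k) :=
    Submodule.eq_of_le_of_finrank_le (W_mono x m2) (by rw [f2]; exact f1)
  have s2 : Vk (act x h) k = (W x (nu h * mid (act x h) k)).map (Rl h) :=
    Submodule.eq_of_le_of_finrank_le (W_act_le x h _) (by rw [f3, finrank_map]; exact f1)
  rw [s2, s1]

end Crest.Agent.R014.Esc_296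
end

-- ▼ part R014/Esc3_296
section

/-!
# R014/Esc3_296 : Hadamard bound, big gaps in the cusp, torus and rotation formulas for projections
(leaf NOESC, helper296)
-/

set_option autoImplicit false

open MeasureTheory Filter Topology
open Crest.NumberTheoryR.Packets Crest.Agent.R014.Ms_667
open scoped InnerProductSpace

namespace Crest.Agent.R014.Esc_296

variable {n : ℕ}

/-! ### Hadamard -/

lemma abs_det_le (v : Fin n → EV n) :
    |(Matrix.of fun i j => v i j).det| ≤ ∏ i, ‖v i‖ := by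
  haveI : Fact (Module.finrank ℝ (EV n) = n) := ⟨finrank_euclideanSpace_fin⟩
  set b := EuclideanSpace.basisFun (Fin n) ℝ
  set o := b.toBasis.orientation
  have h1 := o.abs_volumeForm_apply_le v
  rw [o.volumeForm_robust b rfl, Module.Basis.det_apply] at h1
  have h2 : b.toBasis.toMatrix v = (Matrix.of fun i j => v i j).transpose := by
    ext i j
    simp [Module.Basis.toMatrix_apply, b]
  rwa [h2, Matrix.det_transpose] at h1

/-- the last minimum of a unimodular lattice is at least one. -/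
lemma one_le_lam (x : ModSpace n) (hn : 0 < n) : 1 ≤ lam x n := by
  refine le_csInf (lam_nonempty x le_rfl) fun r hr => ?_
  obtain ⟨hr0, hr⟩ := hr
  have htop : W x r = ⊤ :=
    Submodule.eq_top_of_finrank_eq (le_antisymm (Submodule.finrank_le _)
      (by rw [finrank_euclideanSpace_fin]; exact hr))
  obtain ⟨b, hb, hspan, hli⟩ := exists_linearIndependent ℝ {v : EV n | v ∈ Lat x ∧ ‖v‖ ≤ r}
  have hspan' : Submodule.span ℝ b = ⊤ := hspan.trans htop
  let B : Module.Basis b ℝ (EV n) := Module.Basis.mk hli (by rw [Subtype.range_coe, hspan'])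
  have hfin : Finite b := Module.Finite.finite_basis B
  have := Fintype.ofFinite b
  have hcard : Fintype.card b = n := by
    rw [← Module.finrank_eq_card_basis B, finrank_euclideanSpace_fin]
  let e : Fin n ≃ b := (Fintype.equivFinOfCardEq hcard).symm
  set v : Fin n → EV n := fun i => (e i : EV n) with hv
  have hvli : LinearIndependent ℝ v := hli.comp e e.injective
  obtain ⟨g, hg⟩ := q_surjective x
  have hvm : ∀ i, v i ∈ Lat x ∧ ‖v i‖ ≤ r := fun i => hb (e i).2
  have hz : ∀ i, ∃ z : Fin n → ℤ, v i = Rc g (WithLp.toLp 2 fun i => (z i : ℝ)) := fun i => by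
    have := (hvm i).1
    rw [← hg] at this
    exact mem_Lat_q.1 this
  choose Z hZ using hz
  have hM : (Matrix.of fun i j => v i j) = (Matrix.of Z).map (Int.castRingHom ℝ) * g.1 := by
    ext i j
    rw [Matrix.of_apply, hZ i, Rc_apply, Matrix.mul_apply]
    rfl
  have hdet : (Matrix.of fun i j => v i j).det = ((Matrix.of Z).det : ℝ) := by
    rw [hM, Matrix.det_mul, g.2, mul_one]
    exact (RingHom.map_det (Int.castRingHom ℝ) (Matrix.of Z)).symm
  have hne : (Matrix.of fun i j => v i j).det ≠ 0 := by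
    have h1 : LinearIndependent ℝ (fun i => (Matrix.of fun i j => v i j) i) := by
      have h2 := hvli.map' (WithLp.linearEquiv 2 ℝ (Fin n → ℝ)).toLinearMap
        (LinearEquiv.ker _)
      exact h2
    have h3 := Matrix.linearIndependent_rows_iff_isUnit.1 h1
    exact ((Matrix.isUnit_iff_isUnit_det _).1 h3).ne_zero
  have hge : (1 : ℝ) ≤ |(Matrix.of fun i j => v i j).det| := by
    rw [hdet, ← Int.cast_abs]
    have : (Matrix.of Z).det ≠ 0 := by
      intro h0
      apply hne
      rw [hdet, h0, Int.cast_zero]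
    exact_mod_cast Int.one_le_abs this
  have hle : |(Matrix.of fun i j => v i j).det| ≤ r ^ n := by
    refine (abs_det_le v).trans ?_
    calc ∏ i, ‖v i‖ ≤ ∏ _i : Fin n, r :=
          Finset.prod_le_prod (fun i _ => norm_nonneg _) fun i _ => (hvm i).2
      _ = r ^ n := by simp
  by_contra hcon
  push Not at hcon
  have : r ^ n < 1 := pow_lt_one₀ hr0 hcon hn.ne'
  linarith

lemma lam_one_le {x : ModSpace n} {v : EV n} (hv : v ∈ Lat x) (h0 : v ≠ 0) :
    lam x 1 ≤ ‖v‖ := by
  refine csInf_le (lam_bddBelow x 1) ⟨norm_nonneg _, ?_⟩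
  have h1 : v ∈ W x ‖v‖ := Submodule.subset_span ⟨hv, le_rfl⟩
  rw [Nat.one_le_iff_ne_zero, Ne, Submodule.finrank_eq_zero]
  intro hbot
  rw [hbot, Submodule.mem_bot] at h1
  exact h0 h1

/-- deep in the cusp one of the gaps is large. -/
lemma exists_gap {x : ModSpace n} (hn : 0 < n) {R : ℝ} (hR : 0 ≤ R) {v : EV n} (hv : v ∈ Lat x)
    (h0 : v ≠ 0) (hlt : ‖v‖ < Real.exp (-(n * R))) : ∃ k, 0 < k ∧ k < n ∧ R < gap x k := by
  by_contra hcon
  push Not at hcon
  have key : ∀ m : ℕ, m + 1 ≤ n → Real.log (lam x (m + 1)) - Real.log (lam x 1) ≤ m * R := by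
    intro m
    induction m with
    | zero => intro _; simp
    | succ m ih =>
      intro hm
      have h1 := ih (by omega)
      have h2 := hcon (m + 1) (Nat.succ_pos m) (by omega)
      unfold gap at h2
      push_cast
      linarith
  have h1 := key (n - 1) (by omega)
  rw [Nat.sub_add_cancel hn] at h1
  have h2 : 0 ≤ Real.log (lam x n) := Real.log_nonneg (one_le_lam x hn)
  have h3 : Real.log (lam x 1) < -(n * R) := by
    rw [Real.log_lt_iff_lt_exp (lam_pos x one_pos hn)]
    exact (lam_one_le hv h0).trans_lt hlt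
  have h4 : ((n - 1 : ℕ) : ℝ) * R ≤ n * R :=
    mul_le_mul_of_nonneg_right (by exact_mod_cast Nat.sub_le n 1) hR
  linarith

/-! ### torus elements -/

lemma real_inner_eq_sum (u v : EV n) : ⟪u, v⟫_ℝ = ∑ j, u j * v j := by
  rw [PiLp.inner_apply]
  exact Finset.sum_congr rfl fun j _ => by simp [mul_comm]

lemma inner_proj_of_mem (V : Submodule ℝ (EV n)) (i : Fin n) {v : EV n} (hv : v ∈ V) :
    ⟪V.starProjection (ev i), v⟫_ℝ = v i := by
  have h1 := V.starProjection_inner_eq_zero (ev i) v hv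
  rw [inner_sub_left, sub_eq_zero, inner_ev] at h1
  exact h1.symm

lemma pm_torus (V : Submodule ℝ (EV n)) (i : Fin n) (a : SLR n) (α β : ℝ) (hα : 0 < α)
    (hβ : 0 < β) (hd : ∀ (v : EV n) (j : Fin n), Rc a v j = (if j = i then α else β) * v j) :
    pm (V.map (Rl a)) i i
      = α ^ 2 * pm V i i / (α ^ 2 * pm V i i + β ^ 2 * (1 - pm V i i)) := by
  set p := V.starProjection (ev i) with hp
  set y := pm V i i with hy
  have hy0 : 0 ≤ y := pm_self_nonneg V i
  have hy1 : y ≤ 1 := pm_self_le_one V i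
  have hpi : p i = y := (pm_eq_coord V i i).symm
  set D := α ^ 2 * y + β ^ 2 * (1 - y) with hD
  have hDpos : 0 < D := by
    rcases hy0.eq_or_lt with h | h
    · rw [hD, ← h]; simp; positivity
    · have h1 : 0 < α ^ 2 * y := by positivity
      have h2 : 0 ≤ β ^ 2 * (1 - y) := mul_nonneg (sq_nonneg _) (by linarith)
      linarith
  have hmem : (α / D) • Rc a p ∈ V.map (Rl a) :=
    Submodule.smul_mem _ _ ⟨p, V.starProjection_apply_mem _, rfl⟩
  have horth : ∀ w ∈ V.map (Rl a), ⟪ev i - (α / D) • Rc a p, w⟫_ℝ = 0 := by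
    rintro _ ⟨v, hv, rfl⟩
    show ⟪ev i - (α / D) • Rc a p, Rc a v⟫_ℝ = 0
    rw [inner_sub_left, inner_ev, real_inner_smul_left]
    have e1 : ⟪Rc a p, Rc a v⟫_ℝ = D * v i := by
      rw [real_inner_eq_sum]
      have e2 : ∀ j, Rc a p j * Rc a v j
          = β ^ 2 * (p j * v j) + (if j = i then (α ^ 2 - β ^ 2) * (p j * v j) else 0) := by
        intro j
        rw [hd, hd]
        split_ifs <;> ring
      rw [Finset.sum_congr rfl fun j _ => e2 j, Finset.sum_add_distrib, ← Finset.mul_sum,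
        ← real_inner_eq_sum, Finset.sum_ite_eq' Finset.univ i]
      simp only [Finset.mem_univ, if_true]
      rw [inner_proj_of_mem V i hv, hpi, hD]
      ring
    rw [e1, hd]
    simp only [if_true]
    field_simp
    ring
  have h1 : (V.map (Rl a)).starProjection (ev i) = (α / D) • Rc a p :=
    Submodule.eq_starProjection_of_mem_of_inner_eq_zero hmem horth
  rw [pm_eq_coord, h1, PiLp.smul_apply, hd]
  simp only [if_true, smul_eq_mul]
  rw [hpi]
  ring

/-! ### isometries -/

lemma inner_map {h : SLR n} (H : ∀ v, ‖Rc h v‖ = ‖v‖) (u v : EV n) :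
    ⟪Rc h u, Rc h v⟫_ℝ = ⟪u, v⟫_ℝ :=
  LinearIsometry.inner_map_map (⟨Rl h, H⟩ : EV n →ₗᵢ[ℝ] EV n) u v

lemma pm_isometry {h : SLR n} (H : ∀ v, ‖Rc h v‖ = ‖v‖) (V : Submodule ℝ (EV n)) (i j : Fin n) :
    pm (V.map (Rl h)) i j = ⟪Rc h⁻¹ (ev i), V.starProjection (Rc h⁻¹ (ev j))⟫_ℝ := by
  have hmem : Rc h (V.starProjection (Rc h⁻¹ (ev j))) ∈ V.map (Rl h) :=
    ⟨_, V.starProjection_apply_mem _, rfl⟩
  have horth : ∀ w ∈ V.map (Rl h),
      ⟪ev j - Rc h (V.starProjection (Rc h⁻¹ (ev j))), w⟫_ℝ = 0 := by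
    rintro _ ⟨v, hv, rfl⟩
    show ⟪ev j - Rc h (V.starProjection (Rc h⁻¹ (ev j))), Rc h v⟫_ℝ = 0
    have e1 : (ev j : EV n) = Rc h (Rc h⁻¹ (ev j)) := (Rc_apply_inv h _).symm
    conv_lhs => rw [e1]
    rw [Rc_inv_apply, ← map_sub, inner_map H]
    exact V.starProjection_inner_eq_zero _ _ hv
  have h1 := Submodule.eq_starProjection_of_mem_of_inner_eq_zero hmem horth
  unfold pm
  rw [h1]
  have e2 := inner_map H (Rc h⁻¹ (ev i)) (V.starProjection (Rc h⁻¹ (ev j)))
  rw [Rc_apply_inv] at e2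
  exact e2

/-! ### elementary matrices and the rotation by 45 degrees -/

/-- the elementary matrix `1 + s E_ij`. -/
noncomputable def U (i j : Fin n) (hij : i ≠ j) (s : ℝ) : SLR n :=
  ⟨Matrix.transvection i j s, Matrix.det_transvection_of_ne i j hij s⟩

lemma Rc_U (i j : Fin n) (hij : i ≠ j) (s : ℝ) (v : EV n) :
    Rc (U i j hij s) v = v + (s * v i) • ev j := by
  ext l
  rw [Rc_apply]
  have h1 : ∀ m, v m * (U i j hij s).1 m l
      = (if m = l then v m else 0) + (if m = i then (if l = j then s * v m else 0) else 0) := by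
    intro m
    show v m * (Matrix.transvection i j s) m l = _
    rw [Matrix.transvection, Matrix.add_apply, Matrix.one_apply, Matrix.single_apply]
    by_cases h1 : m = l <;> by_cases h2 : m = i <;> by_cases h3 : l = j <;>
      simp_all [eq_comm, mul_comm, mul_add] 
  rw [Finset.sum_congr rfl fun m _ => h1 m, Finset.sum_add_distrib, Finset.sum_ite_eq',
    Finset.sum_ite_eq']
  simp [ev, Pi.single_apply]

/-- `√2 / 2`. -/
noncomputable def c2 : ℝ := Real.sqrt 2 / 2

lemma c2_sq : c2 * c2 = 1 / 2 := by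
  unfold c2
  have := Real.mul_self_sqrt (show (0:ℝ) ≤ 2 by norm_num)
  nlinarith


/-- `1 - √2`. -/
noncomputable def s1 : ℝ := 1 - 2 * c2

lemma s1_rel : 1 + s1 * c2 = c2 := by
  unfold s1; have := c2_sq; nlinarith

/-- the rotation by 45 degrees in the plane `(i, j)`. -/
noncomputable def rot (i j : Fin n) (hij : i ≠ j) : SLR n :=
  U i j hij s1 * U j i hij.symm c2 * U i j hij s1

lemma Rc_rot (i j : Fin n) (hij : i ≠ j) (v : EV n) :
    Rc (rot i j hij) v = v + ((c2 - 1) * v i + c2 * v j) • ev i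
      + (-c2 * v i + (c2 - 1) * v j) • ev j := by
  unfold rot
  rw [Rc_mul, Rc_mul]
  show Rc (U i j hij s1) (Rc (U j i hij.symm c2) (Rc (U i j hij s1) v)) = _
  rw [Rc_U i j hij s1 v, Rc_U j i, Rc_U i j]
  have hs := s1_rel
  have hc := c2_sq
  have hs1 : s1 = 1 - 2 * c2 := rfl
  ext l
  simp only [PiLp.add_apply, PiLp.smul_apply, smul_eq_mul, ev, EuclideanSpace.single_apply]
  have hji : j ≠ i := hij.symm
  by_cases h1 : l = i
  · subst h1
    simp only [if_true, hij, hji, if_false]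
    have : c2 * s1 = c2 - 1 := by linarith
    linear_combination (v l) * this
  · by_cases h2 : l = j
    · subst h2
      simp only [if_true, h1, hij, hji, if_false]
      have e1 : c2 * s1 = c2 - 1 := by linarith
      have e2 : s1 + s1 * (1 + c2 * s1) = - c2 := by
        rw [e1, hs1]; nlinarith
      linear_combination (v i) * e2 + (v l) * e1
    · simp only [h1, h2, if_false]
      ring

lemma rot_isometry (i j : Fin n) (hij : i ≠ j) (v : EV n) : ‖Rc (rot i j hij) v‖ = ‖v‖ := by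
  have h1 : ‖Rc (rot i j hij) v‖ ^ 2 = ‖v‖ ^ 2 := by
    rw [Rc_rot, ← real_inner_self_eq_norm_sq, ← real_inner_self_eq_norm_sq]
    have e1 : ⟪(ev i : EV n), ev j⟫_ℝ = 0 := by
      rw [inner_ev]; simp [ev, hij]
    have e2 : ⟪(ev j : EV n), ev i⟫_ℝ = 0 := by rw [real_inner_comm]; exact e1
    have e3 : ⟪(ev i : EV n), ev i⟫_ℝ = 1 := by rw [inner_ev]; simp [ev]
    have e4 : ⟪(ev j : EV n), ev j⟫_ℝ = 1 := by rw [inner_ev]; simp [ev]
    have e5 : ⟪v, ev i⟫_ℝ = v i := by rw [real_inner_comm, inner_ev]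
    have e6 : ⟪v, ev j⟫_ℝ = v j := by rw [real_inner_comm, inner_ev]
    simp only [inner_add_left, inner_add_right, real_inner_smul_left, real_inner_smul_right,
      e1, e2, e3, e4, e5, e6, inner_ev]
    have hc := c2_sq
    linear_combination (2 * (v i * v i) + 2 * (v j * v j)) * hc
  exact (sq_eq_sq₀ (norm_nonneg _) (norm_nonneg _)).1 h1

lemma rot_inv_i (i j : Fin n) (hij : i ≠ j) :
    Rc (rot i j hij)⁻¹ (ev i) = c2 • (ev i + ev j) := by
  have h1 : Rc (rot i j hij) (c2 • (ev i + ev j)) = ev i := by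
    rw [Rc_rot]
    have hc := c2_sq
    have hji : j ≠ i := hij.symm
    ext l
    simp only [PiLp.add_apply, PiLp.smul_apply, smul_eq_mul, ev, EuclideanSpace.single_apply,
      if_true, hij, hji, if_false]
    by_cases h1 : l = i
    · subst h1
      simp only [if_true, hij, if_false]
      linear_combination 2 * hc
    · by_cases h2 : l = j
      · subst h2
        simp only [if_true, h1, if_false]
        ring
      · simp only [h1, h2, if_false]
        ring
  conv_lhs => rw [← h1]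
  rw [Rc_inv_apply]

lemma rot_inv_j (i j : Fin n) (hij : i ≠ j) :
    Rc (rot i j hij)⁻¹ (ev j) = c2 • (ev j - ev i) := by
  have h1 : Rc (rot i j hij) (c2 • (ev j - ev i)) = ev j := by
    rw [Rc_rot]
    have hc := c2_sq
    have hji : j ≠ i := hij.symm
    ext l
    simp only [PiLp.add_apply, PiLp.sub_apply, PiLp.smul_apply, smul_eq_mul, ev,
      EuclideanSpace.single_apply, if_true, hij, hji, if_false]
    by_cases h1 : l = i
    · subst h1
      simp only [if_true, hij, if_false]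
      ring
    · by_cases h2 : l = j
      · subst h2
        simp only [if_true, h1, if_false]
        linear_combination 2 * hc
      · simp only [h1, h2, if_false]
        ring
  conv_lhs => rw [← h1]
  rw [Rc_inv_apply]

lemma pm_rot (V : Submodule ℝ (EV n)) (i j : Fin n) (hij : i ≠ j) :
    (pm (V.map (Rl (rot i j hij))) i j) ^ 2 = (pm V i i - pm V j j) ^ 2 / 4 := by
  rw [pm_isometry (rot_isometry i j hij), rot_inv_i, rot_inv_j]
  have h1 : ⟪c2 • (ev i + ev j), V.starProjection (c2 • (ev j - ev i))⟫_ℝ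
      = c2 * c2 * (pm V j j - pm V i i) := by
    rw [map_smul, map_sub, real_inner_smul_left, real_inner_smul_right, inner_sub_right,
      inner_add_left, inner_add_left]
    have e : pm V i j = pm V j i := pm_symm V i j
    show c2 * (c2 * (pm V i j + pm V j j - (pm V i i + pm V j i))) = _
    rw [e]; ring
  rw [h1, c2_sq]
  ring

end Crest.Agent.R014.Esc_296
end

-- ▼ part R014/Esc4_296

/-!
# R014/Esc4_296 : right uniformly continuous functions, near invariance and **no escape of mass**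
(leaf NOESC, helper296)

* `RUC f` : bounded and right uniformly continuous.
* `NearInv μ` : asymptotic invariance under all elementary matrices, tested on `RUC` functions.
* `esc` : `NearInv` + diagonal invariance ⟹ no escape of mass.
-/

set_option autoImplicit false

open MeasureTheory Filter Topology
open Crest.NumberTheoryR.Packets Crest.Agent.R014.Ms_667
open scoped InnerProductSpace

namespace Crest.Agent.R014.Esc_296

variable {n : ℕ}

/-- bounded, right uniformly continuous functions. -/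
def RUC (f : ModSpace n → ℝ) : Prop :=
  (∃ B : ℝ, ∀ x, |f x| ≤ B) ∧
    ∀ ε : ℝ, 0 < ε → ∃ O ∈ 𝓝 (1 : SLR n), ∀ x, ∀ h ∈ O, |f (act x h) - f x| ≤ ε

lemma RUC.continuous {f : ModSpace n → ℝ} (hf : RUC f) : Continuous f := by
  rw [← isOpenQuotientMap_q.continuous_comp_iff]
  rw [continuous_iff_continuousAt]
  intro g
  rw [Metric.continuousAt_iff']
  intro ε hε
  obtain ⟨O, hO, h⟩ := hf.2 (ε / 2) (half_pos hε)
  have hcont : ContinuousAt (fun g' : SLR n => g⁻¹ * g') g :=
    (continuous_const.mul continuous_id).continuousAt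
  have h1 : (fun g' : SLR n => g⁻¹ * g') ⁻¹' O ∈ 𝓝 g :=
    hcont.preimage_mem_nhds (by rw [inv_mul_cancel]; exact hO)
  filter_upwards [h1] with g' hg'
  have h2 := h (q g) (g⁻¹ * g') hg'
  rw [act_q, mul_inv_cancel_left] at h2
  show dist (f (q g')) (f (q g)) < ε
  rw [Real.dist_eq]
  linarith

lemma RUC.integrable {f : ModSpace n → ℝ} (hf : RUC f) (μ : Measure (ModSpace n))
    [IsFiniteMeasure μ] : Integrable f μ := by
  obtain ⟨B, hB⟩ := hf.1
  exact Integrable.of_bound hf.continuous.aestronglyMeasurable B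
    (Eventually.of_forall fun x => by rw [Real.norm_eq_abs]; exact hB x)

lemma RUC.comp_act {f : ModSpace n → ℝ} (hf : RUC f) (g : SLR n) :
    RUC fun x => f (act x g) := by
  refine ⟨hf.1.imp fun B hB x => hB _, fun ε hε => ?_⟩
  obtain ⟨O, hO, h⟩ := hf.2 ε hε
  have hcont : ContinuousAt (fun h : SLR n => g⁻¹ * h * g) 1 :=
    ((continuous_const.mul continuous_id).mul continuous_const).continuousAt
  refine ⟨(fun h : SLR n => g⁻¹ * h * g) ⁻¹' O,
    hcont.preimage_mem_nhds (by simpa using hO), fun x k hk => ?_⟩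
  have h2 := h (act x g) (g⁻¹ * k * g) hk
  rw [act_act] at h2
  show |f (act (act x k) g) - f (act x g)| ≤ ε
  rw [act_act]
  have e : g * (g⁻¹ * k * g) = k * g := by group
  rwa [e] at h2

/-- `μ` is asymptotically invariant under `g`, tested on `RUC` functions. -/
def NearInvAt (μ : ℕ → Measure (ModSpace n)) (g : SLR n) : Prop :=
  ∀ f : ModSpace n → ℝ, RUC f →
    Tendsto (fun k => ∫ x, f (act x g) ∂(μ k) - ∫ x, f x ∂(μ k)) atTop (𝓝 0)

/-- asymptotic invariance under all elementary matrices. -/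
def NearInv (μ : ℕ → Measure (ModSpace n)) : Prop :=
  ∀ (i j : Fin n) (hij : i ≠ j) (s : ℝ), NearInvAt μ (U i j hij s)

lemma NearInvAt.mul {μ : ℕ → Measure (ModSpace n)} {g h : SLR n} (hg : NearInvAt μ g)
    (hh : NearInvAt μ h) : NearInvAt μ (g * h) := by
  intro f hf
  have h1 := (hg _ (hf.comp_act h)).add (hh f hf)
  rw [add_zero] at h1
  refine h1.congr fun k => ?_
  simp only [act_act]
  ring

lemma NearInv.rot {μ : ℕ → Measure (ModSpace n)} (hμ : NearInv μ) (i j : Fin n) (hij : i ≠ j) :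
    NearInvAt μ (rot i j hij) :=
  ((hμ i j hij s1).mul (hμ j i hij.symm c2)).mul (hμ i j hij s1)

/-! ### the weights -/

/-- cut-off in the gap. -/
noncomputable def ww (R t : ℝ) : ℝ := max 0 (min 1 (t / R - 1))

lemma ww_nonneg (R t : ℝ) : 0 ≤ ww R t := le_max_left _ _

lemma ww_le_one (R t : ℝ) : ww R t ≤ 1 := max_le zero_le_one (min_le_left _ _)

lemma ww_eq_zero {R t : ℝ} (hR : 0 < R) (ht : t ≤ R) : ww R t = 0 := by
  unfold ww
  refine max_eq_left ((min_le_right _ _).trans ?_)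
  rw [sub_nonpos, div_le_one hR]
  exact ht

lemma ww_eq_one {R t : ℝ} (hR : 0 < R) (ht : 2 * R ≤ t) : ww R t = 1 := by
  unfold ww
  have h1 : 1 ≤ t / R - 1 := by
    rw [le_sub_iff_add_le, le_div_iff₀ hR]
    linarith
  rw [min_eq_left h1, max_eq_right zero_le_one]

lemma lt_of_ww_ne_zero {R t : ℝ} (hR : 0 < R) (h : ww R t ≠ 0) : R < t := by
  by_contra hcon
  exact h (ww_eq_zero hR (not_lt.1 hcon))

lemma abs_ww_sub (R s t : ℝ) (hR : 0 < R) : |ww R s - ww R t| ≤ |s - t| / R := by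
  unfold ww
  refine (abs_max_sub_max_le_max _ _ _ _).trans ?_
  rw [sub_self, abs_zero]
  refine max_le (by positivity) ((abs_min_sub_min_le_max _ _ _ _).trans ?_)
  rw [sub_self, abs_zero]
  refine max_le (by positivity) ?_
  have : s / R - 1 - (t / R - 1) = (s - t) / R := by ring
  rw [this, abs_div, abs_of_pos hR]

/-- test functions. -/
noncomputable def tf (φ : Submodule ℝ (EV n) → ℝ) (R : ℝ) (k : ℕ) (x : ModSpace n) : ℝ :=
  ww R (gap x k) * φ (Vk x k)

/-- uniform right continuity on subspaces. -/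
def UC (φ : Submodule ℝ (EV n) → ℝ) : Prop :=
  ∀ ε : ℝ, 0 < ε → ∃ O ∈ 𝓝 (1 : SLR n), ∀ h ∈ O, ∀ V, |φ (V.map (Rl h)) - φ V| ≤ ε

lemma ruc_tf {φ : Submodule ℝ (EV n) → ℝ} (hb : ∀ V, |φ V| ≤ 1) (hc : UC φ) {R : ℝ}
    (hR : 0 < R) {k : ℕ} (hk0 : 0 < k) (hk : k < n) : RUC (tf φ R k) := by
  refine ⟨⟨1, fun x => ?_⟩, fun ε hε => ?_⟩
  · unfold tf
    rw [abs_mul, abs_of_nonneg (ww_nonneg _ _)]
    exact mul_le_one₀ (ww_le_one _ _) (abs_nonneg _) (hb _)
  obtain ⟨O, hO, h⟩ := hc (ε / 2) (half_pos hε)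
  have hpos : 0 < min (R / 4) (ε * R / 2) := by positivity
  have h1 : {h : SLR n | cc h < min (R / 4) (ε * R / 2)} ∈ 𝓝 (1 : SLR n) :=
    (continuous_cc (n := n)).continuousAt.preimage_mem_nhds
      (by rw [cc_one]; exact Iio_mem_nhds hpos)
  refine ⟨O ∩ {h : SLR n | cc h < min (R / 4) (ε * R / 2)}, inter_mem hO h1, ?_⟩
  rintro x g ⟨hgO, hg⟩
  have hg1 : cc g < R / 4 := lt_of_lt_of_le hg (min_le_left _ _)
  have hg2 : cc g < ε * R / 2 := lt_of_lt_of_le hg (min_le_right _ _)
  have hgap := abs_gap_act x g hk0 hk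
  unfold tf
  by_cases hcase : 2 * cc g < gap x k
  · rw [Vk_act hk0 hk hcase]
    have e1 : ww R (gap (act x g) k) * φ ((Vk x k).map (Rl g)) - ww R (gap x k) * φ (Vk x k)
        = (ww R (gap (act x g) k) - ww R (gap x k)) * φ ((Vk x k).map (Rl g))
          + ww R (gap x k) * (φ ((Vk x k).map (Rl g)) - φ (Vk x k)) := by ring
    rw [e1]
    refine (abs_add_le _ _).trans ?_
    rw [abs_mul, abs_mul]
    have e2 : |ww R (gap (act x g) k) - ww R (gap x k)| ≤ ε / 2 := by
      refine (abs_ww_sub R _ _ hR).trans ?_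
      rw [div_le_iff₀ hR]
      linarith
    have e3 := h g hgO (Vk x k)
    have e4 : |ww R (gap x k)| ≤ 1 := by
      rw [abs_of_nonneg (ww_nonneg _ _)]; exact ww_le_one _ _
    have e5 := hb ((Vk x k).map (Rl g))
    have e6 := mul_le_mul e2 e5 (abs_nonneg _) (by positivity)
    have e7 := mul_le_mul e4 e3 (abs_nonneg _) zero_le_one
    linarith
  · push Not at hcase
    rw [abs_le] at hgap
    have z1 : ww R (gap x k) = 0 := ww_eq_zero hR (by linarith)
    have z2 : ww R (gap (act x g) k) = 0 := ww_eq_zero hR (by linarith [hgap.2])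
    rw [z1, z2]
    simp [hε.le]

lemma uc_pm (i j : Fin n) : UC fun V : Submodule ℝ (EV n) => pm V i j := by
  intro ε hε
  have hc : Continuous fun h : SLR n =>
      max ‖Rc h - ContinuousLinearMap.id ℝ (EV n)‖ ‖Rc h⁻¹ - ContinuousLinearMap.id ℝ (EV n)‖ :=
    ((continuous_Rc.sub continuous_const).norm).max
      (((continuous_Rc.comp continuous_inv).sub continuous_const).norm)
  have h1 : {h : SLR n | max ‖Rc h - ContinuousLinearMap.id ℝ (EV n)‖
      ‖Rc h⁻¹ - ContinuousLinearMap.id ℝ (EV n)‖ < ε / 2} ∈ 𝓝 (1 : SLR n) :=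
    hc.continuousAt.preimage_mem_nhds (by
      rw [inv_one, Rc_one, sub_self, norm_zero, max_self]
      exact Iio_mem_nhds (half_pos hε))
  refine ⟨_, h1, fun h hh V => ?_⟩
  have hh1 : ‖Rc h - ContinuousLinearMap.id ℝ (EV n)‖ < ε / 2 := (le_max_left _ _).trans_lt hh
  have hh2 : ‖Rc h⁻¹ - ContinuousLinearMap.id ℝ (EV n)‖ < ε / 2 := (le_max_right _ _).trans_lt hh
  have key := abs_pm_sub_le V (V.map (Rl h)) (ε / 2) ?_ ?_ (by positivity) i j
  · linarith
  · intro v hv
    refine ⟨Rc h v, ⟨v, hv, rfl⟩, ?_⟩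
    have e : v - Rc h v = -((Rc h - ContinuousLinearMap.id ℝ (EV n)) v) := by simp
    rw [e, norm_neg]
    exact (ContinuousLinearMap.le_opNorm _ _).trans
      (mul_le_mul_of_nonneg_right hh1.le (norm_nonneg _))
  · rintro _ ⟨v, hv, rfl⟩
    refine ⟨v, hv, ?_⟩
    have e : Rl h v - v = -((Rc h⁻¹ - ContinuousLinearMap.id ℝ (EV n)) (Rl h v)) := by
      show Rc h v - v = -(Rc h⁻¹ (Rc h v) - Rc h v)
      rw [Rc_inv_apply]; abel
    rw [e, norm_neg]
    exact (ContinuousLinearMap.le_opNorm _ _).trans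
      (mul_le_mul_of_nonneg_right hh2.le (norm_nonneg _))

lemma uc_sq {φ : Submodule ℝ (EV n) → ℝ} (hb : ∀ V, |φ V| ≤ 1) (hc : UC φ) :
    UC fun V => φ V ^ 2 := by
  intro ε hε
  obtain ⟨O, hO, h⟩ := hc (ε / 2) (half_pos hε)
  refine ⟨O, hO, fun g hg V => ?_⟩
  have e : φ (V.map (Rl g)) ^ 2 - φ V ^ 2
      = (φ (V.map (Rl g)) - φ V) * (φ (V.map (Rl g)) + φ V) := by ring
  rw [e, abs_mul]
  have h1 := h g hg V
  have h2 : |φ (V.map (Rl g)) + φ V| ≤ 2 := by
    refine (abs_add_le _ _).trans ?_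
    have := hb V; have := hb (V.map (Rl g)); linarith
  have h3 := mul_le_mul h1 h2 (abs_nonneg _) (by positivity)
  linarith

lemma uc_const (c : ℝ) : UC fun _ : Submodule ℝ (EV n) => c := by
  intro ε hε
  exact ⟨Set.univ, univ_mem, fun _ _ _ => by simp [hε.le]⟩

/-! ### the torus element -/

/-- `diag(2^{n-1} at i, 1/2 elsewhere)`. -/
noncomputable def tor (i : Fin n) : SLR n :=
  ⟨Matrix.diagonal fun j => if j = i then (2 : ℝ) ^ (n - 1) else (1 / 2 : ℝ), by
    rw [Matrix.det_diagonal, Finset.prod_ite]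
    have h1 : (Finset.univ.filter fun j : Fin n => j = i) = {i} := by
      ext j; simp
    have h2 : (Finset.univ.filter fun j : Fin n => ¬ j = i).card = n - 1 := by
      have : (Finset.univ.filter fun j : Fin n => ¬ j = i) = Finset.univ.erase i := by
        ext j; simp
      rw [this, Finset.card_erase_of_mem (Finset.mem_univ i), Finset.card_univ, Fintype.card_fin]
    rw [h1, Finset.prod_singleton, Finset.prod_const, h2, ← mul_pow]
    norm_num⟩

lemma Rc_tor (i : Fin n) (v : EV n) (j : Fin n) :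
    Rc (tor i) v j = (if j = i then (2 : ℝ) ^ (n - 1) else (1 / 2 : ℝ)) * v j := by
  rw [Rc_apply]
  have h1 : ∀ l, v l * (tor i).1 l j
      = if l = j then (if j = i then (2 : ℝ) ^ (n - 1) else (1 / 2 : ℝ)) * v j else 0 := by
    intro l
    show v l * (Matrix.diagonal _) l j = _
    rw [Matrix.diagonal_apply]
    by_cases h : l = j
    · subst h; simp [mul_comm]
    · simp [h]
  rw [Finset.sum_congr rfl fun l _ => h1 l, Finset.sum_ite_eq']
  simp

/-- the contraction inequality for the diagonal entries. -/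
lemma pm_tor_ge (V : Submodule ℝ (EV n)) (i : Fin n) :
    pm V i i + 3 / 4 * (pm V i i * (1 - pm V i i)) ≤ pm (V.map (Rl (tor i))) i i := by
  have h := pm_torus V i (tor i) ((2 : ℝ) ^ (n - 1)) (1 / 2) (by positivity) (by norm_num)
    (Rc_tor i)
  rw [h]
  set y := pm V i i
  have hy0 : 0 ≤ y := pm_self_nonneg V i
  have hy1 : y ≤ 1 := pm_self_le_one V i
  set α : ℝ := (2 : ℝ) ^ (n - 1)
  have hα : 1 ≤ α := one_le_pow₀ (by norm_num)
  have hα2 : 1 ≤ α ^ 2 := one_le_pow₀ hα
  have hD : 0 < α ^ 2 * y + (1 / 2) ^ 2 * (1 - y) := by nlinarith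
  rw [le_div_iff₀ hD]
  have hz : 0 ≤ y * (1 - y) := mul_nonneg hy0 (by linarith)
  -- α²y - y·D - 3/4 y(1-y) D ≥ 0
  have e1 : α ^ 2 * y - y * (α ^ 2 * y + (1 / 2) ^ 2 * (1 - y))
      = y * (1 - y) * (α ^ 2 - 1 / 4) := by ring
  have e2 : α ^ 2 * y + (1 / 2) ^ 2 * (1 - y) ≤ α ^ 2 := by nlinarith
  nlinarith [mul_le_mul_of_nonneg_left e2 hz, mul_nonneg hz (by linarith : (0:ℝ) ≤ α ^ 2 - 1)]

/-! ### integral estimates -/

section Est

variable {μ : Measure (ModSpace n)} [IsProbabilityMeasure μ]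

omit [IsProbabilityMeasure μ] in
lemma integral_act_eq {g : SLR n} (hinv : Measure.map (fun x => act x g) μ = μ)
    {f : ModSpace n → ℝ} (hf : RUC f) : ∫ x, f (act x g) ∂μ = ∫ x, f x ∂μ := by
  conv_rhs => rw [← hinv]
  exact (integral_map (measurable_act g).aemeasurable
    (hf.continuous.aestronglyMeasurable)).symm

/-- torus step. -/
lemma torus_step (i : Fin n) (hinv : Measure.map (fun x => act x (tor i)) μ = μ) {R : ℝ}
    (hR : 0 < R) (hR2 : 2 * cc (tor i) ≤ R) {k : ℕ} (hk0 : 0 < k) (hk : k < n) :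
    ∫ x, tf (fun V => pm V i i * (1 - pm V i i)) R k x ∂μ ≤ 4 / 3 * (cc (tor i) / R) := by
  have hb1 : ∀ V : Submodule ℝ (EV n), |pm V i i| ≤ 1 := fun V => abs_pm_le_one V i i
  have r1 : RUC (tf (fun V => pm V i i) R k) := ruc_tf hb1 (uc_pm i i) hR hk0 hk
  have r2 : RUC (tf (fun V => pm V i i ^ 2) R k) :=
    ruc_tf (fun V => by rw [abs_pow]; exact pow_le_one₀ (abs_nonneg _) (hb1 V))
      (uc_sq hb1 (uc_pm i i)) hR hk0 hk
  have hpt : ∀ x, 3 / 4 * (tf (fun V => pm V i i) R k x - tf (fun V => pm V i i ^ 2) R k x)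
      - cc (tor i) / R ≤ tf (fun V => pm V i i) R k (act x (tor i))
        - tf (fun V => pm V i i) R k x := by
    intro x
    have hgap := abs_gap_act x (tor i) hk0 hk
    by_cases hw : ww R (gap x k) = 0
    · have e1 : 0 ≤ tf (fun V => pm V i i) R k (act x (tor i)) :=
        mul_nonneg (ww_nonneg _ _) (pm_self_nonneg _ _)
      have e2 : 0 ≤ cc (tor i) / R := div_nonneg (cc_nonneg _) hR.le
      unfold tf at *
      rw [hw]
      linarith
    · have hlt := lt_of_ww_ne_zero hR hw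
      have hV := Vk_act (x := x) (h := tor i) hk0 hk (by linarith)
      have h1 := pm_tor_ge (Vk x k) i
      have h2 := abs_ww_sub R (gap (act x (tor i)) k) (gap x k) hR
      have h3 : |gap (act x (tor i)) k - gap x k| / R ≤ cc (tor i) / R :=
        div_le_div_of_nonneg_right hgap hR.le
      have h4 : ww R (gap x k) - cc (tor i) / R ≤ ww R (gap (act x (tor i)) k) := by
        have := (abs_le.1 (h2.trans h3)).1
        linarith
      unfold tf
      rw [hV]
      set y' := pm ((Vk x k).map (Rl (tor i))) i i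
      set y := pm (Vk x k) i i
      have hy'0 : 0 ≤ y' := pm_self_nonneg _ _
      have hy'1 : y' ≤ 1 := pm_self_le_one _ _
      have hw0 := ww_nonneg R (gap x k)
      have hc0 : 0 ≤ cc (tor i) / R := div_nonneg (cc_nonneg _) hR.le
      have h5 : (ww R (gap x k) - cc (tor i) / R) * y'
          ≤ ww R (gap (act x (tor i)) k) * y' := mul_le_mul_of_nonneg_right h4 hy'0
      have h6 : ww R (gap x k) * (y + 3 / 4 * (y * (1 - y))) ≤ ww R (gap x k) * y' :=
        mul_le_mul_of_nonneg_left h1 hw0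
      have h7 : cc (tor i) / R * y' ≤ cc (tor i) / R := mul_le_of_le_one_right hc0 hy'1
      nlinarith
  have hint := integral_mono
    (((r1.integrable μ).sub (r2.integrable μ)).const_mul (3 / 4) |>.sub
      (integrable_const (cc (tor i) / R)))
    (((r1.comp_act (tor i)).integrable μ).sub (r1.integrable μ)) hpt
  have e1 : ∫ x, (tf (fun V => pm V i i) R k (act x (tor i))
      - tf (fun V => pm V i i) R k x) ∂μ = 0 := by
    rw [integral_sub ((r1.comp_act (tor i)).integrable μ) (r1.integrable μ),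
      integral_act_eq hinv r1, sub_self]
  have e2 : ∫ x, tf (fun V => pm V i i * (1 - pm V i i)) R k x ∂μ
      = ∫ x, (tf (fun V => pm V i i) R k x - tf (fun V => pm V i i ^ 2) R k x) ∂μ := by
    refine integral_congr_ae (Eventually.of_forall fun x => ?_)
    simp only [tf]
    ring
  have e3 : ∫ x, (3 / 4 * (tf (fun V => pm V i i) R k x - tf (fun V => pm V i i ^ 2) R k x)
      - cc (tor i) / R) ∂μ
      = 3 / 4 * ∫ x, (tf (fun V => pm V i i) R k x - tf (fun V => pm V i i ^ 2) R k x) ∂μ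
        - cc (tor i) / R := by
    have hi : Integrable (fun x => 3 / 4 * (tf (fun V => pm V i i) R k x
        - tf (fun V => pm V i i ^ 2) R k x)) μ :=
      ((r1.integrable μ).sub (r2.integrable μ)).const_mul (3 / 4)
    rw [integral_sub hi (integrable_const _), integral_const_mul, integral_const]
    simp
  rw [e2]
  have hint' : ∫ x, (3 / 4 * (tf (fun V => pm V i i) R k x - tf (fun V => pm V i i ^ 2) R k x)
      - cc (tor i) / R) ∂μ ≤ ∫ x, (tf (fun V => pm V i i) R k (act x (tor i))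
      - tf (fun V => pm V i i) R k x) ∂μ := hint
  rw [e1, e3] at hint'
  linarith

/-- rotation step. -/
lemma rot_step (i j : Fin n) (hij : i ≠ j) {R : ℝ} (hR : 0 < R) {k : ℕ} (hk0 : 0 < k)
    (hk : k < n) {δ : ℝ}
    (hδ : |∫ x, tf (fun V => pm V i j ^ 2) R k (act x (rot i j hij)) ∂μ
      - ∫ x, tf (fun V => pm V i j ^ 2) R k x ∂μ| ≤ δ) :
    ∫ x, tf (fun V => (pm V i i - pm V j j) ^ 2) R k x ∂μ
      ≤ 4 * ∫ x, tf (fun V => pm V i i * (1 - pm V i i)) R k x ∂μ + 4 * δ := by
  have hb1 : ∀ (a b : Fin n) (V : Submodule ℝ (EV n)), |pm V a b| ≤ 1 :=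
    fun a b V => abs_pm_le_one V a b
  have hb2 : ∀ (a b : Fin n) (V : Submodule ℝ (EV n)), |pm V a b ^ 2| ≤ 1 :=
    fun a b V => by rw [abs_pow]; exact pow_le_one₀ (abs_nonneg _) (hb1 a b V)
  have r0 : RUC (tf (fun V => pm V i i) R k) := ruc_tf (hb1 i i) (uc_pm i i) hR hk0 hk
  have r2 : RUC (tf (fun V => pm V i i ^ 2) R k) :=
    ruc_tf (hb2 i i) (uc_sq (hb1 i i) (uc_pm i i)) hR hk0 hk
  have r1 : RUC (tf (fun V => pm V i j ^ 2) R k) :=
    ruc_tf (hb2 i j) (uc_sq (hb1 i j) (uc_pm i j)) hR hk0 hk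
  have e1 : ∀ x, tf (fun V => pm V i j ^ 2) R k (act x (rot i j hij))
      = tf (fun V => (pm V i i - pm V j j) ^ 2) R k x / 4 := by
    intro x
    have hcc := cc_of_isometry (rot_isometry i j hij)
    have hgap := abs_gap_act x (rot i j hij) hk0 hk
    rw [hcc] at hgap
    have hge : gap (act x (rot i j hij)) k = gap x k := by
      have := abs_nonpos_iff.1 hgap
      linarith
    unfold tf
    rw [hge]
    by_cases hw : ww R (gap x k) = 0
    · rw [hw]; simp
    · have hlt := lt_of_ww_ne_zero hR hw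
      rw [Vk_act (x := x) (h := rot i j hij) hk0 hk (by rw [hcc]; linarith)]
      show ww R (gap x k) * (pm ((Vk x k).map (Rl (rot i j hij))) i j) ^ 2
        = ww R (gap x k) * (pm (Vk x k) i i - pm (Vk x k) j j) ^ 2 / 4
      rw [pm_rot]
      ring
  have e2 : ∫ x, tf (fun V => pm V i j ^ 2) R k (act x (rot i j hij)) ∂μ
      = (∫ x, tf (fun V => (pm V i i - pm V j j) ^ 2) R k x ∂μ) / 4 := by
    rw [integral_congr_ae (Eventually.of_forall e1), integral_div]
  have e3 : ∫ x, tf (fun V => pm V i j ^ 2) R k x ∂μ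
      ≤ ∫ x, tf (fun V => pm V i i * (1 - pm V i i)) R k x ∂μ := by
    refine integral_mono (r1.integrable μ) ?_ fun x => ?_
    · refine ((r0.integrable μ).sub (r2.integrable μ)).congr (Eventually.of_forall fun x => ?_)
      simp only [tf, Pi.sub_apply]; ring
    · exact mul_le_mul_of_nonneg_left (sq_pm_le _ hij) (ww_nonneg _ _)
  rw [e2] at hδ
  have := (abs_le.1 hδ).2
  linarith

/-- the total estimate for one gap. -/
lemma gap_est (hn : 0 < n) (hinv : ∀ i : Fin n, Measure.map (fun x => act x (tor i)) μ = μ)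
    {R C : ℝ}
    (hR : 0 < R) (hC : ∀ i : Fin n, cc (tor i) ≤ C) (hR2 : 2 * C ≤ R) {k : ℕ} (hk0 : 0 < k)
    (hk : k < n) {δ : ℝ}
    (hδ : ∀ i j hij, |∫ x, tf (fun V => pm V i j ^ 2) R k (act x (rot i j hij)) ∂μ
      - ∫ x, tf (fun V => pm V i j ^ 2) R k x ∂μ| ≤ δ) :
    ∫ x, ww R (gap x k) ∂μ ≤ (n : ℝ) ^ 2 * (4 * (C / R) + 2 * δ) := by
  have hb1 : ∀ (a b : Fin n) (V : Submodule ℝ (EV n)), |pm V a b| ≤ 1 :=
    fun a b V => abs_pm_le_one V a b
  have hb2 : ∀ (a b : Fin n) (V : Submodule ℝ (EV n)), |pm V a b ^ 2| ≤ 1 :=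
    fun a b V => by rw [abs_pow]; exact pow_le_one₀ (abs_nonneg _) (hb1 a b V)
  have hnn : (0 : ℝ) < n := by exact_mod_cast hn
  have rw1 : RUC (tf (fun _ => (1 : ℝ)) R k) :=
    ruc_tf (fun _ => by simp) (uc_const 1) hR hk0 hk
  have hδ0 : 0 ≤ δ := by
    by_cases h2 : ∃ i j : Fin n, i ≠ j
    · obtain ⟨i, j, hij⟩ := h2
      exact (abs_nonneg _).trans (hδ i j hij)
    · exfalso
      push Not at h2
      have : (⟨0, hn⟩ : Fin n) = ⟨k, hk⟩ := h2 _ _
      have := congrArg Fin.val this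
      simp at this
      omega
  have hA : ∀ i : Fin n, Integrable (tf (fun V => pm V i i * (1 - pm V i i)) R k) μ := by
    intro i
    have r0 : RUC (tf (fun V => pm V i i) R k) := ruc_tf (hb1 i i) (uc_pm i i) hR hk0 hk
    have r2 : RUC (tf (fun V => pm V i i ^ 2) R k) :=
      ruc_tf (hb2 i i) (uc_sq (hb1 i i) (uc_pm i i)) hR hk0 hk
    refine ((r0.integrable μ).sub (r2.integrable μ)).congr (Eventually.of_forall fun x => ?_)
    simp only [tf, Pi.sub_apply]; ring
  have hAle : ∀ i : Fin n, ∫ x, tf (fun V => pm V i i * (1 - pm V i i)) R k x ∂μ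
      ≤ 4 / 3 * (C / R) := by
    intro i
    refine (torus_step i (hinv i) hR (by linarith [hC i]) hk0 hk).trans ?_
    have := div_le_div_of_nonneg_right (hC i) hR.le
    linarith
  have hB : ∀ i j : Fin n, Integrable (tf (fun V => (pm V i i - pm V j j) ^ 2) R k) μ := by
    intro i j
    have r0 : RUC (tf (fun V => pm V i i) R k) := ruc_tf (hb1 i i) (uc_pm i i) hR hk0 hk
    have r0' : RUC (tf (fun V => pm V j j) R k) := ruc_tf (hb1 j j) (uc_pm j j) hR hk0 hk
    refine Integrable.of_bound (C := 4) ?_ (Eventually.of_forall fun x => ?_)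
    · -- measurability from continuity of the constituents
      have hw : Continuous (tf (fun _ => (1 : ℝ)) R k : ModSpace n → ℝ) := rw1.continuous
      have r2 : RUC (tf (fun V => pm V i i ^ 2) R k) :=
        ruc_tf (hb2 i i) (uc_sq (hb1 i i) (uc_pm i i)) hR hk0 hk
      have r3 : RUC (tf (fun V => pm V j j ^ 2) R k) :=
        ruc_tf (hb2 j j) (uc_sq (hb1 j j) (uc_pm j j)) hR hk0 hk
      have huc : UC fun V : Submodule ℝ (EV n) => (pm V i i + pm V j j) / 2 := by
        intro ε hε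
        obtain ⟨O, hO, h⟩ := uc_pm i i ε hε
        obtain ⟨O', hO', h'⟩ := uc_pm j j ε hε
        refine ⟨O ∩ O', inter_mem hO hO', fun g hg V => ?_⟩
        have a1 := abs_le.1 (h g hg.1 V)
        have a2 := abs_le.1 (h' g hg.2 V)
        rw [abs_le]
        constructor <;> linarith [a1.1, a1.2, a2.1, a2.2]
      have hbd : ∀ V : Submodule ℝ (EV n), |(pm V i i + pm V j j) / 2| ≤ 1 := by
        intro V
        have a1 := abs_le.1 (hb1 i i V)
        have a2 := abs_le.1 (hb1 j j V)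
        rw [abs_le]
        constructor <;> linarith [a1.1, a1.2, a2.1, a2.2]
      have r4 : RUC (tf (fun V => ((pm V i i + pm V j j) / 2) ^ 2) R k) :=
        ruc_tf (fun V => by rw [abs_pow]; exact pow_le_one₀ (abs_nonneg _) (hbd V))
          (uc_sq hbd huc) hR hk0 hk
      have e : tf (fun V => (pm V i i - pm V j j) ^ 2) R k
          = fun x => 2 * tf (fun V => pm V i i ^ 2) R k x + 2 * tf (fun V => pm V j j ^ 2) R k x
            - 4 * tf (fun V => ((pm V i i + pm V j j) / 2) ^ 2) R k x := by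
        funext x
        simp only [tf]; ring
      rw [e]
      exact (((continuous_const.mul r2.continuous).add
        (continuous_const.mul r3.continuous)).sub
        (continuous_const.mul r4.continuous)).aestronglyMeasurable
    · rw [Real.norm_eq_abs]
      unfold tf
      rw [abs_mul, abs_of_nonneg (ww_nonneg _ _), abs_pow]
      have a0 := ww_nonneg R (gap x k)
      have a1 := ww_le_one R (gap x k)
      have a2 : |pm (Vk x k) i i - pm (Vk x k) j j| ≤ 2 := by
        refine (abs_sub _ _).trans ?_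
        have := hb1 i i (Vk x k); have := hb1 j j (Vk x k); linarith
      have a3 : |pm (Vk x k) i i - pm (Vk x k) j j| ^ 2 ≤ 4 := by
        nlinarith [abs_nonneg (pm (Vk x k) i i - pm (Vk x k) j j)]
      nlinarith [sq_nonneg |pm (Vk x k) i i - pm (Vk x k) j j|]
  have hBle : ∀ i j : Fin n, ∫ x, tf (fun V => (pm V i i - pm V j j) ^ 2) R k x ∂μ
      ≤ 16 / 3 * (C / R) + 4 * δ := by
    intro i j
    have hCR : 0 ≤ C / R := div_nonneg ((cc_nonneg _).trans (hC i)) hR.le
    by_cases hij : i = j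
    · subst hij
      have : ∀ x, tf (fun V => (pm V i i - pm V i i) ^ 2) R k x = 0 := fun x => by
        simp [tf]
      simp only [this, integral_zero]
      positivity
    · have h1 := rot_step i j hij hR hk0 hk (hδ i j hij)
      have h2 := hAle i
      linarith
  -- the identity, integrated
  have hid : ∀ x : ModSpace n, ((k : ℝ) * (n - k)) * tf (fun _ => (1 : ℝ)) R k x
      = (n : ℝ) * ∑ i : Fin n, tf (fun V => pm V i i * (1 - pm V i i)) R k x
        + (1 / 2) * ∑ i : Fin n, ∑ j : Fin n,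
          tf (fun V => (pm V i i - pm V j j) ^ 2) R k x := by
    intro x
    unfold tf
    by_cases hw : ww R (gap x k) = 0
    · simp [hw]
    · have hlt := lt_of_ww_ne_zero hR hw
      have h1 := identity (Vk x k)
      rw [finrank_Vk hk0 hk (by linarith)] at h1
      rw [← h1]
      simp only [← Finset.mul_sum]
      ring
  have hkn : (1 : ℝ) ≤ (k : ℝ) * (n - k) := by
    have h1 : (1 : ℝ) ≤ k := by exact_mod_cast hk0
    have h2 : (1 : ℝ) ≤ (n : ℝ) - k := by
      have : (k : ℝ) + 1 ≤ n := by exact_mod_cast hk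
      linarith
    nlinarith
  have hwint : 0 ≤ ∫ x, tf (fun _ => (1 : ℝ)) R k x ∂μ :=
    integral_nonneg fun x => by
      show 0 ≤ ww R (gap x k) * 1
      rw [mul_one]; exact ww_nonneg _ _
  have hI : ((k : ℝ) * (n - k)) * ∫ x, tf (fun _ => (1 : ℝ)) R k x ∂μ
      = (n : ℝ) * ∑ i, ∫ x, tf (fun V => pm V i i * (1 - pm V i i)) R k x ∂μ
        + (1 / 2) * ∑ i, ∑ j, ∫ x, tf (fun V => (pm V i i - pm V j j) ^ 2) R k x ∂μ := by
    rw [← integral_const_mul, integral_congr_ae (Eventually.of_forall hid),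
      integral_add, integral_const_mul, integral_const_mul, integral_finsetSum,
      integral_finsetSum]
    · congr 2
      refine Finset.sum_congr rfl fun i _ => ?_
      rw [integral_finsetSum _ fun j _ => hB i j]
    · exact fun i _ => integrable_finsetSum _ fun j _ => hB i j
    · exact fun i _ => hA i
    · exact (integrable_finsetSum _ fun i _ => hA i).const_mul _
    · exact (integrable_finsetSum _ fun i _ =>
        integrable_finsetSum _ fun j _ => hB i j).const_mul _
  have hS1 : ∑ i : Fin n, ∫ x, tf (fun V => pm V i i * (1 - pm V i i)) R k x ∂μ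
      ≤ n * (4 / 3 * (C / R)) := by
    calc _ ≤ ∑ _i : Fin n, (4 / 3 * (C / R)) := Finset.sum_le_sum fun i _ => hAle i
      _ = n * (4 / 3 * (C / R)) := by simp
  have hS2 : ∑ i : Fin n, ∑ j : Fin n, ∫ x, tf (fun V => (pm V i i - pm V j j) ^ 2) R k x ∂μ
      ≤ n * (n * (16 / 3 * (C / R) + 4 * δ)) := by
    calc _ ≤ ∑ _i : Fin n, ∑ _j : Fin n, (16 / 3 * (C / R) + 4 * δ) :=
          Finset.sum_le_sum fun i _ => Finset.sum_le_sum fun j _ => hBle i j
      _ = n * (n * (16 / 3 * (C / R) + 4 * δ)) := by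
        simp only [Finset.sum_const, Finset.card_univ, Fintype.card_fin, nsmul_eq_mul]
  have hww : ∫ x, ww R (gap x k) ∂μ = ∫ x, tf (fun _ => (1 : ℝ)) R k x ∂μ :=
    integral_congr_ae (Eventually.of_forall fun x => by simp [tf])
  rw [hww]
  have h1 : ∫ x, tf (fun _ => (1 : ℝ)) R k x ∂μ
      ≤ ((k : ℝ) * (n - k)) * ∫ x, tf (fun _ => (1 : ℝ)) R k x ∂μ :=
    le_mul_of_one_le_left hwint hkn
  refine h1.trans ?_
  rw [hI]
  have h2 := mul_le_mul_of_nonneg_left hS1 hnn.le
  nlinarith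

end Est

/-! ### the theorem -/

/-- the cusp neighbourhood. -/
def cusp (n : ℕ) (r : ℝ) : Set (ModSpace n) := {x | ∃ v ∈ Lat x, v ≠ 0 ∧ ‖v‖ < r}

/-- **No escape of mass**. -/
theorem esc_rot (hn : 0 < n) (μ : ℕ → Measure (ModSpace n)) (hprob : ∀ k, IsProbabilityMeasure (μ k))
    (hA : ∀ k, ∀ i : Fin n, Measure.map (fun x => act x (tor i)) (μ k) = μ k)
    (hrot : ∀ (i j : Fin n) (hij : i ≠ j), NearInvAt μ (rot i j hij)) (ε : ℝ) (hε : 0 < ε) :
    ∃ r : ℝ, 0 < r ∧ ∀ᶠ k in atTop, (μ k) (cusp n r) ≤ ENNReal.ofReal ε := by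
  classical
  have hnn : (0 : ℝ) < n := by exact_mod_cast hn
  obtain ⟨C, hC0, hC⟩ : ∃ C : ℝ, 0 ≤ C ∧ ∀ i : Fin n, cc (tor i) ≤ C := by
    refine ⟨∑ i : Fin n, cc (tor i), Finset.sum_nonneg fun i _ => cc_nonneg _, fun i => ?_⟩
    exact Finset.single_le_sum (f := fun i : Fin n => cc (tor i)) (fun i _ => cc_nonneg _)
      (Finset.mem_univ i)
  -- the parameters
  set δ : ℝ := ε / (8 * n ^ 3) with hδ
  have hδ0 : 0 < δ := by positivity
  set R : ℝ := 2 * C + 16 * n ^ 3 * (C + 1) / ε + 1 with hRdef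
  have hR : 0 < R := by positivity
  have hR2 : 2 * C ≤ R := by
    have : 0 ≤ 16 * n ^ 3 * (C + 1) / ε := by positivity
    linarith
  have hCR : C / R ≤ ε / (16 * n ^ 3) := by
    rw [div_le_div_iff₀ hR (by positivity)]
    have h1 : 16 * (n : ℝ) ^ 3 * (C + 1) ≤ ε * R := by
      have : ε * (16 * n ^ 3 * (C + 1) / ε) = 16 * n ^ 3 * (C + 1) := by field_simp
      have h2 : 0 ≤ ε * (2 * C) := by positivity
      nlinarith
    nlinarith [pow_pos hnn 3]
  refine ⟨Real.exp (-(n * (2 * R))), Real.exp_pos _, ?_⟩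
  -- eventually all the rotations are `δ`-good
  have hev : ∀ᶠ m in atTop, ∀ k : Fin n, ∀ i j : Fin n, ∀ hij : i ≠ j, 0 < (k : ℕ) →
      |∫ x, tf (fun V => pm V i j ^ 2) R k (act x (rot i j hij)) ∂(μ m)
        - ∫ x, tf (fun V => pm V i j ^ 2) R k x ∂(μ m)| ≤ δ := by
    rw [eventually_all]; intro k
    rw [eventually_all]; intro i
    rw [eventually_all]; intro j
    rw [eventually_all]; intro hij
    by_cases hk0 : 0 < (k : ℕ)
    · have hr : RUC (tf (fun V => pm V i j ^ 2) R k) :=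
        ruc_tf (fun V => by rw [abs_pow]; exact pow_le_one₀ (abs_nonneg _) (abs_pm_le_one V i j))
          (uc_sq (fun V => abs_pm_le_one V i j) (uc_pm i j)) hR hk0 k.2
      have := hrot i j hij _ hr
      rw [Metric.tendsto_atTop] at this
      obtain ⟨N, hN⟩ := this δ hδ0
      filter_upwards [eventually_ge_atTop N] with m hm _
      have := hN m hm
      rw [Real.dist_eq, sub_zero] at this
      exact this.le
    · exact Eventually.of_forall fun m h => absurd h hk0
  filter_upwards [hev] with m hm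
  have := hprob m
  -- pointwise bound of the indicator of the cusp
  have hcover : cusp n (Real.exp (-(n * (2 * R))))
      ⊆ ⋃ k ∈ Finset.univ.filter (fun k : Fin n => 0 < (k : ℕ)),
        {x : ModSpace n | 1 ≤ ww R (gap x k)} := by
    rintro x ⟨v, hv, h0, hlt⟩
    obtain ⟨k, hk0, hk, hg⟩ := exists_gap hn (by positivity) hv h0 hlt
    simp only [Set.mem_iUnion]
    exact ⟨⟨k, hk⟩, by simp [hk0], (ww_eq_one hR hg.le).ge⟩
  have hone : ∀ k : Fin n, 0 < (k : ℕ) →
      (μ m) {x | 1 ≤ ww R (gap x k)} ≤ ENNReal.ofReal (ε / n) := by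
    intro k hk0
    have hint : Integrable (fun x : ModSpace n => ww R (gap x k)) (μ m) := by
      have r : RUC (tf (fun _ => (1 : ℝ)) R (k : ℕ) : ModSpace n → ℝ) :=
        ruc_tf (fun _ => by simp) (uc_const 1) hR hk0 k.2
      exact (r.integrable (μ m)).congr (Eventually.of_forall fun x => by simp [tf])
    have h1 := mul_meas_ge_le_integral_of_nonneg
      (Eventually.of_forall fun x => ww_nonneg R (gap x (k : ℕ))) hint 1
    have h2 := gap_est (μ := μ m) hn (hA m) hR hC hR2 hk0 k.2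
      (fun i j hij => hm k i j hij hk0)
    rw [one_mul] at h1
    have h3 : (μ m).real {x | 1 ≤ ww R (gap x k)} ≤ ε / n := by
      refine h1.trans (h2.trans ?_)
      have e1 : (n : ℝ) ^ 2 * (4 * (C / R) + 2 * δ)
          ≤ (n : ℝ) ^ 2 * (4 * (ε / (16 * n ^ 3)) + 2 * δ) :=
        mul_le_mul_of_nonneg_left (by linarith) (by positivity)
      refine e1.trans (le_of_eq_of_le (?_ : _ = ε / (2 * n)) ?_)
      · rw [hδ]; field_simp; norm_num
      · exact div_le_div_of_nonneg_left hε.le hnn (by linarith)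
    rw [Measure.real] at h3
    exact (ENNReal.le_ofReal_iff_toReal_le (measure_ne_top _ _) (by positivity)).2 h3
  calc (μ m) (cusp n (Real.exp (-(n * (2 * R)))))
      ≤ (μ m) (⋃ k ∈ Finset.univ.filter (fun k : Fin n => 0 < (k : ℕ)),
        {x | 1 ≤ ww R (gap x k)}) := measure_mono hcover
    _ ≤ ∑ k ∈ Finset.univ.filter (fun k : Fin n => 0 < (k : ℕ)),
        (μ m) {x | 1 ≤ ww R (gap x k)} := measure_biUnion_finset_le _ _
    _ ≤ ∑ _k ∈ Finset.univ.filter (fun k : Fin n => 0 < (k : ℕ)),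
        ENNReal.ofReal (ε / n) := Finset.sum_le_sum fun k hk =>
          hone k (Finset.mem_filter.1 hk).2
    _ ≤ ∑ _k : Fin n, ENNReal.ofReal (ε / n) :=
        Finset.sum_le_sum_of_subset (Finset.filter_subset _ _)
    _ = ENNReal.ofReal ε := by
        rw [Finset.sum_const, Finset.card_univ, Fintype.card_fin, nsmul_eq_mul,
          ← ENNReal.ofReal_natCast, ← ENNReal.ofReal_mul hnn.le]
        congr 1
        field_simp

/-- **No escape of mass**, from asymptotic invariance under all elementary matrices. -/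
theorem esc (hn : 0 < n) (μ : ℕ → Measure (ModSpace n)) (hprob : ∀ k, IsProbabilityMeasure (μ k))
    (hA : ∀ k, ∀ i : Fin n, Measure.map (fun x => act x (tor i)) (μ k) = μ k)
    (hμ : NearInv μ) (ε : ℝ) (hε : 0 < ε) :
    ∃ r : ℝ, 0 < r ∧ ∀ᶠ k in atTop, (μ k) (cusp n r) ≤ ENNReal.ofReal ε :=
  esc_rot hn μ hprob hA (fun i j hij => hμ.rot i j hij) ε hε

/-- the torus elements are in the image of `diagFlow`. -/
lemma tor_eq_diagFlow {d : ℕ} (i : Fin (d + 1)) : ∃ u : Fin d → ℝ, tor i = diagFlow u := by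
  set t : Fin (d + 1) → ℝ := fun j => if j = i then (2 : ℝ) ^ d else (1 / 2 : ℝ) with ht
  have htpos : ∀ j, 0 < t j := fun j => by rw [ht]; positivity
  refine ⟨fun j => Real.log (t j.castSucc), ?_⟩
  have hdet : ∏ j, t j = 1 := by
    have := (tor i).2
    unfold tor at this
    rw [Matrix.det_diagonal] at this
    exact this
  apply Subtype.ext
  show Matrix.diagonal t = Matrix.diagonal _
  congr 1
  funext j
  refine Fin.lastCases ?_ (fun k => ?_) j
  · rw [Fin.snoc_last, ← Finset.sum_neg_distrib]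
    rw [Fin.prod_univ_castSucc] at hdet
    have h1 : Real.log (t (Fin.last d)) = ∑ k : Fin d, -Real.log (t k.castSucc) := by
      have h2 := congrArg Real.log hdet
      rw [Real.log_mul (Finset.prod_ne_zero_iff.2 fun k _ => (htpos _).ne') (htpos _).ne',
        Real.log_prod (fun k _ => (htpos _).ne'), Real.log_one] at h2
      rw [Finset.sum_neg_distrib]
      linarith
    rw [← h1, Real.exp_log (htpos _)]
  · rw [Fin.snoc_castSucc, Real.exp_log (htpos _)]

/-- **No escape of mass**, for sequences invariant under the full diagonal flow. -/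
theorem esc_diagFlow {d : ℕ} (μ : ℕ → Measure (ModSpace (d + 1)))
    (hprob : ∀ k, IsProbabilityMeasure (μ k))
    (hA : ∀ k, ∀ u : Fin d → ℝ, Measure.map (fun x => act x (diagFlow u)) (μ k) = μ k)
    (hμ : NearInv μ) (ε : ℝ) (hε : 0 < ε) :
    ∃ r : ℝ, 0 < r ∧ ∀ᶠ k in atTop, (μ k) (cusp (d + 1) r) ≤ ENNReal.ofReal ε := by
  refine esc (Nat.succ_pos d) μ hprob (fun k i => ?_) hμ ε hε
  obtain ⟨u, hu⟩ := tor_eq_diagFlow i
  rw [hu]
  exact hA k u

end Crest.Agent.R014.Esc_296
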