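import Crest.Agent.R014.DEnd5_71
import Crest.Agent.R014.DEnd3c_667_Mg
import Crest.Agent.R014.Nd3_837
import Crest.Agent.R014.Sw4_640
import Crest.Agent.R014.NScH_395
import Crest.Agent.R014.DEnd4_935
import Crest.Agent.R014.AsmB2_460

-- ▼ part R014/DEnd6a_71
section

/-!
# Row 14, block D, END, part 6a (helper71): near invariance from swap data

The law of `(z, r)` of `DEnd4_935` as the image of a product, the smallness of the noise in front of
the last unipotent, and `core`: the invariance defect of `f` under `u_jl(v)` in terms of the entropy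
gaps and of the mass of the concentrated observations.
-/

set_option autoImplicit false

open MeasureTheory Filter Topology
open Crest.NumberTheoryR.Packets
open Crest.Agent.R014.Ms_667
open Crest.Agent.R014.Nd_837
open Crest.Agent.R014.Ne1_567
open Crest.Agent.R014.DEnd3_935
open Crest.Agent.R014.DEnd4_935
open Crest.Agent.R014.Nz_323 (bx Adm dg)
open scoped ENNReal

namespace Crest.Agent.R014.DEnd6_71

open DEnd5_71

variable {n : ℕ}

/-! ### the law of `(z, r)` -/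

theorem tt_MM {ι κ : Type*} [Fintype κ] [Fintype ι] (ρ : κ → Measure (ModSpace n))
    [∀ c, IsFiniteMeasure (ρ c)] (V : ι → Measure (SLR n × ℝ)) [∀ i, IsFiniteMeasure (V i)] :
    tt (MM ρ V) = ((tot ρ).prod (tot V)).map KP := by
  unfold tt MM
  rw [prod_tot, Measure.map_finset_sum measurable_KP.aemeasurable]

/-- the uniform law on the window of the root `hij` at depth `r`. -/
noncomputable def wd {i j : Fin n} (hij : i ≠ j) (r : ℝ) : Measure (SLR n) :=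
  uni.map fun θ => uu hij ((2 : ℝ) ^ (-r) * θ)

theorem measurable_wd {i j : Fin n} (hij : i ≠ j) (r : ℝ) :
    Measurable fun θ : ℝ => (uu hij ((2 : ℝ) ^ (-r) * θ) : SLR n) :=
  ((continuous_uu hij).comp (by fun_prop)).measurable

instance {i j : Fin n} (hij : i ≠ j) (r : ℝ) : IsProbabilityMeasure (wd hij r) :=
  Measure.isProbabilityMeasure_map (measurable_wd hij r).aemeasurable

theorem wd_ae {i j : Fin n} (hij : i ≠ j) (r : ℝ) : ∀ᵐ g ∂(wd hij r), g ∈ (rtG hij r : Set (SLR n)) := by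
  refine (ae_map_iff (p := fun g => g ∈ (rtG hij r : Set (SLR n)))
    (measurable_wd hij r).aemeasurable (measurableSet_rtG hij r)).2 ?_
  filter_upwards [uni_ae] with θ hθ
  apply uu_mem_rtG
  rw [abs_mul, abs_of_pos (Real.rpow_pos_of_pos two_pos _)]
  exact mul_le_of_le_one_right (Real.rpow_pos_of_pos two_pos _).le hθ

/-- the base space of the observation. -/
abbrev Om (n : ℕ) : Type := (ModSpace n × SLR n) × (SLR n × (SLR n × ℝ))

/-- the law on the base space. -/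
noncomputable def PO (μ : Measure (ModSpace n)) (κ0 D : Measure (SLR n))
    (V : Measure (SLR n × ℝ)) : Measure (Om n) := (μ.prod κ0).prod (D.prod V)

instance (μ : Measure (ModSpace n)) (κ0 D : Measure (SLR n)) (V : Measure (SLR n × ℝ))
    [IsProbabilityMeasure μ] [IsProbabilityMeasure κ0] [IsProbabilityMeasure D]
    [IsProbabilityMeasure V] : IsProbabilityMeasure (PO μ κ0 D V) := by unfold PO; infer_instance

theorem law_eq (μ : Measure (ModSpace n)) (κ0 D : Measure (SLR n)) (V : Measure (SLR n × ℝ))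
    [IsProbabilityMeasure μ] [IsProbabilityMeasure κ0] [IsProbabilityMeasure D]
    [IsProbabilityMeasure V] :
    ((stp (stp μ κ0) D).prod V).map KP
      = (PO μ κ0 D V).map fun ω => (act ω.1.1 (ω.1.2 * ω.2.1 * ω.2.2.1), ω.2.2.2) := by
  have h1 : (stp (stp μ κ0) D) = ((μ.prod κ0).prod D).map
      fun q : (ModSpace n × SLR n) × SLR n => act (act q.1.1 q.1.2) q.2 := by
    have h2 : (stp μ κ0).prod D = ((μ.prod κ0).prod D).map
        (Prod.map (fun p : ModSpace n × SLR n => act p.1 p.2) id) := by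
      conv_lhs => rw [← Measure.map_id (μ := D)]
      exact Measure.map_prod_map _ _ measurable_act₂ measurable_id
    show ((stp μ κ0).prod D).map (fun p : ModSpace n × SLR n => act p.1 p.2) = _
    rw [h2, Measure.map_map measurable_act₂ (measurable_act₂.prodMap measurable_id)]
    rfl
  have m1 : Measurable fun q : (ModSpace n × SLR n) × SLR n => act (act q.1.1 q.1.2) q.2 :=
    measurable_act₂.comp ((measurable_act₂.comp measurable_fst).prodMk measurable_snd)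
  have h3 : (stp (stp μ κ0) D).prod V = (((μ.prod κ0).prod D).prod V).map
      (Prod.map (fun q : (ModSpace n × SLR n) × SLR n => act (act q.1.1 q.1.2) q.2) id) := by
    rw [h1]
    conv_lhs => rw [← Measure.map_id (μ := V)]
    exact Measure.map_prod_map _ _ m1 measurable_id
  have m2 : Measurable fun ω : Om n =>
      ((act ω.1.1 (ω.1.2 * ω.2.1 * ω.2.2.1), ω.2.2.2) : ModSpace n × ℝ) := by
    refine Measurable.prodMk ?_ (measurable_snd.comp (measurable_snd.comp measurable_snd))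
    refine measurable_act₂.comp ((measurable_fst.comp measurable_fst).prodMk ?_)
    exact ((measurable_snd.comp measurable_fst).mul (measurable_fst.comp measurable_snd)).mul
      (measurable_fst.comp (measurable_snd.comp measurable_snd))
  rw [h3, Measure.map_map measurable_KP (m1.prodMap measurable_id)]
  unfold PO
  rw [← Measure.prodAssoc_prod, Measure.map_map m2 MeasurableEquiv.prodAssoc.measurable]
  congr 1
  funext q
  show KP _ = _
  unfold KP
  simp only [Prod.map_fst, Prod.map_snd, id_eq, Function.comp_apply, act_act]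
  rfl

/-! ### the law of the two last unipotents -/

section Last

variable {j k p' q' : Fin n}

theorem VV_ae (hjk : j ≠ k) (hjl : p' ≠ q') (a c : ℝ) (b : ℕ) (i : Fin b) :
    ∀ᵐ p ∂(VV hjk hjl a c b i), p.1 * (uu hjl p.2)⁻¹ ∈ (rtG hjk a : Set (SLR n)) := by
  have hm : MeasurableSet {p : SLR n × ℝ | p.1 * (uu hjl p.2)⁻¹ ∈ (rtG hjk a : Set (SLR n))} := by
    have h1 : Measurable fun p : SLR n × ℝ => p.1 * (uu hjl p.2)⁻¹ :=
      measurable_fst.mul (((continuous_uu hjl).measurable.comp measurable_snd).inv)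
    exact h1 (measurableSet_rtG hjk a)
  unfold VV
  refine Measure.ae_smul_measure ?_ _
  refine (ae_map_iff (measurable_VV hjk hjl a c b i).aemeasurable hm).2 ?_
  have h1 : ∀ᵐ p ∂(uni.prod uni), |p.1| ≤ 1 :=
    Measure.quasiMeasurePreserving_fst.ae uni_ae
  filter_upwards [h1] with p hp
  have h2 : (uu hjk (sv a b i p.1) * uu hjl ((2 : ℝ) ^ (-c) * p.2) : SLR n)
      * (uu hjl ((2 : ℝ) ^ (-c) * p.2))⁻¹ = uu hjk (sv a b i p.1) := by
    rw [mul_assoc, mul_inv_cancel, mul_one]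
  rw [h2]
  exact uu_mem_rtG hjk (abs_sv_le a i hp)

theorem tot_VV_ae (hjk : j ≠ k) (hjl : p' ≠ q') (a c : ℝ) (b : ℕ) :
    ∀ᵐ p ∂(tot (VV hjk hjl a c b)), p.1 * (uu hjl p.2)⁻¹ ∈ (rtG hjk a : Set (SLR n)) := by
  unfold tot
  rw [ae_finsetSum_measure_iff]
  intro i _
  exact VV_ae hjk hjl a c b i

end Last

/-! ### the core estimate -/

section Core

variable {j k l : Fin n}

theorem abs_rp_le (b : ℕ) (i : Fin b) : |rp 0 b i| ≤ 1 := by
  have h := abs_sv_le (0 : ℝ) i (θ := 0) (by simp)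
  rw [sv_zero, neg_zero, Real.rpow_zero] at h
  exact h

theorem abs_th_le (bs bt : ℕ) (q : Fin bs × Fin bs × Fin bt × Fin bt) :
    |th (rp 0 bs) (rp 0 bt) q| ≤ 4 := by
  unfold th
  rw [abs_mul]
  have h1 : |rp 0 bs q.1 - rp 0 bs q.2.1| ≤ 2 := by
    refine (abs_sub _ _).trans ?_
    have a1 := abs_rp_le bs q.1
    have a2 := abs_rp_le bs q.2.1
    linarith
  have h2 : |rp 0 bt q.2.2.1 - rp 0 bt q.2.2.2| ≤ 2 := by
    refine (abs_sub _ _).trans ?_
    have a1 := abs_rp_le bt q.2.2.1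
    have a2 := abs_rp_le bt q.2.2.2
    linarith
  calc _ ≤ (2 : ℝ) * 2 := mul_le_mul h1 h2 (abs_nonneg _) (by norm_num)
    _ = 4 := by norm_num

/-- the conclusion of `Sw.fin` for shifts of both signs. -/
theorem fin_abs {Z ι κ : Type*} [MeasurableSpace Z] [Fintype ι] [Fintype κ]
    {M1 : ι → Measure (Z × ℝ)} {M2 : κ → Measure (Z × ℝ)} [∀ i, IsFiniteMeasure (M1 i)]
    [∀ k, IsFiniteMeasure (M2 k)] {S : ι → ℝ} {T : κ → ℝ}
    {p : ι → Z → ℝ} {q : κ → Z → ℝ} {k0 ω e : ℝ} (D : Sw M1 M2 S T p q k0 ω e)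
    {F : Z → ℝ → ℝ} (hF : Tm k0 ω F) {a c0 ω2 u B n0 e2 : ℝ}
    (ha : 0 < a) (hc0 : ∀ j, |th S T j| ≤ c0) (hn0 : 0 < n0)
    (hF2 : ∀ z x y, |x - y| ≤ c0 → |F z x - F z y| ≤ ω2) (hω2 : 0 ≤ ω2) (he : 0 ≤ e)
    (hu : |u| ≤ B) (htot : (tt M1).real Set.univ ≤ 1)
    (hNC : (tt M1).real {x | nn S T p q a x.1 < n0} ≤ e2) :
    |(∫ x, F x.1 (x.2 + u) ∂(tt M1)) - ∫ x, F x.1 x.2 ∂(tt M1)|
      ≤ 2 * e2 + B / a * (6 * e) / n0 + ω2 := by
  rcases le_total 0 u with h | h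
  · rw [abs_sub_comm]
    exact D.fin hF ha hc0 hn0 hF2 hω2 he h ((le_abs_self _).trans hu) htot hNC
  · have h1 := D.fin (hF.shift u) ha hc0 hn0 (ω2 := ω2)
      (fun z x y hxy => hF2 z _ _ (by rwa [add_sub_add_right_eq_sub])) hω2 he
      (neg_nonneg.2 h) ((neg_le_abs _).trans hu) htot hNC
    simpa [add_assoc] using h1

theorem core (hjk : j ≠ k) (hkl : k ≠ l) (hjl : j ≠ l) {f : ModSpace n → ℝ}
    (hf : Iface_792.RUC f) (v : ℝ) {e : ℝ} (he : 0 < e) :
    ∃ Bf Lc w2 : ℝ, 0 < Bf ∧ 0 < Lc ∧ (∀ x, |f x| ≤ Bf) ∧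
      ∀ (R : Fin n → Fin n → ℝ), Adm R → (∀ p q, w2 ≤ R p q) →
      ∀ μ : Measure (ModSpace n), IsProbabilityMeasure μ → AInv μ →
      ∀ (γ : ℝ) (bs bt : ℕ), 0 < bs → 0 < bt → ∀ η1 η2 a n0 e2 : ℝ, 0 < a → 0 < n0 →
        Hc (nz (lab μ (zt R) hkl 0 bt) (tot (VV hjk hjl 0 γ bs)) KK)
          - Hc (lab μ (zt R) hkl 0 bt) ≤ η1 →
        Hc (nz (lab μ (zt R) hjk 0 bs) (tot (VV hkl hjl 0 γ bt)) KK)
          - Hc (lab μ (zt R) hjk 0 bs) ≤ η2 →
        (tt (MM (lab μ (zt R) hkl 0 bt) (VV hjk hjl 0 γ bs))).real {x | nn (rp 0 bs) (rp 0 bt)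
          (PP (lab μ (zt R) hjk 0 bs) (VV hkl hjl 0 γ bt))
          (PP (lab μ (zt R) hkl 0 bt) (VV hjk hjl 0 γ bs)) a x.1 < n0} ≤ e2 →
        |∫ x, f (act x (uu hjl v)) ∂μ - ∫ x, f x ∂μ|
          ≤ 2 * e + Bf * (2 * e2 + Lc / a * (√(4 * η1) + √(4 * η2) + ((2 : ℝ) ^ γ
            + Lc * (1 / bs + 1 / bt))) / n0) := by
  obtain ⟨B0, hB0⟩ := hf.1
  set B : ℝ := max B0 1 with hB
  have hBpos : 0 < B := lt_of_lt_of_le one_pos (le_max_right _ _)
  have hfB : ∀ x, |f x| ≤ B := fun x => (hB0 x).trans (le_max_left _ _)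
  have hfc := ruc_continuous hf
  obtain ⟨U, δ, hU, hδ, hδ1, htr⟩ := transport hf hjl v he
  obtain ⟨w0, hw0, hsm⟩ := small_of hjk hkl hjl hU
  -- the scale of the transport
  obtain ⟨N, hN⟩ := exists_pow_lt_of_lt_one (show 0 < e * δ / (8 * B) by positivity)
    (by norm_num : (1 / 2 : ℝ) < 1)
  set w1 : ℝ := max w0 N with hw1
  have hw1N : (N : ℝ) ≤ 2 * w1 := by
    have h1 : (N : ℝ) ≤ w1 := le_max_right _ _
    have h2 : 0 ≤ w1 := hw0.trans (le_max_left _ _)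
    linarith
  have h2w : (2 : ℝ) ^ (-(2 * w1)) ≤ e * δ / (8 * B) := by
    have h1 : (2 : ℝ) ^ (-(2 * w1)) ≤ (2 : ℝ) ^ (-(N : ℝ)) :=
      Real.rpow_le_rpow_of_exponent_le one_le_two (neg_le_neg hw1N)
    have h2 : (2 : ℝ) ^ (-(N : ℝ)) = (1 / 2 : ℝ) ^ N := by
      rw [Real.rpow_neg two_pos.le, Real.rpow_natCast, one_div, inv_pow]
    rw [h2] at h1
    exact h1.trans hN.le
  set T : Fin n → ℝ := Td j l (-(2 * w1)) with hT
  have hTj : T j = w1 := by rw [hT, Td_a]; ring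
  have hTl : T l = -w1 := by rw [hT, Td_c hjl]; ring
  have hTd : T j - T l = 2 * w1 := by rw [hTj, hTl]; ring
  have hTd' : T l - T j = -(2 * w1) := by rw [hTj, hTl]; ring
  set L : ℝ := 2 * (2 : ℝ) ^ (T l - T j) / δ with hL
  have hLpos : 0 < L := by rw [hL]; positivity
  set Bu : ℝ := (2 : ℝ) ^ (T j - T l) * |v| with hBu
  have hBu0 : 0 ≤ Bu := by rw [hBu]; positivity
  have hBL : B * (L * 4) ≤ e := by
    rw [hL, hTd']
    have h1 : B * (2 * (2 : ℝ) ^ (-(2 * w1)) / δ * 4) = 8 * B / δ * (2 : ℝ) ^ (-(2 * w1)) := by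
      field_simp; ring
    rw [h1]
    calc 8 * B / δ * (2 : ℝ) ^ (-(2 * w1)) ≤ 8 * B / δ * (e * δ / (8 * B)) :=
          mul_le_mul_of_nonneg_left h2w (by positivity)
      _ = e := by field_simp
  refine ⟨B, max (6 * Bu) (max L 1), w0 + 2 * w1, hBpos,
    lt_of_lt_of_le one_pos ((le_max_right _ _).trans (le_max_right _ _)), hfB, ?_⟩
  intro R hR hRw μ hμp hμ γ bs bt hbs hbt η1 η2 a n0 e2 ha hn0 H1 H2 hNC
  set Lc : ℝ := max (6 * Bu) (max L 1) with hLc
  have hzt : IsProbabilityMeasure (zt R) := isProb_zt hR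
  set k0 : ℝ := 1 / bs + 1 / bt with hk0
  have hk00 : 0 ≤ k0 := by positivity
  set F : ModSpace n → ℝ → ℝ := fun z r => B⁻¹ * Fm f hjl T δ z r with hF
  have hFt : DEnd2_935.Tst L F := tst_Fm hfc hfB hBpos hδ
  have hFm : Tm k0 (L * k0) F := Tm.of_tst hLpos.le hFt k0
  have D := sw_of μ (zt R) hjk hkl hjl 0 0 γ hbs hbt (ω := L * k0) (k0 := k0) (by positivity)
    H1 H2 (by
      rw [neg_zero, Real.rpow_zero, one_mul, one_mul, hk0, add_comm])
  have hV : IsProbabilityMeasure (tot (VV hjk hjl 0 γ bs)) := prob_VV hjk hjl 0 γ hbs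
  -- the law of the observation
  have hlaw : tt (MM (lab μ (zt R) hkl 0 bt) (VV hjk hjl 0 γ bs))
      = (PO μ (zt R) (wd hkl 0) (tot (VV hjk hjl 0 γ bs))).map
        fun ω => (act ω.1.1 (ω.1.2 * ω.2.1 * ω.2.2.1), ω.2.2.2) := by
    rw [tt_MM, tot_lab_eq μ (zt R) hkl 0 hbt, ← law_eq, stp_stp]
    rfl
  set P := PO μ (zt R) (wd hkl 0) (tot (VV hjk hjl 0 γ bs)) with hP
  have m2 : Measurable fun ω : Om n =>
      ((act ω.1.1 (ω.1.2 * ω.2.1 * ω.2.2.1), ω.2.2.2) : ModSpace n × ℝ) := by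
    refine Measurable.prodMk ?_ (measurable_snd.comp (measurable_snd.comp measurable_snd))
    refine measurable_act₂.comp ((measurable_fst.comp measurable_fst).prodMk ?_)
    exact ((measurable_snd.comp measurable_fst).mul (measurable_fst.comp measurable_snd)).mul
      (measurable_fst.comp (measurable_snd.comp measurable_snd))
  have htot : (tt (MM (lab μ (zt R) hkl 0 bt) (VV hjk hjl 0 γ bs))).real Set.univ ≤ 1 := by
    rw [hlaw]
    have : IsProbabilityMeasure (P.map fun ω : Om n =>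
      ((act ω.1.1 (ω.1.2 * ω.2.1 * ω.2.2.1), ω.2.2.2) : ModSpace n × ℝ)) :=
      Measure.isProbabilityMeasure_map m2.aemeasurable
    exact measureReal_le_one
  -- the data of the transport
  set X : Om n → ModSpace n := fun ω => ω.1.1 with hX
  set g : Om n → SLR n := fun ω => ω.1.2 * ω.2.1 * (ω.2.2.1 * (uu hjl ω.2.2.2)⁻¹) with hg
  set r : Om n → ℝ := fun ω => ω.2.2.2 with hr
  have hXm : Measurable X := measurable_fst.comp measurable_fst
  have hrm : Measurable r := measurable_snd.comp (measurable_snd.comp measurable_snd)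
  have hgm : Measurable g := by
    refine ((measurable_snd.comp measurable_fst).mul (measurable_fst.comp measurable_snd)).mul ?_
    exact (measurable_fst.comp (measurable_snd.comp measurable_snd)).mul
      (((continuous_uu hjl).measurable.comp hrm).inv)
  have hPX : P.map X = μ := by
    have h1 : MeasurePreserving (Prod.fst : Om n → ModSpace n × SLR n) P (μ.prod (zt R)) :=
      measurePreserving_fst
    have h2 : MeasurePreserving (Prod.fst : ModSpace n × SLR n → ModSpace n) (μ.prod (zt R)) μ :=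
      measurePreserving_fst
    exact (h2.comp h1).map_eq
  have hsmall : ∀ᵐ ω ∂P, (aT T)⁻¹ * g ω * aT T ∈ U := by
    have q1 : ∀ᵐ ω ∂P, ω.1.2 ∈ bxG R := by
      have h1 : ∀ᵐ p ∂(μ.prod (zt R)), p.2 ∈ bxG R :=
        Measure.quasiMeasurePreserving_snd.ae (zt_ae hR)
      exact Measure.quasiMeasurePreserving_fst.ae h1
    have q2 : ∀ᵐ ω ∂P, ω.2.1 ∈ (rtG hkl 0 : Set (SLR n)) := by
      have h1 : ∀ᵐ p ∂((wd hkl 0).prod (tot (VV hjk hjl 0 γ bs))),
          p.1 ∈ (rtG hkl 0 : Set (SLR n)) :=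
        Measure.quasiMeasurePreserving_fst.ae (wd_ae hkl 0)
      exact Measure.quasiMeasurePreserving_snd.ae h1
    have q3 : ∀ᵐ ω ∂P, ω.2.2.1 * (uu hjl ω.2.2.2)⁻¹ ∈ (rtG hjk 0 : Set (SLR n)) := by
      have h1 : ∀ᵐ p ∂((wd hkl 0).prod (tot (VV hjk hjl 0 γ bs))),
          p.2.1 * (uu hjl p.2.2)⁻¹ ∈ (rtG hjk 0 : Set (SLR n)) :=
        Measure.quasiMeasurePreserving_snd.ae (tot_VV_ae hjk hjl 0 γ bs)
      exact Measure.quasiMeasurePreserving_snd.ae h1
    filter_upwards [q1, q2, q3] with ω h1 h2 h3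
    obtain ⟨t, ht, ht2⟩ := h2
    obtain ⟨s, hs, hs2⟩ := h3
    have hrp : ∀ x : ℝ, x ∈ Set.Icc (-(2 : ℝ) ^ (-(0 : ℝ))) ((2 : ℝ) ^ (-(0 : ℝ))) →
        |x| ≤ (2 : ℝ) ^ (-((-(2 * w1)) / 2 + w0)) := by
      intro x hx
      rw [neg_zero, Real.rpow_zero] at hx
      refine (abs_le.2 ⟨hx.1, hx.2⟩).trans ?_
      refine Real.one_le_rpow one_le_two ?_
      have : w0 ≤ w1 := le_max_left _ _
      linarith
    have h4 := (hsm (-(2 * w1)) R hR (by
      intro p q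
      have h5 := hRw p q
      have h6 : ∀ x : Fin n, |Td j l (-(2 * w1)) x| ≤ w1 := by
        intro x
        have hw1p : 0 ≤ w1 := hw0.trans (le_max_left _ _)
        unfold Td
        split_ifs
        · rw [abs_le]; constructor <;> linarith
        · rw [abs_le]; constructor <;> linarith
        · rw [abs_zero]; exact hw1p
      have h7 := abs_le.1 (h6 p)
      have h8 := abs_le.1 (h6 q)
      linarith [h7.1, h8.2]) ω.1.2 h1 s t (hrp s hs) (hrp t ht)).1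
    have h5 : g ω = ω.1.2 * uu hkl t * uu hjk s := by
      rw [hg]; simp only; rw [← ht2, ← hs2]
    rw [h5]
    exact h4
  have key := htr T P μ hμ X g r hXm hgm hrm hPX hsmall
  -- identification of the integrals
  have hz : ∀ ω : Om n, act (X ω) (g ω * uu hjl (r ω)) = act ω.1.1 (ω.1.2 * ω.2.1 * ω.2.2.1) := by
    intro ω
    rw [hX, hg, hr]
    simp only
    congr 1
    group
  have hint : ∀ c : ℝ, ∫ ω, Fm f hjl T δ (act (X ω) (g ω * uu hjl (r ω))) (r ω + c) ∂P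
      = B * ∫ x, F x.1 (x.2 + c) ∂(tt (MM (lab μ (zt R) hkl 0 bt) (VV hjk hjl 0 γ bs))) := by
    intro c
    have hmF : Measurable fun x : ModSpace n × ℝ => F x.1 (x.2 + c) := (hFt.shift c).meas
    rw [hlaw, integral_map m2.aemeasurable hmF.aestronglyMeasurable, ← integral_const_mul]
    refine integral_congr_ae (Eventually.of_forall fun ω => ?_)
    simp only
    rw [hz, hF]
    simp only
    rw [← mul_assoc, mul_inv_cancel₀ hBpos.ne', one_mul]
  have hi1 := hint (-((2 : ℝ) ^ (T j - T l) * v))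
  have hi2 := hint 0
  simp only [add_zero, ← sub_eq_add_neg] at hi1 hi2
  rw [hi1, hi2, ← mul_sub, abs_mul, abs_of_pos hBpos] at key
  have hfin := fin_abs D hFm (u := -((2 : ℝ) ^ (T j - T l) * v)) (B := Bu) (ω2 := L * 4) ha
    (abs_th_le bs bt) hn0 (fun z x y hxy => (hFt.lip z x y).trans
      (mul_le_mul_of_nonneg_left hxy hLpos.le)) (by positivity) (by positivity)
    (by rw [abs_neg, abs_mul, abs_of_pos (Real.rpow_pos_of_pos two_pos _)]) htot hNC
  simp only [← sub_eq_add_neg] at hfin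
  refine key.trans ?_
  have h1 : B * |(∫ x, F x.1 (x.2 - (2 : ℝ) ^ (T j - T l) * v)
        ∂(tt (MM (lab μ (zt R) hkl 0 bt) (VV hjk hjl 0 γ bs))))
      - ∫ x, F x.1 x.2 ∂(tt (MM (lab μ (zt R) hkl 0 bt) (VV hjk hjl 0 γ bs)))|
      ≤ B * (2 * e2 + Bu / a * (6 * (√(4 * η1) + √(4 * η2) + ((2 : ℝ) ^ (γ - 0 - 0) + L * k0)))
        / n0 + L * 4) := mul_le_mul_of_nonneg_left hfin hBpos.le
  have h2 : Bu / a * (6 * (√(4 * η1) + √(4 * η2) + ((2 : ℝ) ^ (γ - 0 - 0) + L * k0))) / n0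
      ≤ Lc / a * (√(4 * η1) + √(4 * η2) + ((2 : ℝ) ^ γ + Lc * k0)) / n0 := by
    rw [sub_zero, sub_zero]
    have h3 : Bu / a * (6 * (√(4 * η1) + √(4 * η2) + ((2 : ℝ) ^ γ + L * k0)))
        = 6 * Bu / a * (√(4 * η1) + √(4 * η2) + ((2 : ℝ) ^ γ + L * k0)) := by ring
    rw [h3]
    have h4 : L ≤ Lc := (le_max_left _ _).trans (le_max_right _ _)
    have h5 : 6 * Bu ≤ Lc := le_max_left _ _
    gcongr
  have h6 : B * (2 * e2 + Bu / a * (6 * (√(4 * η1) + √(4 * η2) + ((2 : ℝ) ^ (γ - 0 - 0)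
        + L * k0))) / n0 + L * 4)
      ≤ B * (2 * e2 + Lc / a * (√(4 * η1) + √(4 * η2) + ((2 : ℝ) ^ γ + Lc * k0)) / n0) + e := by
    rw [mul_add]
    exact add_le_add (mul_le_mul_of_nonneg_left (by linarith) hBpos.le) hBL
  linarith

end Core

end Crest.Agent.R014.DEnd6_71
end

-- ▼ part R014/DEnd3d_667
section

/-!
# Row 14, block D, END (noise formalism): nonconcentration (NC), part d, helper667

* `acv_RN`: (3.1) for the Heisenberg box noise at depth `r`;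
* `nc_root`: (NC) for a root and a noise built over `zt (RN j k l M)`;
* `nc_S`, `nc_T`: the two instances (`jk`-digits and `kl`-digits);
* `far_transfer`: change of the labelled law.
-/

set_option autoImplicit false

open MeasureTheory Finset Crest.NumberTheoryR.Packets
open Crest.Agent.R014.Nd_837 Crest.Agent.R014.Ne1_567 Crest.Agent.R014.NScB_395
open Crest.Agent.R014.NScC_395 Crest.Agent.R014.NScD_395 Crest.Agent.R014.Ms_667
open Crest.Agent.R014.Sw1_640 Crest.Agent.R014.Sw4_640 Crest.Agent.R014.NScH_395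
open Crest.Agent.R014.Ne3_567 (pv measurable_pv pv_nonneg sum_pv pv_le_one integral_pv_mul)
open Crest.Agent.R014.NScG_458 (RN)
open Crest.Agent.R014.NScA_395 (rho)
open Crest.Agent.R014.DSkel_792 (tz)
open scoped ENNReal

noncomputable section

namespace Crest.Agent.R014.DEnd3_667

variable {n : ℕ} {i j k l : Fin n}

/-! ### (3.1) for the Heisenberg box noise -/

/-- error of (3.1) -/
def E31 (n m : ℕ) (η w : ℝ) : ℝ :=
  8 * √(η + NScG_395.ew m (Nz_323.CN n) w + NScG_395.ew m (Nz_323.CN n) w)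
    + (8 * m + 12) * (2 * Nz_323.CN n * (2:ℝ) ^ (-w))

theorem acv_RN {μ : Measure (ModSpace n)} [IsProbabilityMeasure μ] (hμ : AInv μ)
    {M u1 u2 w W η : ℝ} {B : Finset ℕ} (h : Rg n M u1 u2 w W) (hw1 : 1 ≤ w)
    (he : 2 * Nz_323.CN n * (2:ℝ) ^ (-w) ≤ 1) (hc : 20 * c1N n ≤ u1)
    (hN : NC μ u1 u2 B η) {m : ℕ} [NeZero m] (hm : m ∈ B)
    (hjk : j ≠ k) (hkl : k ≠ l) (hjl : j ≠ l) {p q : Fin n}
    (hi : (p = j ∧ q = k) ∨ (p = k ∧ q = l) ∨ (p = j ∧ q = l)) (hpq : p ≠ q) {r : ℕ}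
    (hr : (r : ℝ) ≤ W) :
    ∫ x, |Acv μ (zt (RN j k l M)) hpq r m x - PZ μ u1 m p q (tz (Pi.single p (r : ℤ)) x)| ∂μ
      ≤ E31 n m η w := by
  have hadm := h.adm_RN (j := j) (k := k) (l := l)
  have := isProb_zt hadm
  have hu1 := h.u1_nonneg
  have := isProb_zt (adm_rho hc hu1 p q)
  have hr0 : (0:ℝ) ≤ r := Nat.cast_nonneg r
  set t : Fin n → ℝ := fun s => -((Pi.single p (r : ℤ) : Fin n → ℤ) s : ℝ) with ht
  have htp : t p = -r := by rw [ht]; simp
  have htq : t q = 0 := by rw [ht]; simp [hpq.symm]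
  have hrt : (r : ℝ) + (t p - t q) = 0 := by rw [htp, htq]; ring
  have htb : ∀ s, |t s| ≤ W := fun s => by
    rw [ht]
    by_cases hs : s = p
    · subst hs; simp only [Pi.single_eq_same, Int.cast_natCast, abs_neg]
      rw [abs_of_nonneg hr0]; exact hr
    · simp only [Pi.single_eq_of_ne hs, Int.cast_zero, neg_zero, abs_zero]
      exact h.hW
  have hcl : NScA_395.Clean p q r w (RN j k l M) := by
    refine NScG_458.clean_roots hjk hkl hjl h.M_nonneg h.hw ?_ hi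
    rw [abs_of_nonneg hr0]
    linarith [h.hM1, h.hW, h.M_nonneg]
  have hcl0 : NScA_395.Clean p q 0 w (RN j k l M + NScA_395.sh t) := by
    have h1 := (NScA_395.clean_sh (i := p) (j := q) (r := r) (w := w) (R := RN j k l M)
      (t := t)).2 hcl
    rwa [hrt] at h1
  have hb := NScG_458.range_sh (j := j) (k := k) (l := l) (M := M) (T := W) (u1 := u1) (u2 := u2)
    (w := w) h.M_nonneg htb
    (by have := h.hM1; have := h.hW; have := h.hw; linarith)
    (by have := h.hM2; have := h.hW; have := h.hw; linarith)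
  have h2 := (noiseFam n).acv hμ (b := m) hpq hw1 h.hwu hc
    (hN p q hpq m hm (Nat.pos_of_ne_zero (NeZero.ne m))) he hcl0 (fun a b => (hb a b).1)
    (fun a b => (hb a b).2)
  rw [← (noiseFam n).cj_zt _ t hadm] at h2
  have h3 := NScE_395.kern_shift hμ (κ := zt (RN j k l M)) (κ1 := zt (u1 • rho p q)) hpq t hrt h2
  rw [PZ_eq hpq]
  exact h3

/-! ### (NC) for a root -/

theorem nc_root {μ : Measure (ModSpace n)} [IsProbabilityMeasure μ] (hμ : AInv μ)
    {M u1 u2 w W η : ℝ} {B : Finset ℕ} (h' : Rg n (2 * M) u1 u2 w W)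
    (hw1 : 1 ≤ w) (he : 2 * Nz_323.CN n * (2:ℝ) ^ (-w) ≤ 1) (hc : 20 * c1N n ≤ u1)
    (hN : NC μ u1 u2 B η) {m : ℕ} [NeZero m] (hm : m ∈ B)
    (hjk : j ≠ k) (hkl : k ≠ l) (hjl : j ≠ l) {p q : Fin n}
    (hi : (p = j ∧ q = k) ∨ (p = k ∧ q = l) ∨ (p = j ∧ q = l)) (hpq : p ≠ q)
    (κ : Measure (SLR n)) [IsProbabilityMeasure κ] {eA eK : ℝ}
    (hK1 : ∀ g ∈ bxG (RN j k l (2 * M)), TVle (κ.map fun x => g * x) κ eA) {α C G : ℕ}
    (hK2 : ∀ s : ℝ, |s| ≤ (2:ℝ) ^ (-((α:ℝ) + C)) →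
      TVle (κ.map fun x => uu hpq s * x) (κ.map fun x => x * uu hpq s) eK)
    (hW : (α:ℝ) + C + G ≤ W) {b : ℕ} [NeZero b] {a n0 : ℝ} (ha : 0 ≤ a) (hn : 0 ≤ n0)
    {τ ε : ℝ} (hτ : 0 < τ)
    (hfree : μ.real {x | ∀ r : ℕ, r < G → PZ μ u1 m p q (tz (Pi.single p (r : ℤ)) x) < τ} ≤ ε) :
    (stp μ (cv κ (dl hpq α))).real {z | far (lab μ κ hpq α b) a z < n0}
      ≤ ε + G * (2 * (2:ℝ) ^ ((C:ℝ) + G) * (a + 1 / b) + 4 * n0 + 2 / m
          + 10 * (eA + eK + (2:ℝ) ^ (-(C:ℝ)) / 2) + E31 n m η w) / τ := by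
  have hadm := h'.adm_RN (j := j) (k := k) (l := l)
  have := isProb_zt hadm
  have hu1 := h'.u1_nonneg
  have := isProb_zt (adm_rho hc hu1 p q)
  have hpz : Measurable (PZ μ u1 m p q) := measurable_PZ hc hu1 m p q
  have hmain := nc_mainN (Finset.range G) μ κ (fun _ => zt (RN j k l (2 * M))) hpq (α:ℝ)
    (fun r => (C:ℝ) + r) (cm := (C:ℝ) + G) (fun r hr => by
      have : (r:ℝ) ≤ G := by exact_mod_cast (Finset.mem_range.1 hr).le
      linarith) (b := b) (m := m) (a := a) (n0 := n0)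
    (e := eA + eK + (2:ℝ) ^ (-(C:ℝ)) / 2) (E0 := E31 n m η w) ha hn
    (fun r _ => by
      have hr0 : (0:ℝ) ≤ r := Nat.cast_nonneg r
      have h1 := hT_of κ (zt (RN j k l (2 * M))) hpq (α:ℝ) ((C:ℝ) + r) (e1 := eA) (e2 := eK) (by
          filter_upwards [zt_ae hadm] with g hg
          exact hK1 g hg) (fun s hs => by
          refine conj_of_comm κ _ (hK2 s (hs.trans ?_))
          exact Real.rpow_le_rpow_of_exponent_le one_le_two (by linarith))
      filter_upwards [h1] with x hx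
      refine hx.mono ?_
      have : (2:ℝ) ^ (-((C:ℝ) + r)) ≤ (2:ℝ) ^ (-(C:ℝ)) :=
        Real.rpow_le_rpow_of_exponent_le one_le_two (by linarith)
      linarith)
    (Ps := fun r x => PZ μ u1 m p q (tz (Pi.single p ((α + C + r : ℕ) : ℤ)) x))
    (fun r _ => hpz.comp (DSkel_792.measurable_tz _))
    (fun r _ x => ⟨PZ_nonneg hc hu1 m p q _, PZ_le hc hu1 m p q _⟩)
    (fun r hr => by
      have h1 := acv_RN (j := j) (k := k) (l := l) hμ h' hw1 he hc hN hm hjk hkl hjl hi hpq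
        (r := α + C + r) (by
          have : (r:ℝ) ≤ G := by exact_mod_cast (Finset.mem_range.1 hr).le
          push_cast
          linarith)
      have e1 : ((α:ℝ) + ((C:ℝ) + r)) = ((α + C + r : ℕ) : ℝ) := by push_cast; ring
      rw [e1]
      exact h1)
    hτ (ε := ε) (by
      have h1 : {x | ∀ r ∈ Finset.range G, PZ μ u1 m p q
            (tz (Pi.single p ((α + C + r : ℕ) : ℤ)) x) < τ}
          = tz (Pi.single p ((α + C : ℕ) : ℤ)) ⁻¹'
            {x | ∀ r : ℕ, r < G → PZ μ u1 m p q (tz (Pi.single p (r : ℤ)) x) < τ} := by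
        ext x
        simp only [Finset.mem_range, Set.mem_ofPred_eq, Set.mem_preimage]
        refine forall_congr' fun r => forall_congr' fun _ => ?_
        rw [← DSkel_792.tz_add]
        have : (Pi.single p (r : ℤ) + Pi.single p ((α + C : ℕ) : ℤ) : Fin n → ℤ)
            = Pi.single p ((α + C + r : ℕ) : ℤ) := by
          rw [← Pi.single_add]
          congr 1
          push_cast
          ring
        rw [this]
      have hmeas : MeasurableSet
          {x | ∀ r : ℕ, r < G → PZ μ u1 m p q (tz (Pi.single p (r : ℤ)) x) < τ} := by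
        have : {x | ∀ r : ℕ, r < G → PZ μ u1 m p q (tz (Pi.single p (r : ℤ)) x) < τ}
            = ⋂ r : ℕ, ⋂ _ : r < G, {x | PZ μ u1 m p q (tz (Pi.single p (r : ℤ)) x) < τ} := by
          ext x; simp
        rw [this]
        exact MeasurableSet.iInter fun r => MeasurableSet.iInter fun _ =>
          measurableSet_lt (hpz.comp (DSkel_792.measurable_tz _)) measurable_const
      rw [h1, measureReal_def, (DSkel_792.measurePreserving_tz hμ _).measure_preimage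
        hmeas.nullMeasurableSet, ← measureReal_def]
      exact hfree)
  rwa [Finset.card_range] at hmain

/-! ### the two noises of the Heisenberg observation -/

theorem dirac_comm {κ : Measure (SLR n)} [IsProbabilityMeasure κ] {u : SLR n} {e : ℝ} :
    Cm e (Measure.dirac u) κ ↔ TVle (κ.map fun x => u * x) (κ.map fun x => x * u) e := by
  unfold Cm
  rw [dirac_cv, cv_dirac]

/-- `u_jk(s)` commutes with `u_kl(β) u_jl(γ)` -/
theorem comm_S (hjk : j ≠ k) (hkl : k ≠ l) (hjl : j ≠ l) {a β γ s : ℝ}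
    (hs : |s| ≤ (2:ℝ) ^ (-a)) :
    Cm ((2 : ℝ) ^ (γ - a - β) / 2) (Measure.dirac (uu hjk s : SLR n))
      (cv (dl hkl β) (dl hjl γ)) := by
  have h := Cm_jk (n := n) (ρ := Measure.dirac ()) (σ := fun _ => s) hjk hkl hjl measurable_const
    (a := a) (Filter.Eventually.of_forall fun _ => hs) β γ
  simp only [Measure.map_const, measure_univ, one_smul] at h
  exact h

/-- `u_kl(s)` commutes with `u_jk(α) u_jl(γ)` -/
theorem comm_T (hjk : j ≠ k) (hkl : k ≠ l) (hjl : j ≠ l) {b α γ s : ℝ}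
    (hs : |s| ≤ (2:ℝ) ^ (-b)) :
    Cm ((2 : ℝ) ^ (γ - α - b) / 2) (Measure.dirac (uu hkl s : SLR n))
      (cv (dl hjk α) (dl hjl γ)) := by
  have h := Cm_kl (n := n) (ρ := Measure.dirac ()) (σ := fun _ => s) hjk hkl hjl measurable_const
    (b := b) (Filter.Eventually.of_forall fun _ => hs) α γ
  simp only [Measure.map_const, measure_univ, one_smul] at h
  exact h

/-- the hypotheses of `nc_root` for `zt R · X` -/
theorem hK_of {R R' : Fin n → Fin n → ℝ} {w r : ℝ} (hw : 0 ≤ w) (hR : Nz_323.Adm R)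
    (hNeg : Nz_323.Neg w R' R) {p q : Fin n} (hpq : p ≠ q) (hC : Nz_323.Clean p q r w R)
    (X : Measure (SLR n)) [IsProbabilityMeasure X] {eX : ℝ}
    (hX : ∀ s : ℝ, |s| ≤ (2:ℝ) ^ (-r) → Cm eX (Measure.dirac (uu hpq s : SLR n)) X) :
    (∀ g ∈ bxG R', TVle ((cv (zt R) X).map fun x => g * x) (cv (zt R) X) (e0 n w)) ∧
      ∀ s : ℝ, |s| ≤ (2:ℝ) ^ (-r) →
        TVle ((cv (zt R) X).map fun x => uu hpq s * x) ((cv (zt R) X).map fun x => x * uu hpq s)
          (e0 n w + eX) := by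
  have := isProb_zt hR
  refine ⟨fun g hg => ?_, fun s hs => ?_⟩
  · rw [← dirac_cv, ← cv_assoc, dirac_cv]
    exact (L1G_left hw hR hNeg hg).cv_left
  · refine dirac_comm.1 ?_
    exact Cm.cv_right (dirac_comm.2 (TVle.commute_of_cj (L2G hpq hR hC hs))) (hX s hs)

theorem neg_two (hjk : j ≠ k) (hkl : k ≠ l) (hjl : j ≠ l) {M u1 u2 w W : ℝ}
    (h : Rg n M u1 u2 w W) : Nz_323.Neg w (RN j k l (2 * M)) (RN j k l M) := by
  have h1 := NScG_458.neg_RN_sh (j := j) (k := k) (l := l) hjk hkl hjl (M := M) (M' := 2 * M)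
    (w := w) (T := 0) h.M_nonneg le_rfl (t := 0) (fun p => by simp)
    (by have := h.hM1; have := h.u1_nonneg; have := h.hW; have := h.hw; linarith)
  have h2 : (RN j k l (2 * M) + NScA_395.sh (0 : Fin n → ℝ)) = RN j k l (2 * M) := by
    funext p q; simp [NScA_395.sh]
  rw [h2] at h1
  exact neg_conv h1

section Inst

variable {μ : Measure (ModSpace n)} [IsProbabilityMeasure μ] (hμ : AInv μ)
    {M u1 u2 w W η : ℝ} {B : Finset ℕ} (h : Rg n M u1 u2 w W) (h' : Rg n (2 * M) u1 u2 w W)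
    (hw1 : 1 ≤ w) (he : 2 * Nz_323.CN n * (2:ℝ) ^ (-w) ≤ 1) (hc : 20 * c1N n ≤ u1)
    (hN : NC μ u1 u2 B η) {m : ℕ} [NeZero m] (hm : m ∈ B)
    (hjk : j ≠ k) (hkl : k ≠ l) (hjl : j ≠ l) {α β C G : ℕ} {γ : ℝ}
    {b : ℕ} [NeZero b] {a n0 : ℝ} (ha : 0 ≤ a) (hn : 0 ≤ n0) {τ ε : ℝ} (hτ : 0 < τ)

include hμ h h' hw1 he hc hN hm ha hn hτ

/-- **(NC) for the `jk`-digits** at depth `α`, noise `zt (RN M) · u_kl(β) · u_jl(γ)`. -/
theorem nc_S (hW : (α:ℝ) + C + G ≤ W)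
    (hfree : μ.real {x | ∀ r : ℕ, r < G → PZ μ u1 m j k (tz (Pi.single j (r : ℤ)) x) < τ} ≤ ε) :
    (stp μ (cv (cv (zt (RN j k l M)) (cv (dl hkl β) (dl hjl γ))) (dl hjk α))).real
        {z | far (lab μ (cv (zt (RN j k l M)) (cv (dl hkl β) (dl hjl γ))) hjk α b) a z < n0}
      ≤ ε + G * (2 * (2:ℝ) ^ ((C:ℝ) + G) * (a + 1 / b) + 4 * n0 + 2 / m
          + 10 * (e0 n w + (e0 n w + (2:ℝ) ^ (γ - α - β - C) / 2) + (2:ℝ) ^ (-(C:ℝ)) / 2)
          + E31 n m η w) / τ := by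
  have hadm := h.adm_RN (j := j) (k := k) (l := l)
  have := isProb_zt hadm
  have hr : w + |(α:ℝ) + C| ≤ M / 10 := by
    have hG : (0:ℝ) ≤ G := Nat.cast_nonneg G
    rw [abs_of_nonneg (by positivity)]
    linarith [h.hM1, h.hw, h.u1_nonneg, h.M_nonneg, h.hW]
  have hcl : NScA_395.Clean j k ((α:ℝ) + C) w (RN j k l M) :=
    NScG_458.clean_jk hjk hkl hjl h.M_nonneg h.hw hr
  have hK := hK_of (eX := (2:ℝ) ^ (γ - α - β - C) / 2) h.hw hadm (neg_two hjk hkl hjl h) hjk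
    (clean_iff.2 hcl) (cv (dl hkl (β:ℝ)) (dl hjl γ)) (fun s hs => by
      have h1 := comm_S (n := n) hjk hkl hjl (a := (α:ℝ) + C) (β := β) (γ := γ) hs
      refine h1.mono (le_of_eq ?_)
      congr 2
      ring)
  exact nc_root hμ h' hw1 he hc hN hm hjk hkl hjl (Or.inl ⟨rfl, rfl⟩) hjk _ hK.1 hK.2 hW ha hn hτ
    hfree

/-- **(NC) for the `kl`-digits** at depth `β`, noise `zt (RN M) · u_jk(α) · u_jl(γ)`. -/
theorem nc_T (hW : (β:ℝ) + C + G ≤ W)
    (hfree : μ.real {x | ∀ r : ℕ, r < G → PZ μ u1 m k l (tz (Pi.single k (r : ℤ)) x) < τ} ≤ ε) :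
    (stp μ (cv (cv (zt (RN j k l M)) (cv (dl hjk α) (dl hjl γ))) (dl hkl β))).real
        {z | far (lab μ (cv (zt (RN j k l M)) (cv (dl hjk α) (dl hjl γ))) hkl β b) a z < n0}
      ≤ ε + G * (2 * (2:ℝ) ^ ((C:ℝ) + G) * (a + 1 / b) + 4 * n0 + 2 / m
          + 10 * (e0 n w + (e0 n w + (2:ℝ) ^ (γ - α - β - C) / 2) + (2:ℝ) ^ (-(C:ℝ)) / 2)
          + E31 n m η w) / τ := by
  have hadm := h.adm_RN (j := j) (k := k) (l := l)
  have := isProb_zt hadm
  have hr : w + |(β:ℝ) + C| ≤ M / 10 := by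
    have hG : (0:ℝ) ≤ G := Nat.cast_nonneg G
    rw [abs_of_nonneg (by positivity)]
    linarith [h.hM1, h.hw, h.u1_nonneg, h.M_nonneg, h.hW]
  have hcl : NScA_395.Clean k l ((β:ℝ) + C) w (RN j k l M) :=
    NScG_458.clean_kl hjk hkl hjl h.M_nonneg h.hw hr
  have hK := hK_of (eX := (2:ℝ) ^ (γ - α - β - C) / 2) h.hw hadm (neg_two hjk hkl hjl h) hkl
    (clean_iff.2 hcl) (cv (dl hjk (α:ℝ)) (dl hjl γ)) (fun s hs => by
      have h1 := comm_T (n := n) hjk hkl hjl (b := (β:ℝ) + C) (α := α) (γ := γ) hs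
      refine h1.mono (le_of_eq ?_)
      congr 2
      ring)
  exact nc_root hμ h' hw1 he hc hN hm hjk hkl hjl (Or.inr (Or.inl ⟨rfl, rfl⟩)) hkl _ hK.1 hK.2 hW
    ha hn hτ hfree

end Inst

/-! ### change of the labelled law -/

theorem far_sub_le {b : ℕ} [NeZero b] (ρ ρ' : Fin b → Measure (ModSpace n)) (a : ℝ)
    (z : ModSpace n) : |far ρ a z - far ρ' a z| ≤ 2 * ∑ d, |pv ρ d z - pv ρ' d z| := by
  unfold far
  simp_rw [← sum_sub_distrib]
  have key : ∀ d d' : Fin b, |pv ρ d z * pv ρ d' z * (if a ≤ |cen b d - cen b d'| then 1 else 0)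
      - pv ρ' d z * pv ρ' d' z * (if a ≤ |cen b d - cen b d'| then 1 else 0)|
      ≤ |pv ρ d z - pv ρ' d z| * pv ρ d' z + pv ρ' d z * |pv ρ d' z - pv ρ' d' z| := by
    intro d d'
    have e1 : pv ρ d z * pv ρ d' z * (if a ≤ |cen b d - cen b d'| then 1 else 0)
      - pv ρ' d z * pv ρ' d' z * (if a ≤ |cen b d - cen b d'| then 1 else 0)
      = (if a ≤ |cen b d - cen b d'| then (1:ℝ) else 0) *
        ((pv ρ d z - pv ρ' d z) * pv ρ d' z + pv ρ' d z * (pv ρ d' z - pv ρ' d' z)) := by ring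
    have e2 : |(if a ≤ |cen b d - cen b d'| then (1:ℝ) else 0)| ≤ 1 := by split_ifs <;> simp
    rw [e1, abs_mul]
    refine (mul_le_of_le_one_left (abs_nonneg _) e2).trans ((abs_add_le _ _).trans ?_)
    rw [abs_mul, abs_mul, abs_of_nonneg (pv_nonneg ρ d' z), abs_of_nonneg (pv_nonneg ρ' d z)]
  refine (abs_sum_le_sum_abs _ _).trans ((sum_le_sum fun d _ => (abs_sum_le_sum_abs _ _).trans
    (sum_le_sum fun d' _ => key d d')).trans (le_of_eq ?_))
  simp_rw [sum_add_distrib, ← mul_sum, sum_pv]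
  rw [← sum_mul, ← sum_mul, sum_pv]
  ring

theorem far_transfer {b : ℕ} [NeZero b] (ρ ρ' : Fin b → Measure (ModSpace n))
    [∀ c, IsFiniteMeasure (ρ c)] [∀ c, IsFiniteMeasure (ρ' c)] {e : ℝ}
    (h : ∀ d, TVle (ρ d) (ρ' d) e) {a n0 : ℝ} (hn : 0 < n0) :
    (tot ρ').real {z | far ρ' a z < n0}
      ≤ (tot ρ).real {z | far ρ a z < 2 * n0} + b * e + 8 * (b * e) / n0 := by
  have hA : MeasurableSet {z | far ρ a z < 2 * n0} := measurableSet_BadN ρ (2 * n0) a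
  have hDm : Measurable fun z => |far ρ a z - far ρ' a z| :=
    ((measurable_far ρ a).sub (measurable_far ρ' a)).abs
  have hB : MeasurableSet {z | n0 ≤ |far ρ a z - far ρ' a z|} :=
    measurableSet_le measurable_const hDm
  have hsub : {z | far ρ' a z < n0} ⊆
      {z | far ρ a z < 2 * n0} ∪ {z | n0 ≤ |far ρ a z - far ρ' a z|} := by
    intro z hz
    simp only [Set.mem_ofPred_eq, Set.mem_union] at hz ⊢
    by_contra hne
    push Not at hne
    have := le_abs_self (far ρ a z - far ρ' a z)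
    linarith [hne.1, hne.2]
  have h1 : (tot ρ').real {z | far ρ a z < 2 * n0} ≤ (tot ρ).real {z | far ρ a z < 2 * n0} + b * e := by
    have h2 : (tot ρ').real {z | far ρ a z < 2 * n0}
        - (tot ρ).real {z | far ρ a z < 2 * n0} ≤ b * e := by
      have e1 : ∀ ρ'' : Fin b → Measure (ModSpace n), (∀ c, IsFiniteMeasure (ρ'' c)) →
          (tot ρ'').real {z | far ρ a z < 2 * n0} = ∑ d, (ρ'' d).real {z | far ρ a z < 2 * n0} := by
        intro ρ'' hf
        rw [measureReal_def, tot_apply, ENNReal.toReal_sum fun c _ => measure_ne_top _ _]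
        rfl
      rw [e1 ρ' inferInstance, e1 ρ inferInstance, ← sum_sub_distrib]
      refine (sum_le_sum fun d _ => ?_).trans (le_of_eq (?_ : ∑ _d : Fin b, e = b * e))
      · have := h d _ hA
        rw [abs_le] at this
        linarith [this.1]
      · rw [sum_const, card_univ, Fintype.card_fin, nsmul_eq_mul]
    linarith
  have h2 : ∫ z, ∑ d, |pv ρ' d z - pv ρ d z| ∂(tot ρ') ≤ 4 * (b * e) := by
    have h3 := Ne3_567.integral_abs_pv_le (ρ := ρ') (ρ' := ρ) (e := fun _ => e)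
      (fun c A hA => by
        have := h c A hA
        rw [abs_le] at this
        linarith [this.1])
      (fun c A hA => by
        have := h c A hA
        rw [abs_le] at this
        linarith [this.2])
    refine h3.trans (le_of_eq ?_)
    rw [sum_const, card_univ, Fintype.card_fin, nsmul_eq_mul]
  have hSi : Integrable (fun z => ∑ d, |pv ρ' d z - pv ρ d z|) (tot ρ') := by
    refine bdd_integrable (M := 2) (Finset.measurable_sum _ fun d _ =>
      ((measurable_pv ρ' d).sub (measurable_pv ρ d)).abs) fun z => ?_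
    rw [abs_of_nonneg (sum_nonneg fun d _ => abs_nonneg _)]
    exact Ne3_567.sum_abs_pv_le_two ρ' ρ z z
  have hDi : Integrable (fun z => |far ρ a z - far ρ' a z|) (tot ρ') := by
    refine Integrable.mono' (hSi.const_mul 2) hDm.aestronglyMeasurable
      (Filter.Eventually.of_forall fun z => ?_)
    rw [Real.norm_eq_abs, abs_abs]
    refine (far_sub_le ρ ρ' a z).trans (le_of_eq ?_)
    simp_rw [abs_sub_comm]
  have h4 : n0 * (tot ρ').real {z | n0 ≤ |far ρ a z - far ρ' a z|} ≤ 8 * (b * e) := by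
    have h5 := mul_meas_ge_le_integral_of_nonneg
      (Filter.Eventually.of_forall fun z => abs_nonneg (far ρ a z - far ρ' a z)) hDi n0
    have h6 : ∫ z, |far ρ a z - far ρ' a z| ∂(tot ρ')
        ≤ ∫ z, 2 * ∑ d, |pv ρ' d z - pv ρ d z| ∂(tot ρ') := by
      refine integral_mono hDi (hSi.const_mul 2) fun z => ?_
      refine (far_sub_le ρ ρ' a z).trans (le_of_eq ?_)
      simp_rw [abs_sub_comm]
    rw [integral_const_mul] at h6
    linarith
  have h7 : (tot ρ').real {z | n0 ≤ |far ρ a z - far ρ' a z|} ≤ 8 * (b * e) / n0 := by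
    rw [le_div_iff₀ hn]; linarith
  calc (tot ρ').real {z | far ρ' a z < n0} ≤ (tot ρ').real
        ({z | far ρ a z < 2 * n0} ∪ {z | n0 ≤ |far ρ a z - far ρ' a z|}) := measureReal_mono hsub
    _ ≤ (tot ρ').real {z | far ρ a z < 2 * n0}
        + (tot ρ').real {z | n0 ≤ |far ρ a z - far ρ' a z|} := measureReal_union_le _ _
    _ ≤ _ := by linarith

end Crest.Agent.R014.DEnd3_667
end
end

-- ▼ part R014/DEnd3e_667
section

/-!
# Row 14, block D, END (noise formalism): nonconcentration (NC), part e, helper667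

`nc_nn`: for the Heisenberg observation, both posteriors (noise after the cell) are spread for most
`z`, in the form consumed by `DEnd3_935.Sw.fin`.
-/

set_option autoImplicit false

open MeasureTheory Finset Crest.NumberTheoryR.Packets
open Crest.Agent.R014.Nd_837 Crest.Agent.R014.Ne1_567 Crest.Agent.R014.NScB_395
open Crest.Agent.R014.NScC_395 Crest.Agent.R014.NScD_395 Crest.Agent.R014.Ms_667
open Crest.Agent.R014.Sw1_640 Crest.Agent.R014.Sw4_640 Crest.Agent.R014.NScH_395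
open Crest.Agent.R014.Ne3_567 (pv measurable_pv pv_nonneg sum_pv pv_le_one integral_pv_mul)
open Crest.Agent.R014.NScG_458 (RN)
open Crest.Agent.R014.NScA_395 (rho)
open Crest.Agent.R014.DSkel_792 (tz)
open scoped ENNReal

noncomputable section

namespace Crest.Agent.R014.DEnd3_667

variable {n : ℕ} {i j k l : Fin n}

/-- the labelled law with the noise `X` after the cell -/
def labX (μ : Measure (ModSpace n)) (κ0 : Measure (SLR n)) (hij : i ≠ j) (r : ℝ) (b : ℕ)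
    (X : Measure (SLR n)) (d : Fin b) : Measure (ModSpace n) := stp (lab μ κ0 hij r b d) X

instance (μ : Measure (ModSpace n)) (κ0 : Measure (SLR n)) [IsProbabilityMeasure μ]
    [IsProbabilityMeasure κ0] (hij : i ≠ j) (r : ℝ) (b : ℕ) (X : Measure (SLR n))
    [IsFiniteMeasure X] (d : Fin b) : IsFiniteMeasure (labX μ κ0 hij r b X d) := by
  unfold labX; infer_instance

theorem labX_tv (μ : Measure (ModSpace n)) (κ0 : Measure (SLR n)) [IsProbabilityMeasure μ]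
    [IsProbabilityMeasure κ0] (hij : i ≠ j) (r : ℝ) {b : ℕ} (X : Measure (SLR n))
    [IsProbabilityMeasure X] {e : ℝ} (d : Fin b) (h : Cm e (dlaw hij r b d) X) :
    TVle (lab μ (cv κ0 X) hij r b d) (labX μ κ0 hij r b X d) ((b : ℝ)⁻¹ * e) := by
  have e1 : lab μ (cv κ0 X) hij r b d
      = (b : ℝ≥0∞)⁻¹ • stp μ (cv κ0 (cv X (dlaw hij r b d))) := by
    rw [lab, stp_stp, cv_assoc]
  have e2 : labX μ κ0 hij r b X d
      = (b : ℝ≥0∞)⁻¹ • stp μ (cv κ0 (cv (dlaw hij r b d) X)) := by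
    rw [labX, lab, smul_stp, stp_stp, stp_stp]
  rw [e1, e2]
  have h2 : TVle (cv X (dlaw hij r b d)) (cv (dlaw hij r b d) X) e := h.symm
  have h3 := ((TVle.cv_right (κ := κ0) h2).stp_right (μ := μ)).smul ((b : ℝ≥0∞)⁻¹)
  simpa using h3

theorem tot_labX (μ : Measure (ModSpace n)) (κ0 : Measure (SLR n)) [IsProbabilityMeasure μ]
    [IsProbabilityMeasure κ0] (hij : i ≠ j) (r : ℝ) {b : ℕ} (hb : 0 < b) (X : Measure (SLR n))
    [IsProbabilityMeasure X] :
    tot (labX μ κ0 hij r b X) = stp μ (cv κ0 (cv (dl hij r) X)) := by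
  have h1 : tot (labX μ κ0 hij r b X) = stp (tot (lab μ κ0 hij r b)) X := by
    have h1 := tot_mp (K := fun p : ModSpace n × SLR n => act p.1 p.2) measurable_act₂
      (pd (lab μ κ0 hij r b) X)
    rw [tot_pd] at h1
    exact h1
  rw [h1, NScD_395.tot_lab_eq μ κ0 hij r hb, stp_stp, cv_assoc]

/-- (NC) transported to the posterior with the noise after the cell. -/
theorem far_labX (μ : Measure (ModSpace n)) (κ0 : Measure (SLR n)) [IsProbabilityMeasure μ]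
    [IsProbabilityMeasure κ0] (hij : i ≠ j) (r : ℝ) {b : ℕ} [NeZero b] (X : Measure (SLR n))
    [IsProbabilityMeasure X] {e : ℝ} (h : ∀ d, Cm e (dlaw hij r b d) X) {a n0 : ℝ} (hn : 0 < n0) :
    (tot (labX μ κ0 hij r b X)).real {z | far (labX μ κ0 hij r b X) a z < n0}
      ≤ (stp μ (cv (cv κ0 X) (dl hij r))).real {z | far (lab μ (cv κ0 X) hij r b) a z < 2 * n0}
        + e + 8 * e / n0 := by
  have hb : 0 < b := Nat.pos_of_ne_zero (NeZero.ne b)
  have hb' : (b : ℝ) ≠ 0 := by exact_mod_cast hb.ne'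
  have h1 := far_transfer (lab μ (cv κ0 X) hij r b) (labX μ κ0 hij r b X)
    (fun d => labX_tv μ κ0 hij r X d (h d)) (a := a) hn
  rw [NScD_395.tot_lab_eq μ (cv κ0 X) hij r hb] at h1
  have e1 : (b : ℝ) * ((b : ℝ)⁻¹ * e) = e := by rw [← mul_assoc, mul_inv_cancel₀ hb', one_mul]
  rwa [e1] at h1

/-- the two orders of the Heisenberg observation -/
theorem order_tv (μ : Measure (ModSpace n)) (κ0 : Measure (SLR n)) [IsProbabilityMeasure μ]
    [IsProbabilityMeasure κ0] (hjk : j ≠ k) (hkl : k ≠ l) (hjl : j ≠ l) (α β γ : ℝ) :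
    TVle (stp μ (cv κ0 (cv (dl hjk α) (cv (dl hkl β) (dl hjl γ)))))
      (stp μ (cv κ0 (cv (dl hkl β) (cv (dl hjk α) (dl hjl γ))))) ((2:ℝ) ^ (γ - α - β) / 2) := by
  have h1 : Cm ((2 : ℝ) ^ (γ - α - β) / 2) (dl hjk α : Measure (SLR n))
      (cv (dl hkl β) (dl hjl γ)) :=
    Cm_jk (n := n) (ρ := uni) (σ := fun θ => (2:ℝ) ^ (-α) * θ) hjk hkl hjl
      (by fun_prop) (Sw3_640.ae_wn α) β γ
  have h2 : Cm 0 (dl hjk α : Measure (SLR n)) (dl hjl γ) :=
    Cm_jk_jl (n := n) (ρ := uni) (σ := fun θ => (2:ℝ) ^ (-α) * θ) hjk hjl (by fun_prop) γ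
  have h3 : TVle (cv (cv (dl hkl β) (dl hjl γ)) (dl hjk α) : Measure (SLR n))
      (cv (dl hkl β) (cv (dl hjk α) (dl hjl γ))) 0 := by
    rw [cv_assoc]
    exact (TVle.symm h2).cv_right
  have h4 : TVle (cv (dl hjk α) (cv (dl hkl β) (dl hjl γ)) : Measure (SLR n))
      (cv (dl hkl β) (cv (dl hjk α) (dl hjl γ))) ((2:ℝ) ^ (γ - α - β) / 2) :=
    (TVle.trans h1 h3).mono (by linarith)
  exact (h4.cv_right (κ := κ0)).stp_right

section Final

variable {μ : Measure (ModSpace n)} [IsProbabilityMeasure μ] (hμ : AInv μ)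
    {M u1 u2 w W η : ℝ} {B : Finset ℕ} (h : Rg n M u1 u2 w W) (h' : Rg n (2 * M) u1 u2 w W)
    (hw1 : 1 ≤ w) (he : 2 * Nz_323.CN n * (2:ℝ) ^ (-w) ≤ 1) (hc : 20 * c1N n ≤ u1)
    (hN : NC μ u1 u2 B η) {m : ℕ} [NeZero m] (hm : m ∈ B)
    (hjk : j ≠ k) (hkl : k ≠ l) (hjl : j ≠ l) {α β C G : ℕ} {γ : ℝ}
    {b : ℕ} [NeZero b] {a n0 : ℝ} (ha : 0 ≤ a) (hn : 0 < n0) {τ ε : ℝ} (hτ : 0 < τ)

include hμ h h' hw1 he hc hN hm ha hn hτ

/-- **(NC), final form**: for most `z` the two posteriors of the Heisenberg observation give a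
macroscopic shift with probability at least `n0 ^ 2`. -/
theorem nc_nn (hWα : (α:ℝ) + C + G ≤ W) (hWβ : (β:ℝ) + C + G ≤ W)
    (hfree1 : μ.real {x | ∀ r : ℕ, r < G → PZ μ u1 m j k (tz (Pi.single j (r : ℤ)) x) < τ} ≤ ε)
    (hfree2 : μ.real {x | ∀ r : ℕ, r < G → PZ μ u1 m k l (tz (Pi.single k (r : ℤ)) x) < τ} ≤ ε)
    {S T : Fin b → ℝ} (hS : ∀ d, S d = (2:ℝ) ^ (-(α:ℝ)) * cen b d)
    (hT : ∀ d, T d = (2:ℝ) ^ (-(β:ℝ)) * cen b d) :
    (stp μ (cv (zt (RN j k l M)) (cv (dl hkl β) (cv (dl hjk α) (dl hjl γ))))).real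
        {z | DEnd3_935.nn S T
          (pv (labX μ (zt (RN j k l M)) hjk α b (cv (dl hkl β) (dl hjl γ))))
          (pv (labX μ (zt (RN j k l M)) hkl β b (cv (dl hjk α) (dl hjl γ))))
          ((2:ℝ) ^ (-(α:ℝ)) * a * ((2:ℝ) ^ (-(β:ℝ)) * a)) z < n0 * n0}
      ≤ 2 * (ε + G * (2 * (2:ℝ) ^ ((C:ℝ) + G) * (a + 1 / b) + 8 * n0 + 2 / m
          + 10 * (e0 n w + (e0 n w + (2:ℝ) ^ (γ - α - β - C) / 2) + (2:ℝ) ^ (-(C:ℝ)) / 2)
          + E31 n m η w) / τ) + 3 / 2 * (2:ℝ) ^ (γ - α - β) + 8 * (2:ℝ) ^ (γ - α - β) / n0 := by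
  have hb : 0 < b := Nat.pos_of_ne_zero (NeZero.ne b)
  have hadm := h.adm_RN (j := j) (k := k) (l := l)
  have := isProb_zt hadm
  set κ0 := zt (RN j k l M) with hκ0
  set XS : Measure (SLR n) := cv (dl hkl (β:ℝ)) (dl hjl γ) with hXS
  set XT : Measure (SLR n) := cv (dl hjk (α:ℝ)) (dl hjl γ) with hXT
  set g : ℝ := (2:ℝ) ^ (γ - α - β) with hg
  have hg0 : 0 < g := Real.rpow_pos_of_pos two_pos _
  have hcS : ∀ d : Fin b, Cm (g / 2) (dlaw hjk (α:ℝ) b d) XS := fun d =>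
    Sw3_640.dig_jk hjk hkl hjl _ _ _ d
  have hcT : ∀ d : Fin b, Cm (g / 2) (dlaw hkl (β:ℝ) b d) XT := fun d =>
    Sw3_640.dig_kl hjk hkl hjl _ _ _ d
  have h1 := far_labX μ κ0 hjk (α:ℝ) (b := b) XS hcS (a := a) hn
  have h2 := far_labX μ κ0 hkl (β:ℝ) (b := b) XT hcT (a := a) hn
  rw [tot_labX μ κ0 hjk _ hb] at h1
  rw [tot_labX μ κ0 hkl _ hb] at h2
  have h3 := nc_S hμ h h' hw1 he hc hN hm hjk hkl hjl (α := α) (β := β) (γ := γ) (C := C) (G := G)
    (b := b) (a := a) (n0 := 2 * n0) ha (by linarith) hτ hWα hfree1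
  have h4 := nc_T hμ h h' hw1 he hc hN hm hjk hkl hjl (α := α) (β := β) (γ := γ) (C := C) (G := G)
    (b := b) (a := a) (n0 := 2 * n0) ha (by linarith) hτ hWβ hfree2
  have h5 := order_tv μ κ0 hjk hkl hjl (α:ℝ) (β:ℝ) γ
  set ν1 := stp μ (cv κ0 (cv (dl hjk (α:ℝ)) XS)) with hν1
  set ν2 := stp μ (cv κ0 (cv (dl hkl (β:ℝ)) XT)) with hν2
  have hAS : MeasurableSet {z | far (labX μ κ0 hjk α b XS) a z < n0} := measurableSet_BadN _ n0 a
  have h6 := h5 _ hAS
  have hsub : {z | DEnd3_935.nn S T (pv (labX μ κ0 hjk α b XS)) (pv (labX μ κ0 hkl β b XT))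
      ((2:ℝ) ^ (-(α:ℝ)) * a * ((2:ℝ) ^ (-(β:ℝ)) * a)) z < n0 * n0} ⊆
      {z | far (labX μ κ0 hjk α b XS) a z < n0} ∪ {z | far (labX μ κ0 hkl β b XT) a z < n0} := by
    intro z hz
    by_contra hne
    simp only [Set.mem_union, Set.mem_ofPred_eq, not_or, not_lt] at hne
    have := nn_ge_of_far (labX μ κ0 hjk α b XS) (labX μ κ0 hkl β b XT) (S := S) (T := T)
      (s1 := (2:ℝ) ^ (-(α:ℝ))) (s2 := (2:ℝ) ^ (-(β:ℝ))) (a1 := a) (a2 := a) (n1 := n0) (n2 := n0)
      (Real.rpow_pos_of_pos two_pos _).le (Real.rpow_pos_of_pos two_pos _).le ha hn.le hn.le hS hT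
      z hne.1 hne.2
    exact absurd this (not_le.2 hz)
  have h7 := (measureReal_mono hsub (μ := ν2)).trans (measureReal_union_le _ _)
  rw [abs_le] at h6
  have e3 : 8 * (g / 2) / n0 = 4 * g / n0 := by ring
  rw [e3] at h1 h2
  have e4 : 4 * g / n0 + 4 * g / n0 = 8 * g / n0 := by ring
  have e5 : 4 * (2 * n0) = 8 * n0 := by ring
  rw [e5] at h3 h4
  linarith [h6.1]

end Final

end Crest.Agent.R014.DEnd3_667
end
end

-- ▼ part R014/DEnd3f_667
section

/-!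
# Row 14, block D, END (noise formalism): nonconcentration (NC), part f, helper667

`nc_MM`: (NC) in terms of the objects `MM`, `VV`, `PP`, `nn` of helper935.
`nc_final`: the same with the constants chosen, depths `α = β = 0`.
-/

set_option autoImplicit false

open MeasureTheory Finset Filter Topology Crest.NumberTheoryR.Packets
open Crest.Agent.R014.Nd_837 Crest.Agent.R014.Ne1_567 Crest.Agent.R014.NScB_395
open Crest.Agent.R014.NScC_395 Crest.Agent.R014.NScD_395 Crest.Agent.R014.Ms_667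
open Crest.Agent.R014.Sw1_640 Crest.Agent.R014.Sw4_640 Crest.Agent.R014.NScH_395
open Crest.Agent.R014.DEnd4_935 Crest.Agent.R014.DEnd3_935
open Crest.Agent.R014.Ne3_567 (pv measurable_pv pv_nonneg sum_pv pv_le_one integral_pv_mul)
open Crest.Agent.R014.NScG_458 (RN)
open Crest.Agent.R014.NScA_395 (rho)
open Crest.Agent.R014.DSkel_792 (tz)
open scoped ENNReal

noncomputable section

namespace Crest.Agent.R014.DEnd3_667

variable {n : ℕ} {i j k l p q p' q' : Fin n}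

theorem map_KK (ν : Measure (ModSpace n)) [IsFiniteMeasure ν] (V : Measure (SLR n × ℝ))
    [IsFiniteMeasure V] : (ν.prod V).map KK = stp ν (V.map Prod.fst) := by
  unfold stp
  have h1 : ν.prod (V.map Prod.fst) = (ν.prod V).map (Prod.map id Prod.fst) := by
    conv_lhs => rw [← Measure.map_id (μ := ν)]
    exact Measure.map_prod_map ν V measurable_id measurable_fst
  rw [h1, Measure.map_map measurable_act₂ (measurable_id.prodMap measurable_fst)]
  rfl

theorem VV_fst (hpq : p ≠ q) (hpq' : p' ≠ q') (a c : ℝ) (b : ℕ) (d : Fin b) :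
    (VV (n := n) hpq hpq' a c b d).map Prod.fst
      = (b : ℝ≥0∞)⁻¹ • cv (dlaw hpq a b d) (dl hpq' c) := by
  have m1 : Measurable fun θ : ℝ => (uu hpq (sv a b d θ) : SLR n) := measurable_us hpq a b d
  have m2 : Measurable fun θ : ℝ => (uu hpq' ((2:ℝ) ^ (-c) * θ) : SLR n) := measurable_uuw hpq' c
  unfold VV cv
  rw [Measure.map_smul, Measure.map_map measurable_fst (measurable_VV hpq hpq' a c b d),
    DEnd4_935.dlaw_eq, dl, Measure.map_prod_map _ _ m1 m2,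
    Measure.map_map measurable_mul₂ (m1.prodMap m2)]
  rfl

theorem tot_VV_fst (hpq : p ≠ q) (hpq' : p' ≠ q') (a c : ℝ) {b : ℕ} (hb : 0 < b) :
    (tot (VV (n := n) hpq hpq' a c b)).map Prod.fst = cv (dl hpq a) (dl hpq' c) := by
  have h1 : (tot (VV (n := n) hpq hpq' a c b)).map Prod.fst
      = ∑ d, (VV (n := n) hpq hpq' a c b d).map Prod.fst := by
    unfold tot
    exact Measure.map_finset_sum measurable_fst.aemeasurable
  have h2 : ∀ s : Finset (Fin b), (cv (∑ d ∈ s, dlaw hpq a b d) (dl hpq' c) : Measure (SLR n))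
      = ∑ d ∈ s, cv (dlaw hpq a b d) (dl hpq' c) := by
    classical
    intro s
    induction s using Finset.induction_on with
    | empty => simp [cv]
    | insert d s hd ih =>
      rw [sum_insert hd, sum_insert hd, ← ih]
      unfold cv
      rw [Measure.add_prod, Measure.map_add _ _ measurable_mul₂]
  rw [h1, dl_eq hpq a hb, smul_cv, h2]
  simp_rw [VV_fst]
  rw [smul_sum]

theorem nz_eq_labX (μ : Measure (ModSpace n)) (κ0 : Measure (SLR n)) [IsProbabilityMeasure μ]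
    [IsProbabilityMeasure κ0] (hij : i ≠ j) (r : ℝ) {b b' : ℕ} (hb' : 0 < b') (hpq : p ≠ q)
    (hpq' : p' ≠ q') (a c : ℝ) :
    nz (lab μ κ0 hij r b) (tot (VV hpq hpq' a c b')) KK
      = labX μ κ0 hij r b (cv (dl hpq a) (dl hpq' c)) := by
  funext d
  have := prob_VV (n := n) hpq hpq' a c hb'
  have h1 : nz (lab μ κ0 hij r b) (tot (VV hpq hpq' a c b')) KK d
      = ((lab μ κ0 hij r b d).prod (tot (VV hpq hpq' a c b'))).map KK := rfl
  rw [h1, map_KK, tot_VV_fst hpq hpq' a c hb']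
  rfl

theorem PP_eq (μ : Measure (ModSpace n)) (κ0 : Measure (SLR n)) [IsProbabilityMeasure μ]
    [IsProbabilityMeasure κ0] (hij : i ≠ j) (r : ℝ) {b b' : ℕ} (hb' : 0 < b') (hpq : p ≠ q)
    (hpq' : p' ≠ q') (a c : ℝ) :
    PP (lab μ κ0 hij r b) (VV hpq hpq' a c b')
      = pv (labX μ κ0 hij r b (cv (dl hpq a) (dl hpq' c))) := by
  funext d z
  unfold PP
  rw [nz_eq_labX μ κ0 hij r hb' hpq hpq' a c]

theorem tt_MM_fst {b b' : ℕ} (ρ : Fin b → Measure (ModSpace n)) [∀ c, IsFiniteMeasure (ρ c)]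
    (V : Fin b' → Measure (SLR n × ℝ)) [∀ c, IsFiniteMeasure (V c)] :
    (tt (MM ρ V)).map Prod.fst = stp (tot ρ) ((tot V).map Prod.fst) := by
  have h1 : (tt (MM ρ V)).map Prod.fst = ∑ i, (MM ρ V i).map Prod.fst := by
    unfold tt
    exact Measure.map_finset_sum measurable_fst.aemeasurable
  have h2 : ∀ i, (MM ρ V i).map Prod.fst = ((tot ρ).prod (V i)).map KK := fun i => by
    unfold MM
    rw [Measure.map_map measurable_fst measurable_KP]
    rfl
  rw [h1, ← map_KK, DEnd4_935.prod_tot]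
  simp_rw [h2]
  exact (Measure.map_finset_sum measurable_KK.aemeasurable).symm

theorem measurable_nn {b b' : ℕ} {S : Fin b → ℝ} {T : Fin b' → ℝ}
    {P : Fin b → ModSpace n → ℝ} {Q : Fin b' → ModSpace n → ℝ} (hP : ∀ d, Measurable (P d))
    (hQ : ∀ d, Measurable (Q d)) (a : ℝ) : Measurable (nn S T P Q a) := by
  unfold nn
  refine Finset.measurable_sum _ fun t _ => Measurable.const_mul ?_ _
  exact (((hP _).mul (hP _)).mul (hQ _)).mul (hQ _)

section Final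

variable {μ : Measure (ModSpace n)} [IsProbabilityMeasure μ] (hμ : AInv μ)
    {M u1 u2 w W η : ℝ} {B : Finset ℕ} (h : Rg n M u1 u2 w W) (h' : Rg n (2 * M) u1 u2 w W)
    (hw1 : 1 ≤ w) (he : 2 * Nz_323.CN n * (2:ℝ) ^ (-w) ≤ 1) (hc : 20 * c1N n ≤ u1)
    (hN : NC μ u1 u2 B η) {m : ℕ} [NeZero m] (hm : m ∈ B)
    (hjk : j ≠ k) (hkl : k ≠ l) (hjl : j ≠ l) {α β C G : ℕ} {γ : ℝ}
    {b : ℕ} [NeZero b] {a n0 : ℝ} (ha : 0 ≤ a) (hn : 0 < n0) {τ ε : ℝ} (hτ : 0 < τ)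

include hμ h h' hw1 he hc hN hm ha hn hτ

/-- **(NC)** in terms of `MM`, `VV`, `PP`, `nn`. -/
theorem nc_MM (hWα : (α:ℝ) + C + G ≤ W) (hWβ : (β:ℝ) + C + G ≤ W)
    (hfree1 : μ.real {x | ∀ r : ℕ, r < G → PZ μ u1 m j k (tz (Pi.single j (r : ℤ)) x) < τ} ≤ ε)
    (hfree2 : μ.real {x | ∀ r : ℕ, r < G → PZ μ u1 m k l (tz (Pi.single k (r : ℤ)) x) < τ} ≤ ε) :
    (tt (MM (lab μ (zt (RN j k l M)) hkl (β:ℝ) b) (VV hjk hjl (α:ℝ) γ b))).real
        {x | nn (rp (α:ℝ) b) (rp (β:ℝ) b)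
          (PP (lab μ (zt (RN j k l M)) hjk (α:ℝ) b) (VV hkl hjl (β:ℝ) γ b))
          (PP (lab μ (zt (RN j k l M)) hkl (β:ℝ) b) (VV hjk hjl (α:ℝ) γ b))
          ((2:ℝ) ^ (-(α:ℝ)) * a * ((2:ℝ) ^ (-(β:ℝ)) * a)) x.1 < n0 * n0}
      ≤ 2 * (ε + G * (2 * (2:ℝ) ^ ((C:ℝ) + G) * (a + 1 / b) + 8 * n0 + 2 / m
          + 10 * (e0 n w + (e0 n w + (2:ℝ) ^ (γ - α - β - C) / 2) + (2:ℝ) ^ (-(C:ℝ)) / 2)
          + E31 n m η w) / τ) + 3 / 2 * (2:ℝ) ^ (γ - α - β) + 8 * (2:ℝ) ^ (γ - α - β) / n0 := by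
  have hb : 0 < b := Nat.pos_of_ne_zero (NeZero.ne b)
  have hadm := h.adm_RN (j := j) (k := k) (l := l)
  have := isProb_zt hadm
  have h1 := nc_nn hμ h h' hw1 he hc hN hm hjk hkl hjl (γ := γ) (b := b) (a := a) (n0 := n0)
    ha hn hτ hWα hWβ hfree1 hfree2 (S := rp (α:ℝ) b) (T := rp (β:ℝ) b) (fun d => rfl) (fun d => rfl)
  refine le_trans (le_of_eq ?_) h1
  rw [PP_eq μ _ hjk (α:ℝ) hb hkl hjl (β:ℝ) γ, PP_eq μ _ hkl (β:ℝ) hb hjk hjl (α:ℝ) γ]
  set A : Set (ModSpace n) := {z | nn (rp (α:ℝ) b) (rp (β:ℝ) b)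
          (pv (labX μ (zt (RN j k l M)) hjk (α:ℝ) b (cv (dl hkl (β:ℝ)) (dl hjl γ))))
          (pv (labX μ (zt (RN j k l M)) hkl (β:ℝ) b (cv (dl hjk (α:ℝ)) (dl hjl γ))))
          ((2:ℝ) ^ (-(α:ℝ)) * a * ((2:ℝ) ^ (-(β:ℝ)) * a)) z < n0 * n0} with hA
  have hAm : MeasurableSet A := measurableSet_lt
    (measurable_nn (fun d => measurable_pv _ d) (fun d => measurable_pv _ d) _) measurable_const
  have h2 := tt_MM_fst (lab μ (zt (RN j k l M)) hkl (β:ℝ) b) (VV hjk hjl (α:ℝ) γ b)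
  rw [NScD_395.tot_lab_eq μ _ hkl (β:ℝ) hb, tot_VV_fst hjk hjl (α:ℝ) γ hb, stp_stp, cv_assoc] at h2
  rw [← h2, map_measureReal_apply measurable_fst hAm]
  rfl

end Final

/-! ### choice of the constants -/

theorem tendsto_two_rpow : Tendsto (fun w : ℝ => (2:ℝ) ^ (-w)) atTop (𝓝 0) := by
  have h2 : (fun w : ℝ => (2:ℝ) ^ (-w)) = fun w : ℝ => Real.exp (-(Real.log 2 * w)) := by
    funext w
    rw [Real.rpow_def_of_pos two_pos]
    congr 1
    ring
  rw [h2]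
  exact Real.tendsto_exp_neg_atTop_nhds_zero.comp
    (tendsto_id.const_mul_atTop (Real.log_pos one_lt_two))

/-- the error of (3.1) is small for `w` large and `η` small -/
theorem exists_E31 (n m : ℕ) {δ : ℝ} (hδ : 0 < δ) :
    ∃ w0 η0 : ℝ, 0 < η0 ∧ ∀ w η, w0 ≤ w → η ≤ η0 → E31 n m η w ≤ δ := by
  have h1 : Tendsto (fun w => 8 * √((δ / 16) ^ 2 / 2 + NScG_395.ew m (Nz_323.CN n) w
      + NScG_395.ew m (Nz_323.CN n) w) + (8 * m + 12) * (2 * Nz_323.CN n * (2:ℝ) ^ (-w))) atTop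
      (𝓝 (8 * √((δ / 16) ^ 2 / 2 + 0 + 0) + (8 * m + 12) * (2 * Nz_323.CN n * 0))) := by
    have hew := NScG_395.tendsto_ew m (Nz_323.CN n)
    refine Tendsto.add (Tendsto.const_mul _ ?_) (Tendsto.const_mul _
      (tendsto_two_rpow.const_mul _))
    exact (Real.continuous_sqrt.tendsto _).comp ((tendsto_const_nhds.add hew).add hew)
  have hlim : 8 * √((δ / 16) ^ 2 / 2 + 0 + 0) + (8 * m + 12) * (2 * Nz_323.CN n * 0) < δ := by
    have h2 : √((δ / 16) ^ 2 / 2 + 0 + 0) ≤ δ / 16 := by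
      refine Real.sqrt_le_iff.2 ⟨by positivity, ?_⟩
      nlinarith [sq_nonneg (δ / 16)]
    nlinarith
  obtain ⟨w0, hw0⟩ := (eventually_atTop.1 (h1.eventually (gt_mem_nhds hlim)))
  refine ⟨w0, (δ / 16) ^ 2 / 2, by positivity, fun w η hw hη => ?_⟩
  refine le_trans ?_ (hw0 w hw).le
  unfold E31
  gcongr

theorem exists_e0 (n : ℕ) {δ : ℝ} (hδ : 0 < δ) : ∃ w0 : ℝ, ∀ w, w0 ≤ w → e0 n w ≤ δ := by
  have h1 : Tendsto (fun w : ℝ => Nz_323.CN n * (2:ℝ) ^ (-w)) atTop (𝓝 (Nz_323.CN n * 0)) :=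
    tendsto_two_rpow.const_mul _
  obtain ⟨w0, hw0⟩ := eventually_atTop.1 (h1.eventually (gt_mem_nhds (by rw [mul_zero]; exact hδ)))
  exact ⟨w0, fun w hw => (hw0 w hw).le⟩

theorem exists_two_pow {δ : ℝ} (hδ : 0 < δ) : ∃ C : ℕ, (2:ℝ) ^ (-(C:ℝ)) ≤ δ := by
  obtain ⟨w0, hw0⟩ := eventually_atTop.1 (tendsto_two_rpow.eventually (gt_mem_nhds hδ))
  obtain ⟨C, hC⟩ := exists_nat_ge w0
  exact ⟨C, (hw0 C hC).le⟩

/-- **(NC), constants chosen**, depths `α = β = 0`. -/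
theorem nc_final (n : ℕ) {τ ε0 : ℝ} (hτ : 0 < τ) (hε0 : 0 < ε0) (G : ℕ) :
    ∃ (C : ℕ) (a n0 : ℝ), 0 < a ∧ 0 < n0 ∧ ∃ b0 K0 : ℕ, ∀ b K : ℕ, b0 ≤ b → K0 ≤ K →
    ∃ D0 w0 η0 : ℝ, 0 < η0 ∧
    ∀ (μ : Measure (ModSpace n)) [IsProbabilityMeasure μ], AInv μ →
    ∀ (M u1 u2 w W η : ℝ) (B : Finset ℕ), Rg n M u1 u2 w W → Rg n (2 * M) u1 u2 w W →
    w0 ≤ w → 20 * c1N n ≤ u1 → η ≤ η0 → NC μ u1 u2 B η → 2 ^ K ∈ B → (C:ℝ) + G ≤ W →
    ∀ (j k l : Fin n) (hjk : j ≠ k) (hkl : k ≠ l) (hjl : j ≠ l) (γ : ℝ), γ ≤ -D0 → ∀ ε : ℝ,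
    μ.real {x | ∀ r : ℕ, r < G → PZ μ u1 (2 ^ K) j k (tz (Pi.single j (r : ℤ)) x) < τ} ≤ ε →
    μ.real {x | ∀ r : ℕ, r < G → PZ μ u1 (2 ^ K) k l (tz (Pi.single k (r : ℤ)) x) < τ} ≤ ε →
    (tt (MM (lab μ (zt (RN j k l M)) hkl 0 b) (VV hjk hjl 0 γ b))).real
        {x | nn (rp 0 b) (rp 0 b)
          (PP (lab μ (zt (RN j k l M)) hjk 0 b) (VV hkl hjl 0 γ b))
          (PP (lab μ (zt (RN j k l M)) hkl 0 b) (VV hjk hjl 0 γ b))
          (a * a) x.1 < n0 * n0} ≤ 2 * ε + ε0 := by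
  set K1 : ℝ := 2 * G / τ with hK1
  have hK10 : 0 ≤ K1 := by positivity
  set δ : ℝ := ε0 / (16 * (K1 + 1)) with hδ
  have hδ0 : 0 < δ := by positivity
  obtain ⟨C, hC⟩ := exists_two_pow (δ := δ / 5) (by positivity)
  set n0 : ℝ := δ / 8 with hn0
  set P2 : ℝ := 2 * (2:ℝ) ^ ((C:ℝ) + G) with hP2
  have hP20 : 0 < P2 := by positivity
  set a : ℝ := δ / P2 with ha
  have hn00 : 0 < n0 := by positivity
  have ha0 : 0 < a := by positivity
  obtain ⟨b0, hb0⟩ := exists_nat_ge (P2 / δ + 1)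
  obtain ⟨K0, hK0⟩ := exists_two_pow (δ := δ / 2) (by positivity)
  refine ⟨C, a, n0, ha0, hn00, b0, K0, fun b K hb hK => ?_⟩
  obtain ⟨D0, hD0⟩ := exists_two_pow (δ := min (δ / 5) (δ * n0 / 8)) (by positivity)
  obtain ⟨w1, hw1⟩ := exists_e0 n (δ := δ / 20) (by positivity)
  obtain ⟨w2, hw2⟩ := exists_e0 n (δ := 1 / 2) (by positivity)
  obtain ⟨w3, η0, hη0, hw3⟩ := exists_E31 n (2 ^ K) hδ0
  refine ⟨D0, max 1 (max w1 (max w2 w3)), η0, hη0, ?_⟩
  intro μ hμp hμ M u1 u2 w W η B hR hR2 hw hc hη hN hKB hW j k l hjk hkl hjl γ hγ ε hf1 hf2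
  have hwa : 1 ≤ w := (le_max_left _ _).trans hw
  have hwb : w1 ≤ w := ((le_max_left _ _).trans (le_max_right _ _)).trans hw
  have hwc : w2 ≤ w := ((le_max_left _ _).trans ((le_max_right _ _).trans (le_max_right _ _))).trans hw
  have hwd : w3 ≤ w := ((le_max_right _ _).trans ((le_max_right _ _).trans (le_max_right _ _))).trans hw
  have he : 2 * Nz_323.CN n * (2:ℝ) ^ (-w) ≤ 1 := by
    have := hw2 w hwc
    unfold e0 at this
    linarith
  have hb1 : 0 < b := by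
    have h1 : (1:ℝ) ≤ b0 := by
      have : 0 ≤ P2 / δ := by positivity
      linarith
    have h2 : 1 ≤ b0 := by exact_mod_cast h1
    omega
  have : NeZero b := ⟨hb1.ne'⟩
  have : NeZero (2 ^ K : ℕ) := ⟨by positivity⟩
  have h1 := nc_MM (α := 0) (β := 0) hμ hR hR2 hwa he hc hN hKB hjk hkl hjl (γ := γ) (b := b)
    (a := a) (n0 := n0) (C := C) (G := G) ha0.le hn00 hτ (by simpa using hW) (by simpa using hW)
    hf1 hf2
  simp only [Nat.cast_zero, neg_zero, Real.rpow_zero, one_mul, sub_zero] at h1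
  refine h1.trans ?_
  -- the terms
  have hb2 : (0:ℝ) < b := by exact_mod_cast hb1
  have t1 : P2 * a = δ := by rw [ha]; field_simp
  have t2 : P2 * (1 / b) ≤ δ := by
    have h2 : P2 / δ ≤ b := by
      have : (b0:ℝ) ≤ b := by exact_mod_cast hb
      linarith
    rw [div_le_iff₀ hδ0] at h2
    rw [mul_one_div, div_le_iff₀ hb2]
    linarith
  have t3 : 8 * n0 = δ := by rw [hn0]; ring
  have t4 : 2 / ((2 ^ K : ℕ) : ℝ) ≤ δ := by
    have h2 : ((2 ^ K : ℕ) : ℝ)⁻¹ ≤ δ / 2 := by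
      refine le_trans ?_ hK0
      rw [Real.rpow_neg two_pos.le, Real.rpow_natCast]
      push_cast
      exact inv_anti₀ (by positivity) (pow_le_pow_right₀ one_le_two hK)
    rw [div_eq_mul_inv]
    linarith
  have t5 : e0 n w ≤ δ / 20 := hw1 w hwb
  have t6 : E31 n (2 ^ K) η w ≤ δ := hw3 w η hwd hη
  have hg : (2:ℝ) ^ γ ≤ min (δ / 5) (δ * n0 / 8) :=
    (Real.rpow_le_rpow_of_exponent_le one_le_two hγ).trans hD0
  have hg0 : 0 < (2:ℝ) ^ γ := Real.rpow_pos_of_pos two_pos _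
  have hg1 : (2:ℝ) ^ γ ≤ δ / 5 := hg.trans (min_le_left _ _)
  have hg2 : (2:ℝ) ^ γ ≤ δ * n0 / 8 := hg.trans (min_le_right _ _)
  have t7 : (2:ℝ) ^ (γ - C) ≤ δ / 5 := by
    refine le_trans (Real.rpow_le_rpow_of_exponent_le one_le_two ?_) hg1
    have : (0:ℝ) ≤ C := Nat.cast_nonneg C
    linarith
  have t8 : 8 * (2:ℝ) ^ γ / n0 ≤ δ := by
    rw [div_le_iff₀ hn00]; linarith
  have t9 : P2 * (a + 1 / b) ≤ 2 * δ := by rw [mul_add]; linarith
  set X := P2 * (a + 1 / b) + 8 * n0 + 2 / ((2 ^ K : ℕ) : ℝ)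
          + 10 * (e0 n w + (e0 n w + (2:ℝ) ^ (γ - C) / 2) + (2:ℝ) ^ (-(C:ℝ)) / 2)
          + E31 n (2 ^ K) η w with hX
  have hXle : X ≤ 8 * δ := by
    rw [hX]
    linarith
  have e1 : 2 * (ε + G * X / τ) = 2 * ε + K1 * X := by rw [hK1]; field_simp
  have h2 : K1 * X ≤ 8 * (K1 * δ) := by
    have := mul_le_mul_of_nonneg_left hXle hK10
    linarith
  have h3 : 16 * (K1 * δ) + 16 * δ = ε0 := by rw [hδ]; field_simp
  have h5 : 0 ≤ K1 * δ := by positivity
  have h4 : 2 * (ε + G * X / τ) + 3 / 2 * (2:ℝ) ^ γ + 8 * (2:ℝ) ^ γ / n0 ≤ 2 * ε + ε0 := by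
    rw [e1]
    linarith
  exact h4

end Crest.Agent.R014.DEnd3_667
end
end

-- ▼ part R014/DEnd6b_71

/-!
# Row 14, block D, END, part 6b (helper71): order of the constants

`GapSt`: the two entropy gaps from near constancy.  `end_st`: together with helper667's `nc_final`
and `core` they give `AsmB_460.End' PZ Fr`.
-/

set_option autoImplicit false

open MeasureTheory Filter Topology
open Crest.NumberTheoryR.Packets
open Crest.Agent.R014.Ms_667
open Crest.Agent.R014.Nd_837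
open Crest.Agent.R014.Ne1_567
open Crest.Agent.R014.DEnd3_935
open Crest.Agent.R014.DEnd4_935
open Crest.Agent.R014.NScH_395 (NC PZ c1N)
open Crest.Agent.R014.NScG_458 (RN)
open Crest.Agent.R014.Sw4_640 (Rg e0)
open Crest.Agent.R014.DSkel_792 (tz)
open Crest.Agent.R014.AsmB2_460 (Fr)
open scoped ENNReal

namespace Crest.Agent.R014.DEnd6_71

/-- the two entropy gaps of the Heisenberg observation. -/
def GapSt (n : ℕ) : Prop :=
  ∀ b : ℕ, 0 < b → ∀ η' : ℝ, 0 < η' → ∃ η U D0 : ℝ, 0 < η ∧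
    ∀ μ : Measure (ModSpace n), IsProbabilityMeasure μ → AInv μ →
    ∀ u1 u2 M W : ℝ, U ≤ u1 → 100 * (u1 + W) ≤ M → 2 * M ≤ u2 / 20 → NC μ u1 u2 {b} η →
    ∀ (j k l : Fin n) (hjk : j ≠ k) (hkl : k ≠ l) (hjl : j ≠ l) (γ : ℝ), |γ| ≤ W → D0 ≤ -γ →
      Hc (nz (lab μ (zt (RN j k l M)) hkl 0 b) (tot (VV hjk hjl 0 γ b)) KK)
        - Hc (lab μ (zt (RN j k l M)) hkl 0 b) ≤ η' ∧
      Hc (nz (lab μ (zt (RN j k l M)) hjk 0 b) (tot (VV hkl hjl 0 γ b)) KK)
        - Hc (lab μ (zt (RN j k l M)) hjk 0 b) ≤ η'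

/-! ### elementary choices -/

theorem exists_half_pow {x : ℝ} (hx : 0 < x) : ∃ N : ℕ, ∀ s : ℝ, N ≤ s → (2 : ℝ) ^ (-s) ≤ x := by
  obtain ⟨N, hN⟩ := exists_pow_lt_of_lt_one hx (by norm_num : (1 / 2 : ℝ) < 1)
  refine ⟨N, fun s hs => ?_⟩
  have h1 : (2 : ℝ) ^ (-s) ≤ (2 : ℝ) ^ (-(N : ℝ)) :=
    Real.rpow_le_rpow_of_exponent_le one_le_two (neg_le_neg hs)
  have h2 : (2 : ℝ) ^ (-(N : ℝ)) = (1 / 2 : ℝ) ^ N := by
    rw [Real.rpow_neg two_pos.le, Real.rpow_natCast, one_div, inv_pow]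
  rw [h2] at h1
  exact h1.trans hN.le

theorem exists_inv_le {x A : ℝ} (hx : 0 < x) (hA : 0 ≤ A) : ∃ N : ℕ, 0 < N ∧ ∀ b : ℕ, N ≤ b →
    A * (1 / b) ≤ x := by
  obtain ⟨N, hN⟩ := exists_nat_gt (A / x)
  have hN0 : (0 : ℝ) < N := lt_of_le_of_lt (by positivity) hN
  refine ⟨N, by exact_mod_cast hN0, fun b hb => ?_⟩
  have hb' : (N : ℝ) ≤ b := by exact_mod_cast hb
  have hb0 : (0 : ℝ) < b := hN0.trans_le hb'
  rw [div_lt_iff₀ hx] at hN
  rw [mul_one_div, div_le_iff₀ hb0]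
  nlinarith

/-- the final arithmetic. -/
theorem final_arith {ε'' Bf Lc Y a n0 : ℝ} (hB : 0 < Bf) (hL : 0 < Lc)
    (ha : 0 < a) (hn : 0 < n0)
    (hY : Y ≤ ε'' * (a * a) * (n0 * n0) / (8 * Bf * Lc)) (hε : 0 < ε'') :
    2 * (ε'' / 8) + Bf * (2 * (2 * (ε'' / (32 * Bf)) + ε'' / (16 * Bf))
      + Lc / (a * a) * Y / (n0 * n0)) ≤ ε'' := by
  have h5 : Bf * (Lc / (a * a) * Y / (n0 * n0)) ≤ ε'' / 8 := by
    calc Bf * (Lc / (a * a) * Y / (n0 * n0))
        ≤ Bf * (Lc / (a * a) * (ε'' * (a * a) * (n0 * n0) / (8 * Bf * Lc)) / (n0 * n0)) := by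
          gcongr
      _ = ε'' / 8 := by field_simp
  have h6 : Bf * (2 * (2 * (ε'' / (32 * Bf)) + ε'' / (16 * Bf))) = ε'' / 4 := by
    field_simp; ring
  rw [mul_add, h6]
  linarith

/-- **END**, from the entropy gaps. -/
theorem end_st {n : ℕ} (hn : 3 ≤ n) (hG : GapSt n) : AsmB_460.End' (n := n) PZ Fr := by
  intro f hf i j hij v ε'' hε
  obtain ⟨k, hik, hkj⟩ : ∃ k : Fin n, i ≠ k ∧ k ≠ j := by
    have hc : ({i, j} : Finset (Fin n)).card < (Finset.univ : Finset (Fin n)).card := by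
      rw [Finset.card_univ, Fintype.card_fin]
      exact lt_of_le_of_lt (Finset.card_le_two) (by omega)
    obtain ⟨k, _, hk⟩ := Finset.exists_mem_notMem_of_card_lt_card hc
    simp only [Finset.mem_insert, Finset.mem_singleton, not_or] at hk
    exact ⟨k, Ne.symm hk.1, hk.2⟩
  obtain ⟨Bf, Lc, w2, hBf, hLc, hfB, hcore⟩ := core hik hkj hij hf v
    (show 0 < ε'' / 8 by positivity)
  refine ⟨ε'' / (32 * Bf), by positivity, fun G τ hτ => ?_⟩
  obtain ⟨C, a, n0, ha, hn0, b0, K0, hnc⟩ := DEnd3_667.nc_final n hτ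
    (show 0 < ε'' / (16 * Bf) by positivity) G
  refine ⟨K0, fun K hK => AsmB2_460.ev_of ?_⟩
  set y0 : ℝ := ε'' * (a * a) * (n0 * n0) / (8 * Bf * Lc) with hy0
  have hy0p : 0 < y0 := by positivity
  obtain ⟨b1, hb1, hb1'⟩ := exists_inv_le (x := y0 / 3) (A := 2 * Lc) (by positivity)
    (by positivity)
  set b : ℕ := max b0 b1 with hb
  have hbpos : 0 < b := lt_of_lt_of_le hb1 (le_max_right _ _)
  have hbl := hb1' b (le_max_right _ _)
  obtain ⟨D1, w0, η0, hη0, hnc⟩ := hnc b K (le_max_left _ _) hK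
  obtain ⟨ηg, Ug, D2, hηg, hgap⟩ := hG b hbpos ((y0 / 12) ^ 2) (by positivity)
  obtain ⟨N, hN⟩ := exists_half_pow (x := y0 / 3) (by positivity)
  set D : ℝ := max D1 (max D2 N) with hD
  have hD1 : D1 ≤ D := le_max_left _ _
  have hD2 : D2 ≤ D := (le_max_left _ _).trans (le_max_right _ _)
  have hDN : (N : ℝ) ≤ D := (le_max_right _ _).trans (le_max_right _ _)
  have hD0 : 0 ≤ D := (Nat.cast_nonneg N).trans hDN
  have hγ : (2 : ℝ) ^ (-D) ≤ y0 / 3 := hN D hDN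
  set W : ℝ := max ((C : ℝ) + G) D with hW
  have hW0 : 0 ≤ W := hD0.trans (le_max_right _ _)
  set w : ℝ := max w0 0 with hw
  have hw0 : 0 ≤ w := le_max_right _ _
  set U : ℝ := max Ug (max W (max (20 * w) (max (20 * c1N n) (max w2 0)))) with hU
  refine ⟨{b, 2 ^ K}, min ηg η0, 1 / 20000, U, lt_min hηg hη0, by norm_num, ?_⟩
  intro μ hμp hμ u1 u2 hU1 hu12 hN' hfree
  have g1 : Ug ≤ u1 := (le_max_left _ _).trans hU1
  have g2 : W ≤ u1 := ((le_max_left _ _).trans (le_max_right _ _)).trans hU1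
  have g3 : 20 * w ≤ u1 :=
    (((le_max_left _ _).trans (le_max_right _ _)).trans (le_max_right _ _)).trans hU1
  have g4 : 20 * c1N n ≤ u1 :=
    ((((le_max_left _ _).trans (le_max_right _ _)).trans (le_max_right _ _)).trans
      (le_max_right _ _)).trans hU1
  have g5 : w2 ≤ u1 :=
    (((((le_max_left _ _).trans (le_max_right _ _)).trans (le_max_right _ _)).trans
      (le_max_right _ _)).trans (le_max_right _ _)).trans hU1
  have hu10 : 0 ≤ u1 := hW0.trans g2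
  set M : ℝ := 100 * (u1 + W) with hM
  have hM0 : 0 ≤ M := by positivity
  have hadm : ((n.factorial : ℝ) + 1) * 2 ^ (n + 1) ≤ (2 : ℝ) ^ (u1 / 20) := by
    have h1 : c1N n ≤ u1 / 20 := by linarith
    have h2 : ((n.factorial : ℝ) + 1) * 2 ^ (n + 1) = (2 : ℝ) ^ (c1N n) := by
      unfold NScH_395.c1N
      rw [Real.rpow_logb two_pos (by norm_num) (by positivity)]
    rw [h2]
    exact Real.rpow_le_rpow_of_exponent_le one_le_two h1
  have hR1 : Rg n M u1 u2 w W :=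
    ⟨hw0, by linarith, hW0, hadm, by rw [hM]; linarith, by rw [hM]; linarith⟩
  have hR2 : Rg n (2 * M) u1 u2 w W :=
    ⟨hw0, by linarith, hW0, hadm, by rw [hM]; linarith, by rw [hM]; linarith⟩
  have hNg : NC μ u1 u2 {b} ηg :=
    hN'.mono (Finset.singleton_subset_iff.2 (Finset.mem_insert_self _ _)) (min_le_left _ _)
  have hgap' := hgap μ hμp hμ u1 u2 M W g1 le_rfl (by rw [hM]; linarith) hNg i k j hik hkj hij (-D)
    (by rw [abs_neg, abs_of_nonneg hD0]; exact le_max_right _ _) (by rw [neg_neg]; exact hD2)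
  have hncc := hnc μ hμ M u1 u2 w W (min ηg η0) {b, 2 ^ K} hR1 hR2 (le_max_left _ _) g4
    (min_le_right _ _) hN' (Finset.mem_insert_of_mem (Finset.mem_singleton_self _))
    (le_max_left _ _) i k j hik hkj hij (-D) (by linarith) (ε'' / (32 * Bf))
    (hfree i k hik) (hfree k j hkj)
  have hc := hcore (RN i k j M) hR1.adm_RN (fun p q => by
      have h1 := NScG_458.RN_ge (j := i) (k := k) (l := j) hM0 p q
      rw [hM] at h1
      linarith) μ hμp hμ (-D) b b hbpos hbpos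
    ((y0 / 12) ^ 2) ((y0 / 12) ^ 2) (a * a) (n0 * n0) (2 * (ε'' / (32 * Bf)) + ε'' / (16 * Bf))
    (by positivity) (by positivity) hgap'.1 hgap'.2 hncc
  refine le_trans hc ?_
  have hs : √(4 * (y0 / 12) ^ 2) = y0 / 6 := by
    rw [show 4 * (y0 / 12) ^ 2 = (y0 / 6) ^ 2 by ring]
    exact Real.sqrt_sq (by positivity)
  have hY : √(4 * (y0 / 12) ^ 2) + √(4 * (y0 / 12) ^ 2) + ((2 : ℝ) ^ (-D)
      + Lc * (1 / (b : ℝ) + 1 / (b : ℝ))) ≤ y0 := by
    rw [hs]
    have h1 : Lc * (1 / (b : ℝ) + 1 / (b : ℝ)) = 2 * Lc * (1 / b) := by ring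
    rw [h1]
    linarith
  exact final_arith hBf hLc ha hn0 hY hε

end Crest.Agent.R014.DEnd6_71
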