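import Crest.Agent.R014.BoxV_71

-- ▼ part R014/Pt_71
section

/-!
# Row 14: the point of `SL_n(ℤ)\SL_n(ℝ)` given by a matrix (helper71)

`pt B` = coset of `normalizeDet B` (`latticePoint m σ = pt (embMatrix m σ)` definitionally).
`pt_mul_sl`, `pt_gl`, `pt_smul`, `pt_of_mk`, `orbitMap_pt`.
-/

set_option autoImplicit false
open MeasureTheory Set Matrix
open Crest Crest.NumberTheoryR Crest.NumberTheoryR.Packets

namespace Crest.Agent.R014.Pt_71

open BoxV_71

variable {n : ℕ}

/-- the point given by a real matrix. -/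
noncomputable def pt (B : Matrix (Fin n) (Fin n) ℝ) : ModSpace n :=
  if h : (normalizeDet B).det = 1 then Quotient.mk _ (⟨normalizeDet B, h⟩ : SLR n)
  else Quotient.mk _ 1

theorem latticePoint_eq {K : Type*} [Field K] [NumberField K] (m : LatticeBasis n K)
    (σ : Fin n ≃ (K →+* ℝ)) : latticePoint m σ = pt (embMatrix m σ) := rfl

/-- sign matrix `diag(-1,1,…,1)` over a commutative ring. -/
def flip (n : ℕ) (R : Type*) [CommRing R] : Matrix (Fin n) (Fin n) R :=
  Matrix.diagonal fun i => if i.val = 0 then -1 else 1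

theorem flip_mul_flip (n : ℕ) (R : Type*) [CommRing R] : flip n R * flip n R = 1 := by
  unfold flip
  rw [Matrix.diagonal_mul_diagonal, ← Matrix.diagonal_one]
  congr 1
  funext i
  split_ifs <;> simp

theorem det_flip (n : ℕ) (hn : 0 < n) (R : Type*) [CommRing R] : (flip n R).det = -1 := by
  obtain ⟨d, rfl⟩ : ∃ d, n = d + 1 := ⟨n - 1, by omega⟩
  unfold flip
  rw [Matrix.det_diagonal, Fin.prod_univ_succ]
  simp

theorem map_flip (n : ℕ) : (flip n ℤ).map (Int.castRingHom ℝ) = flip n ℝ := by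
  ext i j
  simp only [flip, Matrix.map_apply, Matrix.diagonal_apply]
  split_ifs <;> simp

theorem normalizeDet_eq (B : Matrix (Fin n) (Fin n) ℝ) :
    normalizeDet B =
      if B.det < 0 then flip n ℝ * ((|B.det| ^ (-(1 : ℝ) / n)) • B)
      else (|B.det| ^ (-(1 : ℝ) / n)) • B := by
  ext i j
  by_cases h : B.det < 0
  · simp only [normalizeDet, h, true_and, if_true, flip, Matrix.diagonal_mul]
    split_ifs <;> simp
  · simp only [normalizeDet, h, false_and, if_false]

theorem det_normalizeDet (hn : 0 < n) {B : Matrix (Fin n) (Fin n) ℝ} (hB : B.det ≠ 0) :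
    (normalizeDet B).det = 1 := by
  have h1 : (|B.det| ^ (-(1 : ℝ) / n)) ^ n = |B.det|⁻¹ := by
    rw [← Real.rpow_natCast, ← Real.rpow_mul (abs_nonneg _)]
    have hn' : (n : ℝ) ≠ 0 := by positivity
    rw [show -(1 : ℝ) / n * n = -1 by field_simp, Real.rpow_neg_one]
  rw [normalizeDet_eq]
  split_ifs with h
  · rw [Matrix.det_mul, det_flip n hn, Matrix.det_smul, Fintype.card_fin, h1, abs_of_neg h]
    field_simp
  · have h0 : 0 < B.det := lt_of_le_of_ne (not_lt.1 h) (Ne.symm hB)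
    rw [Matrix.det_smul, Fintype.card_fin, h1, abs_of_pos h0]
    field_simp

theorem pt_eq_mk (hn : 0 < n) {B : Matrix (Fin n) (Fin n) ℝ} (hB : B.det ≠ 0) :
    pt B = Quotient.mk _ (⟨normalizeDet B, det_normalizeDet hn hB⟩ : SLR n) := by
  unfold pt
  rw [dif_pos (det_normalizeDet hn hB)]
  rfl

/-- two elements of `SL_n(ℝ)` that differ by an integral matrix give the same point. -/
theorem mk_eq_of_gl {g h : SLR n} (γ : Matrix (Fin n) (Fin n) ℤ)
    (hγ : g.1 = (γ.map (Int.castRingHom ℝ)) * h.1) :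
    (Quotient.mk _ g : ModSpace n) = Quotient.mk _ h := by
  have hdet : γ.det = 1 := by
    have h1 := congrArg Matrix.det hγ
    rw [Matrix.det_mul, g.2, h.2, mul_one] at h1
    have h2 : (Int.castRingHom ℝ) γ.det = 1 := by
      rw [RingHom.map_det]
      exact h1.symm
    have h3 : ((γ.det : ℤ) : ℝ) = 1 := h2
    exact_mod_cast h3
  refine Quotient.sound ?_
  show QuotientGroup.rightRel (intPoints n) g h
  rw [QuotientGroup.rightRel_apply]
  have h4 : h * g⁻¹ = (Matrix.SpecialLinearGroup.map (n := Fin n) (Int.castRingHom ℝ)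
      (⟨γ, hdet⟩ : Matrix.SpecialLinearGroup (Fin n) ℤ))⁻¹ := by
    rw [eq_inv_iff_mul_eq_one, mul_assoc, mul_eq_one_iff_eq_inv, _root_.mul_inv_rev, inv_inv,
      eq_comm, inv_mul_eq_iff_eq_mul]
    apply Subtype.ext
    show g.1 = _ * h.1
    exact hγ
  rw [h4]
  exact (intPoints n).inv_mem ⟨_, rfl⟩

/-- conversely. -/
theorem exists_gl_of_mk_eq {g h : SLR n} (hgh : (Quotient.mk _ g : ModSpace n) = Quotient.mk _ h) :
    ∃ γ : Matrix (Fin n) (Fin n) ℤ, γ.det = 1 ∧ g.1 = (γ.map (Int.castRingHom ℝ)) * h.1 := by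
  have h1 : QuotientGroup.rightRel (intPoints n) g h := Quotient.exact hgh
  rw [QuotientGroup.rightRel_apply] at h1
  obtain ⟨γ, hγ⟩ := h1
  refine ⟨γ⁻¹.1, γ⁻¹.2, ?_⟩
  have h2 : g = (Matrix.SpecialLinearGroup.map (n := Fin n) (Int.castRingHom ℝ) γ⁻¹) * h := by
    rw [map_inv]
    have h3 : (Matrix.SpecialLinearGroup.map (n := Fin n) (Int.castRingHom ℝ) γ) = h * g⁻¹ := hγ
    rw [h3]
    group
  exact congrArg Subtype.val h2

/-- `pt` does not change under left multiplication by an integral matrix of determinant `±1`. -/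
theorem pt_gl (hn : 0 < n) {B : Matrix (Fin n) (Fin n) ℝ} (hB : B.det ≠ 0)
    (γ : Matrix (Fin n) (Fin n) ℤ) (hγ : γ.det = 1 ∨ γ.det = -1) :
    pt ((γ.map (Int.castRingHom ℝ)) * B) = pt B := by
  set G := γ.map (Int.castRingHom ℝ) with hG
  have hGdet : G.det = ((γ.det : ℤ) : ℝ) := by
    rw [hG]
    exact (RingHom.map_det (Int.castRingHom ℝ) γ).symm
  have hGB : (G * B).det ≠ 0 := by
    rw [Matrix.det_mul, hGdet]
    refine mul_ne_zero ?_ hB
    rcases hγ with h | h <;> simp [h]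
  rw [pt_eq_mk hn hB, pt_eq_mk hn hGB]
  have habs : |(G * B).det| = |B.det| := by
    rw [Matrix.det_mul, hGdet, abs_mul]
    rcases hγ with h | h <;> simp [h]
  set c : ℝ := |B.det| ^ (-(1 : ℝ) / n) with hc
  have hF : (flip n ℤ).map (Int.castRingHom ℝ) = flip n ℝ := map_flip n
  -- the four cases
  by_cases hB0 : B.det < 0 <;> by_cases hGB0 : (G * B).det < 0
  · refine mk_eq_of_gl (flip n ℤ * γ * flip n ℤ) ?_
    show normalizeDet (G * B) = _ * normalizeDet B
    rw [normalizeDet_eq, normalizeDet_eq, if_pos hB0, if_pos hGB0, habs, Matrix.map_mul,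
      Matrix.map_mul, hF, ← hc, ← hG]
    rw [Matrix.mul_assoc (flip n ℝ * G), ← Matrix.mul_assoc (flip n ℝ) (flip n ℝ),
      flip_mul_flip, Matrix.one_mul, Matrix.mul_assoc, Matrix.mul_smul, Matrix.mul_smul,
      Matrix.mul_smul]
  · refine mk_eq_of_gl (γ * flip n ℤ) ?_
    show normalizeDet (G * B) = _ * normalizeDet B
    rw [normalizeDet_eq, normalizeDet_eq, if_pos hB0, if_neg hGB0, habs, Matrix.map_mul,
      hF, ← hc, ← hG]
    rw [Matrix.mul_assoc G, ← Matrix.mul_assoc (flip n ℝ) (flip n ℝ),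
      flip_mul_flip, Matrix.one_mul, Matrix.mul_smul]
  · refine mk_eq_of_gl (flip n ℤ * γ) ?_
    show normalizeDet (G * B) = _ * normalizeDet B
    rw [normalizeDet_eq, normalizeDet_eq, if_neg hB0, if_pos hGB0, habs, Matrix.map_mul,
      hF, ← hc, ← hG]
    rw [Matrix.mul_assoc, Matrix.mul_smul, Matrix.mul_smul, Matrix.mul_smul]
  · refine mk_eq_of_gl γ ?_
    show normalizeDet (G * B) = _ * normalizeDet B
    rw [normalizeDet_eq, normalizeDet_eq, if_neg hB0, if_neg hGB0, habs, ← hc, ← hG,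
      Matrix.mul_smul]

/-- `pt` does not change under positive scaling. -/
theorem pt_smul (hn : 0 < n) {B : Matrix (Fin n) (Fin n) ℝ} (hB : B.det ≠ 0) {c : ℝ}
    (hc : 0 < c) : pt (c • B) = pt B := by
  have hn' : (n : ℝ) ≠ 0 := by positivity
  have hcB : (c • B).det ≠ 0 := by
    rw [Matrix.det_smul]
    positivity
  have hdet : (c • B).det = c ^ n * B.det := by rw [Matrix.det_smul, Fintype.card_fin]
  have hN : normalizeDet (c • B) = normalizeDet B := by
    have h1 : |(c • B).det| ^ (-(1 : ℝ) / n) • (c • B) = |B.det| ^ (-(1 : ℝ) / n) • B := by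
      rw [hdet, abs_mul, abs_of_pos (pow_pos hc n), Real.mul_rpow (pow_pos hc n).le (abs_nonneg _),
        smul_smul, ← Real.rpow_natCast c n, ← Real.rpow_mul hc.le,
        show (n : ℝ) * (-(1 : ℝ) / n) = -1 by field_simp, Real.rpow_neg_one]
      congr 1
      field_simp
    have h2 : (c • B).det < 0 ↔ B.det < 0 := by
      rw [hdet]
      exact ⟨fun h => by
        by_contra hh
        push Not at hh
        have := mul_nonneg (pow_pos hc n).le hh
        linarith, fun h => mul_neg_of_pos_of_neg (pow_pos hc n) h⟩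
    rw [normalizeDet_eq, normalizeDet_eq, h1]
    by_cases h : B.det < 0
    · rw [if_pos h, if_pos (h2.2 h)]
    · rw [if_neg h, if_neg (fun hh => h (h2.1 hh))]
  unfold pt
  simp only [hN]

/-- right action on `pt`. -/
theorem act_pt (hn : 0 < n) {B : Matrix (Fin n) (Fin n) ℝ} (hB : B.det ≠ 0) (g : SLR n) :
    act (pt B) g = pt (B * g.1) := by
  have hdet : (B * g.1).det = B.det := by rw [Matrix.det_mul, g.2, mul_one]
  rw [pt_eq_mk hn hB, pt_eq_mk hn (by rw [hdet]; exact hB)]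
  refine (act_mk _ _).trans ?_
  congr 1
  apply Subtype.ext
  show normalizeDet B * g.1 = normalizeDet (B * g.1)
  rw [normalizeDet_eq, normalizeDet_eq, hdet]
  split_ifs
  · rw [Matrix.mul_assoc, Matrix.smul_mul]
  · rw [Matrix.smul_mul]


/-- if `mk H = pt B` then `H = c γ B` with `γ` integral, `det γ = ±1`, `c = |det B|^(-1/n)`. -/
theorem exists_gl_of_mk_eq_pt (hn : 0 < n) (H : SLR n) {B : Matrix (Fin n) (Fin n) ℝ}
    (hB : B.det ≠ 0) (h : (Quotient.mk _ H : ModSpace n) = pt B) :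
    ∃ γ : Matrix (Fin n) (Fin n) ℤ, (γ.det = 1 ∨ γ.det = -1) ∧
      H.1 = (|B.det| ^ (-(1 : ℝ) / n)) • ((γ.map (Int.castRingHom ℝ)) * B) := by
  rw [pt_eq_mk hn hB] at h
  obtain ⟨γ, hγ, hH⟩ := exists_gl_of_mk_eq h
  have hH' : H.1 = (γ.map (Int.castRingHom ℝ)) * normalizeDet B := hH
  rw [normalizeDet_eq] at hH'
  by_cases h0 : B.det < 0
  · rw [if_pos h0] at hH'
    refine ⟨γ * flip n ℤ, ?_, ?_⟩
    · right
      rw [Matrix.det_mul, hγ, det_flip n hn, one_mul]
    · rw [hH', Matrix.map_mul, map_flip, Matrix.mul_smul, Matrix.mul_smul, Matrix.mul_assoc]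
  · rw [if_neg h0] at hH'
    exact ⟨γ, Or.inl hγ, by rw [hH', Matrix.mul_smul]⟩

end Crest.Agent.R014.Pt_71
end

-- ▼ part R014/Emb_71

/-!
# Row 14: real embeddings, trace, norm, dual elements (helper71)

`σ : Fin n ≃ (K →+* ℝ)` with `finrank ℚ K = n` (so `K` is totally real).
`trace_eq`, `norm_eq`, `LatticeBasis.basis` (`bas`), `det_embMatrix_ne_zero`,
`exists_dual` (for `q : Fin n → ℚ` there is `b` with `Tr(m_i b) = q_i`), `emb_mulVec_dual`.
-/

set_option autoImplicit false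
open MeasureTheory Set Matrix
open Crest Crest.NumberTheoryR Crest.NumberTheoryR.Packets

namespace Crest.Agent.R014.Emb_71

open BoxV_71 Pt_71

variable {n : ℕ} {K : Type*} [Field K] [NumberField K]

/-- complexified embeddings. -/
noncomputable def toC (σ : Fin n ≃ (K →+* ℝ)) (j : Fin n) : K →ₐ[ℚ] ℂ :=
  (Complex.ofRealHom.comp (σ j)).toRatAlgHom

theorem toC_apply (σ : Fin n ≃ (K →+* ℝ)) (j : Fin n) (x : K) : toC σ j x = ((σ j x : ℝ) : ℂ) := rfl

theorem toC_bijective (σ : Fin n ≃ (K →+* ℝ)) (hn : Module.finrank ℚ K = n) :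
    Function.Bijective (toC σ) := by
  rw [Fintype.bijective_iff_injective_and_card]
  refine ⟨?_, ?_⟩
  · intro i j h
    apply σ.injective
    ext x
    have := congrArg (fun f : K →ₐ[ℚ] ℂ => f x) h
    simp only [toC_apply] at this
    exact_mod_cast this
  · rw [Fintype.card_fin, AlgHom.card ℚ K ℂ, hn]

theorem trace_eq (σ : Fin n ≃ (K →+* ℝ)) (hn : Module.finrank ℚ K = n) (x : K) :
    ((Algebra.trace ℚ K x : ℚ) : ℝ) = ∑ j, σ j x := by
  have h := trace_eq_sum_embeddings (K := ℚ) (L := K) ℂ (x := x)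
  have h2 : ∑ τ : K →ₐ[ℚ] ℂ, τ x = ∑ j, toC σ j x :=
    (Fintype.sum_bijective (toC σ) (toC_bijective σ hn) _ _ (fun _ => rfl)).symm
  rw [h2] at h
  simp only [toC_apply] at h
  have h3 : ((((Algebra.trace ℚ K x : ℚ) : ℝ)) : ℂ) = ((∑ j, σ j x : ℝ) : ℂ) := by
    rw [Complex.ofReal_sum, ← h]
    simp
  exact_mod_cast h3

theorem norm_eq (σ : Fin n ≃ (K →+* ℝ)) (hn : Module.finrank ℚ K = n) (x : K) :
    ((Algebra.norm ℚ x : ℚ) : ℝ) = ∏ j, σ j x := by
  have h := Algebra.norm_eq_prod_embeddings ℚ ℂ x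
  have h2 : ∏ τ : K →ₐ[ℚ] ℂ, τ x = ∏ j, toC σ j x :=
    (Fintype.prod_bijective (toC σ) (toC_bijective σ hn) _ _ (fun _ => rfl)).symm
  rw [h2] at h
  simp only [toC_apply] at h
  have h3 : ((((Algebra.norm ℚ x : ℚ) : ℝ)) : ℂ) = ((∏ j, σ j x : ℝ) : ℂ) := by
    rw [Complex.ofReal_prod, ← h]
    simp
  exact_mod_cast h3

/-- the `ℚ`-basis given by a lattice basis. -/
noncomputable def bas (m : LatticeBasis n K) : Module.Basis (Fin n) ℚ K :=
  Module.Basis.mk ((LinearIndependent.iff_fractionRing (R := ℤ) (K := ℚ)).1 m.linIndep)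
    m.spans.ge

@[simp] theorem bas_apply (m : LatticeBasis n K) (i : Fin n) : bas m i = m.vec i := by
  simp [bas]

theorem finrank_eq (m : LatticeBasis n K) : Module.finrank ℚ K = n := by
  rw [Module.finrank_eq_card_basis (bas m), Fintype.card_fin]

/-- Gram matrix of the trace form. -/
theorem embMatrix_mul_transpose (m : LatticeBasis n K) (σ : Fin n ≃ (K →+* ℝ)) :
    embMatrix m σ * (embMatrix m σ)ᵀ =
      (Algebra.traceMatrix ℚ (bas m)).map (algebraMap ℚ ℝ) := by
  ext i k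
  simp only [Matrix.mul_apply, Matrix.transpose_apply, embMatrix, Matrix.map_apply,
    Algebra.traceMatrix_apply, Algebra.traceForm_apply, bas_apply]
  rw [show (algebraMap ℚ ℝ) (Algebra.trace ℚ K (m.vec i * m.vec k)) =
    ((Algebra.trace ℚ K (m.vec i * m.vec k) : ℚ) : ℝ) from rfl, trace_eq σ (finrank_eq m)]
  simp only [map_mul]

theorem det_sq (m : LatticeBasis n K) (σ : Fin n ≃ (K →+* ℝ)) :
    (embMatrix m σ).det ^ 2 = ((Algebra.discr ℚ (bas m) : ℚ) : ℝ) := by
  have h := congrArg Matrix.det (embMatrix_mul_transpose m σ)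
  rw [Matrix.det_mul, Matrix.det_transpose, ← pow_two] at h
  rw [h]
  have h2 := (RingHom.map_det (algebraMap ℚ ℝ) (Algebra.traceMatrix ℚ (bas m))).symm
  rw [Algebra.discr_def]
  exact h2

theorem det_embMatrix_ne_zero (m : LatticeBasis n K) (σ : Fin n ≃ (K →+* ℝ)) :
    (embMatrix m σ).det ≠ 0 := by
  intro h
  have h2 := det_sq m σ
  rw [h, zero_pow two_ne_zero] at h2
  have h3 := Algebra.discr_not_zero_of_basis ℚ (bas m)
  exact h3 (by exact_mod_cast h2.symm)

/-- dual elements for the trace form. -/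
theorem exists_dual (m : LatticeBasis n K) (q : Fin n → ℚ) :
    ∃ b : K, ∀ i, Algebra.trace ℚ K (m.vec i * b) = q i := by
  have hnd := traceForm_nondegenerate ℚ K
  refine ⟨∑ k, q k • (Algebra.traceForm ℚ K).dualBasis hnd (bas m) k, fun i => ?_⟩
  rw [Finset.mul_sum, map_sum]
  have : ∀ k, Algebra.trace ℚ K (m.vec i * q k • (Algebra.traceForm ℚ K).dualBasis hnd (bas m) k)
      = if i = k then q k else 0 := by
    intro k
    rw [mul_smul_comm, map_smul]
    have h := LinearMap.BilinForm.apply_dualBasis_right (B := Algebra.traceForm ℚ K) hnd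
      (Algebra.traceForm_isSymm ℚ) (bas m) i k
    rw [Algebra.traceForm_apply, bas_apply] at h
    rw [h, smul_eq_mul]
    split_ifs <;> simp
  rw [Finset.sum_congr rfl fun k _ => this k]
  simp

/-- the vector `σ(b)` of the dual element solves `B x = q`. -/
theorem embMatrix_mulVec (m : LatticeBasis n K) (σ : Fin n ≃ (K →+* ℝ)) (b : K) (i : Fin n) :
    (embMatrix m σ *ᵥ fun j => σ j b) i = ((Algebra.trace ℚ K (m.vec i * b) : ℚ) : ℝ) := by
  rw [trace_eq σ (finrank_eq m)]
  simp only [Matrix.mulVec, dotProduct, embMatrix, map_mul]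

/-- uniqueness. -/
theorem eq_of_mulVec (m : LatticeBasis n K) (σ : Fin n ≃ (K →+* ℝ)) {x y : Fin n → ℝ}
    (h : embMatrix m σ *ᵥ x = embMatrix m σ *ᵥ y) : x = y := by
  have hu : IsUnit (embMatrix m σ).det := (det_embMatrix_ne_zero m σ).isUnit
  have := congrArg (fun z => (embMatrix m σ)⁻¹ *ᵥ z) h
  simpa only [Matrix.mulVec_mulVec, Matrix.nonsing_inv_mul _ hu, Matrix.one_mulVec] using this

/-- scaling a lattice basis by a nonzero element. -/
noncomputable def scale (m : LatticeBasis n K) (a : K) (ha : a ≠ 0) : LatticeBasis n K where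
  vec i := a * m.vec i
  linIndep := by
    have h := m.linIndep.map' ((LinearMap.mulLeft ℤ a)) (by
      rw [LinearMap.ker_eq_bot]
      intro x y hxy
      exact mul_left_cancel₀ ha hxy)
    exact h
  spans := by
    have h := m.spans
    rw [eq_top_iff]
    intro x _
    have hx : a⁻¹ * x ∈ Submodule.span ℚ (Set.range m.vec) := by rw [h]; trivial
    have h2 := Submodule.mem_map_of_mem (f := LinearMap.mulLeft ℚ a) hx
    rw [Submodule.map_span, ← Set.range_comp] at h2
    have h3 : (LinearMap.mulLeft ℚ a) (a⁻¹ * x) = x := by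
      simp [mul_inv_cancel_left₀ ha]
    rw [h3] at h2
    exact h2

@[simp] theorem scale_vec (m : LatticeBasis n K) (a : K) (ha : a ≠ 0) (i : Fin n) :
    (scale m a ha).vec i = a * m.vec i := rfl

theorem mem_scale {m : LatticeBasis n K} {a : K} {ha : a ≠ 0} {x : K} :
    x ∈ (scale m a ha).lattice ↔ ∃ y ∈ m.lattice, x = a * y := by
  have h : (scale m a ha).lattice = m.lattice.map (LinearMap.mulLeft ℤ a) := by
    unfold LatticeBasis.lattice
    rw [Submodule.map_span, ← Set.range_comp]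
    rfl
  rw [h, Submodule.mem_map]
  constructor
  · rintro ⟨y, hy, rfl⟩
    exact ⟨y, hy, rfl⟩
  · rintro ⟨y, hy, rfl⟩
    exact ⟨y, hy, rfl⟩

theorem locHom_scale {m m' : LatticeBasis n K} (h : LocallyHomothetic m m') (a : K) (ha : a ≠ 0) :
    LocallyHomothetic m (scale m' a ha) := by
  intro ℓ hℓ
  obtain ⟨c, hc, N, hN, h1, h2⟩ := h ℓ hℓ
  refine ⟨a * c, mul_ne_zero ha hc, N, hN, ?_, ?_⟩
  · intro x hx
    obtain ⟨y, hy, rfl⟩ := mem_scale.1 hx
    obtain ⟨z, hz, hz2⟩ := h1 y hy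
    exact ⟨z, hz, by rw [mul_left_comm, hz2, mul_assoc]⟩
  · intro x hx
    exact mem_scale.2 ⟨_, h2 x hx, by ring⟩

theorem mem_lattice_iff {m : LatticeBasis n K} {x : K} :
    x ∈ m.lattice ↔ ∃ p : Fin n → ℤ, x = ∑ i, (p i : K) * m.vec i := by
  unfold LatticeBasis.lattice
  rw [Submodule.mem_span_range_iff_exists_fun]
  constructor
  · rintro ⟨c, hc⟩
    exact ⟨c, by rw [← hc]; simp [zsmul_eq_mul]⟩
  · rintro ⟨c, hc⟩
    exact ⟨c, by rw [hc]; simp [zsmul_eq_mul]⟩

theorem sum_ne_zero {m : LatticeBasis n K} {p : Fin n → ℤ} (hp : p ≠ 0) :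
    ∑ i, (p i : K) * m.vec i ≠ 0 := by
  intro h
  apply hp
  have := Fintype.linearIndependent_iff.1 m.linIndep p (by simpa [zsmul_eq_mul] using h)
  exact funext this

end Crest.Agent.R014.Emb_71
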