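import Mathlib

-- ▼ part R014/EulA_534
section

/-!
# Row 14, N1-EUL, part A (helper534): Euler products over an arbitrary index set

`mon x v = ∏ x i ^ v i`.  For `x : ι → 𝕜`, `‖x i‖ ≤ 1/2`, `∑ ‖x i‖ < ∞`:
`∑' v : ι →₀ ℕ, mon x v = ∏' (1 - x i)⁻¹` (`hasProd_mon`), and (`exp_form`)
`∑' v, mon x v = exp w` with `‖w - ∑' x i‖ ≤ ∑' ‖x i‖ ^ 2`.
-/

set_option autoImplicit false

namespace Crest.Agent.R014.EulA_534

open Filter Topology

variable {ι : Type*}

/-- the monomial `∏ x i ^ v i` -/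
noncomputable def mon {M : Type*} [CommMonoid M] (x : ι → M) (v : ι →₀ ℕ) : M :=
  v.prod fun i k => x i ^ k

theorem mon_zero {M : Type*} [CommMonoid M] (x : ι → M) : mon x 0 = 1 := Finsupp.prod_zero_index

theorem mon_add {M : Type*} [CommMonoid M] (x : ι → M) (u v : ι →₀ ℕ) :
    mon x (u + v) = mon x u * mon x v :=
  Finsupp.prod_add_index' (fun i => pow_zero (x i)) fun i a b => pow_add (x i) a b

theorem mon_single {M : Type*} [CommMonoid M] (x : ι → M) (i : ι) (k : ℕ) :
    mon x (Finsupp.single i k) = x i ^ k := Finsupp.prod_single_index (pow_zero (x i))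

theorem norm_mon {𝕜 : Type*} [NormedField 𝕜] (x : ι → 𝕜) (v : ι →₀ ℕ) :
    ‖mon x v‖ = mon (fun i => ‖x i‖) v := by
  unfold mon Finsupp.prod
  rw [norm_prod]
  exact Finset.prod_congr rfl fun i _ => norm_pow _ _

/-- adding one variable -/
noncomputable def ins [DecidableEq ι] (T : Finset ι) {i : ι} (hi : i ∉ T) :
    ℕ × {v : ι →₀ ℕ // v.support ⊆ T} ≃ {v : ι →₀ ℕ // v.support ⊆ insert i T} where
  toFun p := ⟨Finsupp.single i p.1 + p.2.1, by
    refine Finsupp.support_add.trans (Finset.union_subset ?_ (p.2.2.trans (Finset.subset_insert _ _)))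
    exact Finsupp.support_single_subset.trans (Finset.singleton_subset_iff.2
      (Finset.mem_insert_self _ _))⟩
  invFun v := (v.1 i, ⟨v.1.erase i, by
    intro j hj
    rw [Finsupp.support_erase, Finset.mem_erase] at hj
    exact (Finset.mem_insert.1 (v.2 hj.2)).resolve_left hj.1⟩)
  left_inv p := by
    have h0 : p.2.1 i = 0 := by
      by_contra h
      exact hi (p.2.2 (Finsupp.mem_support_iff.2 h))
    refine Prod.ext ?_ (Subtype.ext ?_)
    · change (Finsupp.single i p.1 + p.2.1) i = p.1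
      rw [Finsupp.add_apply, Finsupp.single_eq_same, h0, add_zero]
    · change (Finsupp.single i p.1 + p.2.1).erase i = p.2.1
      ext j
      by_cases hj : j = i
      · subst hj
        rw [Finsupp.erase_same, h0]
      · rw [Finsupp.erase_ne hj, Finsupp.add_apply, Finsupp.single_eq_of_ne hj, zero_add]
  right_inv v := by
    refine Subtype.ext ?_
    change Finsupp.single i (v.1 i) + v.1.erase i = v.1
    exact Finsupp.single_add_erase i v.1

section fin

variable {𝕜 : Type*} [NormedField 𝕜] [CompleteSpace 𝕜]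

omit [CompleteSpace 𝕜] in
theorem hasSum_mul' {β γ : Type*} (f : β → 𝕜) (g : γ → 𝕜) (a b : 𝕜) (hf : HasSum f a)
    (hg : HasSum g b) (h : Summable fun p : β × γ => f p.1 * g p.2) :
    HasSum (fun p : β × γ => f p.1 * g p.2) (a * b) := by
  have : T3Space 𝕜 := instT3Space
  exact hf.mul hg h

theorem finite_part (x : ι → 𝕜) (hx : ∀ i, ‖x i‖ < 1) (T : Finset ι) :
    Summable (fun v : {v : ι →₀ ℕ // v.support ⊆ T} => ‖mon x v.1‖) ∧
      HasSum (fun v : {v : ι →₀ ℕ // v.support ⊆ T} => mon x v.1) (∏ i ∈ T, (1 - x i)⁻¹) := by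
  classical
  induction T using Finset.induction with
  | empty =>
    have hu : ∀ v : {v : ι →₀ ℕ // v.support ⊆ (∅ : Finset ι)}, v = ⟨0, by simp⟩ := by
      intro v
      refine Subtype.ext ?_
      exact Finsupp.support_eq_empty.1 (Finset.subset_empty.1 v.2)
    let _ : Unique {v : ι →₀ ℕ // v.support ⊆ (∅ : Finset ι)} := ⟨⟨⟨0, by simp⟩⟩, hu⟩
    constructor
    · exact (hasSum_fintype _).summable
    · rw [Finset.prod_empty]
      have := hasSum_unique (fun v : {v : ι →₀ ℕ // v.support ⊆ (∅ : Finset ι)} => mon x v.1)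
      convert this using 1
      rw [hu default]
      exact (mon_zero x).symm
  | insert i T hi ih =>
    have hg : Summable (fun k : ℕ => ‖x i ^ k‖) := by
      simp_rw [norm_pow]
      exact summable_geometric_of_lt_one (norm_nonneg _) (hx i)
    have hg' : HasSum (fun k : ℕ => x i ^ k) (1 - x i)⁻¹ := hasSum_geometric_of_norm_lt_one (hx i)
    have heq : ∀ p : ℕ × {v : ι →₀ ℕ // v.support ⊆ T}, mon x ((ins T hi) p).1 =
        x i ^ p.1 * mon x p.2.1 := by
      intro p
      change mon x (Finsupp.single i p.1 + p.2.1) = _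
      rw [mon_add, mon_single]
    have hsm : Summable fun p : ℕ × {v : ι →₀ ℕ // v.support ⊆ T} => ‖x i ^ p.1 * mon x p.2.1‖ :=
      Summable.of_nonneg_of_le (fun _ => norm_nonneg _) (fun _ => (norm_mul _ _).le)
        (Summable.mul_of_nonneg hg ih.1 (fun _ => norm_nonneg _) fun _ => norm_nonneg _)
    constructor
    · rw [← (ins T hi).summable_iff]
      simp only [Function.comp_def, heq]
      exact hsm
    · have hsm' : Summable fun p : ℕ × {v : ι →₀ ℕ // v.support ⊆ T} =>
          x i ^ p.1 * mon x p.2.1 := hsm.of_norm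
      have key : HasSum (fun p : ℕ × {v : ι →₀ ℕ // v.support ⊆ T} => x i ^ p.1 * mon x p.2.1)
          ((1 - x i)⁻¹ * ∏ i ∈ T, (1 - x i)⁻¹) :=
        hasSum_mul' (fun k : ℕ => x i ^ k)
          (fun v : {v : ι →₀ ℕ // v.support ⊆ T} => mon x v.1) _ _ hg' ih.2 hsm'
      rw [Finset.prod_insert hi, ← (ins T hi).hasSum_iff]
      have h5 : (fun v : {v : ι →₀ ℕ // v.support ⊆ insert i T} => mon x v.1) ∘ (ins T hi) =
          fun p : ℕ × {v : ι →₀ ℕ // v.support ⊆ T} => x i ^ p.1 * mon x p.2.1 := funext heq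
      rw [h5]
      exact key

end fin

section real

/-- `∏ (1 - y)⁻¹ ≤ exp (2 ∑ y)` -/
theorem prod_le_exp (y : ι → ℝ) (h0 : ∀ i, 0 ≤ y i) (h1 : ∀ i, y i ≤ 1 / 2) (T : Finset ι) :
    ∏ i ∈ T, (1 - y i)⁻¹ ≤ Real.exp (2 * ∑ i ∈ T, y i) := by
  rw [Finset.mul_sum, Real.exp_sum]
  refine Finset.prod_le_prod (fun i _ => inv_nonneg.2 (by linarith [h1 i])) fun i _ => ?_
  have h2 : (1 - y i)⁻¹ ≤ 1 + 2 * y i := by
    rw [inv_le_iff_one_le_mul₀ (by linarith [h1 i])]
    nlinarith [h0 i, h1 i]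
  exact h2.trans (by linarith [Real.add_one_le_exp (2 * y i)])

theorem mon_nonneg {y : ι → ℝ} (h0 : ∀ i, 0 ≤ y i) (v : ι →₀ ℕ) : 0 ≤ mon y v :=
  Finset.prod_nonneg fun i _ => pow_nonneg (h0 i) _

theorem sum_le (y : ι → ℝ) (h0 : ∀ i, 0 ≤ y i) (h1 : ∀ i, y i ≤ 1 / 2) (hs : Summable y)
    (V : Finset (ι →₀ ℕ)) : ∑ v ∈ V, mon y v ≤ Real.exp (2 * ∑' i, y i) := by
  classical
  set T : Finset ι := V.biUnion fun v => v.support with hT
  have hlt : ∀ i, ‖y i‖ < 1 := fun i => by
    rw [Real.norm_of_nonneg (h0 i)]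
    linarith [h1 i]
  obtain ⟨-, h3⟩ := finite_part y hlt T
  have h4 : ∑ v ∈ V, mon y v ≤ ∏ i ∈ T, (1 - y i)⁻¹ := by
    let e : V → {v : ι →₀ ℕ // v.support ⊆ T} := fun v =>
      ⟨v.1, Finset.subset_biUnion_of_mem (fun v : ι →₀ ℕ => v.support) v.2⟩
    have he : Function.Injective e := by
      intro a b h
      exact Subtype.ext (congrArg (fun z : {v : ι →₀ ℕ // v.support ⊆ T} => z.1) h)
    have h5 : ∑ v ∈ V, mon y v = ∑ v ∈ Finset.univ.image e, mon y v.1 := by
      rw [Finset.sum_image fun a _ b _ h => he h, ← Finset.sum_coe_sort]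
    rw [h5]
    exact sum_le_hasSum _ (fun v _ => mon_nonneg h0 v.1) h3
  refine (h4.trans (prod_le_exp y h0 h1 T)).trans ?_
  exact Real.exp_le_exp.2 (mul_le_mul_of_nonneg_left
    (hs.sum_le_tsum T fun i _ => h0 i) (by norm_num))

theorem summable_mon_real (y : ι → ℝ) (h0 : ∀ i, 0 ≤ y i) (h1 : ∀ i, y i ≤ 1 / 2)
    (hs : Summable y) : Summable (mon y) :=
  summable_of_sum_le (fun v => mon_nonneg h0 v) fun V => sum_le y h0 h1 hs V

end real

section main

variable {𝕜 : Type*} [NormedField 𝕜] [CompleteSpace 𝕜]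

omit [CompleteSpace 𝕜] in
theorem summable_norm_mon (x : ι → 𝕜) (h1 : ∀ i, ‖x i‖ ≤ 1 / 2) (hs : Summable fun i => ‖x i‖) :
    Summable fun v => ‖mon x v‖ := by
  simp only [norm_mon]
  exact summable_mon_real _ (fun i => norm_nonneg _) h1 hs

/-- **Euler product.** -/
theorem hasProd_mon (x : ι → 𝕜) (h1 : ∀ i, ‖x i‖ ≤ 1 / 2) (hs : Summable fun i => ‖x i‖) :
    HasProd (fun i => (1 - x i)⁻¹) (∑' v, mon x v) := by
  classical
  have hlt : ∀ i, ‖x i‖ < 1 := fun i => by linarith [h1 i]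
  have h2 : ∀ T : Finset ι, ∏ i ∈ T, (1 - x i)⁻¹ =
      ∑' v, Set.indicator {v : ι →₀ ℕ | v.support ⊆ T} (mon x) v := by
    intro T
    rw [← tsum_subtype]
    exact (finite_part x hlt T).2.tsum_eq.symm
  rw [HasProd, SummationFilter.unconditional_filter]
  simp only [h2]
  refine tendsto_tsum_of_dominated_convergence (summable_norm_mon x h1 hs) (fun v => ?_) ?_
  · refine tendsto_const_nhds.congr' ?_
    filter_upwards [eventually_ge_atTop v.support] with T hT
    exact (Set.indicator_of_mem (s := {v : ι →₀ ℕ | v.support ⊆ T}) hT _).symm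
  · refine Eventually.of_forall fun T v => ?_
    by_cases h : v ∈ {v : ι →₀ ℕ | v.support ⊆ T}
    · rw [Set.indicator_of_mem h]
    · rw [Set.indicator_of_notMem h, norm_zero]
      exact norm_nonneg _

end main

/-- **Exponential form of the Euler product.** -/
theorem exp_form (x : ι → ℂ) (h1 : ∀ i, ‖x i‖ ≤ 1 / 2) (hs : Summable fun i => ‖x i‖) :
    ∃ w : ℂ, Complex.exp w = ∑' v, mon x v ∧ ‖w - ∑' i, x i‖ ≤ ∑' i, ‖x i‖ ^ 2 := by
  have hs2 : Summable fun i => ‖x i‖ ^ 2 := by
    refine Summable.of_nonneg_of_le (fun i => by positivity) (fun i => ?_) hs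
    nlinarith [norm_nonneg (x i), h1 i]
  have hlog : Summable fun i => Complex.log (1 - x i) := by
    have := Complex.summable_log_one_add_of_summable (f := fun i => -x i) hs.of_norm.neg
    simpa [sub_eq_add_neg] using this
  have hne : ∀ i, (1 : ℂ) - x i ≠ 0 := by
    intro i h
    have h3 : x i = 1 := (sub_eq_zero.1 h).symm
    have h4 := h1 i
    rw [h3, norm_one] at h4
    norm_num at h4
  have hp := (Complex.hasProd_of_hasSum_log hne hlog.hasSum).inv₀ (Complex.exp_ne_zero _)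
  refine ⟨-∑' i, Complex.log (1 - x i), ?_, ?_⟩
  · rw [Complex.exp_neg]
    exact hp.unique (hasProd_mon x h1 hs)
  · have h5 : -∑' i, Complex.log (1 - x i) - ∑' i, x i = -∑' i, (Complex.log (1 - x i) + x i) := by
      rw [hlog.tsum_add hs.of_norm]
      ring
    rw [h5, norm_neg]
    refine tsum_of_norm_bounded hs2.hasSum fun i => ?_
    have h6 : ‖-x i‖ < 1 := by
      rw [norm_neg]
      linarith [h1 i]
    have h7 := Complex.norm_log_one_add_sub_self_le h6
    have h8 : Complex.log (1 + -x i) - -x i = Complex.log (1 - x i) + x i := by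
      rw [sub_neg_eq_add, ← sub_eq_add_neg]
    rw [h8, norm_neg] at h7
    refine h7.trans ?_
    have h9 : (1 - ‖x i‖)⁻¹ ≤ 2 := by
      rw [inv_le_comm₀ (by linarith [h1 i]) (by norm_num)]
      linarith [h1 i]
    have h10 : 0 ≤ ‖x i‖ ^ 2 := by positivity
    nlinarith

end Crest.Agent.R014.EulA_534
end

-- ▼ part R014/EulB_534

/-!
# Row 14, N1-EUL, part B (helper534): ideals of a number field as monomials in the primes,
norms of primes, fibre sums
-/

set_option autoImplicit false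

namespace Crest.Agent.R014.EulB_534

open NumberField IsDedekindDomain Ideal UniqueFactorizationMonoid EulA_534

/-! ### fibre sums -/

section fibre

theorem hasSum_fibre {β : Type*} (N : β → ℕ) (hfin : ∀ n, Finite {b // N b = n}) (g : ℕ → ℂ)
    (h : Summable fun b => g (N b)) :
    HasSum (fun n => (Nat.card {b // N b = n} : ℂ) * g n) (∑' b, g (N b)) := by
  have h1 : HasSum (fun b => g (N b)) (∑' b, g (N b)) := h.hasSum
  rw [← (Equiv.sigmaFiberEquiv N).hasSum_iff] at h1
  refine h1.sigma fun n => ?_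
  have := hfin n
  let _ : Fintype {b // N b = n} := Fintype.ofFinite _
  have h2 : ∀ b : {b // N b = n}, ((fun b => g (N b)) ∘ (Equiv.sigmaFiberEquiv N)) ⟨n, b⟩ = g n := by
    intro b
    change g (N b.1) = g n
    rw [b.2]
  have h3 := hasSum_fintype fun b : {b // N b = n} =>
    ((fun b => g (N b)) ∘ (Equiv.sigmaFiberEquiv N)) ⟨n, b⟩
  convert h3 using 1
  rw [Finset.sum_congr rfl fun b _ => h2 b, Finset.sum_const, Finset.card_univ, nsmul_eq_mul,
    Nat.card_eq_fintype_card]

/-- comparison of a sum with `d` times a sum over the values of a map with fibres of size `≤ d` -/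
theorem summable_of_fibre {β : Type*} (M : β → ℕ) (d : ℕ)
    (hd : ∀ (S : Finset β) (n : ℕ), (∀ b ∈ S, M b = n) → S.card ≤ d) (y : β → ℝ) (h : ℕ → ℝ)
    (hy0 : ∀ b, 0 ≤ y b) (hy : ∀ b, y b ≤ h (M b)) (h0 : ∀ n, 0 ≤ h n) (hs : Summable h) :
    Summable y ∧ ∑' b, y b ≤ d * ∑' n, h n := by
  classical
  have key : ∀ S : Finset β, ∑ b ∈ S, y b ≤ d * ∑' n, h n := by
    intro S
    calc ∑ b ∈ S, y b ≤ ∑ b ∈ S, h (M b) := Finset.sum_le_sum fun b _ => hy b
      _ = ∑ n ∈ S.image M, ∑ b ∈ S with M b = n, h (M b) :=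
          (Finset.sum_fiberwise_of_maps_to (fun b hb => Finset.mem_image_of_mem M hb) _).symm
      _ ≤ ∑ n ∈ S.image M, d * h n := by
          refine Finset.sum_le_sum fun n _ => ?_
          have h1 : ∑ b ∈ S with M b = n, h (M b) = ((S.filter fun b => M b = n).card : ℝ) * h n := by
            rw [Finset.sum_congr rfl fun b hb => by rw [(Finset.mem_filter.1 hb).2],
              Finset.sum_const, nsmul_eq_mul]
          rw [h1]
          refine mul_le_mul_of_nonneg_right ?_ (h0 n)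
          exact_mod_cast hd _ n fun b hb => (Finset.mem_filter.1 hb).2
      _ = d * ∑ n ∈ S.image M, h n := by rw [Finset.mul_sum]
      _ ≤ d * ∑' n, h n :=
          mul_le_mul_of_nonneg_left (hs.sum_le_tsum _ fun n _ => h0 n) (Nat.cast_nonneg d)
  have hsum := summable_of_sum_le hy0 key
  exact ⟨hsum, hsum.tsum_le_of_sum_le key⟩

end fibre

variable {E : Type*} [Field E] [NumberField E]

/-! ### primes -/

theorem absNorm_span_nat (m : ℕ) :
    absNorm (span {((m : ℕ) : 𝓞 E)}) = m ^ Module.finrank ℚ E := by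
  rw [absNorm_span_singleton]
  have h1 : ((m : ℕ) : 𝓞 E) = algebraMap ℤ (𝓞 E) (m : ℤ) := by simp
  rw [h1, Algebra.norm_algebraMap]
  rw [RingOfIntegers.rank]
  simp [Int.natAbs_pow]

theorem exists_below {P : Ideal (𝓞 E)} (hP : P.IsPrime) (h0 : P ≠ ⊥) :
    ∃ l k : ℕ, l.Prime ∧ 1 ≤ k ∧ absNorm P = l ^ k ∧ ((l : ℕ) : 𝓞 E) ∈ P := by
  have h1 : ((absNorm P : ℕ) : 𝓞 E) ∈ P := absNorm_mem P
  have hne : absNorm P ≠ 0 := by rw [Ne, absNorm_eq_zero_iff]; exact h0
  have h2 : ∃ l : ℕ, l.Prime ∧ ((l : ℕ) : 𝓞 E) ∈ P := by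
    have h3 : (((absNorm P).primeFactorsList.map fun l : ℕ => ((l : ℕ) : 𝓞 E)).prod) ∈ P := by
      have h4 : ((absNorm P).primeFactorsList.map fun l : ℕ => ((l : ℕ) : 𝓞 E)).prod =
          (((absNorm P).primeFactorsList.prod : ℕ) : 𝓞 E) := by
        rw [Nat.cast_list_prod]
      rw [h4, Nat.prod_primeFactorsList hne]
      exact h1
    generalize hL : (absNorm P).primeFactorsList = L at h3
    have hLp : ∀ l ∈ L, l.Prime := by
      intro l hl
      rw [← hL] at hl
      exact Nat.prime_of_mem_primeFactorsList hl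
    clear hL
    induction L with
    | nil =>
      simp only [List.map_nil, List.prod_nil] at h3
      exact absurd ((Ideal.eq_top_iff_one P).2 h3) hP.ne_top
    | cons l L ih =>
      simp only [List.map_cons, List.prod_cons] at h3
      rcases hP.mem_or_mem h3 with h5 | h5
      · exact ⟨l, hLp l List.mem_cons_self, h5⟩
      · exact ih h5 fun l' hl' => hLp l' (List.mem_cons_of_mem _ hl')
  obtain ⟨l, hl, hlP⟩ := h2
  have h3 : absNorm P ∣ l ^ Module.finrank ℚ E := by
    have h4 : P ∣ span {((l : ℕ) : 𝓞 E)} := by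
      rw [Ideal.dvd_span_singleton]
      exact hlP
    have h5 := absNorm_dvd_absNorm_of_le (Ideal.dvd_iff_le.1 h4)
    rwa [absNorm_span_nat] at h5
  obtain ⟨k, -, hk⟩ := (Nat.dvd_prime_pow hl).1 h3
  refine ⟨l, k, hl, ?_, hk, hlP⟩
  by_contra hcon
  have hk0 : k = 0 := by omega
  rw [hk0, pow_zero, absNorm_eq_one_iff] at hk
  exact hP.ne_top hk

/-- at most `d` primes contain a given prime number -/
theorem card_over {l : ℕ} (hl : l.Prime) (S : Finset (HeightOneSpectrum (𝓞 E)))
    (hS : ∀ P ∈ S, ((l : ℕ) : 𝓞 E) ∈ P.asIdeal) : S.card ≤ Module.finrank ℚ E := by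
  classical
  obtain ⟨d, hd⟩ : ∃ d, d = Module.finrank ℚ E := ⟨_, rfl⟩
  have hdvd : (∏ P ∈ S, P.asIdeal) ∣ span {((l : ℕ) : 𝓞 E)} := by
    apply Finset.prod_dvd_of_coprime
    · intro P hP Q hQ hPQ
      rw [Function.onFun, Ideal.isCoprime_iff_sup_eq]
      have hPm : P.asIdeal.IsMaximal := P.isMaximal
      have hQm : Q.asIdeal.IsMaximal := Q.isMaximal
      refine hPm.coprime_of_ne hQm fun h => hPQ ?_
      exact HeightOneSpectrum.ext h
    · intro P hP
      rw [Ideal.dvd_span_singleton]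
      exact hS P hP
  have h2 : ∏ P ∈ S, absNorm P.asIdeal ∣ l ^ d := by
    have := absNorm_dvd_absNorm_of_le (Ideal.dvd_iff_le.1 hdvd)
    rw [absNorm_span_nat, map_prod, ← hd] at this
    exact this
  have h3 : l ^ S.card ∣ ∏ P ∈ S, absNorm P.asIdeal := by
    rw [← Finset.prod_const]
    refine Finset.prod_dvd_prod_of_dvd _ _ fun P hP => ?_
    have h4 : absNorm P.asIdeal ∣ l ^ d :=
      (Finset.dvd_prod_of_mem (fun P : HeightOneSpectrum (𝓞 E) => absNorm P.asIdeal) hP).trans h2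
    obtain ⟨k, -, hk⟩ := (Nat.dvd_prime_pow hl).1 h4
    rw [hk]
    refine dvd_pow_self l ?_
    rintro rfl
    rw [pow_zero, absNorm_eq_one_iff] at hk
    exact P.isPrime.ne_top hk
  rw [← hd]
  exact (Nat.pow_dvd_pow_iff_le_right hl.one_lt).1 (h3.trans h2)

/-- the prime number below a prime ideal -/
noncomputable def below (P : HeightOneSpectrum (𝓞 E)) : ℕ := (absNorm P.asIdeal).minFac

theorem below_spec (P : HeightOneSpectrum (𝓞 E)) :
    (below P).Prime ∧ ((below P : ℕ) : 𝓞 E) ∈ P.asIdeal ∧ below P ≤ absNorm P.asIdeal ∧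
      (¬ (absNorm P.asIdeal).Prime → below P ^ 2 ≤ absNorm P.asIdeal) := by
  obtain ⟨l, k, hl, hk, hN, hlP⟩ := exists_below P.isPrime P.ne_bot
  have h1 : below P = l := by
    rw [below, hN, Nat.pow_minFac (by omega), hl.minFac_eq]
  rw [h1]
  refine ⟨hl, hlP, ?_, fun hnp => ?_⟩
  · rw [hN]
    exact Nat.le_self_pow (by omega) l
  · rw [hN]
    refine Nat.pow_le_pow_right hl.pos ?_
    by_contra hcon
    have : k = 1 := by omega
    rw [this, pow_one] at hN
    exact hnp (hN ▸ hl)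

theorem two_le (P : HeightOneSpectrum (𝓞 E)) : 2 ≤ absNorm P.asIdeal :=
  (below_spec P).1.two_le.trans (below_spec P).2.2.1

theorem card_below (S : Finset (HeightOneSpectrum (𝓞 E))) (n : ℕ) (h : ∀ P ∈ S, below P = n) :
    S.card ≤ Module.finrank ℚ E := by
  rcases S.eq_empty_or_nonempty with rfl | ⟨P, hP⟩
  · simp
  · have h1 : n.Prime := h P hP ▸ (below_spec P).1
    exact card_over h1 S fun Q hQ => h Q hQ ▸ (below_spec Q).2.1

/-! ### ideals as monomials -/

/-- the ideal with given exponents -/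
noncomputable def idl (v : HeightOneSpectrum (𝓞 E) →₀ ℕ) : Ideal (𝓞 E) :=
  mon (fun P => P.asIdeal) v

theorem idl_ne_bot (v : HeightOneSpectrum (𝓞 E) →₀ ℕ) : idl v ≠ ⊥ := by
  unfold idl mon Finsupp.prod
  rw [← Ideal.zero_eq_bot, Finset.prod_ne_zero_iff]
  exact fun P _ => pow_ne_zero _ P.ne_bot

theorem idl_surj {I : Ideal (𝓞 E)} (hI : I ≠ ⊥) : ∃ v, idl v = I := by
  classical
  have h1 := Ideal.finprod_heightOneSpectrum_factorization (R := 𝓞 E) hI
  have hfin : {P : HeightOneSpectrum (𝓞 E) | (Associates.mk P.asIdeal).count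
      (Associates.mk I).factors ≠ 0}.Finite := by
    refine (Ideal.finite_factors hI).subset fun P hP => ?_
    exact (Associates.count_ne_zero_iff_dvd hI P.irreducible).1 hP
  refine ⟨Finsupp.onFinset hfin.toFinset (fun P => (Associates.mk P.asIdeal).count
    (Associates.mk I).factors) (fun P hP => hfin.mem_toFinset.2 hP), ?_⟩
  refine Eq.trans ?_ h1
  rw [finprod_eq_prod_of_mulSupport_subset (s := hfin.toFinset)]
  · unfold idl mon
    rw [Finsupp.prod_of_support_subset _ (s := hfin.toFinset) Finsupp.support_onFinset_subset]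
    · rfl
    · exact fun P _ => pow_zero _
  · intro P hP
    rw [Finset.mem_coe, hfin.mem_toFinset]
    intro h2
    apply hP
    change P.asIdeal ^ _ = 1
    rw [h2, pow_zero]

theorem count_idl (v : HeightOneSpectrum (𝓞 E) →₀ ℕ) (P : HeightOneSpectrum (𝓞 E)) :
    (normalizedFactors (idl v)).count P.asIdeal = v P := by
  classical
  induction v using Finsupp.induction with
  | zero =>
    have : idl (0 : HeightOneSpectrum (𝓞 E) →₀ ℕ) = 1 := mon_zero _
    rw [this, normalizedFactors_one]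
    simp
  | single_add Q k v hQ hk ih =>
    have h1 : idl (Finsupp.single Q k + v) = Q.asIdeal ^ k * idl v := by
      rw [idl, mon_add, mon_single]
      rfl
    rw [h1, normalizedFactors_mul (pow_ne_zero _ Q.ne_bot) (idl_ne_bot v), normalizedFactors_pow,
      Multiset.count_add, ih, normalizedFactors_irreducible Q.irreducible, normalize_eq,
      Multiset.count_nsmul, Finsupp.add_apply, Finsupp.single_apply]
    by_cases h : Q = P
    · subst h
      simp
    · have h2 : P.asIdeal ≠ Q.asIdeal := fun h3 => h (HeightOneSpectrum.ext h3.symm)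
      rw [Multiset.count_singleton, if_neg h2, if_neg h]
      simp

theorem idl_inj {u v : HeightOneSpectrum (𝓞 E) →₀ ℕ} (h : idl u = idl v) : u = v := by
  ext P
  rw [← count_idl u P, h, count_idl v P]

/-- exponents and nonzero ideals -/
noncomputable def idE : (HeightOneSpectrum (𝓞 E) →₀ ℕ) ≃ {I : Ideal (𝓞 E) // I ≠ ⊥} :=
  Equiv.ofBijective (fun v => ⟨idl v, idl_ne_bot v⟩)
    ⟨fun _ _ h => idl_inj (congrArg Subtype.val h), fun I => by
      obtain ⟨v, hv⟩ := idl_surj I.2
      exact ⟨v, Subtype.ext hv⟩⟩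


theorem map_idl {M : Type*} [CommMonoid M] (f : Ideal (𝓞 E) →* M)
    (v : HeightOneSpectrum (𝓞 E) →₀ ℕ) : f (idl v) = mon (fun P => f P.asIdeal) v := by
  unfold idl mon
  rw [map_finsuppProd]
  simp only [map_pow]

theorem finite_fibre (n : ℕ) : Finite {I : {I : Ideal (𝓞 E) // I ≠ ⊥} // absNorm I.1 = n} := by
  have h1 := Ideal.finite_setOfPred_absNorm_eq (S := 𝓞 E) n
  have : Finite {I : Ideal (𝓞 E) | absNorm I = n} := h1
  exact Finite.of_injective
    (fun I : {I : {I : Ideal (𝓞 E) // I ≠ ⊥} // absNorm I.1 = n} =>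
      (⟨I.1.1, I.2⟩ : {I : Ideal (𝓞 E) | absNorm I = n}))
    fun a b h => Subtype.ext (Subtype.ext (congrArg (fun z : {I : Ideal (𝓞 E) | absNorm I = n} =>
      z.1) h))

end Crest.Agent.R014.EulB_534
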