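import Mathlib
import Crest.Agent.R014.Ic2_550
import Crest.Agent.R014.LDef_550
import Crest.Agent.R014.Cnt5_726

-- ▼ part R014/Ic1_550
section

/-!
# Row 14, N1: from Riesz means to L-series (helper550)

Abstract setting (log scale): `u i = log N(a_i) ≥ 0`, `|c i| ≤ 1`,
`A t = ∑_i c_i (t - u_i)_+^r` (Riesz mean of order `r`).
If `|A t - M e^t| ≤ Q e^{(1-δ)t}` for all `t ≥ 0` and `#{u_i ≤ t} ≤ B e^t (1+t)^m`, then for
`0 < s ≤ 1`: `|∑ c_i e^{-(1+s)u_i} - (M/r!)/s| ≤ 2^{r+1}(1/δ + 3B + 2)(1 + (log Q)/δ)^{m+r+1}`.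
-/

set_option autoImplicit false

noncomputable section

namespace Crest.Agent.R014.Ic1_550

open MeasureTheory Set Filter Topology Real

/-- `(t-u)_+^r` with the convention `0^0 = 1` -/
def pw (r : ℕ) (u t : ℝ) : ℝ := if u ≤ t then (t - u) ^ r else 0

theorem pw_nonneg (r : ℕ) (u t : ℝ) : 0 ≤ pw r u t := by
  unfold pw; split_ifs with h
  · exact pow_nonneg (by linarith) _
  · exact le_rfl

theorem pw_le {r : ℕ} {u t : ℝ} (hu : 0 ≤ u) (ht : 0 ≤ t) : pw r u t ≤ t ^ r := by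
  unfold pw; split_ifs with h
  · exact pow_le_pow_left₀ (by linarith) (by linarith) _
  · positivity

theorem measurable_pw (r : ℕ) (u : ℝ) : Measurable (pw r u) := by
  unfold pw
  exact Measurable.ite measurableSet_Ici (by fun_prop) measurable_const

/-- `∫_0^∞ (t-u)_+^r e^{-zt} dt = e^{-zu} r!/z^{r+1}` -/
theorem integral_pw (r : ℕ) {u z : ℝ} (hu : 0 ≤ u) (hz : 0 < z) :
    ∫ t in Ioi (0:ℝ), pw r u t * exp (-(z * t)) = exp (-(z * u)) * (r.factorial / z ^ (r + 1)) := by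
  have h1 : ∫ t in Ioi (0:ℝ), pw r u t * exp (-(z * t))
      = ∫ t, pw r u t * exp (-(z * t)) := by
    rw [← integral_Ici_eq_integral_Ioi]
    refine setIntegral_eq_integral_of_forall_compl_eq_zero fun t ht => ?_
    simp only [mem_Ici, not_le] at ht
    simp [pw, not_le.mpr (ht.trans_le hu)]
  have h2 : ∫ t, pw r u t * exp (-(z * t)) = ∫ t, pw r u (t + u) * exp (-(z * (t + u))) :=
    (integral_add_right_eq_self (fun t => pw r u t * exp (-(z * t))) u).symm
  have h3 : ∀ t : ℝ, pw r u (t + u) * exp (-(z * (t + u)))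
      = exp (-(z * u)) * (pw r 0 t * exp (-(z * t))) := by
    intro t
    rw [show -(z * (t + u)) = -(z * u) + -(z * t) by ring, exp_add]
    simp only [pw, le_add_iff_nonneg_left, add_sub_cancel_right, sub_zero]
    split_ifs
    · ring
    · ring
  have h6 : ∫ t, pw r 0 t * exp (-(z * t)) = ∫ t in Ioi (0:ℝ), pw r 0 t * exp (-(z * t)) := by
    symm
    rw [← integral_Ici_eq_integral_Ioi]
    refine setIntegral_eq_integral_of_forall_compl_eq_zero fun t ht => ?_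
    simp only [mem_Ici, not_le] at ht
    simp [pw, not_le.mpr ht]
  rw [h1, h2]
  simp_rw [h3]
  rw [integral_const_mul, h6]
  congr 1
  have h4 := Real.integral_rpow_mul_exp_neg_mul_Ioi (a := (r:ℝ) + 1) (r := z) (by positivity) hz
  simp only [add_sub_cancel_right] at h4
  rw [Real.Gamma_nat_eq_factorial] at h4
  have h5 : ∫ t in Ioi (0:ℝ), pw r 0 t * exp (-(z * t))
      = ∫ t in Ioi (0:ℝ), t ^ (r:ℝ) * exp (-(z * t)) := by
    refine setIntegral_congr_fun measurableSet_Ioi fun t ht => ?_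
    simp only [mem_Ioi] at ht
    simp only [pw, if_pos ht.le, sub_zero, rpow_natCast]
  rw [h5, h4, one_div, inv_rpow hz.le, ← rpow_natCast z (r+1)]
  push_cast
  rw [div_eq_mul_inv, mul_comm]

theorem integrableOn_pw (r : ℕ) {u z : ℝ} (hu : 0 ≤ u) (hz : 0 < z) :
    IntegrableOn (fun t => pw r u t * exp (-(z * t))) (Ioi 0) := by
  by_contra h
  have h1 := integral_pw r hu hz
  rw [integral_undef h] at h1
  have : 0 < exp (-(z * u)) * (r.factorial / z ^ (r + 1)) := by positivity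
  linarith

section main

variable {ι : Type*} (u : ι → ℝ) (c : ι → ℂ) (r : ℕ)

/-- the Riesz mean of order `r` in log scale -/
def A (t : ℝ) : ℂ := ∑' i, c i * (pw r (u i) t : ℂ)

/-- number of `i` with `u i ≤ t` -/
def cnt (t : ℝ) : ℕ := Nat.card {i // u i ≤ t}

variable {u c r}

theorem A_support (hfin : ∀ t, {i | u i ≤ t}.Finite) (t : ℝ) :
    ∀ i ∉ (hfin t).toFinset, c i * (pw r (u i) t : ℂ) = 0 := by
  intro i hi
  rw [Finite.mem_toFinset] at hi
  have hi' : ¬ (u i ≤ t) := hi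
  simp [pw, hi']

theorem A_bound (hu : ∀ i, 0 ≤ u i) (hc : ∀ i, ‖c i‖ ≤ 1)
    (hfin : ∀ t, {i | u i ≤ t}.Finite) {t : ℝ} (ht : 0 ≤ t) :
    ‖A u c r t‖ ≤ cnt u t * t ^ r := by
  unfold A
  rw [tsum_eq_sum (A_support hfin t)]
  have h1 : ‖∑ i ∈ (hfin t).toFinset, c i * (pw r (u i) t : ℂ)‖
      ≤ ∑ i ∈ (hfin t).toFinset, t ^ r := by
    refine (norm_sum_le _ _).trans (Finset.sum_le_sum fun i _ => ?_)
    rw [norm_mul, Complex.norm_real, Real.norm_of_nonneg (pw_nonneg _ _ _)]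
    calc ‖c i‖ * pw r (u i) t ≤ 1 * t ^ r := by
          gcongr
          · exact pw_nonneg _ _ _
          · exact hc i
          · exact pw_le (hu i) ht
      _ = t ^ r := one_mul _
  refine h1.trans (le_of_eq ?_)
  rw [Finset.sum_const, nsmul_eq_mul]
  congr 2
  unfold cnt
  rw [← Set.ncard_eq_toFinset_card _ (hfin t)]
  rfl

theorem measurable_A [Countable ι] (hfin : ∀ t, {i | u i ≤ t}.Finite) :
    Measurable (A u c r) := by
  have h : Tendsto (fun (s : Finset ι) t => ∑ i ∈ s, c i * (pw r (u i) t : ℂ)) atTop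
      (𝓝 (A u c r)) := by
    rw [tendsto_pi_nhds]
    intro t
    have h : HasSum (fun i => c i * (pw r (u i) t : ℂ))
        (∑ i ∈ (hfin t).toFinset, c i * (pw r (u i) t : ℂ)) :=
      hasSum_sum_of_ne_finset_zero (A_support (c := c) (r := r) hfin t)
    unfold A
    rw [h.tsum_eq]
    exact h
  refine measurable_of_tendsto_metrizable' atTop (fun s => ?_) h
  refine Finset.measurable_sum _ fun i _ => ?_
  exact (Complex.measurable_ofReal.comp (measurable_pw r (u i))).const_mul (c i)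

theorem laplace [Countable ι] (hu : ∀ i, 0 ≤ u i) (hc : ∀ i, ‖c i‖ ≤ 1) {z : ℝ} (hz : 0 < z)
    (hs : Summable fun i => exp (-(z * u i))) :
    ∫ t in Ioi (0:ℝ), A u c r t * (exp (-(z * t)) : ℝ)
      = (∑' i, c i * (exp (-(z * u i)) : ℝ)) * ((r.factorial / z ^ (r + 1) : ℝ) : ℂ) := by
  set F : ι → ℝ → ℂ := fun i t => c i * ((pw r (u i) t * exp (-(z * t)) : ℝ) : ℂ) with hF
  have hint : ∀ i, Integrable (F i) (volume.restrict (Ioi 0)) := fun i =>
    ((integrableOn_pw r (hu i) hz).ofReal).const_mul (c i)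
  have hnorm : ∀ i t, ‖F i t‖ = ‖c i‖ * (pw r (u i) t * exp (-(z * t))) := by
    intro i t
    rw [hF]
    simp only [norm_mul, Complex.norm_real]
    rw [Real.norm_of_nonneg (pw_nonneg _ _ _), Real.norm_of_nonneg (exp_pos _).le]
  have hinorm : ∀ i, ∫ t in Ioi (0:ℝ), ‖F i t‖
      = ‖c i‖ * (exp (-(z * u i)) * (r.factorial / z ^ (r + 1))) := by
    intro i
    simp_rw [hnorm]
    rw [integral_const_mul, integral_pw r (hu i) hz]
  have hsum : Summable fun i => ∫ t in Ioi (0:ℝ), ‖F i t‖ := by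
    simp_rw [hinorm]
    refine Summable.of_nonneg_of_le (fun i => by positivity) (fun i => ?_)
      (hs.mul_right ((r.factorial : ℝ) / z ^ (r + 1)))
    calc ‖c i‖ * (exp (-(z * u i)) * (r.factorial / z ^ (r + 1)))
        ≤ 1 * (exp (-(z * u i)) * (r.factorial / z ^ (r + 1))) := by
          gcongr; exact hc i
      _ = _ := by ring
  have hA : ∀ t, ∑' i, F i t = A u c r t * (exp (-(z * t)) : ℝ) := by
    intro t
    unfold A
    rw [← tsum_mul_right]
    refine tsum_congr fun i => ?_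
    rw [hF]; push_cast; ring
  have h1 := hasSum_integral_of_summable_integral_norm hint hsum
  have h2 := h1.tsum_eq
  simp_rw [hA] at h2
  rw [← h2, ← tsum_mul_right]
  refine tsum_congr fun i => ?_
  rw [hF]
  simp only
  rw [integral_const_mul, integral_complex_ofReal, integral_pw r (hu i) hz]
  push_cast; ring

end main

/-- the hypotheses: Riesz mean asymptotics with error `Q e^{(1-δ)t}` and a trivial bound for the
counting function -/
structure Dat {ι : Type*} (u : ι → ℝ) (c : ι → ℂ) (r : ℕ) (M : ℂ) (Q δ B : ℝ) (m : ℕ) : Prop where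
  hu : ∀ i, 0 ≤ u i
  hc : ∀ i, ‖c i‖ ≤ 1
  fin : ∀ t, {i | u i ≤ t}.Finite
  sum : ∀ z, 1 < z → Summable fun i => exp (-(z * u i))
  cnt_le : ∀ t, 0 ≤ t → (cnt u t : ℝ) ≤ B * (exp t * (1 + t) ^ m)
  riesz : ∀ t, 0 ≤ t → ‖A u c r t - M * (exp t : ℝ)‖ ≤ Q * exp ((1 - δ) * t)
  Q_ge : 1 ≤ Q
  δ_pos : 0 < δ
  B_nonneg : 0 ≤ B

namespace Dat

variable {ι : Type*} {u : ι → ℝ} {c : ι → ℂ} {r : ℕ} {M : ℂ} {Q δ B : ℝ} {m : ℕ}

/-- `T0 = log Q / δ` -/
def T0 (Q δ : ℝ) : ℝ := log Q / δ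

/-- the constant `K` -/
def K (Q δ B : ℝ) (m r : ℕ) : ℝ := 2 * (B * (1 + T0 Q δ) ^ (m + r)) + 1

theorem T0_nonneg (h : Dat u c r M Q δ B m) : 0 ≤ T0 Q δ :=
  div_nonneg (log_nonneg h.Q_ge) h.δ_pos.le

theorem K_ge (h : Dat u c r M Q δ B m) : 1 ≤ K Q δ B m r := by
  unfold K
  have h1 := h.T0_nonneg
  have h2 := h.B_nonneg
  have : 0 ≤ B * (1 + T0 Q δ) ^ (m + r) := by positivity
  linarith

theorem Q_eq (h : Dat u c r M Q δ B m) : Q = exp (δ * T0 Q δ) := by
  have h1 := h.δ_pos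
  have h2 := h.Q_ge
  unfold T0
  rw [mul_div_cancel₀ _ h1.ne', exp_log (by linarith)]

theorem A_le (h : Dat u c r M Q δ B m) {t : ℝ} (ht : 0 ≤ t) (ht' : t ≤ T0 Q δ) :
    ‖A u c r t‖ ≤ exp t * (B * (1 + T0 Q δ) ^ (m + r)) := by
  have h1 := A_bound (r := r) h.hu h.hc h.fin ht
  have h2 := h.cnt_le t ht
  have hB := h.B_nonneg
  have h0 := h.T0_nonneg
  have h3 : 0 ≤ B * (exp t * (1 + T0 Q δ) ^ m) := by positivity
  calc ‖A u c r t‖ ≤ cnt u t * t ^ r := h1
    _ ≤ (B * (exp t * (1 + t) ^ m)) * t ^ r := by gcongr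
    _ ≤ (B * (exp t * (1 + T0 Q δ) ^ m)) * (1 + T0 Q δ) ^ r := by
        gcongr
        linarith
    _ = exp t * (B * (1 + T0 Q δ) ^ (m + r)) := by ring

/-- the bound for the leading coefficient -/
theorem M_le (h : Dat u c r M Q δ B m) : ‖M‖ ≤ B * (1 + T0 Q δ) ^ (m + r) + 1 := by
  have h0 := h.T0_nonneg
  have h1 := h.A_le h0 le_rfl
  have h2 := h.riesz _ h0
  have h3 : Q * exp ((1 - δ) * T0 Q δ) = exp (T0 Q δ) := by
    have h4 := h.Q_eq
    calc Q * exp ((1 - δ) * T0 Q δ) = exp (δ * T0 Q δ) * exp ((1 - δ) * T0 Q δ) := by rw [← h4]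
      _ = exp (T0 Q δ) := by rw [← exp_add]; congr 1; ring
  rw [h3] at h2
  have h4 : ‖M * (exp (T0 Q δ) : ℝ)‖ ≤ exp (T0 Q δ) * (B * (1 + T0 Q δ) ^ (m + r)) + exp (T0 Q δ) := by
    have : M * (exp (T0 Q δ) : ℝ) = A u c r (T0 Q δ) - (A u c r (T0 Q δ) - M * (exp (T0 Q δ) : ℝ)) := by
      ring
    rw [this]
    exact (norm_sub_le _ _).trans (add_le_add h1 h2)
  rw [norm_mul, Complex.norm_real, Real.norm_of_nonneg (exp_pos _).le] at h4
  have h5 := exp_pos (T0 Q δ)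
  have h6 : exp (T0 Q δ) * (B * (1 + T0 Q δ) ^ (m + r)) + exp (T0 Q δ)
      = (B * (1 + T0 Q δ) ^ (m + r) + 1) * exp (T0 Q δ) := by ring
  rw [h6] at h4
  exact le_of_mul_le_mul_right h4 h5

/-- dominating function of order `0` -/
def g0 (Q δ B : ℝ) (m r : ℕ) (t : ℝ) : ℝ :=
  (Ioc 0 (T0 Q δ)).indicator (fun _ => K Q δ B m r) t
    + exp (δ * T0 Q δ) * (pw 0 (T0 Q δ) t * exp (-(δ * t)))

/-- dominating function of order `1` -/
def g1 (Q δ B : ℝ) (m r : ℕ) (t : ℝ) : ℝ :=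
  (Ioc 0 (T0 Q δ)).indicator (fun _ => K Q δ B m r * T0 Q δ) t
    + exp (δ * T0 Q δ) * (pw 1 (T0 Q δ) t * exp (-(δ * t))
      + T0 Q δ * (pw 0 (T0 Q δ) t * exp (-(δ * t))))

theorem R_le (h : Dat u c r M Q δ B m) {t : ℝ} (ht : 0 < t) :
    ‖A u c r t - M * (exp t : ℝ)‖ * exp (-t) ≤ g0 Q δ B m r t := by
  have h0 := h.T0_nonneg
  unfold g0
  by_cases htT : t ≤ T0 Q δ
  · have h1 : ‖A u c r t - M * (exp t : ℝ)‖ ≤ exp t * K Q δ B m r := by
      refine (norm_sub_le _ _).trans ?_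
      rw [norm_mul, Complex.norm_real, Real.norm_of_nonneg (exp_pos _).le]
      have h2 := h.A_le ht.le htT
      have h3 := mul_le_mul_of_nonneg_right h.M_le (exp_pos t).le
      unfold K
      linarith
    have h2 : ‖A u c r t - M * (exp t : ℝ)‖ * exp (-t) ≤ K Q δ B m r := by
      calc _ ≤ (exp t * K Q δ B m r) * exp (-t) := by gcongr
        _ = (exp t * exp (-t)) * K Q δ B m r := by ring
        _ = K Q δ B m r := by rw [← exp_add]; simp
    have h3 : (Ioc 0 (T0 Q δ)).indicator (fun _ => K Q δ B m r) t = K Q δ B m r :=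
      indicator_of_mem (by exact ⟨ht, htT⟩) _
    rw [h3]
    have h4 : 0 ≤ exp (δ * T0 Q δ) * (pw 0 (T0 Q δ) t * exp (-(δ * t))) := by
      have := pw_nonneg 0 (T0 Q δ) t
      positivity
    linarith
  · have h3 : (Ioc 0 (T0 Q δ)).indicator (fun _ => K Q δ B m r) t = 0 :=
      indicator_of_notMem (by simp [htT]) _
    rw [h3, zero_add]
    have h4 : pw 0 (T0 Q δ) t = 1 := by simp [pw, (not_le.mp htT).le]
    rw [h4, one_mul]
    have h5 := h.riesz t ht.le
    calc ‖A u c r t - M * (exp t : ℝ)‖ * exp (-t) ≤ (Q * exp ((1 - δ) * t)) * exp (-t) := by gcongr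
      _ = Q * exp (-(δ * t)) := by rw [mul_assoc, ← exp_add]; ring_nf
      _ = _ := by rw [← h.Q_eq]

theorem t_mul_g0_le (h : Dat u c r M Q δ B m) {t : ℝ} (ht : 0 < t) :
    t * g0 Q δ B m r t ≤ g1 Q δ B m r t := by
  have h0 := h.T0_nonneg
  unfold g0 g1
  have e1 : t * (Ioc 0 (T0 Q δ)).indicator (fun _ => K Q δ B m r) t
      ≤ (Ioc 0 (T0 Q δ)).indicator (fun _ => K Q δ B m r * T0 Q δ) t := by
    by_cases htT : t ≤ T0 Q δ
    · rw [indicator_of_mem (by exact ⟨ht, htT⟩), indicator_of_mem (by exact ⟨ht, htT⟩)]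
      have := h.K_ge
      rw [mul_comm]
      gcongr
    · rw [indicator_of_notMem (by simp [htT]), indicator_of_notMem (by simp [htT])]
      simp
  have e2 : t * pw 0 (T0 Q δ) t = pw 1 (T0 Q δ) t + T0 Q δ * pw 0 (T0 Q δ) t := by
    unfold pw
    split_ifs
    · ring
    · ring
  calc t * ((Ioc 0 (T0 Q δ)).indicator (fun _ => K Q δ B m r) t
        + exp (δ * T0 Q δ) * (pw 0 (T0 Q δ) t * exp (-(δ * t))))
      = t * (Ioc 0 (T0 Q δ)).indicator (fun _ => K Q δ B m r) t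
        + exp (δ * T0 Q δ) * ((t * pw 0 (T0 Q δ) t) * exp (-(δ * t))) := by ring
    _ ≤ (Ioc 0 (T0 Q δ)).indicator (fun _ => K Q δ B m r * T0 Q δ) t
        + exp (δ * T0 Q δ) * ((t * pw 0 (T0 Q δ) t) * exp (-(δ * t))) := by gcongr
    _ = _ := by rw [e2]; ring

theorem g0_integrable (h : Dat u c r M Q δ B m) : IntegrableOn (g0 Q δ B m r) (Ioi 0) := by
  unfold g0
  refine Integrable.add ?_ ?_
  · rw [integrable_indicator_iff measurableSet_Ioc]
    exact (integrableOn_const (by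
      rw [Measure.restrict_apply measurableSet_Ioc]
      exact ((measure_mono inter_subset_left).trans_lt measure_Ioc_lt_top).ne))
  · exact (integrableOn_pw 0 h.T0_nonneg h.δ_pos).const_mul _

theorem g0_integral (h : Dat u c r M Q δ B m) :
    ∫ t in Ioi (0:ℝ), g0 Q δ B m r t = K Q δ B m r * T0 Q δ + 1 / δ := by
  unfold g0
  rw [integral_add]
  · rw [integral_const_mul, integral_pw 0 h.T0_nonneg h.δ_pos,
      integral_indicator measurableSet_Ioc, Measure.restrict_restrict measurableSet_Ioc,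
      inter_eq_left.mpr Ioc_subset_Ioi_self]
    have h1 := h.T0_nonneg
    have h2 : exp (δ * T0 Q δ) * exp (-(δ * T0 Q δ)) = 1 := by rw [← exp_add]; simp
    rw [setIntegral_const]
    simp only [smul_eq_mul, Nat.factorial_zero, zero_add, pow_one, Nat.cast_one]
    rw [← mul_assoc, h2, measureReal_def, Real.volume_Ioc, ENNReal.toReal_ofReal (by linarith)]
    ring
  · rw [integrable_indicator_iff measurableSet_Ioc]
    exact (integrableOn_const (by
      rw [Measure.restrict_apply measurableSet_Ioc]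
      exact ((measure_mono inter_subset_left).trans_lt measure_Ioc_lt_top).ne))
  · exact (integrableOn_pw 0 h.T0_nonneg h.δ_pos).const_mul _

theorem g1_integrable (h : Dat u c r M Q δ B m) : IntegrableOn (g1 Q δ B m r) (Ioi 0) := by
  unfold g1
  refine Integrable.add ?_ ?_
  · rw [integrable_indicator_iff measurableSet_Ioc]
    exact (integrableOn_const (by
      rw [Measure.restrict_apply measurableSet_Ioc]
      exact ((measure_mono inter_subset_left).trans_lt measure_Ioc_lt_top).ne))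
  · exact ((integrableOn_pw 1 h.T0_nonneg h.δ_pos).add
      ((integrableOn_pw 0 h.T0_nonneg h.δ_pos).const_mul _)).const_mul _

theorem g1_integral (h : Dat u c r M Q δ B m) :
    ∫ t in Ioi (0:ℝ), g1 Q δ B m r t
      = K Q δ B m r * T0 Q δ ^ 2 + 1 / δ ^ 2 + T0 Q δ / δ := by
  unfold g1
  rw [integral_add]
  · rw [integral_const_mul, integral_add (integrableOn_pw 1 h.T0_nonneg h.δ_pos)
      ((integrableOn_pw 0 h.T0_nonneg h.δ_pos).const_mul _),
      integral_const_mul, integral_pw 0 h.T0_nonneg h.δ_pos, integral_pw 1 h.T0_nonneg h.δ_pos,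
      integral_indicator measurableSet_Ioc, Measure.restrict_restrict measurableSet_Ioc,
      inter_eq_left.mpr Ioc_subset_Ioi_self]
    have h1 := h.T0_nonneg
    have h2 : exp (δ * T0 Q δ) * exp (-(δ * T0 Q δ)) = 1 := by rw [← exp_add]; simp
    rw [setIntegral_const]
    simp only [smul_eq_mul, Nat.factorial_zero, zero_add, pow_one, Nat.cast_one, Nat.factorial_one,
      one_add_one_eq_two]
    rw [measureReal_def, Real.volume_Ioc, ENNReal.toReal_ofReal (by linarith)]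
    calc _ = K Q δ B m r * T0 Q δ ^ 2 + (exp (δ * T0 Q δ) * exp (-(δ * T0 Q δ)))
          * (1 / δ ^ 2 + T0 Q δ / δ) := by ring
      _ = _ := by rw [h2]; ring
  · rw [integrable_indicator_iff measurableSet_Ioc]
    exact (integrableOn_const (by
      rw [Measure.restrict_apply measurableSet_Ioc]
      exact ((measure_mono inter_subset_left).trans_lt measure_Ioc_lt_top).ne))
  · exact ((integrableOn_pw 1 h.T0_nonneg h.δ_pos).add
      ((integrableOn_pw 0 h.T0_nonneg h.δ_pos).const_mul _)).const_mul _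

theorem R_bound (h : Dat u c r M Q δ B m) {s t : ℝ} (hs : 0 ≤ s) (ht : 0 < t) :
    ‖(A u c r t - M * (exp t : ℝ)) * (exp (-((1 + s) * t)) : ℝ)‖ ≤ g0 Q δ B m r t := by
  rw [norm_mul, Complex.norm_real, Real.norm_of_nonneg (exp_pos _).le]
  refine le_trans ?_ (h.R_le ht)
  gcongr
  nlinarith

theorem R_meas [Countable ι] (h : Dat u c r M Q δ B m) (s : ℝ) :
    Measurable fun t => (A u c r t - M * (exp t : ℝ)) * ((exp (-((1 + s) * t)) : ℝ) : ℂ) := by
  have := measurable_A (c := c) (r := r) h.fin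
  fun_prop

theorem R_integrable [Countable ι] (h : Dat u c r M Q δ B m) {s : ℝ} (hs : 0 ≤ s) :
    IntegrableOn (fun t => (A u c r t - M * (exp t : ℝ)) * ((exp (-((1 + s) * t)) : ℝ) : ℂ))
      (Ioi 0) := by
  refine Integrable.mono' h.g0_integrable (h.R_meas s).aestronglyMeasurable ?_
  filter_upwards [ae_restrict_mem measurableSet_Ioi] with t ht
  exact h.R_bound hs ht

/-- the remainder integral -/
def I (u : ι → ℝ) (c : ι → ℂ) (r : ℕ) (M : ℂ) (s : ℝ) : ℂ :=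
  ∫ t in Ioi (0:ℝ), (A u c r t - M * (exp t : ℝ)) * ((exp (-((1 + s) * t)) : ℝ) : ℂ)

theorem I_norm (h : Dat u c r M Q δ B m) {s : ℝ} (hs : 0 ≤ s) :
    ‖I u c r M s‖ ≤ K Q δ B m r * T0 Q δ + 1 / δ := by
  rw [← h.g0_integral]
  refine norm_integral_le_of_norm_le h.g0_integrable ?_
  filter_upwards [ae_restrict_mem measurableSet_Ioi] with t ht
  exact h.R_bound hs ht

theorem exp_sub_le {a b : ℝ} (ha : 0 ≤ a) (hb : 0 ≤ b) : |exp (-a) - exp (-b)| ≤ |a - b| := by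
  wlog hab : a ≤ b generalizing a b
  · rw [abs_sub_comm, abs_sub_comm a b]
    exact this hb ha (le_of_not_ge hab)
  have h1 : exp (-b) = exp (-a) * exp (-(b - a)) := by rw [← exp_add]; congr 1; ring
  have h2 : 1 - (b - a) ≤ exp (-(b - a)) := by
    have := add_one_le_exp (-(b - a)); linarith
  have h3 : exp (-a) ≤ 1 := exp_le_one_iff.mpr (by linarith)
  have h4 : exp (-(b - a)) ≤ 1 := exp_le_one_iff.mpr (by linarith)
  have h5 : exp (-b) ≤ exp (-a) := exp_le_exp.mpr (by linarith)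
  rw [abs_of_nonneg (by linarith), abs_of_nonpos (by linarith), h1]
  have h6 := exp_pos (-a)
  nlinarith

theorem I_lip [Countable ι] (h : Dat u c r M Q δ B m) {s s' : ℝ} (hs : 0 ≤ s) (hs' : 0 ≤ s') :
    ‖I u c r M s - I u c r M s'‖
      ≤ |s - s'| * (K Q δ B m r * T0 Q δ ^ 2 + 1 / δ ^ 2 + T0 Q δ / δ) := by
  unfold I
  rw [← integral_sub (h.R_integrable hs) (h.R_integrable hs'), ← h.g1_integral,
    ← integral_const_mul]
  refine norm_integral_le_of_norm_le (h.g1_integrable.const_mul _) ?_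
  filter_upwards [ae_restrict_mem measurableSet_Ioi] with t ht
  have ht' : 0 < t := ht
  have h1 : (A u c r t - M * (exp t : ℝ)) * ((exp (-((1 + s) * t)) : ℝ) : ℂ)
      - (A u c r t - M * (exp t : ℝ)) * ((exp (-((1 + s') * t)) : ℝ) : ℂ)
      = (A u c r t - M * (exp t : ℝ)) * ((exp (-t) * (exp (-(s * t)) - exp (-(s' * t))) : ℝ) : ℂ) := by
    rw [← mul_sub, ← Complex.ofReal_sub]
    congr 2
    rw [mul_sub, ← exp_add, ← exp_add]
    ring_nf
  rw [h1, norm_mul, Complex.norm_real, Real.norm_eq_abs, abs_mul, abs_of_pos (exp_pos _)]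
  have h2 := exp_sub_le (mul_nonneg hs ht'.le) (mul_nonneg hs' ht'.le)
  have h3 : |s * t - s' * t| = |s - s'| * t := by
    rw [← sub_mul, abs_mul, abs_of_pos ht']
  rw [h3] at h2
  calc ‖A u c r t - M * (exp t : ℝ)‖ * (exp (-t) * |exp (-(s * t)) - exp (-(s' * t))|)
      = (‖A u c r t - M * (exp t : ℝ)‖ * exp (-t)) * |exp (-(s * t)) - exp (-(s' * t))| := by ring
    _ ≤ g0 Q δ B m r t * (|s - s'| * t) := by
        have := h.R_le ht'
        have h5 : 0 ≤ ‖A u c r t - M * (exp t : ℝ)‖ * exp (-t) := by positivity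
        gcongr
        linarith
    _ = |s - s'| * (t * g0 Q δ B m r t) := by ring
    _ ≤ |s - s'| * g1 Q δ B m r t := by
        have := h.t_mul_g0_le ht'
        gcongr

/-- the regular part of the Dirichlet series at `1+s` -/
def f (u : ι → ℝ) (c : ι → ℂ) (r : ℕ) (M : ℂ) (s : ℝ) : ℂ :=
  (((1 + s) ^ (r + 1) / r.factorial : ℝ) : ℂ) * I u c r M s

/-- **decomposition** `L(1+s) = f(s) + M (1+s)^{r+1} / (r! s)` -/
theorem L_eq [Countable ι] (h : Dat u c r M Q δ B m) {s : ℝ} (hs : 0 < s) :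
    ∑' i, c i * (exp (-((1 + s) * u i)) : ℝ)
      = f u c r M s + M * (((1 + s) ^ (r + 1) / (r.factorial * s) : ℝ) : ℂ) := by
  have h1 := laplace (r := r) h.hu h.hc (z := 1 + s) (by linarith) (h.sum _ (by linarith))
  have h2 : ∫ t in Ioi (0:ℝ), M * (exp t : ℝ) * ((exp (-((1 + s) * t)) : ℝ) : ℂ) = M * (1 / s : ℝ) := by
    have h3 : ∀ t : ℝ, M * (exp t : ℝ) * ((exp (-((1 + s) * t)) : ℝ) : ℂ)
        = M * ((exp (-s * t) : ℝ) : ℂ) := by
      intro t
      rw [mul_assoc, ← Complex.ofReal_mul, ← exp_add]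
      congr 3; ring
    simp_rw [h3]
    rw [integral_const_mul, integral_complex_ofReal, integral_exp_mul_Ioi (by linarith)]
    simp
  have hMint : IntegrableOn (fun t => M * (exp t : ℝ) * ((exp (-((1 + s) * t)) : ℝ) : ℂ))
      (Ioi 0) := by
    have h3 : ∀ t : ℝ, M * (exp t : ℝ) * ((exp (-((1 + s) * t)) : ℝ) : ℂ)
        = M * ((exp (-s * t) : ℝ) : ℂ) := by
      intro t
      rw [mul_assoc, ← Complex.ofReal_mul, ← exp_add]
      congr 3; ring
    simp_rw [h3]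
    exact ((integrableOn_exp_mul_Ioi (by linarith) 0).ofReal).const_mul M
  have h4 : I u c r M s + M * (1 / s : ℝ)
      = ∫ t in Ioi (0:ℝ), A u c r t * ((exp (-((1 + s) * t)) : ℝ) : ℂ) := by
    rw [← h2]
    unfold I
    rw [← integral_add (h.R_integrable hs.le) hMint]
    congr 1
    ext t
    ring
  rw [h1] at h4
  have h5 : (((1 + s) ^ (r + 1) / r.factorial : ℝ) : ℂ)
      * ((r.factorial / (1 + s) ^ (r + 1) : ℝ) : ℂ) = 1 := by
    rw [← Complex.ofReal_mul]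
    have : (1 + s) ^ (r + 1) ≠ 0 := by positivity
    have h6 : (r.factorial : ℝ) ≠ 0 := by positivity
    rw [div_mul_div_comm, mul_comm, div_self (by positivity)]
    simp
  unfold f
  calc ∑' i, c i * (exp (-((1 + s) * u i)) : ℝ)
      = (((1 + s) ^ (r + 1) / r.factorial : ℝ) : ℂ)
          * ((∑' i, c i * (exp (-((1 + s) * u i)) : ℝ))
            * ((r.factorial / (1 + s) ^ (r + 1) : ℝ) : ℂ)) := by
        rw [mul_comm (∑' i, c i * (exp (-((1 + s) * u i)) : ℝ) : ℂ), ← mul_assoc, h5, one_mul]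
    _ = (((1 + s) ^ (r + 1) / r.factorial : ℝ) : ℂ) * (I u c r M s + M * (1 / s : ℝ)) := by rw [h4]
    _ = _ := by
        push_cast
        have : (s : ℂ) ≠ 0 := by exact_mod_cast hs.ne'
        field_simp

theorem f_norm (h : Dat u c r M Q δ B m) {s : ℝ} (hs : 0 ≤ s) (hs1 : s ≤ 1) :
    ‖f u c r M s‖ ≤ 2 ^ (r + 1) * (K Q δ B m r * T0 Q δ + 1 / δ) := by
  unfold f
  rw [norm_mul, Complex.norm_real, Real.norm_of_nonneg (by positivity)]
  have h1 := h.I_norm hs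
  have h2 : (1 + s) ^ (r + 1) / r.factorial ≤ 2 ^ (r + 1) := by
    have : (1:ℝ) ≤ r.factorial := by exact_mod_cast Nat.one_le_iff_ne_zero.mpr (Nat.factorial_ne_zero r)
    rw [div_le_iff₀ (by positivity)]
    calc (1 + s) ^ (r + 1) ≤ (2:ℝ) ^ (r + 1) := by gcongr; linarith
      _ = 2 ^ (r + 1) * 1 := by ring
      _ ≤ 2 ^ (r + 1) * r.factorial := by gcongr
  gcongr

/-- `|(1+s)^n - (1+s')^n| ≤ n 2^n |s-s'|` -/
theorem pow_lip (n : ℕ) {s s' : ℝ} (hs : 0 ≤ s) (hs1 : s ≤ 1) (hs' : 0 ≤ s') (hs1' : s' ≤ 1) :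
    |(1 + s) ^ n - (1 + s') ^ n| ≤ n * 2 ^ n * |s - s'| := by
  induction n with
  | zero => simp
  | succ n ih =>
    have h1 : (1 + s) ^ (n + 1) - (1 + s') ^ (n + 1)
        = (1 + s) * ((1 + s) ^ n - (1 + s') ^ n) + (s - s') * (1 + s') ^ n := by ring
    rw [h1]
    refine (abs_add_le _ _).trans ?_
    rw [abs_mul, abs_mul, abs_of_nonneg (show 0 ≤ 1 + s by linarith),
      abs_of_nonneg (show 0 ≤ (1 + s') ^ n by positivity)]
    have h2 : (1 + s') ^ n ≤ 2 ^ n := by gcongr; linarith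
    have h3 := abs_nonneg (s - s')
    calc (1 + s) * |(1 + s) ^ n - (1 + s') ^ n| + |s - s'| * (1 + s') ^ n
        ≤ 2 * (n * 2 ^ n * |s - s'|) + |s - s'| * 2 ^ n := by
          gcongr; linarith
      _ ≤ _ := by
          push_cast
          have : (0:ℝ) ≤ 2 ^ n * |s - s'| := by positivity
          ring_nf
          nlinarith

theorem f_lip [Countable ι] (h : Dat u c r M Q δ B m) {s s' : ℝ} (hs : 0 ≤ s) (hs1 : s ≤ 1)
    (hs' : 0 ≤ s') (hs1' : s' ≤ 1) :
    ‖f u c r M s - f u c r M s'‖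
      ≤ |s - s'| * (2 ^ (r + 1) * ((r + 1) * (K Q δ B m r * T0 Q δ + 1 / δ)
        + (K Q δ B m r * T0 Q δ ^ 2 + 1 / δ ^ 2 + T0 Q δ / δ))) := by
  have hf : (1:ℝ) ≤ r.factorial := by
    exact_mod_cast Nat.one_le_iff_ne_zero.mpr (Nat.factorial_ne_zero r)
  have h1 : f u c r M s - f u c r M s'
      = ((((1 + s) ^ (r + 1) - (1 + s') ^ (r + 1)) / r.factorial : ℝ) : ℂ) * I u c r M s
        + (((1 + s') ^ (r + 1) / r.factorial : ℝ) : ℂ) * (I u c r M s - I u c r M s') := by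
    unfold f; push_cast; ring
  rw [h1]
  refine (norm_add_le _ _).trans ?_
  rw [norm_mul, norm_mul, Complex.norm_real, Complex.norm_real, Real.norm_eq_abs,
    Real.norm_of_nonneg (show 0 ≤ (1 + s') ^ (r + 1) / (r.factorial : ℝ) by positivity), abs_div,
    abs_of_nonneg (show (0:ℝ) ≤ r.factorial by positivity)]
  have h2 := pow_lip (r + 1) hs hs1 hs' hs1'
  have h3 := h.I_norm hs
  have h4 := h.I_lip hs hs'
  have h5 : (1 + s') ^ (r + 1) / r.factorial ≤ 2 ^ (r + 1) := by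
    rw [div_le_iff₀ (by positivity)]
    calc (1 + s') ^ (r + 1) ≤ (2:ℝ) ^ (r + 1) := by gcongr; linarith
      _ = 2 ^ (r + 1) * 1 := by ring
      _ ≤ 2 ^ (r + 1) * r.factorial := by gcongr
  have h6 : |(1 + s) ^ (r + 1) - (1 + s') ^ (r + 1)| / r.factorial
      ≤ (r + 1) * 2 ^ (r + 1) * |s - s'| := by
    refine (div_le_self (abs_nonneg _) hf).trans ?_
    push_cast at h2
    exact h2
  have h7 : 0 ≤ K Q δ B m r * T0 Q δ + 1 / δ := (norm_nonneg _).trans h3
  calc |(1 + s) ^ (r + 1) - (1 + s') ^ (r + 1)| / r.factorial * ‖I u c r M s‖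
      + (1 + s') ^ (r + 1) / r.factorial * ‖I u c r M s - I u c r M s'‖
      ≤ ((r + 1) * 2 ^ (r + 1) * |s - s'|) * (K Q δ B m r * T0 Q δ + 1 / δ)
        + 2 ^ (r + 1) * (|s - s'| * (K Q δ B m r * T0 Q δ ^ 2 + 1 / δ ^ 2 + T0 Q δ / δ)) := by
        gcongr
    _ = _ := by ring

/-- the explicit constant of the final bounds -/
def cC (r m : ℕ) (δ B : ℝ) : ℝ :=
  2 ^ (r + 1) * ((r + 2) * ((2 * B + 1 + 1 / δ + 1 / δ ^ 2) * (1 + 1 / δ) ^ (m + r + 2)))

/-- the logarithmic factor -/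
def lg (Q : ℝ) (m r : ℕ) : ℝ := (1 + log Q) ^ (m + r + 2)

theorem bounds (h : Dat u c r M Q δ B m) :
    K Q δ B m r * T0 Q δ + 1 / δ
        ≤ (2 * B + 1 + 1 / δ + 1 / δ ^ 2) * (1 + 1 / δ) ^ (m + r + 2) * lg Q m r ∧
    K Q δ B m r * T0 Q δ ^ 2 + 1 / δ ^ 2 + T0 Q δ / δ
        ≤ (2 * B + 1 + 1 / δ + 1 / δ ^ 2) * (1 + 1 / δ) ^ (m + r + 2) * lg Q m r ∧
    ‖M‖ ≤ (2 * B + 1 + 1 / δ + 1 / δ ^ 2) * (1 + 1 / δ) ^ (m + r + 2) * lg Q m r := by
  have hT := h.T0_nonneg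
  have hδ := h.δ_pos
  have hB := h.B_nonneg
  have hlog : 0 ≤ log Q := log_nonneg h.Q_ge
  have hM := h.M_le
  have h1 : 1 + T0 Q δ ≤ (1 + 1 / δ) * (1 + log Q) := by
    unfold T0
    have : 0 ≤ 1 / δ := by positivity
    have e : log Q / δ = 1 / δ * log Q := by ring
    rw [e]
    nlinarith
  have hP : (1 + T0 Q δ) ^ (m + r + 2) ≤ (1 + 1 / δ) ^ (m + r + 2) * lg Q m r := by
    unfold lg
    rw [← mul_pow]
    gcongr
  set P := (1 + T0 Q δ) ^ (m + r + 2) with hPdef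
  set T := T0 Q δ with hTdef
  have hP0 : (1 + T) ^ (m + r) ≤ P := by
    rw [hPdef]; exact pow_le_pow_right₀ (by linarith) (by omega)
  have hP1 : 1 ≤ (1 + T) ^ (m + r) := one_le_pow₀ (by linarith)
  have hP2 : T ≤ P := by
    calc T ≤ 1 + T := by linarith
      _ = (1 + T) ^ 1 := (pow_one _).symm
      _ ≤ P := by rw [hPdef]; exact pow_le_pow_right₀ (by linarith) (by omega)
  have hP3 : (1 + T) ^ (m + r) * T ^ 2 ≤ P := by
    calc (1 + T) ^ (m + r) * T ^ 2 ≤ (1 + T) ^ (m + r) * (1 + T) ^ 2 := by gcongr; linarith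
      _ = P := by rw [hPdef]; ring
  have hP4 : (1 + T) ^ (m + r) * T ≤ P := by
    calc (1 + T) ^ (m + r) * T ≤ (1 + T) ^ (m + r) * (1 + T) := by gcongr; linarith
      _ = (1 + T) ^ (m + r + 1) := by ring
      _ ≤ P := by rw [hPdef]; exact pow_le_pow_right₀ (by linarith) (by omega)
  have hP5 : T ^ 2 ≤ P := by
    calc T ^ 2 ≤ (1 + T) ^ (m + r) * T ^ 2 := le_mul_of_one_le_left (by positivity) hP1
      _ ≤ P := hP3
  have hPpos : 0 < P := by linarith
  have hd1 : 0 ≤ 1 / δ := by positivity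
  have hd2 : 0 ≤ 1 / δ ^ 2 := by positivity
  have main : ∀ x, x ≤ (2 * B + 1 + 1 / δ + 1 / δ ^ 2) * P →
      x ≤ (2 * B + 1 + 1 / δ + 1 / δ ^ 2) * (1 + 1 / δ) ^ (m + r + 2) * lg Q m r := by
    intro x hx
    refine hx.trans ?_
    rw [mul_assoc]
    gcongr
  have hP1' : 1 ≤ P := hP1.trans hP0
  refine ⟨main _ ?_, main _ ?_, main _ ?_⟩
  · unfold K
    rw [← hTdef]
    have e1 : (2 * (B * (1 + T) ^ (m + r)) + 1) * T + 1 / δ
        = 2 * B * ((1 + T) ^ (m + r) * T) + T + 1 / δ := by ring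
    rw [e1]
    have e2 : 2 * B * ((1 + T) ^ (m + r) * T) ≤ 2 * B * P := by gcongr
    have e3 : 1 / δ ≤ 1 / δ * P := le_mul_of_one_le_right hd1 hP1'
    have e4 : 0 ≤ 1 / δ ^ 2 * P := by positivity
    nlinarith
  · unfold K
    rw [← hTdef]
    have e1 : (2 * (B * (1 + T) ^ (m + r)) + 1) * T ^ 2 + 1 / δ ^ 2 + T / δ
        = 2 * B * ((1 + T) ^ (m + r) * T ^ 2) + T ^ 2 + 1 / δ ^ 2 + 1 / δ * T := by ring
    rw [e1]
    have e2 : 2 * B * ((1 + T) ^ (m + r) * T ^ 2) ≤ 2 * B * P := by gcongr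
    have e3 : 1 / δ * T ≤ 1 / δ * P := by gcongr
    have e4 : 1 / δ ^ 2 ≤ 1 / δ ^ 2 * P := le_mul_of_one_le_right hd2 hP1'
    nlinarith
  · refine hM.trans ?_
    have e2 : B * (1 + T) ^ (m + r) ≤ B * P := by gcongr
    have e3 : 0 ≤ 1 / δ * P := by positivity
    have e4 : 0 ≤ 1 / δ ^ 2 * P := by positivity
    have e5 : 0 ≤ B * P := by positivity
    nlinarith



theorem f_norm_le (h : Dat u c r M Q δ B m) {s : ℝ} (hs : 0 ≤ s) (hs1 : s ≤ 1) :
    ‖f u c r M s‖ ≤ cC r m δ B * lg Q m r := by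
  have h1 := h.f_norm hs hs1
  obtain ⟨h2, _, _⟩ := h.bounds
  have h0 : 0 ≤ K Q δ B m r * T0 Q δ + 1 / δ := (norm_nonneg _).trans (h.I_norm hs)
  have h4 : (0:ℝ) ≤ r := by positivity
  refine h1.trans ?_
  unfold cC
  calc 2 ^ (r + 1) * (K Q δ B m r * T0 Q δ + 1 / δ)
      ≤ 2 ^ (r + 1) * ((r + 2) * (K Q δ B m r * T0 Q δ + 1 / δ)) := by
        gcongr
        exact le_mul_of_one_le_left h0 (by linarith)
    _ ≤ 2 ^ (r + 1) * ((r + 2) * ((2 * B + 1 + 1 / δ + 1 / δ ^ 2) * (1 + 1 / δ) ^ (m + r + 2)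
          * lg Q m r)) := by gcongr
    _ = _ := by ring

theorem f_lip_le [Countable ι] (h : Dat u c r M Q δ B m) {s s' : ℝ} (hs : 0 ≤ s) (hs1 : s ≤ 1)
    (hs' : 0 ≤ s') (hs1' : s' ≤ 1) :
    ‖f u c r M s - f u c r M s'‖ ≤ cC r m δ B * lg Q m r * |s - s'| := by
  refine (h.f_lip hs hs1 hs' hs1').trans ?_
  obtain ⟨h2, h3, _⟩ := h.bounds
  have h4 : (0:ℝ) ≤ r := by positivity
  rw [mul_comm]
  refine mul_le_mul_of_nonneg_right ?_ (abs_nonneg _)
  unfold cC
  set Z := (2 * B + 1 + 1 / δ + 1 / δ ^ 2) * (1 + 1 / δ) ^ (m + r + 2) * lg Q m r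
  calc 2 ^ (r + 1) * ((r + 1) * (K Q δ B m r * T0 Q δ + 1 / δ)
        + (K Q δ B m r * T0 Q δ ^ 2 + 1 / δ ^ 2 + T0 Q δ / δ))
      ≤ 2 ^ (r + 1) * ((r + 1) * Z + Z) := by gcongr
    _ = 2 ^ (r + 1) * ((r + 2) * Z) := by ring
    _ = _ := by ring


/-- **the final bound** for the Dirichlet series -/
theorem L_sub_le [Countable ι] (h : Dat u c r M Q δ B m) {s : ℝ} (hs : 0 < s) (hs1 : s ≤ 1) :
    ‖∑' i, c i * (exp (-((1 + s) * u i)) : ℝ) - M / (r.factorial * s : ℝ)‖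
      ≤ cC r m δ B * lg Q m r := by
  rw [h.L_eq hs]
  have e : f u c r M s + M * (((1 + s) ^ (r + 1) / (r.factorial * s) : ℝ) : ℂ)
        - M / (r.factorial * s : ℝ)
      = f u c r M s + M * (((((1 + s) ^ (r + 1) - 1) / (r.factorial * s)) : ℝ) : ℂ) := by
    push_cast; ring
  rw [e]
  have h1 := h.f_norm hs.le hs1
  obtain ⟨h2, _, h3⟩ := h.bounds
  have hf : (1:ℝ) ≤ r.factorial := by
    exact_mod_cast Nat.one_le_iff_ne_zero.mpr (Nat.factorial_ne_zero r)
  have h4 := pow_lip (r + 1) hs.le hs1 le_rfl zero_le_one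
  simp only [add_zero, one_pow, sub_zero] at h4
  rw [abs_of_pos hs] at h4
  have h5 : |((1 + s) ^ (r + 1) - 1) / (r.factorial * s)| ≤ (r + 1) * 2 ^ (r + 1) := by
    rw [abs_div, abs_of_pos (show 0 < r.factorial * s by positivity), div_le_iff₀ (by positivity)]
    push_cast at h4
    calc |(1 + s) ^ (r + 1) - 1| ≤ (r + 1) * 2 ^ (r + 1) * s := h4
      _ = (r + 1) * 2 ^ (r + 1) * (1 * s) := by ring
      _ ≤ (r + 1) * 2 ^ (r + 1) * (r.factorial * s) := by gcongr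
  refine (norm_add_le _ _).trans ?_
  rw [norm_mul, Complex.norm_real, Real.norm_eq_abs]
  unfold cC
  set Z := (2 * B + 1 + 1 / δ + 1 / δ ^ 2) * (1 + 1 / δ) ^ (m + r + 2) * lg Q m r
  calc ‖f u c r M s‖ + ‖M‖ * |((1 + s) ^ (r + 1) - 1) / (r.factorial * s)|
      ≤ 2 ^ (r + 1) * Z + Z * ((r + 1) * 2 ^ (r + 1)) := by
        have : ‖f u c r M s‖ ≤ 2 ^ (r + 1) * Z := h1.trans (by gcongr)
        gcongr
        exact (norm_nonneg _).trans h3
    _ = _ := by ring

end Dat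

end Crest.Agent.R014.Ic1_550
end
end

-- ▼ part R014/Ic3_550
section

/-!
# Row 14, N1: the Dirichlet series of ideals as an instance of `Ic1_550.Dat` (helper550)
-/

set_option autoImplicit false

open NumberField Ideal Filter Topology

noncomputable section

namespace Crest.Agent.R014.Ic3_550

open Crest.Agent.R014.Ic1_550 Crest.Agent.R014.LDef_550

universe u

variable (E : Type u) [Field E] [NumberField E]

/-- nonzero ideals -/
abbrev Idl := {a : Ideal (𝓞 E) // a ≠ ⊥}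

/-- the logarithm of the norm -/
def uu (a : Idl E) : ℝ := Real.log (absNorm a.1)

/-- the coefficients -/
def cc {q : ℕ} (f : ZMod q → ℂ) (a : Idl E) : ℂ := f (absNorm a.1 : ZMod q)

variable {E}

theorem absNorm_pos (a : Idl E) : 0 < absNorm a.1 :=
  Nat.pos_of_ne_zero (by rw [Ne, absNorm_eq_zero_iff]; exact a.2)

theorem one_le_absNorm (a : Idl E) : (1:ℝ) ≤ absNorm a.1 := by
  exact_mod_cast absNorm_pos a

theorem uu_nonneg (a : Idl E) : 0 ≤ uu E a := Real.log_nonneg (one_le_absNorm a)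

theorem exp_uu (z : ℝ) (a : Idl E) : Real.exp (-(z * uu E a)) = (absNorm a.1 : ℝ) ^ (-z) := by
  have h := one_le_absNorm a
  rw [Real.rpow_def_of_pos (by linarith)]
  unfold uu
  congr 1; ring

theorem uu_le_iff (a : Idl E) (t : ℝ) : uu E a ≤ t ↔ (absNorm a.1 : ℝ) ≤ Real.exp t := by
  have h := one_le_absNorm a
  unfold uu
  rw [Real.log_le_iff_le_exp (by linarith)]

theorem finite_uu (t : ℝ) : {a : Idl E | uu E a ≤ t}.Finite := by
  have h := Ic2_550.finite_norm_le (E := E) (Real.exp t)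
  refine Set.Finite.of_finite_image (f := Subtype.val) (h.subset ?_) Subtype.val_injective.injOn
  rintro _ ⟨a, ha, rfl⟩
  exact ⟨a.2, (uu_le_iff a t).mp ha⟩

theorem cnt_le {t : ℝ} (ht : 0 ≤ t) :
    (cnt (uu E) t : ℝ) ≤ 1 * (Real.exp t * (1 + t) ^ Module.finrank ℚ E) := by
  have h := Ic2_550.card_norm_le_log (E := E) (Real.one_le_exp ht)
  rw [Real.log_exp] at h
  rw [one_mul]
  refine le_trans ?_ h
  unfold cnt
  have h1 : Nat.card {a : Idl E // uu E a ≤ t} = {a : Idl E | uu E a ≤ t}.ncard := rfl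
  rw [h1, ← Set.ncard_image_of_injective _ Subtype.val_injective]
  exact_mod_cast Set.ncard_le_ncard (by
    rintro _ ⟨a, ha, rfl⟩
    exact ⟨a.2, (uu_le_iff a t).mp ha⟩) (Ic2_550.finite_norm_le (E := E) (Real.exp t))

theorem summable_uu {z : ℝ} (hz : 1 < z) : Summable fun a : Idl E => Real.exp (-(z * uu E a)) := by
  simp_rw [exp_uu]
  exact Ic2_550.summable_norm hz

theorem finrank_pos' : (0:ℝ) < Module.finrank ℚ E := by
  exact_mod_cast Module.finrank_pos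

/-- the number field instance of `Dat` -/
theorem dat {q : ℕ} {f : ZMod q → ℂ} (hf : ∀ z, ‖f z‖ ≤ 1) {r : ℕ} {M : ℂ} {Q : ℝ} (hQ : 1 ≤ Q)
    (h : ∀ t, 0 ≤ t → ‖A (uu E) (cc E f) r t - M * (Real.exp t : ℝ)‖
      ≤ Q * Real.exp ((1 - 1 / (Module.finrank ℚ E : ℝ)) * t)) :
    Dat (uu E) (cc E f) r M Q (1 / (Module.finrank ℚ E : ℝ)) 1 (Module.finrank ℚ E) where
  hu := uu_nonneg
  hc := fun a => hf _
  fin := finite_uu
  sum := fun z hz => summable_uu hz
  cnt_le := fun t ht => cnt_le ht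
  riesz := h
  Q_ge := hQ
  δ_pos := by have := finrank_pos' (E := E); positivity
  B_nonneg := zero_le_one

theorem card_fiber {n : ℕ} (hn : 0 < n) :
    Nat.card {a : Idl E // absNorm a.1 = n} = Nat.card {I : Ideal (𝓞 E) // absNorm I = n} := by
  refine Nat.card_eq_of_bijective
    (fun a : {a : Idl E // absNorm a.1 = n} => (⟨a.1.1, a.2⟩ : {I : Ideal (𝓞 E) // absNorm I = n}))
    ⟨?_, ?_⟩
  · intro a b hab
    have := congrArg Subtype.val hab
    exact Subtype.ext (Subtype.ext this)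
  · intro I
    have hI : I.1 ≠ ⊥ := by
      intro h
      have := I.2
      rw [h, absNorm_bot] at this
      omega
    exact ⟨⟨⟨I.1, hI⟩, I.2⟩, rfl⟩

theorem sigmaFiberEquiv_val (p : (Σ n, {a : Idl E // absNorm a.1 = n})) :
    Equiv.sigmaFiberEquiv (fun a : Idl E => absNorm a.1) p = p.2.1 := rfl

/-- from sums over ideals to sums over integers -/
theorem tsum_ideals {F : ℕ → ℂ} (hF0 : F 0 = 0) (hs : Summable fun a : Idl E => F (absNorm a.1)) :
    ∑' a : Idl E, F (absNorm a.1) = ∑' n : ℕ, (rE E n : ℂ) * F n := by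
  have h1 := (Equiv.sigmaFiberEquiv (fun a : Idl E => absNorm a.1)).tsum_eq
      (fun a : Idl E => F (absNorm a.1))
  have hs' := (Equiv.sigmaFiberEquiv (fun a : Idl E => absNorm a.1)).summable_iff.mpr hs
  simp only [Function.comp_def, sigmaFiberEquiv_val] at h1 hs'
  rw [← h1, hs'.tsum_sigma]
  refine tsum_congr fun n => ?_
  have h2 : ∀ a : {a : Idl E // absNorm a.1 = n}, F (absNorm a.1.1) = F n := fun a => by rw [a.2]
  simp_rw [h2]
  rw [tsum_const, nsmul_eq_mul]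
  rcases Nat.eq_zero_or_pos n with rfl | hn
  · rw [hF0]; simp
  · congr 2
    unfold rE
    exact card_fiber hn




theorem summable_psi {q : ℕ} {f : ZMod q → ℂ} (hf : ∀ z, ‖f z‖ ≤ 1) {s : ℝ} (hs : 0 < s) :
    Summable fun a : Idl E => f (absNorm a.1 : ZMod q) * (((absNorm a.1 : ℝ) ^ (-(1 + s)) : ℝ) : ℂ) := by
  refine Summable.of_norm_bounded (Ic2_550.summable_norm (E := E) (z := 1 + s) (by linarith)) fun a => ?_
  rw [norm_mul, Complex.norm_real, Real.norm_of_nonneg (by positivity)]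
  exact mul_le_of_le_one_left (by positivity) (hf _)

theorem LEpsi_eq {q : ℕ} (psi : DirichletCharacter ℂ q) {s : ℝ} (hs : 0 < s) :
    ∑' a : Idl E, cc E psi a * (Real.exp (-((1 + s) * uu E a)) : ℝ) = LEpsi E psi s := by
  simp_rw [exp_uu]
  unfold cc LEpsi
  have h := tsum_ideals (E := E)
    (F := fun n : ℕ => psi (n : ZMod q) * (((n : ℝ) ^ (-(1 + s)) : ℝ) : ℂ)) (by
      have : ((0:ℕ):ℝ) ^ (-(1 + s)) = 0 := by
        rw [Nat.cast_zero]
        exact Real.zero_rpow (by linarith)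
      rw [this]; simp) (summable_psi (f := psi) (fun z => DirichletCharacter.norm_le_one psi z) hs)
  refine h.trans (tsum_congr fun n => ?_)
  ring

theorem zE_eq {s : ℝ} (hs : 0 < s) :
    ∑' a : Idl E, cc E (fun _ : ZMod 1 => (1:ℂ)) a * (Real.exp (-((1 + s) * uu E a)) : ℝ)
      = (zE E s : ℂ) := by
  have h0 : ∀ a : Idl E, cc E (fun _ : ZMod 1 => (1:ℂ)) a * (Real.exp (-((1 + s) * uu E a)) : ℝ)
      = (fun _ : ZMod 1 => (1:ℂ)) (absNorm a.1 : ZMod 1) * (((absNorm a.1 : ℝ) ^ (-(1 + s)) : ℝ) : ℂ) := by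
    intro a
    rw [exp_uu]
    rfl
  rw [tsum_congr h0]
  unfold zE
  have h := tsum_ideals (E := E)
    (F := fun n : ℕ => (fun _ : ZMod 1 => (1:ℂ)) n * (((n : ℝ) ^ (-(1 + s)) : ℝ) : ℂ)) (by
      have : ((0:ℕ):ℝ) ^ (-(1 + s)) = 0 := by
        rw [Nat.cast_zero]
        exact Real.zero_rpow (by linarith)
      rw [this]; simp) (summable_psi (f := fun _ : ZMod 1 => (1:ℂ)) (fun z => by simp) hs)
  refine h.trans ?_
  rw [Complex.ofReal_tsum]
  refine tsum_congr fun n => ?_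
  push_cast
  ring

/-- `zE` is the Dedekind zeta function of Mathlib -/
theorem zE_eq_dedekindZeta {s : ℝ} (hs : 0 < s) : (zE E s : ℂ) = dedekindZeta E ((1 + s : ℝ) : ℂ) := by
  unfold zE dedekindZeta LSeries
  rw [Complex.ofReal_tsum]
  refine tsum_congr fun n => ?_
  rcases Nat.eq_zero_or_pos n with rfl | hn
  · have : ((0:ℕ):ℝ) ^ (-(1 + s)) = 0 := by
      rw [Nat.cast_zero]
      exact Real.zero_rpow (by linarith)
    rw [this]; simp
  · rw [LSeries.term_of_ne_zero hn.ne', div_eq_mul_inv, ← Complex.cpow_neg]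
    unfold rE
    push_cast
    rw [Complex.ofReal_cpow (by positivity)]
    push_cast
    rfl

/-- the pole of `zE` -/
theorem tendsto_zE : Tendsto (fun s : ℝ => s * zE E s) (𝓝[>] 0) (𝓝 (dedekindZeta_residue E)) := by
  have h := tendsto_sub_one_mul_dedekindZeta_nhdsGT E
  have h1 : Tendsto (fun s : ℝ => 1 + s) (𝓝[>] 0) (𝓝[>] 1) := by
    refine tendsto_nhdsWithin_iff.mpr ⟨?_, ?_⟩
    · have : Tendsto (fun s : ℝ => 1 + s) (𝓝 0) (𝓝 (1 + 0)) := (continuous_const.add continuous_id).tendsto 0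
      rw [add_zero] at this
      exact this.mono_left nhdsWithin_le_nhds
    · filter_upwards [self_mem_nhdsWithin] with s hs
      simp only [Set.mem_Ioi] at hs ⊢
      linarith
  have h2 := h.comp h1
  have h3 : Tendsto (fun s : ℝ => ((s * zE E s : ℝ) : ℂ)) (𝓝[>] 0) (𝓝 ((dedekindZeta_residue E : ℝ) : ℂ)) := by
    refine h2.congr' ?_
    filter_upwards [self_mem_nhdsWithin] with s hs
    simp only [Set.mem_Ioi] at hs
    simp only [Function.comp_apply]
    rw [← zE_eq_dedekindZeta hs]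
    push_cast
    ring
  exact (Complex.continuous_re.tendsto _).comp h3 |>.congr (fun s => by simp)


end Crest.Agent.R014.Ic3_550
end
end

-- ▼ part R014/Ic4_550
section

/-!
# Row 14, N1: final bounds from the Riesz mean asymptotics (helper550)

`Riesz E q f r M Q`: `|∑_{a} f(N a) (t - log N a)_+^r - M e^t| ≤ Q e^{(1-1/d)t}` for `t ≥ 0`.
-/

set_option autoImplicit false

open NumberField Ideal Filter Topology

noncomputable section

namespace Crest.Agent.R014.Ic4_550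

open Crest.Agent.R014.Ic1_550 Crest.Agent.R014.LDef_550 Crest.Agent.R014.Ic3_550
open Crest.Agent.R014.Ic1_550.Dat (cC lg)

universe u

/-- asymptotics of the Riesz mean of order `r` over all ideals -/
def Riesz (E : Type u) [Field E] [NumberField E] {q : ℕ} (f : ZMod q → ℂ) (r : ℕ) (M : ℂ) (Q : ℝ) :
    Prop :=
  ∀ t, 0 ≤ t → ‖A (uu E) (cc E f) r t - M * (Real.exp t : ℝ)‖
      ≤ Q * Real.exp ((1 - 1 / (Module.finrank ℚ E : ℝ)) * t)

variable {E : Type u} [Field E] [NumberField E]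

instance : Countable (Idl E) := by
  have : Function.Injective fun a : Idl E => Ic2_550.code a.1 := by
    intro a b hab
    exact Subtype.ext (Ic2_550.code_injOn a.2 b.2 hab)
  exact this.countable

/-- the constant, depending only on the degree `d` and the order `r` -/
def CC (d r : ℕ) : ℝ := cC r d (1 / (d:ℝ)) 1

theorem CC_nonneg (d r : ℕ) : 0 ≤ CC d r := by
  unfold CC cC; positivity

theorem zE_lim {r : ℕ} {M : ℂ} {Q : ℝ} (hQ : 1 ≤ Q)
    (h : Riesz E (fun _ : ZMod 1 => (1:ℂ)) r M Q) :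
    M = ((r.factorial * dedekindZeta_residue E : ℝ) : ℂ) := by
  have hd := dat (E := E) (f := fun _ : ZMod 1 => (1:ℂ)) (fun z => by simp) hQ h
  have h1 : Tendsto (fun s : ℝ => ((r.factorial * (s * zE E s) : ℝ) : ℂ)) (𝓝[>] 0)
      (𝓝 ((r.factorial * dedekindZeta_residue E : ℝ) : ℂ)) :=
    (Complex.continuous_ofReal.tendsto _).comp (tendsto_zE.const_mul _)
  have h2 : Tendsto (fun s : ℝ => ((r.factorial * (s * zE E s) : ℝ) : ℂ)) (𝓝[>] 0) (𝓝 M) := by
    rw [tendsto_iff_norm_sub_tendsto_zero]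
    have h3 : Tendsto (fun s : ℝ => r.factorial * s * (cC r (Module.finrank ℚ E)
        (1 / (Module.finrank ℚ E : ℝ)) 1 * lg Q (Module.finrank ℚ E) r)) (𝓝[>] 0) (𝓝 0) := by
      have : Tendsto (fun s : ℝ => r.factorial * s * (cC r (Module.finrank ℚ E)
        (1 / (Module.finrank ℚ E : ℝ)) 1 * lg Q (Module.finrank ℚ E) r)) (𝓝 0)
        (𝓝 (r.factorial * 0 * (cC r (Module.finrank ℚ E)
        (1 / (Module.finrank ℚ E : ℝ)) 1 * lg Q (Module.finrank ℚ E) r))) := by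
        apply Continuous.tendsto; fun_prop
      simp only [mul_zero, zero_mul] at this
      exact this.mono_left nhdsWithin_le_nhds
    refine squeeze_zero' (Eventually.of_forall fun s => norm_nonneg _) ?_ h3
    have h4 : ∀ᶠ s : ℝ in 𝓝[>] 0, s < 1 :=
      (Filter.tendsto_id.mono_left nhdsWithin_le_nhds : Tendsto id (𝓝[>] (0:ℝ)) (𝓝 0)).eventually
        (gt_mem_nhds zero_lt_one)
    filter_upwards [self_mem_nhdsWithin, h4] with s hs hs1
    simp only [Set.mem_Ioi] at hs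
    have h5 := hd.L_sub_le hs hs1.le
    rw [zE_eq hs] at h5
    have h6 : ((r.factorial * (s * zE E s) : ℝ) : ℂ) - M
        = ((r.factorial * s : ℝ) : ℂ) * ((zE E s : ℂ) - M / (r.factorial * s : ℝ)) := by
      have : ((r.factorial * s : ℝ) : ℂ) ≠ 0 := by
        have : (r.factorial * s : ℝ) ≠ 0 := by positivity
        exact_mod_cast this
      rw [mul_sub, mul_div_cancel₀ _ this]
      push_cast; ring
    rw [h6, norm_mul, Complex.norm_real, Real.norm_of_nonneg (by positivity)]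
    gcongr
  exact tendsto_nhds_unique h2 h1

/-- (A1), explicit form -/
theorem A1_explicit {r : ℕ} {M : ℂ} {Q : ℝ} (hQ : 1 ≤ Q)
    (h : Riesz E (fun _ : ZMod 1 => (1:ℂ)) r M Q) {s : ℝ} (hs : 0 < s) (hs1 : s ≤ 1) :
    |zE E s - dedekindZeta_residue E / s|
      ≤ CC (Module.finrank ℚ E) r * lg Q (Module.finrank ℚ E) r := by
  have hd := dat (E := E) (f := fun _ : ZMod 1 => (1:ℂ)) (fun z => by simp) hQ h
  have h1 := hd.L_sub_le hs hs1
  rw [zE_eq hs, zE_lim hQ h] at h1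
  have h2 : (zE E s : ℂ) - ((r.factorial * dedekindZeta_residue E : ℝ) : ℂ) / (r.factorial * s : ℝ)
      = ((zE E s - dedekindZeta_residue E / s : ℝ) : ℂ) := by
    have : (r.factorial : ℂ) ≠ 0 := by exact_mod_cast Nat.factorial_ne_zero r
    have hs' : (s : ℂ) ≠ 0 := by exact_mod_cast hs.ne'
    push_cast
    field_simp
  rw [h2, Complex.norm_real] at h1
  exact h1

/-- (A2), explicit form: bound -/
theorem A2_explicit {q : ℕ} (psi : DirichletCharacter ℂ q) {r : ℕ} {Q : ℝ} (hQ : 1 ≤ Q)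
    (h : Riesz E psi r 0 Q) {s : ℝ} (hs : 0 < s) (hs1 : s ≤ 1) :
    ‖LEpsi E psi s‖ ≤ CC (Module.finrank ℚ E) r * lg Q (Module.finrank ℚ E) r := by
  have hd := dat (E := E) (f := psi) (fun z => DirichletCharacter.norm_le_one psi z) hQ h
  have h1 := hd.L_eq hs
  rw [LEpsi_eq psi hs] at h1
  rw [h1, zero_mul, add_zero]
  exact hd.f_norm_le hs.le hs1

/-- (A2), explicit form: Lipschitz bound -/
theorem A2_lip_explicit {q : ℕ} (psi : DirichletCharacter ℂ q) {r : ℕ} {Q : ℝ} (hQ : 1 ≤ Q)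
    (h : Riesz E psi r 0 Q) {s s' : ℝ} (hs : 0 < s) (hs1 : s ≤ 1) (hs' : 0 < s') (hs1' : s' ≤ 1) :
    ‖LEpsi E psi s - LEpsi E psi s'‖
      ≤ CC (Module.finrank ℚ E) r * lg Q (Module.finrank ℚ E) r * |s - s'| := by
  have hd := dat (E := E) (f := psi) (fun z => DirichletCharacter.norm_le_one psi z) hQ h
  have h1 := hd.L_eq hs
  have h2 := hd.L_eq hs'
  rw [LEpsi_eq psi hs] at h1
  rw [LEpsi_eq psi hs'] at h2
  rw [h1, h2, zero_mul, zero_mul, add_zero, add_zero]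
  exact hd.f_lip_le hs.le hs1 hs'.le hs1'

end Crest.Agent.R014.Ic4_550
end
end

-- ▼ part R014/Ic5_550
section

/-!
# Row 14, N1: sum over the ideal classes (helper550)

* `classNumber_le`: `h ≤ (2^d √|D|)^(d+1)`;
* `Acl c t`: Riesz mean over the class `c`; `A_eq_sum`: `A t = ∑_c Acl c t`;
* `riesz_of_classes`: class asymptotics give `Riesz` with `M = ∑_c M_c`.
-/

set_option autoImplicit false

open NumberField Ideal Filter Topology
open scoped nonZeroDivisors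

noncomputable section

namespace Crest.Agent.R014.Ic5_550

open Crest.Agent.R014.Ic1_550 Crest.Agent.R014.LDef_550 Crest.Agent.R014.Ic3_550
open Crest.Agent.R014.Ic4_550
open Crest.Agent.R014.Ic1_550.Dat (cC lg)

universe u

variable {E : Type u} [Field E] [NumberField E]

theorem one_le_abs_discr : (1:ℝ) ≤ |(discr E : ℝ)| := by
  have : (1:ℤ) ≤ |discr E| := Int.one_le_abs (discr_ne_zero E)
  exact_mod_cast this

theorem exists_norm_le (c : ClassGroup (𝓞 E)) :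
    ∃ a : Ideal (𝓞 E), ∃ h : a ≠ ⊥, ClassGroup.mk0 ⟨a, mem_nonZeroDivisors_iff_ne_zero.mpr h⟩ = c ∧
      (absNorm a : ℝ) ≤ 2 ^ Module.finrank ℚ E * Real.sqrt |(discr E : ℝ)| := by
  obtain ⟨I, hI, hN⟩ := exists_ideal_in_class_of_norm_le c
  refine ⟨I.1, nonZeroDivisors.coe_ne_zero I, hI, hN.trans ?_⟩
  have h1 : (4 / Real.pi) ^ InfinitePlace.nrComplexPlaces E ≤ (2:ℝ) ^ Module.finrank ℚ E := by
    have hpi := Real.pi_gt_three
    have h2 : 4 / Real.pi ≤ 2 := by rw [div_le_iff₀ (by linarith)]; linarith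
    have h3 : InfinitePlace.nrComplexPlaces E ≤ Module.finrank ℚ E := by
      have := InfinitePlace.card_add_two_mul_card_eq_rank E
      omega
    calc (4 / Real.pi) ^ InfinitePlace.nrComplexPlaces E
        ≤ (2:ℝ) ^ InfinitePlace.nrComplexPlaces E := by gcongr
      _ ≤ _ := pow_le_pow_right₀ (by norm_num) h3
  have h2 : ((Module.finrank ℚ E).factorial : ℝ) / (Module.finrank ℚ E : ℝ) ^ Module.finrank ℚ E ≤ 1 := by
    apply div_le_one_of_le₀
    · exact_mod_cast Nat.factorial_le_pow _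
    · positivity
  calc _ ≤ (2:ℝ) ^ Module.finrank ℚ E * (1 * Real.sqrt |(discr E : ℝ)|) := by
        gcongr
    _ = _ := by ring

/-- the class number is polynomially bounded -/
theorem classNumber_le :
    (Nat.card (ClassGroup (𝓞 E)) : ℝ)
      ≤ (2 ^ Module.finrank ℚ E * Real.sqrt |(discr E : ℝ)|) ^ (Module.finrank ℚ E + 1) := by
  set X : ℝ := 2 ^ Module.finrank ℚ E * Real.sqrt |(discr E : ℝ)| with hX
  have hX1 : 1 ≤ X := by
    have h1 : (1:ℝ) ≤ 2 ^ Module.finrank ℚ E := one_le_pow₀ (by norm_num)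
    have h2 : 1 ≤ Real.sqrt |(discr E : ℝ)| := by
      rw [Real.one_le_sqrt]; exact one_le_abs_discr
    exact one_le_mul_of_one_le_of_one_le h1 h2
  have h1 := Ic2_550.card_norm_le_log (E := E) hX1
  choose g hg0 hg1 hg2 using exists_norm_le (E := E)
  have hinj : Function.Injective g := by
    intro c c' h
    rw [← hg1 c, ← hg1 c']
    congr 2
  have h2 : Nat.card (ClassGroup (𝓞 E))
      ≤ {a : Ideal (𝓞 E) | a ≠ ⊥ ∧ (absNorm a : ℝ) ≤ X}.ncard := by
    rw [← Set.ncard_univ, ← Set.ncard_image_of_injective _ hinj]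
    refine Set.ncard_le_ncard ?_ (Ic2_550.finite_norm_le (E := E) X)
    rintro _ ⟨c, _, rfl⟩
    exact ⟨hg0 c, hg2 c⟩
  have h3 : 1 + Real.log X ≤ X := by
    have := Real.log_le_sub_one_of_pos (show 0 < X by linarith)
    linarith
  have h4 : 0 ≤ Real.log X := Real.log_nonneg hX1
  calc (Nat.card (ClassGroup (𝓞 E)) : ℝ)
      ≤ ({a : Ideal (𝓞 E) | a ≠ ⊥ ∧ (absNorm a : ℝ) ≤ X}.ncard : ℝ) := by exact_mod_cast h2
    _ ≤ X * (1 + Real.log X) ^ Module.finrank ℚ E := h1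
    _ ≤ X * X ^ Module.finrank ℚ E := by gcongr
    _ = _ := by ring

/-- the class of a nonzero ideal -/
def cls (a : Idl E) : ClassGroup (𝓞 E) :=
  ClassGroup.mk0 ⟨a.1, mem_nonZeroDivisors_iff_ne_zero.mpr a.2⟩

/-- Riesz mean over one class -/
def Acl {q : ℕ} (f : ZMod q → ℂ) (r : ℕ) (c : ClassGroup (𝓞 E)) (t : ℝ) : ℂ :=
  ∑' a : {a : Idl E // cls a = c}, cc E f a.1 * (pw r (uu E a.1) t : ℂ)

theorem summable_A {q : ℕ} (f : ZMod q → ℂ) (r : ℕ) (t : ℝ) :
    Summable fun a : Idl E => cc E f a * (pw r (uu E a) t : ℂ) :=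
  summable_of_ne_finset_zero (s := (finite_uu (E := E) t).toFinset)
    (A_support (c := cc E f) (r := r) finite_uu t)

theorem sigmaFiberEquiv_val (p : (Σ c, {a : Idl E // cls a = c})) :
    Equiv.sigmaFiberEquiv (cls (E := E)) p = p.2.1 := rfl

theorem A_eq_sum {q : ℕ} (f : ZMod q → ℂ) (r : ℕ) (t : ℝ) :
    A (uu E) (cc E f) r t = ∑ c : ClassGroup (𝓞 E), Acl f r c t := by
  unfold A Acl
  have hs := summable_A (E := E) f r t
  have h1 := (Equiv.sigmaFiberEquiv (cls (E := E))).tsum_eq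
      (fun a : Idl E => cc E f a * (pw r (uu E a) t : ℂ))
  have hs' := (Equiv.sigmaFiberEquiv (cls (E := E))).summable_iff.mpr hs
  simp only [Function.comp_def, sigmaFiberEquiv_val] at h1 hs'
  rw [← h1, hs'.tsum_sigma, tsum_fintype]

theorem riesz_of_classes {q : ℕ} {f : ZMod q → ℂ} {r : ℕ} {M : ClassGroup (𝓞 E) → ℂ} {Q : ℝ}
    (hQ : 0 ≤ Q)
    (h : ∀ c t, 0 ≤ t → ‖Acl f r c t - M c * (Real.exp t : ℝ)‖
      ≤ Q * Real.exp ((1 - 1 / (Module.finrank ℚ E : ℝ)) * t)) :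
    Riesz E f r (∑ c, M c)
      ((2 ^ Module.finrank ℚ E * Real.sqrt |(discr E : ℝ)|) ^ (Module.finrank ℚ E + 1) * Q) := by
  intro t ht
  rw [A_eq_sum, Finset.sum_mul, ← Finset.sum_sub_distrib]
  refine (norm_sum_le _ _).trans ?_
  refine (Finset.sum_le_sum fun c _ => h c t ht).trans ?_
  rw [Finset.sum_const, nsmul_eq_mul, Finset.card_univ, ← Nat.card_eq_fintype_card, ← mul_assoc]
  have := classNumber_le (E := E)
  gcongr

end Crest.Agent.R014.Ic5_550
end
end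

-- ▼ part R014/Ic6_550

/-!
# Row 14, N1: the norm form modulo `q` of `a J` and of `J` (helper550)

For `a` prime to `q` and `f` even: `∑_k f (nuq J q k) = ∑_k f (N a * nuq (a J) q k)`.
-/

set_option autoImplicit false

namespace Crest.Agent.R014.Ic6_550

open NumberField Module Crest.Agent.R014.Cnt5_726
open scoped nonZeroDivisors

variable {K : Type*} [Field K] [NumberField K]

/-- the inclusion `J' → J` for `J' = a J` -/
def incl {J' J : (Ideal (𝓞 K))⁰} (h : (J' : Ideal (𝓞 K)) ≤ (J : Ideal (𝓞 K)))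
    (v : (J' : Ideal (𝓞 K))) : (J : Ideal (𝓞 K)) := ⟨v.1, h v.2⟩

omit [NumberField K] in
theorem incl_val {J' J : (Ideal (𝓞 K))⁰} (h : (J' : Ideal (𝓞 K)) ≤ (J : Ideal (𝓞 K)))
    (v : (J' : Ideal (𝓞 K))) : ((incl h v : (J : Ideal (𝓞 K))) : 𝓞 K) = v := rfl

theorem exists_sign {a : Ideal (𝓞 K)} {J' J : (Ideal (𝓞 K))⁰}
    (h : (J' : Ideal (𝓞 K)) ≤ (J : Ideal (𝓞 K))) (hJ : (J' : Ideal (𝓞 K)) = a * J) :
    ∃ s : ℤ, (s = 1 ∨ s = -1) ∧ ∀ v : (J' : Ideal (𝓞 K)),
      nu J (incl h v) = s * (Ideal.absNorm a : ℤ) * nu J' v := by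
  have h1 := natAbs_dJ J
  have h2 := natAbs_dJ J'
  have h3 : Ideal.absNorm (J' : Ideal (𝓞 K)) = Ideal.absNorm a * Ideal.absNorm (J : Ideal (𝓞 K)) := by
    rw [hJ, map_mul]
  have h4 : (dJ J').natAbs = ((Ideal.absNorm a : ℤ) * dJ J).natAbs := by
    rw [h2, h3, Int.natAbs_mul, h1]
    simp
  have h5 : ∃ s : ℤ, (s = 1 ∨ s = -1) ∧ dJ J' = s * ((Ideal.absNorm a : ℤ) * dJ J) := by
    rcases Int.natAbs_eq_natAbs_iff.mp h4 with h | h
    · exact ⟨1, Or.inl rfl, by rw [h]; ring⟩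
    · exact ⟨-1, Or.inr rfl, by rw [h]; ring⟩
  obtain ⟨s, hs, hd⟩ := h5
  refine ⟨s, hs, fun v => ?_⟩
  have e1 := norm_eq J (incl h v)
  have e2 := norm_eq J' v
  rw [incl_val, e2, hd] at e1
  have h6 := dJ_ne_zero J
  apply mul_left_cancel₀ h6
  rw [← e1]
  ring

/-- change of coordinates -/
noncomputable def Phi {J' J : (Ideal (𝓞 K))⁰} (h : (J' : Ideal (𝓞 K)) ≤ (J : Ideal (𝓞 K)))
    (q : ℕ) [NeZero q] (k : Ix K → ZMod q) : Ix K → ZMod q :=
  cq J q (incl h (rep J' q k))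

theorem cq_rep (J : (Ideal (𝓞 K))⁰) (q : ℕ) [NeZero q] (k : Ix K → ZMod q) :
    cq J q (rep J q k) = k := by
  have := cq_rep_add J q k 0
  rwa [smul_zero, add_zero] at this

theorem even_Phi {a : Ideal (𝓞 K)} {J' J : (Ideal (𝓞 K))⁰}
    (h : (J' : Ideal (𝓞 K)) ≤ (J : Ideal (𝓞 K))) (hJ : (J' : Ideal (𝓞 K)) = a * J)
    (q : ℕ) [NeZero q] {R : Type*} {f : ZMod q → R}
    (hf : ∀ z, f (-z) = f z) (k : Ix K → ZMod q) :
    f (nuq J q (Phi h q k)) = f ((Ideal.absNorm a : ZMod q) * nuq J' q k) := by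
  obtain ⟨s, hs, h'⟩ := exists_sign h hJ
  have h1 := h' (rep J' q k)
  have h2 : nuq J q (Phi h q k) = (s : ZMod q) * ((Ideal.absNorm a : ZMod q) * nuq J' q k) := by
    unfold Phi
    rw [← cast_nu, h1]
    push_cast
    rw [cast_nu J' q, cq_rep]
    ring
  rw [h2]
  rcases hs with rfl | rfl
  · simp
  · push_cast
    rw [neg_one_mul, hf]

theorem exists_eq_smul_of_cq_eq (J : (Ideal (𝓞 K))⁰) (q : ℕ) [NeZero q]
    {v w : (J : Ideal (𝓞 K))} (h : cq J q v = cq J q w) :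
    ∃ m : (J : Ideal (𝓞 K)), v - w = (q : ℤ) • m := by
  refine ⟨∑ i, ((bas J).repr (v - w) i / (q : ℤ)) • bas J i, ?_⟩
  refine (bas J).ext_elem fun i => ?_
  rw [map_zsmul, Finsupp.smul_apply, Basis.repr_sum_self, smul_eq_mul]
  have h1 := congrFun h i
  unfold cq at h1
  have h2 : (q : ℤ) ∣ (bas J).repr (v - w) i := by
    rw [map_sub, Finsupp.sub_apply, ← ZMod.intCast_zmod_eq_zero_iff_dvd, Int.cast_sub, sub_eq_zero]
    exact h1
  rw [Int.mul_ediv_cancel' h2]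

theorem mem_of_coprime {a : Ideal (𝓞 K)} {J' J : Ideal (𝓞 K)} (hJ : J' = a * J) {q : ℕ}
    (hq : (Ideal.absNorm a).Coprime q) {m : 𝓞 K} (hm : m ∈ J) (hqm : (q : 𝓞 K) * m ∈ J') :
    m ∈ J' := by
  have h2 : (Ideal.absNorm a : 𝓞 K) * m ∈ J' := by
    rw [hJ]
    exact Ideal.mul_mem_mul (Ideal.absNorm_mem _) hm
  have h3 : IsCoprime (Ideal.absNorm a : ℤ) (q : ℤ) := Nat.isCoprime_iff_coprime.mpr hq
  obtain ⟨x, y, hxy⟩ := h3
  have h4 : m = (x : 𝓞 K) * ((Ideal.absNorm a : 𝓞 K) * m) + (y : 𝓞 K) * ((q : 𝓞 K) * m) := by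
    have h5 : ((x * (Ideal.absNorm a : ℤ) + y * (q : ℤ) : ℤ) : 𝓞 K) = 1 := by
      rw [hxy]; simp
    push_cast at h5
    calc m = 1 * m := (one_mul _).symm
      _ = _ := by rw [← h5]; ring
  rw [h4]
  exact Ideal.add_mem _ (Ideal.mul_mem_left _ _ h2) (Ideal.mul_mem_left _ _ hqm)

theorem Phi_injective {a : Ideal (𝓞 K)} {J' J : (Ideal (𝓞 K))⁰}
    (h : (J' : Ideal (𝓞 K)) ≤ (J : Ideal (𝓞 K))) (hJ : (J' : Ideal (𝓞 K)) = a * J)
    (q : ℕ) [NeZero q] (hq : (Ideal.absNorm a).Coprime q) : Function.Injective (Phi h q) := by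
  intro k k' hk
  unfold Phi at hk
  obtain ⟨m, hm⟩ := exists_eq_smul_of_cq_eq J q hk
  have hm' : ((rep J' q k : 𝓞 K)) - (rep J' q k' : 𝓞 K) = (q : 𝓞 K) * (m : 𝓞 K) := by
    have h0 : ((incl h (rep J' q k) - incl h (rep J' q k') : (J : Ideal (𝓞 K))) : 𝓞 K)
        = (((q : ℤ) • m : (J : Ideal (𝓞 K))) : 𝓞 K) := by rw [hm]
    have h1 : ((incl h (rep J' q k) - incl h (rep J' q k') : (J : Ideal (𝓞 K))) : 𝓞 K)
        = (rep J' q k : 𝓞 K) - (rep J' q k' : 𝓞 K) := rfl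
    have h2 : (((q : ℤ) • m : (J : Ideal (𝓞 K))) : 𝓞 K) = (q : 𝓞 K) * (m : 𝓞 K) := by
      rw [Submodule.coe_smul_of_tower, zsmul_eq_mul]
      simp
    rw [← h1, ← h2]
    exact h0
  have hmem : (m : 𝓞 K) ∈ (J' : Ideal (𝓞 K)) := by
    refine mem_of_coprime hJ hq m.2 ?_
    rw [← hm']
    exact Ideal.sub_mem _ (rep J' q k).2 (rep J' q k').2
  have h6 : rep J' q k = rep J' q k' + (q : ℤ) • (⟨m, hmem⟩ : (J' : Ideal (𝓞 K))) := by
    apply Subtype.ext
    have h7 : ((rep J' q k' + (q : ℤ) • (⟨m, hmem⟩ : (J' : Ideal (𝓞 K))) :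
        (J' : Ideal (𝓞 K))) : 𝓞 K) = (rep J' q k' : 𝓞 K) + (q : 𝓞 K) * m := by
      rw [Submodule.coe_add, Submodule.coe_smul_of_tower, zsmul_eq_mul]
      simp
    rw [h7, ← hm']
    ring
  rw [← cq_rep J' q k, h6, cq_rep_add]

theorem sum_nuq {a : Ideal (𝓞 K)} {J' J : (Ideal (𝓞 K))⁰} (hJ : (J' : Ideal (𝓞 K)) = a * J)
    (q : ℕ) [NeZero q] (hq : (Ideal.absNorm a).Coprime q) {R : Type*} [AddCommMonoid R]
    {f : ZMod q → R} (hf : ∀ z, f (-z) = f z) :
    ∑ k, f (nuq J q k) = ∑ k, f ((Ideal.absNorm a : ZMod q) * nuq J' q k) := by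
  have h : (J' : Ideal (𝓞 K)) ≤ (J : Ideal (𝓞 K)) := by
    rw [hJ]; exact Ideal.mul_le_right (I := a) (J := (J : Ideal (𝓞 K)))
  have hb : Function.Bijective (Phi h q) :=
    Finite.injective_iff_bijective.mp (Phi_injective h hJ q hq)
  rw [← (Equiv.ofBijective _ hb).sum_comp]
  refine Finset.sum_congr rfl fun k _ => ?_
  exact even_Phi h hJ q hf k

end Crest.Agent.R014.Ic6_550
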