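import Crest.Prelude.Def_TorusPacket
import Mathlib
import Crest.Agent.R014.Sl1_652

-- ▼ part R014/LocDefs_524
section

/-!
Row 14, block N2 (helper524): definitions of the local part: the index `fIdx m` of the multiplier
order, the `f`-part of a lattice, and the predicate `IsTy m P` ("`P` is a possible `f`-part").
-/

set_option autoImplicit false
set_option linter.unusedSectionVars false

namespace Crest.Agent.R014.LocDefs_524

open Crest.NumberTheoryR.Packets

variable {n : ℕ} {K : Type*} [Field K] [NumberField K]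

/-- The index of the multiplier order in the ring of integers. -/
noncomputable def fIdx (m : LatticeBasis n K) : ℕ :=
  (multiplierOrder m).relIndex (integralClosure ℤ K).toSubring.toAddSubgroup

theorem latticeDisc_eq (m : LatticeBasis n K) :
    latticeDisc m = |(NumberField.discr K : ℝ)| * (fIdx m : ℝ) ^ 2 := rfl

theorem nat_mul_mem (A : AddSubgroup K) (N : ℕ) {x : K} (hx : x ∈ A) : (N : K) * x ∈ A := by
  rw [← nsmul_eq_mul]
  exact A.nsmul_mem hx N

theorem nat_pow_mul_mem (A : AddSubgroup K) (N k : ℕ) {x : K} (hx : x ∈ A) :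
    (N : K) ^ k * x ∈ A := by
  have := nat_mul_mem A (N ^ k) hx
  rwa [Nat.cast_pow] at this

/-- The elements of `K` which lie in the order `O = multiplierOrder m` away from `f`, `O[1/f]`. -/
noncomputable def awayO (m : LatticeBasis n K) : AddSubgroup K where
  carrier := {x | ∃ k : ℕ, (fIdx m : K) ^ k * x ∈ multiplierOrder m}
  zero_mem' := ⟨0, by rw [mul_zero]; exact (multiplierOrder m).zero_mem⟩
  add_mem' := by
    rintro a b ⟨k, hk⟩ ⟨l, hl⟩
    refine ⟨k + l, ?_⟩
    have e : (fIdx m : K) ^ (k + l) * (a + b) =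
        (fIdx m : K) ^ l * ((fIdx m : K) ^ k * a) + (fIdx m : K) ^ k * ((fIdx m : K) ^ l * b) := by
      ring
    rw [e]
    exact (multiplierOrder m).add_mem (nat_pow_mul_mem _ _ _ hk) (nat_pow_mul_mem _ _ _ hl)
  neg_mem' := by
    rintro a ⟨k, hk⟩
    refine ⟨k, ?_⟩
    rw [mul_neg]
    exact (multiplierOrder m).neg_mem hk


/-- The `f`-part of the lattice `m1`: its elements which are in `O[1/f]`. -/
noncomputable def fPart (m m1 : LatticeBasis n K) : AddSubgroup K := m1.lattice.toAddSubgroup ⊓ awayO m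

theorem mem_fPart {m m1 : LatticeBasis n K} {x : K} :
    x ∈ fPart m m1 ↔ x ∈ m1.lattice ∧ ∃ k : ℕ, (fIdx m : K) ^ k * x ∈ multiplierOrder m := Iff.rfl

/-- `P` is a possible `f`-part of a lattice containing `1` locally homothetic to `m`. -/
structure IsTy (m : LatticeBasis n K) (P : AddSubgroup K) : Prop where
  order_le : multiplierOrder m ≤ P
  away : ∀ x ∈ P, ∃ k : ℕ, (fIdx m : K) ^ k * x ∈ multiplierOrder m
  loc : ∃ c : K, c ≠ 0 ∧ ∃ N : ℕ, N.Coprime (fIdx m) ∧
    (∀ x ∈ P, ∃ y ∈ m.lattice, (N : K) * x = c * y) ∧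
    (∀ x ∈ m.lattice, (N : K) * (c * x) ∈ P)

end Crest.Agent.R014.LocDefs_524
end

-- ▼ part R014/Loc1_524
section

/-!
Row 14, block N2 (helper524), part 1: counting units in finite commutative rings.
-/

set_option autoImplicit false

namespace Crest.Agent.R014.Loc1_524

open Finset

section ring

variable {R : Type*} [CommRing R] [Finite R]

/-- Avoiding one more maximal ideal costs a factor at most two. -/
theorem card_le_two_pow_mul_avoid (S : Finset (Ideal R)) (hS : ∀ I ∈ S, I.IsMaximal) :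
    Nat.card R ≤ 2 ^ S.card * {x : R | ∀ I ∈ S, x ∉ I}.ncard := by
  classical
  induction S using Finset.induction_on with
  | empty =>
    have : {x : R | ∀ I ∈ (∅ : Finset (Ideal R)), x ∉ I} = Set.univ := by
      ext x; simp
    rw [this, Set.ncard_univ]; simp
  | insert J S hJ ih =>
    have ih' := ih (fun I hI => hS I (Finset.mem_insert_of_mem hI))
    have hJm : J.IsMaximal := hS J (Finset.mem_insert_self _ _)
    -- an element `e` in all `I ∈ S` with `e ∉ J`
    have hne : ¬ (∏ I ∈ S, I) ≤ J := by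
      intro h
      rw [Ideal.IsPrime.prod_le hJm.isPrime] at h
      obtain ⟨I, hI, hIJ⟩ := h
      have hIm := hS I (Finset.mem_insert_of_mem hI)
      have : I = J := hIm.eq_of_le hJm.ne_top hIJ
      exact hJ (this ▸ hI)
    obtain ⟨e, he, heJ⟩ := SetLike.not_le_iff_exists.1 hne
    have heI : ∀ I ∈ S, e ∈ I := fun I hI =>
      (Ideal.prod_le_inf.trans (Finset.inf_le hI)) he
    set A := {x : R | ∀ I ∈ S, x ∉ I} with hA
    set B := {x : R | ∀ I ∈ insert J S, x ∉ I} with hB
    have hfin : ∀ s : Set R, s.Finite := fun s => Set.toFinite s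
    have hsub : A ⊆ B ∪ (fun x => x - e) '' B := by
      intro x hx
      by_cases hxJ : x ∈ J
      · right
        refine ⟨x + e, ?_, by simp⟩
        intro I hI
        rcases Finset.mem_insert.1 hI with rfl | hI
        · intro h
          exact heJ ((Ideal.add_mem_iff_right _ hxJ).1 h)
        · intro h
          exact hx I hI ((Ideal.add_mem_iff_left _ (heI I hI)).1 h)
      · left
        intro I hI
        rcases Finset.mem_insert.1 hI with rfl | hI
        · exact hxJ
        · exact hx I hI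
    have h1 : A.ncard ≤ B.ncard + B.ncard := by
      calc A.ncard ≤ (B ∪ (fun x => x - e) '' B).ncard := Set.ncard_le_ncard hsub (hfin _)
        _ ≤ B.ncard + ((fun x => x - e) '' B).ncard := Set.ncard_union_le _ _
        _ ≤ B.ncard + B.ncard := Nat.add_le_add_left (Set.ncard_image_le (hfin _)) _
    rw [Finset.card_insert_of_notMem hJ, pow_succ]
    calc Nat.card R ≤ 2 ^ S.card * A.ncard := ih'
      _ ≤ 2 ^ S.card * (B.ncard + B.ncard) := Nat.mul_le_mul_left _ h1
      _ = 2 ^ S.card * 2 * B.ncard := by ring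

/-- In a finite commutative ring, `|R| ≤ 2 ^ #MaxSpec · #units`. -/
theorem card_le_two_pow_mul_units (k : ℕ)
    (hk : ∀ S : Finset (Ideal R), (∀ I ∈ S, I.IsMaximal) → S.card ≤ k) :
    Nat.card R ≤ 2 ^ k * {x : R | IsUnit x}.ncard := by
  classical
  have hfinI : Finite (Ideal R) := by
    have : Function.Injective (fun I : Ideal R => (I : Set R)) := SetLike.coe_injective
    exact Finite.of_injective _ this
  have hfin : {I : Ideal R | I.IsMaximal}.Finite := Set.toFinite _
  set S := hfin.toFinset with hS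
  have hSm : ∀ I, I ∈ S ↔ I.IsMaximal := by
    intro I; rw [hS, Set.Finite.mem_toFinset]; rfl
  have h1 := card_le_two_pow_mul_avoid S (fun I hI => (hSm I).1 hI)
  have h2 : {x : R | ∀ I ∈ S, x ∉ I} = {x : R | IsUnit x} := by
    ext x
    simp only [Set.mem_ofPred_eq]
    constructor
    · intro h
      by_contra hu
      obtain ⟨I, hI, hxI⟩ := exists_max_ideal_of_mem_nonunits hu
      exact h I ((hSm I).2 hI) hxI
    · intro h I hI hx
      exact ((hSm I).1 hI).ne_top (Ideal.eq_top_of_isUnit_mem _ hx h)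
  rw [h2] at h1
  refine h1.trans (Nat.mul_le_mul_right _ ?_)
  exact Nat.pow_le_pow_right (by norm_num) (hk S (fun I hI => (hSm I).1 hI))

/-- The product of the residue fields of distinct maximal ideals. -/
theorem prod_card_quot_le (S : Finset (Ideal R)) (hS : ∀ I ∈ S, I.IsMaximal) (J : Ideal R)
    (hJ : ∀ I ∈ S, J ≤ I) : ∏ I ∈ S, Nat.card (R ⧸ I) ≤ Nat.card (R ⧸ J) := by
  classical
  have hcop : Pairwise (Function.onFun IsCoprime (fun I : S => (I : Ideal R))) := by
    intro I I' hne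
    have h1 := hS I I.2
    have h2 := hS I' I'.2
    exact Ideal.isCoprime_iff_sup_eq.2 (h1.coprime_of_ne h2 (fun h => hne (Subtype.ext h)))
  let e := Ideal.quotientInfRingEquivPiQuotient (fun I : S => (I : Ideal R)) hcop
  have h1 : Nat.card (R ⧸ (⨅ I : S, (I : Ideal R))) = ∏ I ∈ S, Nat.card (R ⧸ I) := by
    rw [Nat.card_congr e.toEquiv, Nat.card_pi, Finset.prod_coe_sort S (fun I => Nat.card (R ⧸ I))]
  rw [← h1]
  have hle : J ≤ ⨅ I : S, (I : Ideal R) := le_iInf fun I => hJ I I.2
  have hs : Function.Surjective (Ideal.Quotient.factor hle) := Ideal.Quotient.factor_surjective hle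
  have : Finite (R ⧸ J) := Finite.of_surjective _ Ideal.Quotient.mk_surjective
  exact Nat.card_le_card_of_surjective _ hs

/-- The residue field of a maximal ideal containing the prime `p` has at least `p` elements. -/
theorem prime_le_card_quot {p : ℕ} (hp : p.Prime) (I : Ideal R) (hI : I.IsMaximal)
    (hpI : (p : R) ∈ I) : p ≤ Nat.card (R ⧸ I) := by
  have : Fact p.Prime := ⟨hp⟩
  have : Finite (R ⧸ I) := Finite.of_surjective _ Ideal.Quotient.mk_surjective
  have : Nontrivial (R ⧸ I) := Ideal.Quotient.nontrivial_iff.2 hI.ne_top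
  have h0 : ((p : ℕ) : R ⧸ I) = 0 := by
    have := Ideal.Quotient.eq_zero_iff_mem.2 hpI
    simpa using this
  have hadd : addOrderOf (1 : R ⧸ I) = p := by
    apply addOrderOf_eq_prime
    · rw [nsmul_eq_mul, mul_one, h0]
    · exact one_ne_zero
  have := addOrderOf_dvd_natCard (1 : R ⧸ I)
  rw [hadd] at this
  exact Nat.le_of_dvd Nat.card_pos this

/-- UNIT DENSITY: if `q = 0` in the finite ring `R` and `|R/pR| ≤ p^n` for the primes `p ∣ q`, then
`|R| ≤ 2^(n ω(q)) |R^×|`. -/
theorem card_le_units (n q : ℕ) (hq : q ≠ 0) (hq0 : (q : R) = 0)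
    (hR : ∀ p ∈ q.primeFactors, Nat.card (R ⧸ Ideal.span {(p : R)}) ≤ p ^ n) :
    Nat.card R ≤ 2 ^ (n * q.primeFactors.card) * {x : R | IsUnit x}.ncard := by
  classical
  apply card_le_two_pow_mul_units
  intro S hS
  -- every maximal ideal contains a prime divisor of q
  have hex : ∀ I ∈ S, ∃ p ∈ q.primeFactors, (p : R) ∈ I := by
    intro I hI
    have hIm := hS I hI
    have hqI : ((∏ p ∈ q.primeFactors, p ^ q.factorization p : ℕ) : R) ∈ I := by
      have : ∏ p ∈ q.primeFactors, p ^ q.factorization p = q :=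
        Nat.prod_factorization_pow_eq_self hq
      rw [this, hq0]
      exact I.zero_mem
    push_cast at hqI
    rw [hIm.isPrime.prod_mem_iff] at hqI
    obtain ⟨p, hp, hpI⟩ := hqI
    exact ⟨p, hp, hIm.isPrime.mem_of_pow_mem _ hpI⟩
  have hsub : S ⊆ q.primeFactors.biUnion (fun p => S.filter (fun I => (p : R) ∈ I)) := by
    intro I hI
    obtain ⟨p, hp, hpI⟩ := hex I hI
    exact Finset.mem_biUnion.2 ⟨p, hp, Finset.mem_filter.2 ⟨hI, hpI⟩⟩
  refine (Finset.card_le_card hsub).trans (Finset.card_biUnion_le.trans ?_)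
  rw [mul_comm n, ← smul_eq_mul, ← Finset.sum_const]
  apply Finset.sum_le_sum
  intro p hp
  have hpp := Nat.prime_of_mem_primeFactors hp
  set T := S.filter (fun I => (p : R) ∈ I) with hT
  have hTm : ∀ I ∈ T, I.IsMaximal ∧ (p : R) ∈ I := fun I hI =>
    ⟨hS I (Finset.mem_filter.1 hI).1, (Finset.mem_filter.1 hI).2⟩
  have h1 : p ^ T.card ≤ p ^ n := by
    calc p ^ T.card = ∏ _I ∈ T, p := by rw [Finset.prod_const]
      _ ≤ ∏ I ∈ T, Nat.card (R ⧸ I) := Finset.prod_le_prod' fun I hI =>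
          prime_le_card_quot hpp I (hTm I hI).1 (hTm I hI).2
      _ ≤ Nat.card (R ⧸ Ideal.span {(p : R)}) := prod_card_quot_le T (fun I hI => (hTm I hI).1) _
          (fun I hI => by
            rw [Ideal.span_singleton_le_iff_mem]
            exact (hTm I hI).2)
      _ ≤ p ^ n := hR p hp
  exact (Nat.pow_le_pow_iff_right hpp.one_lt).1 h1

end ring

section group

/-- Image of a subset under a homomorphism of finite groups: `|S| · |range| ≤ |φ(S)| · |A|`. -/
theorem card_mul_range_le {A B : Type*} [AddCommGroup A] [AddCommGroup B] [Finite A]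
    (φ : A →+ B) (S : Set A) :
    S.ncard * Nat.card φ.range ≤ (φ '' S).ncard * Nat.card A := by
  classical
  have h1 : Nat.card A = Nat.card φ.range * Nat.card φ.ker := by
    have := AddSubgroup.card_eq_card_quotient_mul_card_addSubgroup φ.ker
    rw [this, Nat.card_congr (QuotientAddGroup.quotientKerEquivRange φ).toEquiv]
  have h2 : S.ncard ≤ (φ '' S).ncard * Nat.card φ.ker := by
    have hfin : S.Finite := Set.toFinite _
    have h3 : ∀ b ∈ hfin.toFinset.image φ,
        (hfin.toFinset.filter (fun a => φ a = b)).card ≤ Nat.card φ.ker := by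
      intro b hb
      obtain ⟨a, ha, rfl⟩ := Finset.mem_image.1 hb
      have hinj : Set.InjOn (fun x : A => x - a)
          (hfin.toFinset.filter (fun x => φ x = φ a) : Set A) := by
        intro x _ y _ hxy
        simpa using hxy
      have hmaps : ∀ x ∈ (hfin.toFinset.filter (fun x => φ x = φ a) : Set A),
          x - a ∈ (φ.ker : Set A) := by
        intro x hx
        have := (Finset.mem_filter.1 (Finset.mem_coe.1 hx)).2
        rw [SetLike.mem_coe, AddMonoidHom.mem_ker, map_sub, this, sub_self]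
      have := Set.ncard_le_ncard_of_injOn _ hmaps hinj (Set.toFinite _)
      rw [Set.ncard_coe_finset] at this
      rw [← Nat.card_coe_set_eq] at this
      exact this
    have h4 := Finset.card_le_mul_card_image hfin.toFinset (Nat.card φ.ker) h3
    have h5 : (hfin.toFinset.image φ).card = (φ '' S).ncard := by
      rw [← Set.ncard_coe_finset]
      simp
    rw [Set.ncard_eq_toFinset_card S hfin, ← h5, mul_comm]
    exact h4
  calc S.ncard * Nat.card φ.range
      ≤ (φ '' S).ncard * Nat.card φ.ker * Nat.card φ.range := Nat.mul_le_mul_right _ h2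
    _ = (φ '' S).ncard * Nat.card A := by rw [h1]; ring

end group

end Crest.Agent.R014.Loc1_524
end

-- ▼ part R014/Loc2_524
section

/-!
Row 14, block N2 (helper524), part 2: local algebra of the types `P`, without localisations.
-/

set_option autoImplicit false
set_option linter.unusedSectionVars false

namespace Crest.Agent.R014.Loc2_524

open Crest.NumberTheoryR.Packets Module
open Crest.Agent.R014.LocDefs_524 Crest.Agent.R014.Loc1_524
open Crest.Agent.R014.Sl_652 (one_mem_order mul_mem_order lattice_fg exists_latticeBasis finrank_eq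
  order_basis ordSub mem_ordSub ordSub_fg exists_mul_mem_order n_pos exists_mul_mem relIndex_eq)

variable {n : ℕ} {K : Type*} [Field K] [NumberField K]

/-! ### Coprimality -/

/-- If `N x, f x ∈ A` with `N, f` coprime then `x ∈ A`. -/
theorem mem_of_coprime (A : AddSubgroup K) {N f : ℕ} (h : N.Coprime f) {x : K}
    (h1 : (N : K) * x ∈ A) (h2 : (f : K) * x ∈ A) : x ∈ A := by
  have e := Nat.gcd_eq_gcd_ab N f
  rw [h] at e
  have e1 : x = (N.gcdA f : ℤ) • ((N : K) * x) + (N.gcdB f : ℤ) • ((f : K) * x) := by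
    have e2 : (1 : K) = (N : K) * ((N.gcdA f : ℤ) : K) + (f : K) * ((N.gcdB f : ℤ) : K) := by
      exact_mod_cast congrArg (fun z : ℤ => (z : K)) e
    rw [zsmul_eq_mul, zsmul_eq_mul]
    linear_combination x * e2
  rw [e1]
  exact A.add_mem (A.zsmul_mem h1 _) (A.zsmul_mem h2 _)

theorem mem_of_coprime_pow (A : AddSubgroup K) {N f k : ℕ} (h : N.Coprime f) {x : K}
    (h1 : (N : K) * x ∈ A) (h2 : (f : K) ^ k * x ∈ A) : x ∈ A := by
  refine mem_of_coprime A (Nat.Coprime.pow_right k h) h1 ?_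
  push_cast
  exact h2

/-- Bezout: an `N` coprime to `q` has an inverse modulo `q`. -/
theorem exists_inv_mod {N q : ℕ} (h : N.Coprime q) :
    ∃ a : ℕ, ∃ b : ℤ, (N : K) * (a : K) = 1 + (q : K) * (b : K) := by
  rcases Nat.eq_zero_or_pos q with rfl | hq
  · have : N = 1 := by simpa using h
    subst this
    exact ⟨1, 0, by simp⟩
  have e := Nat.gcd_eq_gcd_ab N q
  rw [h] at e
  -- make the coefficient nonnegative
  set a0 := N.gcdA q
  set b0 := N.gcdB q
  have hq' : (0 : ℤ) < q := by exact_mod_cast hq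
  refine ⟨(a0 + q * |a0|).toNat, N * |a0| - b0, ?_⟩
  have hnn : 0 ≤ a0 + q * |a0| := by
    have h1 : |a0| ≤ q * |a0| := le_mul_of_one_le_left (abs_nonneg _) hq'
    have h2 := neg_abs_le a0
    linarith
  have h3 : (((a0 + q * |a0|).toNat : ℕ) : K) = ((a0 + q * |a0| : ℤ) : K) := by
    have : (((a0 + q * |a0|).toNat : ℤ)) = a0 + q * |a0| := Int.toNat_of_nonneg hnn
    exact_mod_cast congrArg (fun z : ℤ => (z : K)) this
  rw [h3]
  have e2 : (1 : K) = (N : K) * (a0 : K) + (q : K) * (b0 : K) := by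
    exact_mod_cast congrArg (fun z : ℤ => (z : K)) e
  push_cast
  linear_combination -e2

/-! ### The index `f` -/

theorem order_le_int (m : LatticeBasis n K) :
    multiplierOrder m ≤ (integralClosure ℤ K).toSubring.toAddSubgroup := by
  intro x hx
  exact Sl_652.order_isIntegral hx

theorem fIdx_ne_zero (m : LatticeBasis n K) : fIdx m ≠ 0 := by
  obtain ⟨o, ho⟩ := Sl_652.maxBasis_exists (K := K) (finrank_eq m)
  obtain ⟨o', ho'⟩ := order_basis m
  have h1 : (multiplierOrder m) = o'.lattice.toAddSubgroup := by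
    rw [ho']; rfl
  have h2 : (integralClosure ℤ K).toSubring.toAddSubgroup = o.lattice.toAddSubgroup := by
    ext x
    exact (ho.1 x).symm
  have hle : o'.lattice ≤ o.lattice := by
    intro x hx
    have h3 : x ∈ multiplierOrder m := by rw [h1]; exact hx
    have h4 := order_le_int m h3
    rw [h2] at h4
    exact h4
  intro h0
  have h3 := relIndex_eq o o' hle
  unfold fIdx at h0
  rw [h1, h2] at h0
  rw [h0] at h3
  have h4 : (Sl_652.qBasis o).det o'.vec ≠ 0 := by
    rw [← Sl_652.coe_qBasis o']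
    exact (Basis.isUnit_det _ _).ne_zero
  exact h4 (abs_eq_zero.1 (by rw [← h3]; simp))

theorem fIdx_pos (m : LatticeBasis n K) : 0 < fIdx m := Nat.pos_of_ne_zero (fIdx_ne_zero m)



theorem mul_mem_awayO {m : LatticeBasis n K} {x y : K} (hx : x ∈ awayO m) (hy : y ∈ awayO m) :
    x * y ∈ awayO m := by
  obtain ⟨k, hk⟩ := hx
  obtain ⟨l, hl⟩ := hy
  refine ⟨k + l, ?_⟩
  have e : (fIdx m : K) ^ (k + l) * (x * y) =
      ((fIdx m : K) ^ k * x) * ((fIdx m : K) ^ l * y) := by ring
  rw [e]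
  exact mul_mem_order hk hl

theorem order_le_awayO (m : LatticeBasis n K) : multiplierOrder m ≤ awayO m := by
  intro x hx
  exact ⟨0, by simpa using hx⟩

/-! ### Types -/

/-- A member of `O[1/f]` in `A ⊇ O` up to an integer coprime to `f` is in `A`. -/
theorem mem_of_away {m : LatticeBasis n K} {A : AddSubgroup K} (hA : multiplierOrder m ≤ A)
    {N : ℕ} (hN : N.Coprime (fIdx m)) {x : K} (h1 : (N : K) * x ∈ A) (h2 : x ∈ awayO m) :
    x ∈ A := by
  obtain ⟨k, hk⟩ := h2
  exact mem_of_coprime_pow A hN h1 (hA hk)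

theorem coprime_ne_zero {N f : ℕ} (h : N.Coprime f) (hf : f ≠ 1) : N ≠ 0 := by
  rintro rfl
  exact hf (by simpa using h)

/-- If `f = 1` the only type is the order itself. -/
theorem eq_order_of_fIdx_eq_one {m : LatticeBasis n K} {P : AddSubgroup K} (hP : IsTy m P)
    (hf : fIdx m = 1) : P = multiplierOrder m := by
  apply le_antisymm _ hP.order_le
  intro x hx
  obtain ⟨k, hk⟩ := hP.away x hx
  rw [hf] at hk
  simpa using hk

/-- A type is generated, near `f`, by an element of the lattice: `g P_(f) = M_(f)`. -/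
theorem exists_gen {m : LatticeBasis n K} {P : AddSubgroup K} (hP : IsTy m P) (hf : fIdx m ≠ 1) :
    ∃ g ∈ m.lattice, g ≠ 0 ∧ ∃ N : ℕ, N.Coprime (fIdx m) ∧ (∀ x ∈ P, g * x ∈ m.lattice) ∧
      ∀ z ∈ m.lattice, ∃ y ∈ P, g * y = (N : K) * z := by
  obtain ⟨c, hc, N, hN, h1, h2⟩ := hP.loc
  obtain ⟨g, hg, hgc⟩ := h1 1 (hP.order_le (one_mem_order m))
  rw [mul_one] at hgc
  have hN0 : (N : K) ≠ 0 := by exact_mod_cast coprime_ne_zero hN hf
  have hg0 : g ≠ 0 := by
    rintro rfl
    rw [mul_zero] at hgc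
    exact hN0 hgc
  refine ⟨g, hg, hg0, N * N, Nat.Coprime.mul_left hN hN, ?_, ?_⟩
  · intro x hx
    obtain ⟨y, hy, hxy⟩ := h1 x hx
    have : g * x = y := by
      have h3 : c * (g * x) = c * y := by
        rw [← hxy, ← mul_assoc, ← hgc]
      exact mul_left_cancel₀ hc h3
    rw [this]; exact hy
  · intro z hz
    refine ⟨(N : K) * (c * z), h2 z hz, ?_⟩
    push_cast
    linear_combination -(N : K) * z * hgc

/-- Types are modules over the order. -/
theorem mul_mem_ty {m : LatticeBasis n K} {P : AddSubgroup K} (hP : IsTy m P) {u x : K}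
    (hu : u ∈ multiplierOrder m) (hx : x ∈ P) : u * x ∈ P := by
  have h0 : u * x ∈ awayO m := mul_mem_awayO (order_le_awayO m hu) (hP.away x hx)
  by_cases hf : fIdx m = 1
  · have := eq_order_of_fIdx_eq_one hP hf
    rw [this] at hx ⊢
    exact mul_mem_order hu hx
  obtain ⟨g, hg, hg0, N, hN, h1, h2⟩ := exists_gen hP hf
  have h3 := h1 x hx
  have h4 := hu _ h3
  obtain ⟨y, hy, hgy⟩ := h2 _ h4
  have : y = (N : K) * (u * x) := by
    have : g * y = g * ((N : K) * (u * x)) := by rw [hgy]; ring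
    exact mul_left_cancel₀ hg0 this
  rw [this] at hy
  exact mem_of_away hP.order_le hN hy h0

/-- Units near `r` stay units after adding multiples of `r`: if `t v = N + r s` in the order, with
`N` coprime to `r ≠ 0, 1`, then `t ≠ 0` and `t v' = d` for some `v'` in the order and `d` coprime to
`r`. -/
theorem exists_coprime_mul_gen (m : LatticeBasis n K) {r : ℕ} (hr0 : r ≠ 0) (hr : r ≠ 1)
    {t v s : K} (hv : v ∈ multiplierOrder m)
    (hs : s ∈ multiplierOrder m) {N : ℕ} (hN : N.Coprime r) (h : t * v = (N : K) + (r : K) * s) :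
    t ≠ 0 ∧ ∃ d : ℕ, d.Coprime r ∧ ∃ v' ∈ multiplierOrder m, t * v' = (d : K) := by
  have ht0 : t ≠ 0 := by
    rintro rfl
    rw [zero_mul] at h
    -- N = - r s, so 1/r ∈ O, contradiction with integrality
    have hfi : (r : K) ≠ 0 := by exact_mod_cast hr0
    have h1 : (r : K)⁻¹ ∈ multiplierOrder m := by
      refine mem_of_coprime (multiplierOrder m) hN ?_ ?_
      · have : (N : K) * (r : K)⁻¹ = -s := by
          field_simp
          linear_combination -h
        rw [this]
        exact (multiplierOrder m).neg_mem hs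
      · rw [mul_inv_cancel₀ hfi]
        exact one_mem_order m
    have h2 : IsIntegral ℤ ((r : K)⁻¹) := Sl_652.order_isIntegral h1
    have h3 : IsIntegral ℤ (((r : ℚ))⁻¹) := by
      have h4 : (algebraMap ℚ K) ((r : ℚ))⁻¹ = (r : K)⁻¹ := by simp
      rw [← h4] at h2
      exact (isIntegral_algebraMap_iff (algebraMap ℚ K).injective).1 h2
    obtain ⟨z, hz⟩ := IsIntegrallyClosed.isIntegral_iff.1 h3
    have hfq : (r : ℚ) ≠ 0 := by exact_mod_cast hr0
    have h5 : (z : ℚ) * (r : ℚ) = 1 := by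
      have : (z : ℚ) = ((r : ℚ))⁻¹ := by simpa using hz
      rw [this, inv_mul_cancel₀ hfq]
    have h6 : z * (r : ℤ) = 1 := by exact_mod_cast h5
    have h7 : IsUnit (r : ℤ) := IsUnit.of_mul_eq_one_right _ h6
    have h8 := Int.isUnit_iff_natAbs_eq.1 h7
    exact hr (by simpa using h8)
  refine ⟨ht0, ?_⟩
  classical
  have hex : ∃ j : ℕ, j ≠ 0 ∧ (j : K) * t⁻¹ ∈ multiplierOrder m := by
    obtain ⟨j, hj, hjm⟩ := exists_mul_mem_order m t⁻¹
    exact ⟨j, hj, hjm⟩
  set j := Nat.find hex with hj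
  obtain ⟨hj0, hjm⟩ := Nat.find_spec hex
  rw [← hj] at hj0 hjm
  refine ⟨j, ?_, (j : K) * t⁻¹, hjm, by field_simp⟩
  -- coprimality
  by_contra hcop
  obtain ⟨p, hp, hpj, hpf⟩ := Nat.Prime.not_coprime_iff_dvd.1 hcop
  obtain ⟨j', hj'⟩ := hpj
  obtain ⟨f', hf'⟩ := hpf
  have hj'0 : j' ≠ 0 := by
    rintro rfl
    exact hj0 (by rw [hj']; simp)
  have hj'lt : j' < j := by
    rw [hj']
    have := hp.two_le
    nlinarith [Nat.pos_of_ne_zero hj'0]
  apply Nat.find_min hex (hj ▸ hj'lt)
  refine ⟨hj'0, ?_⟩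
  have h1 : (p : K) * ((j' : K) * t⁻¹) ∈ multiplierOrder m := by
    have : (p : K) * ((j' : K) * t⁻¹) = (j : K) * t⁻¹ := by rw [hj']; push_cast; ring
    rw [this]; exact hjm
  refine mem_of_coprime (multiplierOrder m) (N := N) (f := p) ?_ ?_ h1
  · exact Nat.Coprime.coprime_dvd_right ⟨f', hf'⟩ hN
  · -- N e = (t v - r s) e
    have e1 : (N : K) * ((j' : K) * t⁻¹) =
        (j' : K) * v - ((f' : K)) * (s * ((p : K) * ((j' : K) * t⁻¹))) := by
      have h2 : (N : K) = t * v - ((p : K) * (f' : K)) * s := by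
        rw [h, hf']; push_cast; ring
      rw [h2]
      field_simp
    rw [e1]
    exact (multiplierOrder m).sub_mem (nat_mul_mem _ _ hv)
      (nat_mul_mem _ _ (mul_mem_order hs h1))

/-- Units near `f` stay units after adding multiples of `f`: if `t v = N + f s` in the order, with
`N` coprime to `f ≠ 1`, then `t ≠ 0` and `t v' = d` for some `v'` in the order and `d` coprime to
`f`. -/
theorem exists_coprime_mul (m : LatticeBasis n K) (hf : fIdx m ≠ 1) {t v s : K}
    (hv : v ∈ multiplierOrder m) (hs : s ∈ multiplierOrder m)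
    {N : ℕ} (hN : N.Coprime (fIdx m)) (h : t * v = (N : K) + (fIdx m : K) * s) :
    t ≠ 0 ∧ ∃ d : ℕ, d.Coprime (fIdx m) ∧ ∃ v' ∈ multiplierOrder m, t * v' = (d : K) :=
  exists_coprime_mul_gen m (fIdx_ne_zero m) hf hv hs hN h

end Crest.Agent.R014.Loc2_524
end

-- ▼ part R014/Loc3_524
section

/-!
Row 14, block N2 (helper524), part 3: counting modulo `q = f^k`.
-/

set_option autoImplicit false
set_option linter.unusedSectionVars false

namespace Crest.Agent.R014.Loc3_524

open Crest.NumberTheoryR.Packets Module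
open Crest.Agent.R014.LocDefs_524 Crest.Agent.R014.Loc1_524 Crest.Agent.R014.Loc2_524
open Crest.Agent.R014.Sl_652 (one_mem_order mul_mem_order lattice_fg exists_latticeBasis finrank_eq
  order_basis ordSub mem_ordSub ordSub_fg exists_mul_mem_order n_pos exists_mul_mem relIndex_eq)

variable {n : ℕ} {K : Type*} [Field K] [NumberField K]

/-- The subgroup `q A`. -/
def qA (q : ℕ) (A : AddSubgroup K) : AddSubgroup K := A.map (nsmulAddMonoidHom (α := K) q)

theorem mem_qA {q : ℕ} {A : AddSubgroup K} {x : K} : x ∈ qA q A ↔ ∃ y ∈ A, (q : K) * y = x := by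
  unfold qA
  rw [AddSubgroup.mem_map]
  simp only [nsmulAddMonoidHom_apply, nsmul_eq_mul]


/-- The lattice as an additive group. -/
def lt (m : LatticeBasis n K) : AddSubgroup K := m.lattice.toAddSubgroup

theorem mem_lt {m : LatticeBasis n K} {x : K} : x ∈ lt m ↔ x ∈ m.lattice := Iff.rfl

theorem relIndex_qA_lt (m : LatticeBasis n K) (q : ℕ) : (qA q (lt m)).relIndex (lt m) = q ^ n := by
  have hfin : Module.Finite ℤ m.lattice := Module.Finite.iff_fg.mpr (lattice_fg m)
  have b : Basis (Fin n) ℤ m.lattice := Basis.span m.linIndep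
  have hfree : Module.Free ℤ m.lattice := Module.Free.of_basis b
  have hr : finrank ℤ m.lattice = n := by rw [finrank_eq_card_basis b, Fintype.card_fin]
  have h1 : Module.Finite ℤ ↥((lt m).toIntSubmodule) := hfin
  have h2 : Module.Free ℤ ↥((lt m).toIntSubmodule) := hfree
  have := AddSubgroup.relIndex_map_nsmul q (lt m)
  unfold qA
  rw [this]
  congr 1

theorem exists_order_basis (m : LatticeBasis n K) :
    ∃ o : LatticeBasis n K, lt o = multiplierOrder m := by
  obtain ⟨o, ho⟩ := order_basis m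
  refine ⟨o, ?_⟩
  ext x
  rw [mem_lt, ho]
  rfl

theorem relIndex_qA_order (m : LatticeBasis n K) (q : ℕ) :
    (qA q (multiplierOrder m)).relIndex (multiplierOrder m) = q ^ n := by
  obtain ⟨o, ho⟩ := exists_order_basis m
  rw [← ho]
  exact relIndex_qA_lt o q

/-- The multiplier order as a ring. -/
def ordRing (m : LatticeBasis n K) : Subring K where
  carrier := multiplierOrder m
  mul_mem' := fun ha hb => mul_mem_order ha hb
  one_mem' := one_mem_order m
  add_mem' := fun ha hb => (multiplierOrder m).add_mem ha hb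
  zero_mem' := (multiplierOrder m).zero_mem
  neg_mem' := fun ha => (multiplierOrder m).neg_mem ha


theorem card_ordRing_quot (m : LatticeBasis n K) (q : ℕ) :
    Nat.card (ordRing m ⧸ Ideal.span {(q : ordRing m)}) = q ^ n := by
  obtain ⟨o, ho⟩ := order_basis m
  have hfin : Module.Finite ℤ o.lattice := Module.Finite.iff_fg.mpr (lattice_fg o)
  have b : Basis (Fin n) ℤ o.lattice := Basis.span o.linIndep
  have hfree : Module.Free ℤ o.lattice := Module.Free.of_basis b
  have hr : finrank ℤ o.lattice = n := by rw [finrank_eq_card_basis b, Fintype.card_fin]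
  have hmem : ∀ x : K, x ∈ o.lattice → x ∈ ordRing m := fun x hx => by rw [ho] at hx; exact hx
  have hmem' : ∀ x : K, x ∈ ordRing m → x ∈ o.lattice := fun x hx => by rw [ho]; exact hx
  let e0 : o.lattice ≃+ ordRing m :=
    { toFun := fun x => ⟨x.1, hmem x.1 x.2⟩
      invFun := fun x => ⟨x.1, hmem' x.1 x.2⟩
      left_inv := fun x => rfl
      right_inv := fun x => rfl
      map_add' := fun x y => rfl }
  let e : o.lattice ≃ₗ[ℤ] ordRing m := e0.toIntLinearEquiv
  have h1 : Module.Finite ℤ (ordRing m) := Module.Finite.equiv e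
  have h2 : Module.Free ℤ (ordRing m) := Module.Free.of_equiv e
  have h3 : finrank ℤ (ordRing m) = n := by rw [← e.finrank_eq, hr]
  have h4 := AddSubgroup.index_range_nsmul (ordRing m) q
  rw [h3] at h4
  have h5 : (Ideal.span {(q : ordRing m)}).toAddSubgroup =
      (nsmulAddMonoidHom (α := ordRing m) q).range := by
    ext x
    rw [AddMonoidHom.mem_range]
    constructor
    · intro hx
      obtain ⟨y, hy⟩ := Ideal.mem_span_singleton'.1 hx
      exact ⟨y, by rw [nsmulAddMonoidHom_apply, nsmul_eq_mul, mul_comm]; exact hy⟩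
    · rintro ⟨y, hy⟩
      rw [nsmulAddMonoidHom_apply, nsmul_eq_mul] at hy
      exact Ideal.mem_span_singleton'.2 ⟨y, by rw [mul_comm]; exact hy⟩
  have h6 : Nat.card (ordRing m ⧸ Ideal.span {(q : ordRing m)}) =
      (Ideal.span {(q : ordRing m)}).toAddSubgroup.index := rfl
  rw [h6, h5, h4]

/-- Elements of the order which are units modulo `q`. -/
def uSet (m : LatticeBasis n K) (q : ℕ) : Set K :=
  {u | u ∈ multiplierOrder m ∧ ∃ v ∈ multiplierOrder m, ∃ w ∈ multiplierOrder m,
    u * v = 1 + (q : K) * w}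

/-- The order modulo `q`. -/
abbrev Oq (m : LatticeBasis n K) (q : ℕ) : Type _ :=
  ↥(multiplierOrder m) ⧸ (qA q (multiplierOrder m)).addSubgroupOf (multiplierOrder m)

/-- The lattice modulo `q`. -/
abbrev Mq (m : LatticeBasis n K) (q : ℕ) : Type _ :=
  ↥(lt m) ⧸ (qA q (lt m)).addSubgroupOf (lt m)

theorem card_Oq (m : LatticeBasis n K) (q : ℕ) : Nat.card (Oq m q) = q ^ n :=
  relIndex_qA_order m q

theorem card_Mq (m : LatticeBasis n K) (q : ℕ) : Nat.card (Mq m q) = q ^ n :=
  relIndex_qA_lt m q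

/-- The classes of the units modulo `q`. -/
def uBar (m : LatticeBasis n K) (q : ℕ) : Set (Oq m q) :=
  (fun u : ↥(multiplierOrder m) => (QuotientAddGroup.mk u : Oq m q)) ''
    {u | (u : K) ∈ uSet m q}

theorem card_le_uBar (m : LatticeBasis n K) {q : ℕ} (hq : q ≠ 0) :
    q ^ n ≤ 2 ^ (n * q.primeFactors.card) * (uBar m q).ncard := by
  classical
  set R := ordRing m ⧸ Ideal.span {(q : ordRing m)} with hR
  have hcard : Nat.card R = q ^ n := card_ordRing_quot m q
  have hfinR : Finite R := Nat.finite_of_card_ne_zero (by rw [hcard]; positivity)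
  have hfinQ : Finite (Oq m q) := Nat.finite_of_card_ne_zero (by rw [card_Oq]; positivity)
  have hq0 : (q : R) = 0 := by
    have : (Ideal.Quotient.mk (Ideal.span {(q : ordRing m)}) (q : ordRing m)) = 0 :=
      Ideal.Quotient.eq_zero_iff_mem.2 (Ideal.mem_span_singleton_self _)
    simpa using this
  have h1 := card_le_units (R := R) n q hq hq0 (by
    intro p hp
    have hp0 : p ≠ 0 := (Nat.prime_of_mem_primeFactors hp).ne_zero
    have hcp := card_ordRing_quot m p
    have hfinp : Finite (ordRing m ⧸ Ideal.span {(p : ordRing m)}) :=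
      Nat.finite_of_card_ne_zero (by rw [hcp]; positivity)
    rw [← hcp]
    let g : ordRing m →+* R ⧸ Ideal.span {(p : R)} :=
      (Ideal.Quotient.mk (Ideal.span {(p : R)})).comp (Ideal.Quotient.mk _)
    have hg : Function.Surjective g :=
      Ideal.Quotient.mk_surjective.comp Ideal.Quotient.mk_surjective
    have hk : ∀ a ∈ Ideal.span {(p : ordRing m)}, g a = 0 := by
      intro a ha
      obtain ⟨b, rfl⟩ := Ideal.mem_span_singleton'.1 ha
      rw [map_mul]
      have : g (p : ordRing m) = 0 := by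
        have h : g (p : ordRing m) = Ideal.Quotient.mk (Ideal.span {(p : R)}) (p : R) := by
          simp [g]
        rw [h]
        exact Ideal.Quotient.eq_zero_iff_mem.2 (Ideal.mem_span_singleton_self _)
      rw [this]
      exact mul_zero (g b)
    exact Nat.card_le_card_of_surjective (Ideal.Quotient.lift _ g hk)
      (Ideal.Quotient.lift_surjective_of_surjective _ hk hg))
  rw [hcard] at h1
  refine h1.trans (Nat.mul_le_mul_left _ ?_)
  -- lifts of units
  have hlift : ∀ r : R, ∃ a : ordRing m, Ideal.Quotient.mk (Ideal.span {(q : ordRing m)}) a = r :=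
    Ideal.Quotient.mk_surjective
  choose l hl using hlift
  apply Set.ncard_le_ncard_of_injOn (fun r => (QuotientAddGroup.mk
    (⟨(l r : K), (l r).2⟩ : ↥(multiplierOrder m)) : Oq m q))
  · intro r hr
    obtain ⟨s, hs⟩ := IsUnit.exists_right_inv (show IsUnit r from hr)
    refine ⟨⟨(l r : K), (l r).2⟩, ⟨(l r).2, ?_⟩, rfl⟩
    have h2 : Ideal.Quotient.mk (Ideal.span {(q : ordRing m)}) (l r * l s - 1) = 0 := by
      rw [map_sub, map_mul, hl, hl, hs, map_one, sub_self]
    obtain ⟨w, hw⟩ := Ideal.mem_span_singleton'.1 (Ideal.Quotient.eq_zero_iff_mem.1 h2)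
    refine ⟨(l s : K), (l s).2, (w : K), w.2, ?_⟩
    have h3 := congrArg (fun z : ordRing m => (z : K)) hw
    have h4 : (w : K) * (q : K) = (l r : K) * (l s : K) - 1 := h3
    linear_combination -h4
  · intro r _ s _ hrs
    have h2 := QuotientAddGroup.eq.1 hrs
    rw [AddSubgroup.mem_addSubgroupOf] at h2
    obtain ⟨y, hy, hyq⟩ := mem_qA.1 h2
    rw [← hl r, ← hl s, Ideal.Quotient.eq]
    refine Ideal.mem_span_singleton'.2 ⟨-⟨y, hy⟩, ?_⟩
    apply Subtype.ext
    simp only [AddSubgroup.coe_add, AddSubgroup.coe_neg] at hyq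
    show (-y) * (q : K) = (l r : K) - (l s : K)
    linear_combination -hyq

end Crest.Agent.R014.Loc3_524
end

-- ▼ part R014/Loc4_524

/-!
Row 14, block N2 (helper524), part 4: the packing bound.
-/

set_option autoImplicit false
set_option linter.unusedSectionVars false

namespace Crest.Agent.R014.Loc4_524

open Crest.NumberTheoryR.Packets Module
open Crest.Agent.R014.LocDefs_524 Crest.Agent.R014.Loc1_524 Crest.Agent.R014.Loc2_524
open Crest.Agent.R014.Loc3_524
open Crest.Agent.R014.Sl_652 (one_mem_order mul_mem_order lattice_fg exists_latticeBasis finrank_eq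
  order_basis ordSub mem_ordSub ordSub_fg exists_mul_mem_order n_pos exists_mul_mem relIndex_eq)

variable {n : ℕ} {K : Type*} [Field K] [NumberField K]

/-- Types are lattices. -/
theorem exists_ty_basis {m : LatticeBasis n K} {P : AddSubgroup K} (hP : IsTy m P) :
    ∃ p : LatticeBasis n K, lt p = P := by
  by_cases hf : fIdx m = 1
  · obtain ⟨o, ho⟩ := exists_order_basis m
    exact ⟨o, by rw [ho, eq_order_of_fIdx_eq_one hP hf]⟩
  obtain ⟨g, hg, hg0, N, hN, h1, h2⟩ := exists_gen hP hf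
  let f : K →ₗ[ℤ] K := LinearMap.mulLeft ℤ g
  have hfi : Function.Injective f := by
    intro a b hab
    exact mul_left_cancel₀ hg0 hab
  have h3 : (P.toIntSubmodule).map f ≤ m.lattice := by
    rintro _ ⟨x, hx, rfl⟩
    exact h1 x hx
  have : IsNoetherian ℤ m.lattice := by
    have : Module.Finite ℤ m.lattice := Module.Finite.iff_fg.mpr (lattice_fg m)
    infer_instance
  have h4 : ((P.toIntSubmodule).map f).FG := by
    have h5 : IsNoetherian ℤ ((P.toIntSubmodule).map f) := isNoetherian_of_le h3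
    exact (Submodule.fg_top _).mp (h5.noetherian ⊤)
  have h6 : (P.toIntSubmodule).FG := Submodule.fg_of_fg_map_injective f hfi h4
  obtain ⟨p, hp⟩ := exists_latticeBasis (finrank_eq m) P.toIntSubmodule h6 (by
    intro x
    obtain ⟨N, hN, h⟩ := exists_mul_mem_order m x
    exact ⟨N, hN, hP.order_le h⟩)
  refine ⟨p, ?_⟩
  ext x
  rw [mem_lt, hp]
  rfl

theorem relIndex_lt_ne_zero {a b : LatticeBasis n K} (h : lt a ≤ lt b) :
    (lt a).relIndex (lt b) ≠ 0 := by
  have h1 := relIndex_eq b a h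
  intro h0
  unfold lt at h0
  rw [h0] at h1
  have h4 : (Sl_652.qBasis b).det a.vec ≠ 0 := by
    rw [← Sl_652.coe_qBasis a]
    exact (Basis.isUnit_det _ _).ne_zero
  exact h4 (abs_eq_zero.1 (by rw [← h1]; simp))

theorem relIndex_ne_zero {m : LatticeBasis n K} {P : AddSubgroup K} (hP : IsTy m P) :
    (multiplierOrder m).relIndex P ≠ 0 := by
  obtain ⟨p, hp⟩ := exists_ty_basis hP
  obtain ⟨o, ho⟩ := exists_order_basis m
  rw [← hp, ← ho]
  apply relIndex_lt_ne_zero
  rw [hp, ho]
  exact hP.order_le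

/-- A power of `f` maps a type into the order. -/
theorem exists_pow_mul_mem {m : LatticeBasis n K} {P : AddSubgroup K} (hP : IsTy m P) :
    ∃ k : ℕ, ∀ x ∈ P, (fIdx m : K) ^ k * x ∈ multiplierOrder m := by
  obtain ⟨p, hp⟩ := exists_ty_basis hP
  have h1 : ∀ i, p.vec i ∈ P := by
    intro i
    rw [← hp]
    exact Sl_652.vec_mem p i
  choose k hk using fun i => hP.away _ (h1 i)
  refine ⟨∑ i, k i, ?_⟩
  intro x hx
  rw [← hp] at hx
  have hx' : x ∈ Submodule.span ℤ (Set.range p.vec) := hx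
  induction hx' using Submodule.span_induction with
  | mem y hy =>
    obtain ⟨i, rfl⟩ := hy
    have h2 : k i ≤ ∑ i, k i := Finset.single_le_sum (f := k) (fun _ _ => Nat.zero_le _)
      (Finset.mem_univ i)
    obtain ⟨j, hj⟩ := Nat.exists_eq_add_of_le h2
    rw [hj, pow_add, mul_comm ((fIdx m : K) ^ k i), mul_assoc]
    exact nat_pow_mul_mem _ _ _ (hk i)
  | zero => rw [mul_zero]; exact (multiplierOrder m).zero_mem
  | add a b ha' hb' ha hb =>
    rw [mul_add]
    exact (multiplierOrder m).add_mem (ha (show a ∈ lt p from ha')) (hb (show b ∈ lt p from hb'))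
  | smul c a ha' ha =>
    rw [mul_smul_comm]
    exact (multiplierOrder m).zsmul_mem (ha (show a ∈ lt p from ha')) c

/-- Multiplication by an element `g` of the lattice. -/
def mulG (m : LatticeBasis n K) {g : K} (hg : g ∈ m.lattice) :
    ↥(multiplierOrder m) →+ ↥(lt m) where
  toFun u := ⟨(u : K) * g, u.2 g hg⟩
  map_zero' := by apply Subtype.ext; show (0 : K) * g = 0; rw [zero_mul]
  map_add' a b := by apply Subtype.ext; show ((a : K) + b) * g = a * g + b * g; ring

/-- Multiplication by `g`, modulo `q`. -/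
def phi (m : LatticeBasis n K) (q : ℕ) {g : K} (hg : g ∈ m.lattice) : Oq m q →+ Mq m q :=
  QuotientAddGroup.map _ _ (mulG m hg) (by
    intro u hu
    rw [AddSubgroup.mem_addSubgroupOf] at hu
    rw [AddSubgroup.mem_comap, AddSubgroup.mem_addSubgroupOf]
    obtain ⟨y, hy, hyu⟩ := mem_qA.1 hu
    refine mem_qA.2 ⟨y * g, hy g hg, ?_⟩
    show (q : K) * (y * g) = (u : K) * g
    rw [← hyu]; ring)

theorem phi_mk (m : LatticeBasis n K) (q : ℕ) {g : K} (hg : g ∈ m.lattice)
    (u : ↥(multiplierOrder m)) :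
    phi m q hg (QuotientAddGroup.mk u) = QuotientAddGroup.mk (mulG m hg u) := rfl

/-- The image of the order has index at most `[P : O]` in the lattice modulo `q`. -/
theorem range_index_le {m : LatticeBasis n K} {P : AddSubgroup K} (hP : IsTy m P) (q : ℕ)
    {g : K} (hg : g ∈ m.lattice) {N : ℕ} (hN : N.Coprime q)
    (h1 : ∀ x ∈ P, g * x ∈ m.lattice) (h2 : ∀ z ∈ m.lattice, ∃ y ∈ P, g * y = (N : K) * z) :
    (phi m q hg).range.index ≤ (multiplierOrder m).relIndex P := by
  let Φ0 : ↥P →+ ↥(lt m) :=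
    { toFun := fun x => ⟨g * (x : K), h1 x x.2⟩
      map_zero' := by apply Subtype.ext; show g * (0 : K) = 0; rw [mul_zero]
      map_add' := fun a b => by apply Subtype.ext; show g * ((a : K) + b) = g * a + g * b; ring }
  let Φ : ↥P →+ Mq m q := (QuotientAddGroup.mk' _).comp Φ0
  have hs : Function.Surjective Φ := by
    intro z'
    obtain ⟨z, rfl⟩ := QuotientAddGroup.mk_surjective z'
    obtain ⟨y, hy, hgy⟩ := h2 z z.2
    obtain ⟨a, b, hab⟩ := exists_inv_mod (K := K) hN
    refine ⟨⟨(a : K) * y, nat_mul_mem P a hy⟩, ?_⟩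
    show QuotientAddGroup.mk (Φ0 ⟨(a : K) * y, _⟩) = QuotientAddGroup.mk z
    rw [QuotientAddGroup.eq, AddSubgroup.mem_addSubgroupOf]
    refine mem_qA.2 ⟨-((b : ℤ) • (z : K)), (lt m).neg_mem ((lt m).zsmul_mem z.2 b), ?_⟩
    show (q : K) * (-((b : ℤ) • (z : K))) = -(g * ((a : K) * y)) + (z : K)
    rw [zsmul_eq_mul]
    linear_combination (a : K) * hgy + (z : K) * hab
  have h3 := AddSubgroup.index_map_dvd ((multiplierOrder m).addSubgroupOf P) hs
  have h4 : ((multiplierOrder m).addSubgroupOf P).map Φ ≤ (phi m q hg).range := by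
    rintro _ ⟨x, hx, rfl⟩
    have hx' : (x : K) ∈ multiplierOrder m := AddSubgroup.mem_addSubgroupOf.1 hx
    refine ⟨QuotientAddGroup.mk ⟨(x : K), hx'⟩, ?_⟩
    rw [phi_mk]
    show QuotientAddGroup.mk (mulG m hg ⟨(x : K), hx'⟩) = QuotientAddGroup.mk (Φ0 x)
    congr 1
    apply Subtype.ext
    show (x : K) * g = g * (x : K)
    ring
  have h5 := AddSubgroup.index_dvd_of_le h4
  exact Nat.le_of_dvd (Nat.pos_of_ne_zero (relIndex_ne_zero hP)) (h5.trans h3)

/-- Each type occupies at least a proportion `2^(-n ω(q)) / [P : O]` of the classes mod `q`. -/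
theorem card_le_phi {m : LatticeBasis n K} {P : AddSubgroup K} (hP : IsTy m P) {q : ℕ}
    (hq : q ≠ 0) {g : K} (hg : g ∈ m.lattice) {N : ℕ} (hN : N.Coprime q)
    (h1 : ∀ x ∈ P, g * x ∈ m.lattice) (h2 : ∀ z ∈ m.lattice, ∃ y ∈ P, g * y = (N : K) * z) :
    q ^ n ≤ 2 ^ (n * q.primeFactors.card) *
      ((phi m q hg '' uBar m q).ncard * (multiplierOrder m).relIndex P) := by
  have hfinQ : Finite (Oq m q) := Nat.finite_of_card_ne_zero (by rw [card_Oq]; positivity)
  have hfinM : Finite (Mq m q) := Nat.finite_of_card_ne_zero (by rw [card_Mq]; positivity)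
  have e1 := card_le_uBar m hq
  have e2 := card_mul_range_le (phi m q hg) (uBar m q)
  rw [card_Oq] at e2
  have e3 := AddSubgroup.card_mul_index (phi m q hg).range
  rw [card_Mq] at e3
  have e4 := range_index_le hP q hg hN h1 h2
  set a := (uBar m q).ncard
  set r := Nat.card (phi m q hg).range
  set ι := (phi m q hg).range.index
  set s := (phi m q hg '' uBar m q).ncard
  set j := (multiplierOrder m).relIndex P
  have hq' : 0 < q ^ n := by positivity
  -- a r ≤ s q^n, r ι = q^n, ι ≤ j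
  have e5 : a ≤ s * j := by
    have h3 : a * q ^ n ≤ s * j * q ^ n := by
      calc a * q ^ n = a * r * ι := by rw [← e3]; ring
        _ ≤ s * q ^ n * ι := Nat.mul_le_mul_right _ e2
        _ ≤ s * q ^ n * j := Nat.mul_le_mul_left _ e4
        _ = s * j * q ^ n := by ring
    exact Nat.le_of_mul_le_mul_right h3 hq'
  exact e1.trans (Nat.mul_le_mul_left _ e5)

/-- `x ∈ M` generates `M` near `f` over `P`: `x P_(f) = M_(f)`. -/
structure IsGen (m : LatticeBasis n K) (P : AddSubgroup K) (x : K) : Prop where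
  ne : x ≠ 0
  le : ∀ y ∈ P, x * y ∈ m.lattice
  ge : ∃ N : ℕ, N.Coprime (fIdx m) ∧ ∀ z ∈ m.lattice, ∃ y ∈ P, x * y = (N : K) * z

theorem IsGen.ty_le {m : LatticeBasis n K} {P P' : AddSubgroup K} (hP : IsTy m P)
    (hP' : IsTy m P') {x : K} (h : IsGen m P x) (h' : IsGen m P' x) : P ≤ P' := by
  intro y hy
  obtain ⟨N, hN, h2⟩ := h'.ge
  obtain ⟨y', hy', hxy⟩ := h2 _ (h.le y hy)
  have : y' = (N : K) * y := by
    have h3 : x * y' = x * ((N : K) * y) := by rw [hxy]; ring
    exact mul_left_cancel₀ h.ne h3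
  rw [this] at hy'
  exact mem_of_away hP'.order_le hN hy' (hP.away y hy)

theorem IsGen.ty_eq {m : LatticeBasis n K} {P P' : AddSubgroup K} (hP : IsTy m P)
    (hP' : IsTy m P') {x : K} (h : IsGen m P x) (h' : IsGen m P' x) : P = P' :=
  le_antisymm (h.ty_le hP hP' h') (h'.ty_le hP' hP h)

theorem isGen_of_eq {m : LatticeBasis n K} {P : AddSubgroup K} (hP : IsTy m P) (hf : fIdx m ≠ 1)
    {q : ℕ} (hfq : fIdx m ∣ q) (hqP : ∀ y ∈ P, ∃ s ∈ multiplierOrder m,
      (q : K) * y = (fIdx m : K) * s)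
    {g : K} (hg0 : g ≠ 0) {N : ℕ} (hN : N.Coprime (fIdx m))
    (h1 : ∀ x ∈ P, g * x ∈ m.lattice) (h2 : ∀ z ∈ m.lattice, ∃ y ∈ P, g * y = (N : K) * z)
    {u a x : K} (hu : u ∈ uSet m q) (ha : a ∈ m.lattice) (hx : x = u * g + (q : K) * a) :
    IsGen m P x := by
  obtain ⟨huO, v, hv, w, hw, huv⟩ := hu
  obtain ⟨q', hq'⟩ := hfq
  obtain ⟨b, hb, hgb⟩ := h2 a ha
  obtain ⟨s, hs, hqb⟩ := hqP b hb
  have hN0 : (N : K) ≠ 0 := by exact_mod_cast coprime_ne_zero hN hf
  set t := (N : K) * u + (fIdx m : K) * s with ht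
  have hNx : (N : K) * x = g * t := by
    rw [hx, ht]
    linear_combination -(q : K) * hgb + g * hqb
  have htv : t * v = (N : K) + (fIdx m : K) * ((N : K) * ((q' : K) * w) + s * v) := by
    have hqc : (q : K) = (fIdx m : K) * (q' : K) := by rw [hq']; push_cast; ring
    rw [ht]
    linear_combination (N : K) * huv + (N : K) * w * hqc
  obtain ⟨ht0, d, hd, v', hv', htd⟩ := exists_coprime_mul m hf hv
    ((multiplierOrder m).add_mem (nat_mul_mem _ _ (nat_mul_mem _ _ hw)) (mul_mem_order hs hv))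
    hN htv
  refine ⟨?_, ?_, ?_⟩
  · rintro rfl
    rw [mul_zero] at hNx
    exact (mul_ne_zero hg0 ht0) hNx.symm
  · intro y hy
    have e : x * y = g * (u * y) + ((q : K) * y) * a := by rw [hx]; ring
    rw [e]
    refine m.lattice.add_mem (h1 _ (mul_mem_ty hP huO hy)) ?_
    obtain ⟨s', hs', hqy⟩ := hqP y hy
    rw [hqy]
    exact (nat_mul_mem _ (fIdx m) hs') a ha
  · refine ⟨d * N, Nat.Coprime.mul_left hd hN, ?_⟩
    intro z hz
    obtain ⟨b', hb', hgb'⟩ := h2 z hz
    refine ⟨(N : K) * (v' * b'), nat_mul_mem _ _ (mul_mem_ty hP hv' hb'), ?_⟩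
    push_cast
    linear_combination (v' * b') * hNx + (g * b') * htd + (d : K) * hgb'

/-- The classes modulo `q` all of whose members generate `M` over `P`. -/
def sP (m : LatticeBasis n K) (q : ℕ) (P : AddSubgroup K) : Set (Mq m q) :=
  {c | ∀ x : ↥(lt m), (QuotientAddGroup.mk x : Mq m q) = c → IsGen m P x}

theorem card_le_sP {m : LatticeBasis n K} {P : AddSubgroup K} (hP : IsTy m P) (hf : fIdx m ≠ 1)
    {k : ℕ} (hk : k ≠ 0) (hqP : ∀ y ∈ P, ∃ s ∈ multiplierOrder m,
      ((fIdx m ^ k : ℕ) : K) * y = (fIdx m : K) * s) :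
    (fIdx m ^ k) ^ n ≤ 2 ^ (n * (fIdx m).primeFactors.card) *
      ((sP m (fIdx m ^ k) P).ncard * (multiplierOrder m).relIndex P) := by
  obtain ⟨g, hg, hg0, N, hN, h1, h2⟩ := exists_gen hP hf
  set q := fIdx m ^ k with hq
  have hq0 : q ≠ 0 := pow_ne_zero _ (fIdx_ne_zero m)
  have hfinM : Finite (Mq m q) := Nat.finite_of_card_ne_zero (by rw [card_Mq]; positivity)
  have hNq : N.Coprime q := Nat.Coprime.pow_right k hN
  have e := card_le_phi hP hq0 hg hNq h1 h2
  have e1 : q.primeFactors = (fIdx m).primeFactors := by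
    rw [hq]; exact Nat.primeFactors_pow _ hk
  rw [e1] at e
  refine e.trans (Nat.mul_le_mul_left _ (Nat.mul_le_mul_right _ ?_))
  apply Set.ncard_le_ncard _ (Set.toFinite _)
  rintro _ ⟨_, ⟨u, hu, rfl⟩, rfl⟩
  intro x hx
  rw [phi_mk, QuotientAddGroup.eq, AddSubgroup.mem_addSubgroupOf] at hx
  obtain ⟨y, hy, hyx⟩ := mem_qA.1 hx
  have hyx' : (q : K) * y = -(x : K) + (u : K) * g := hyx
  refine isGen_of_eq hP hf (dvd_pow_self _ hk) hqP hg0 hN h1 h2 (u := (u : K)) (a := -y) hu
    (m.lattice.neg_mem hy) ?_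
  linear_combination hyx'

/-- The image of a subgroup `H ⊇ qM` modulo `q` has `q^n / [M : H]` elements. -/
theorem ncard_image_mul_le (m : LatticeBasis n K) {q : ℕ} (hq : q ≠ 0) {H : AddSubgroup K}
    (hH : H ≤ lt m) (hqH : qA q (lt m) ≤ H) :
    {c : Mq m q | ∃ x : ↥(lt m), (x : K) ∈ H ∧ (QuotientAddGroup.mk x : Mq m q) = c}.ncard *
      H.relIndex (lt m) ≤ q ^ n := by
  have h1 := AddSubgroup.relIndex_mul_relIndex (qA q (lt m)) H (lt m) hqH hH
  rw [relIndex_qA_lt] at h1
  rw [← h1]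
  apply Nat.mul_le_mul_right
  have hne : (qA q (lt m)).relIndex H ≠ 0 := by
    intro h0
    rw [h0, zero_mul] at h1
    exact (pow_ne_zero n hq) h1.symm
  have hcard : Nat.card (↥H ⧸ (qA q (lt m)).addSubgroupOf H) = (qA q (lt m)).relIndex H := rfl
  have hfin : Finite (↥H ⧸ (qA q (lt m)).addSubgroupOf H) :=
    Nat.finite_of_card_ne_zero (by rw [hcard]; exact hne)
  let ψ : (↥H ⧸ (qA q (lt m)).addSubgroupOf H) →+ Mq m q :=
    QuotientAddGroup.map _ _ (AddSubgroup.inclusion hH) (by
      intro u hu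
      rw [AddSubgroup.mem_addSubgroupOf] at hu
      rw [AddSubgroup.mem_comap, AddSubgroup.mem_addSubgroupOf]
      exact hu)
  have hsub : {c : Mq m q | ∃ x : ↥(lt m), (x : K) ∈ H ∧
      (QuotientAddGroup.mk x : Mq m q) = c} ⊆ Set.range ψ := by
    rintro _ ⟨x, hx, rfl⟩
    exact ⟨QuotientAddGroup.mk ⟨(x : K), hx⟩, rfl⟩
  rw [← hcard]
  refine (Set.ncard_le_ncard hsub (Set.finite_range _)).trans ?_
  rw [← Set.image_univ]
  refine (Set.ncard_image_le (Set.toFinite _)).trans ?_
  rw [Set.ncard_univ]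

/-- PACKING: if the generators of `M` over the members of `B` are covered by finitely many subgroups
`H` of `M`, the sum of `1/[P : O]` over `B` is at most `2^(n ω(f))` times that of `1/[M : H]`. -/
theorem packing (m : LatticeBasis n K) (hf : fIdx m ≠ 1) (B : Finset (AddSubgroup K))
    (hB : ∀ P ∈ B, IsTy m P) (I : Finset (AddSubgroup K))
    (hI : ∀ H ∈ I, H ≤ lt m ∧ ∃ k : ℕ, ∀ x ∈ m.lattice, (fIdx m : K) ^ k * x ∈ H)
    (hcov : ∀ P ∈ B, ∀ x ∈ m.lattice, IsGen m P x → ∃ H ∈ I, x ∈ H) :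
    ∑ P ∈ B, (((multiplierOrder m).relIndex P : ℕ) : ℝ)⁻¹ ≤
      2 ^ (n * (fIdx m).primeFactors.card) * ∑ H ∈ I, ((H.relIndex (lt m) : ℕ) : ℝ)⁻¹ := by
  classical
  -- a common exponent
  have hex1 : ∀ P : AddSubgroup K, ∃ k : ℕ, P ∈ B → ∀ x ∈ P,
      (fIdx m : K) ^ k * x ∈ multiplierOrder m := by
    intro P
    by_cases hP : P ∈ B
    · obtain ⟨k, hk⟩ := exists_pow_mul_mem (hB P hP)
      exact ⟨k, fun _ => hk⟩
    · exact ⟨0, fun h => absurd h hP⟩
  choose k1 hk1 using hex1
  have hex2 : ∀ H : AddSubgroup K, ∃ k : ℕ, H ∈ I → ∀ x ∈ m.lattice,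
      (fIdx m : K) ^ k * x ∈ H := by
    intro H
    by_cases hH : H ∈ I
    · obtain ⟨k, hk⟩ := (hI H hH).2
      exact ⟨k, fun _ => hk⟩
    · exact ⟨0, fun h => absurd h hH⟩
  choose k2 hk2 using hex2
  set k := (∑ P ∈ B, k1 P) + (∑ H ∈ I, k2 H) + 1 with hk
  have hk0 : k ≠ 0 := by omega
  set q := fIdx m ^ k with hq
  have hq0 : q ≠ 0 := pow_ne_zero _ (fIdx_ne_zero m)
  have hfinM : Finite (Mq m q) := Nat.finite_of_card_ne_zero (by rw [card_Mq]; positivity)
  -- the types
  have hA : ∀ P ∈ B, (((multiplierOrder m).relIndex P : ℕ) : ℝ)⁻¹ ≤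
      2 ^ (n * (fIdx m).primeFactors.card) * ((sP m q P).ncard : ℝ) / (q : ℝ) ^ n := by
    intro P hP
    have hj0 := relIndex_ne_zero (hB P hP)
    have h := card_le_sP (hB P hP) hf hk0 (by
      intro y hy
      have h1 : k1 P ≤ ∑ P ∈ B, k1 P :=
        Finset.single_le_sum (f := k1) (fun _ _ => Nat.zero_le _) hP
      obtain ⟨l, hl⟩ := Nat.exists_eq_add_of_le h1
      refine ⟨(fIdx m : K) ^ (l + ∑ H ∈ I, k2 H) * ((fIdx m : K) ^ k1 P * y),
        nat_pow_mul_mem _ _ _ (hk1 P hP y hy), ?_⟩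
      rw [hk, hl]
      push_cast
      ring)
    rw [← hq] at h
    have h' : (q : ℝ) ^ n ≤ 2 ^ (n * (fIdx m).primeFactors.card) *
        (((sP m q P).ncard : ℝ) * (((multiplierOrder m).relIndex P : ℕ) : ℝ)) := by
      exact_mod_cast h
    have hj : (0 : ℝ) < (((multiplierOrder m).relIndex P : ℕ) : ℝ) := by
      exact_mod_cast Nat.pos_of_ne_zero hj0
    have hqn : (0 : ℝ) < (q : ℝ) ^ n := by
      have : (0 : ℝ) < (q : ℝ) := by exact_mod_cast Nat.pos_of_ne_zero hq0
      positivity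
    rw [inv_eq_one_div, div_le_div_iff₀ hj hqn]
    linarith
  -- disjointness
  have hdisj : ∀ P ∈ B, ∀ P' ∈ B, P ≠ P' → Disjoint (sP m q P) (sP m q P') := by
    intro P hP P' hP' hne
    rw [Set.disjoint_left]
    intro c hc hc'
    obtain ⟨x, rfl⟩ := QuotientAddGroup.mk_surjective c
    exact hne ((hc x rfl).ty_eq (hB P hP) (hB P' hP') (hc' x rfl))
  have hS : ∑ P ∈ B, (sP m q P).ncard ≤ ∑ H ∈ I,
      {c : Mq m q | ∃ x : ↥(lt m), (x : K) ∈ H ∧ (QuotientAddGroup.mk x : Mq m q) = c}.ncard := by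
    have hfin : ∀ s : Set (Mq m q), s.Finite := fun s => Set.toFinite s
    have e1 : ∑ P ∈ B, (sP m q P).ncard = (B.biUnion (fun P => (hfin (sP m q P)).toFinset)).card := by
      rw [Finset.card_biUnion]
      · exact Finset.sum_congr rfl fun P _ => Set.ncard_eq_toFinset_card _ (hfin _)
      · intro P hP P' hP' hne
        exact (Set.Finite.disjoint_toFinset).2 (hdisj P hP P' hP' hne)
    rw [e1]
    have e2 : B.biUnion (fun P => (hfin (sP m q P)).toFinset) ⊆
        I.biUnion (fun H => (hfin {c : Mq m q | ∃ x : ↥(lt m), (x : K) ∈ H ∧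
          (QuotientAddGroup.mk x : Mq m q) = c}).toFinset) := by
      intro c hc
      obtain ⟨P, hP, hcP⟩ := Finset.mem_biUnion.1 hc
      rw [Set.Finite.mem_toFinset] at hcP
      obtain ⟨x, rfl⟩ := QuotientAddGroup.mk_surjective c
      obtain ⟨H, hH, hxH⟩ := hcov P hP x x.2 (hcP x rfl)
      refine Finset.mem_biUnion.2 ⟨H, hH, ?_⟩
      rw [Set.Finite.mem_toFinset]
      exact ⟨x, hxH, rfl⟩
    refine (Finset.card_le_card e2).trans (Finset.card_biUnion_le.trans ?_)
    exact Finset.sum_le_sum fun H _ => (Set.ncard_eq_toFinset_card _ (hfin _)).ge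
  have hqn : (0 : ℝ) < (q : ℝ) ^ n := by
    have : (0 : ℝ) < (q : ℝ) := by exact_mod_cast Nat.pos_of_ne_zero hq0
    positivity
  have hH : ∀ H ∈ I, (({c : Mq m q | ∃ x : ↥(lt m), (x : K) ∈ H ∧
      (QuotientAddGroup.mk x : Mq m q) = c}.ncard : ℕ) : ℝ) ≤
        (q : ℝ) ^ n * ((H.relIndex (lt m) : ℕ) : ℝ)⁻¹ := by
    intro H hHI
    have hqH : qA q (lt m) ≤ H := by
      intro x hx
      obtain ⟨y, hy, rfl⟩ := mem_qA.1 hx
      have h1 : k2 H ≤ ∑ H ∈ I, k2 H :=
        Finset.single_le_sum (f := k2) (fun _ _ => Nat.zero_le _) hHI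
      obtain ⟨l, hl⟩ := Nat.exists_eq_add_of_le h1
      have h3 : ((q : ℕ) : K) * y = (fIdx m : K) ^ ((∑ P ∈ B, k1 P) + l + 1) *
          ((fIdx m : K) ^ k2 H * y) := by
        rw [hq, hk, hl]; push_cast; ring
      rw [h3]
      exact nat_pow_mul_mem _ _ _ (hk2 H hHI y hy)
    have h := ncard_image_mul_le m hq0 (hI H hHI).1 hqH
    have hj0 : H.relIndex (lt m) ≠ 0 := by
      intro h0
      have h1 := AddSubgroup.relIndex_mul_relIndex (qA q (lt m)) H (lt m) hqH (hI H hHI).1
      rw [relIndex_qA_lt, h0, mul_zero] at h1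
      exact (pow_ne_zero n hq0) h1.symm
    have hj : (0 : ℝ) < ((H.relIndex (lt m) : ℕ) : ℝ) := by
      exact_mod_cast Nat.pos_of_ne_zero hj0
    rw [← div_eq_mul_inv, le_div_iff₀ hj]
    exact_mod_cast h
  have hS' : ∑ P ∈ B, ((sP m q P).ncard : ℝ) ≤ (q : ℝ) ^ n *
      ∑ H ∈ I, ((H.relIndex (lt m) : ℕ) : ℝ)⁻¹ := by
    have h1 : ∑ P ∈ B, ((sP m q P).ncard : ℝ) ≤ ∑ H ∈ I,
      (({c : Mq m q | ∃ x : ↥(lt m), (x : K) ∈ H ∧
        (QuotientAddGroup.mk x : Mq m q) = c}.ncard : ℕ) : ℝ) := by exact_mod_cast hS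
    rw [Finset.mul_sum]
    exact h1.trans (Finset.sum_le_sum hH)
  calc ∑ P ∈ B, (((multiplierOrder m).relIndex P : ℕ) : ℝ)⁻¹
      ≤ ∑ P ∈ B, 2 ^ (n * (fIdx m).primeFactors.card) * ((sP m q P).ncard : ℝ) / (q : ℝ) ^ n :=
        Finset.sum_le_sum hA
    _ = 2 ^ (n * (fIdx m).primeFactors.card) / (q : ℝ) ^ n * ∑ P ∈ B, ((sP m q P).ncard : ℝ) := by
        rw [Finset.mul_sum]
        exact Finset.sum_congr rfl fun P _ => by ring
    _ ≤ 2 ^ (n * (fIdx m).primeFactors.card) / (q : ℝ) ^ n * ((q : ℝ) ^ n *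
      ∑ H ∈ I, ((H.relIndex (lt m) : ℕ) : ℝ)⁻¹) :=
        mul_le_mul_of_nonneg_left hS' (by positivity)
    _ = 2 ^ (n * (fIdx m).primeFactors.card) * ∑ H ∈ I, ((H.relIndex (lt m) : ℕ) : ℝ)⁻¹ := by
        field_simp

/-- THE PACKING BOUND: `∑ 1/[P : O] ≤ 2^(n ω(f))` over types `P`. -/
theorem ty_sum_le (m : LatticeBasis n K) (B : Finset (AddSubgroup K)) (hB : ∀ P ∈ B, IsTy m P) :
    ∑ P ∈ B, (((multiplierOrder m).relIndex P : ℕ) : ℝ)⁻¹ ≤
      2 ^ (n * (fIdx m).primeFactors.card) := by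
  classical
  by_cases hf : fIdx m = 1
  · have hsub : B ⊆ {multiplierOrder m} := by
      intro P hP
      rw [Finset.mem_singleton]
      exact eq_order_of_fIdx_eq_one (hB P hP) hf
    calc ∑ P ∈ B, (((multiplierOrder m).relIndex P : ℕ) : ℝ)⁻¹
        ≤ ∑ P ∈ {multiplierOrder m}, (((multiplierOrder m).relIndex P : ℕ) : ℝ)⁻¹ :=
          Finset.sum_le_sum_of_subset_of_nonneg hsub (fun _ _ _ => by positivity)
      _ = 1 := by rw [Finset.sum_singleton, AddSubgroup.relIndex_self]; simp
      _ ≤ 2 ^ (n * (fIdx m).primeFactors.card) := one_le_pow₀ (by norm_num)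
  · have h := packing m hf B hB {lt m} (by
      intro H hH
      rw [Finset.mem_singleton] at hH
      subst hH
      exact ⟨le_rfl, 0, fun x hx => by rw [pow_zero, one_mul]; exact hx⟩) (by
      intro P _ x hx _
      exact ⟨lt m, Finset.mem_singleton_self _, hx⟩)
    rw [Finset.sum_singleton, AddSubgroup.relIndex_self] at h
    simpa using h

end Crest.Agent.R014.Loc4_524
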