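import Crest.Agent.R014.Loc4_524
import Crest.Agent.R014.DivB_684
import Crest.Agent.R014.Loc5_524

-- ▼ part R014/Loc6_524
section

/-!
Row 14, block N2 (helper524), part 6: the ideal `b(P)` of denominators of a type, the subgroups
`H_b` and `H_y` of `M`, and their indices.
-/

set_option autoImplicit false
set_option linter.unusedSectionVars false

open scoped nonZeroDivisors

namespace Crest.Agent.R014.Loc6_524

open Crest.NumberTheoryR.Packets Module NumberField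
open Crest.Agent.R014.LocDefs_524 Crest.Agent.R014.Loc1_524 Crest.Agent.R014.Loc2_524
open Crest.Agent.R014.Loc3_524 Crest.Agent.R014.Loc4_524
open Crest.Agent.R014.Sl_652 (one_mem_order mul_mem_order lattice_fg exists_latticeBasis finrank_eq
  order_basis ordSub mem_ordSub ordSub_fg exists_mul_mem_order n_pos exists_mul_mem relIndex_eq)

variable {n : ℕ} {K : Type*} [Field K] [NumberField K]

noncomputable section

/-- The fractional ideal generated by a lattice. -/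
def FI (p : LatticeBasis n K) : FractionalIdeal (𝓞 K)⁰ K :=
  ⟨Submodule.span (𝓞 K) (Set.range p.vec),
    FractionalIdeal.isFractional_of_fg (Submodule.fg_span (Set.finite_range _))⟩

theorem mem_FI {p : LatticeBasis n K} {x : K} :
    x ∈ FI p ↔ x ∈ Submodule.span (𝓞 K) (Set.range p.vec) := Iff.rfl

theorem lt_mem_FI {p : LatticeBasis n K} {x : K} (hx : x ∈ lt p) : x ∈ FI p := by
  have hx' : x ∈ Submodule.span ℤ (Set.range p.vec) := hx
  rw [mem_FI]
  induction hx' using Submodule.span_induction with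
  | mem y hy => exact Submodule.subset_span hy
  | zero => exact Submodule.zero_mem _
  | add a b ha' hb' ha hb => exact Submodule.add_mem _ (ha ha') (hb hb')
  | smul c a ha' ha =>
    rw [← Int.cast_smul_eq_zsmul (𝓞 K)]
    exact Submodule.smul_mem _ _ (ha ha')

theorem mul_FI_le {p : LatticeBasis n K} {J : FractionalIdeal (𝓞 K)⁰ K} {x : K}
    (h : ∀ y ∈ lt p, x * y ∈ J) : FractionalIdeal.spanSingleton (𝓞 K)⁰ x * FI p ≤ J := by
  rw [FractionalIdeal.spanSingleton_mul_le_iff]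
  intro z hz
  rw [mem_FI] at hz
  induction hz using Submodule.span_induction with
  | mem y hy =>
    obtain ⟨i, rfl⟩ := hy
    exact h _ (Sl_652.vec_mem p i)
  | zero => rw [mul_zero]; exact (J : Submodule (𝓞 K) K).zero_mem
  | add a b _ _ ha hb => rw [mul_add]; exact (J : Submodule (𝓞 K) K).add_mem ha hb
  | smul c a _ ha => rw [mul_smul_comm]; exact (J : Submodule (𝓞 K) K).smul_mem c ha

theorem FI_ne_zero (p : LatticeBasis n K) : FI p ≠ 0 := by
  intro h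
  have h1 : p.vec ⟨0, n_pos p⟩ ∈ FI p := lt_mem_FI (Sl_652.vec_mem p _)
  rw [h, FractionalIdeal.mem_zero_iff] at h1
  exact Sl_652.vec_ne_zero p _ h1

/-- The subgroup `H_b` of the lattice: its elements in `b · (O_K M)`. -/
def Hb (m : LatticeBasis n K) (b : Ideal (𝓞 K)) : AddSubgroup K :=
  lt m ⊓ ((FI m * (b : FractionalIdeal (𝓞 K)⁰ K) : FractionalIdeal (𝓞 K)⁰ K) :
    Submodule (𝓞 K) K).toAddSubgroup

theorem mem_Hb {m : LatticeBasis n K} {b : Ideal (𝓞 K)} {x : K} :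
    x ∈ Hb m b ↔ x ∈ m.lattice ∧ x ∈ FI m * (b : FractionalIdeal (𝓞 K)⁰ K) := Iff.rfl

theorem Hb_le (m : LatticeBasis n K) (b : Ideal (𝓞 K)) : Hb m b ≤ lt m := inf_le_left

theorem coe_mem_coeIdeal {b : Ideal (𝓞 K)} {a : 𝓞 K} (ha : a ∈ b) :
    (a : K) ∈ (b : FractionalIdeal (𝓞 K)⁰ K) :=
  FractionalIdeal.mem_coeIdeal_of_mem (𝓞 K)⁰ ha

theorem pow_mul_mem_Hb {m : LatticeBasis n K} {b : Ideal (𝓞 K)} {N : ℕ}
    (hN : (N : 𝓞 K) ∈ b) {x : K} (hx : x ∈ m.lattice) : (N : K) * x ∈ Hb m b := by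
  refine mem_Hb.2 ⟨nat_mul_mem (lt m) N hx, ?_⟩
  rw [mul_comm (N : K) x]
  have h := coe_mem_coeIdeal hN
  have h2 : ((N : 𝓞 K) : K) = (N : K) := by simp
  rw [h2] at h
  exact FractionalIdeal.mul_mem_mul (lt_mem_FI hx) h

/-- `N(b) ≤ [M : H_b]^n`. -/
theorem absNorm_le (m : LatticeBasis n K) {b : Ideal (𝓞 K)} (hne : (Hb m b).relIndex (lt m) ≠ 0) :
    Ideal.absNorm b ≤ (Hb m b).relIndex (lt m) ^ n := by
  set h := (Hb m b).relIndex (lt m) with hh
  have h1 : ∀ x ∈ lt m, (h : K) * x ∈ FI m * (b : FractionalIdeal (𝓞 K)⁰ K) := by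
    intro x hx
    have := AddSubgroup.nsmul_relIndex_mem (Hb m b) hx
    rw [nsmul_eq_mul] at this
    exact (mem_Hb.1 this).2
  have h2 := mul_FI_le h1
  have h3 : FractionalIdeal.spanSingleton (𝓞 K)⁰ (h : K) ≤ (b : FractionalIdeal (𝓞 K)⁰ K) := by
    have h4 := mul_le_mul_left h2 (FI m)⁻¹
    rw [mul_assoc, mul_inv_cancel₀ (FI_ne_zero m), mul_one, mul_comm (FI m), mul_assoc,
      mul_inv_cancel₀ (FI_ne_zero m), mul_one] at h4
    exact h4
  have h4 : (h : 𝓞 K) ∈ b := by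
    have h5 : (h : K) ∈ (b : FractionalIdeal (𝓞 K)⁰ K) :=
      h3 (FractionalIdeal.mem_spanSingleton_self _ _)
    rw [FractionalIdeal.mem_coeIdeal] at h5
    obtain ⟨a, ha, hah⟩ := h5
    have : a = (h : 𝓞 K) := by
      apply RingOfIntegers.ext
      show (algebraMap (𝓞 K) K) a = _
      rw [hah]; simp
    rw [← this]; exact ha
  have h5 : Ideal.absNorm b ∣ h ^ n := by
    have h6 := Ideal.absNorm_dvd_absNorm_of_le (I := b) (J := Ideal.span {(h : 𝓞 K)})
      ((Ideal.span_singleton_le_iff_mem _).2 h4)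
    rw [DivB_684.absNorm_span_nat, finrank_eq m] at h6
    exact h6
  exact Nat.le_of_dvd (Nat.pos_of_ne_zero (pow_ne_zero n hne)) h5

/-- The denominator ideal of a type. -/
theorem exists_denIdeal {m : LatticeBasis n K} {P : AddSubgroup K} (hP : IsTy m P) :
    ∃ b : Ideal (𝓞 K), b ≠ ⊥ ∧ (∃ k : ℕ, ((fIdx m : 𝓞 K)) ^ k ∈ b) ∧
      (∀ a ∈ b, ∀ y ∈ P, IsIntegral ℤ ((a : K) * y)) ∧
      (∀ x ∈ m.lattice, (∀ y ∈ P, x * y ∈ m.lattice) → ∀ c : Ideal (𝓞 K), b ≤ c → x ∈ Hb m c) := by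
  obtain ⟨p, hp⟩ := exists_ty_basis hP
  have hle : (FI p)⁻¹ ≤ 1 := by
    intro z hz
    have h1 := (FractionalIdeal.mem_inv_iff (FI_ne_zero p)).1 hz 1
      (lt_mem_FI (by rw [hp]; exact hP.order_le (one_mem_order m)))
    rwa [mul_one] at h1
  obtain ⟨b, hb⟩ := FractionalIdeal.le_one_iff_exists_coeIdeal.1 hle
  have hmul : FI p * (b : FractionalIdeal (𝓞 K)⁰ K) = 1 := by
    rw [hb]; exact mul_inv_cancel₀ (FI_ne_zero p)
  have hmem : ∀ a : 𝓞 K, (∀ y ∈ P, IsIntegral ℤ ((a : K) * y)) → a ∈ b := by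
    intro a ha
    have h1 : (a : K) ∈ (FI p)⁻¹ := by
      rw [FractionalIdeal.mem_inv_iff (FI_ne_zero p)]
      intro y hy
      have h2 := mul_FI_le (p := p) (J := 1) (x := (a : K)) (by
        intro y hy
        rw [hp] at hy
        rw [FractionalIdeal.mem_one_iff]
        exact ⟨⟨_, ha y hy⟩, rfl⟩)
      rw [FractionalIdeal.spanSingleton_mul_le_iff] at h2
      exact h2 y hy
    rw [← hb, FractionalIdeal.mem_coeIdeal] at h1
    obtain ⟨a', ha', haa⟩ := h1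
    have : a' = a := RingOfIntegers.ext haa
    rw [← this]; exact ha'
  obtain ⟨k, hk⟩ := exists_pow_mul_mem hP
  have hfk : ((fIdx m : 𝓞 K)) ^ k ∈ b := by
    apply hmem
    intro y hy
    have := Sl_652.order_isIntegral (hk y hy)
    have e : (((fIdx m : 𝓞 K) ^ k : 𝓞 K) : K) = (fIdx m : K) ^ k := by simp
    rw [e]; exact this
  refine ⟨b, ?_, ⟨k, hfk⟩, ?_, ?_⟩
  · rintro rfl
    rw [Ideal.mem_bot] at hfk
    have := pow_ne_zero k (show (fIdx m : 𝓞 K) ≠ 0 by exact_mod_cast fIdx_ne_zero m)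
    exact this hfk
  · intro a ha y hy
    have h1 : y * (a : K) ∈ FI p * (b : FractionalIdeal (𝓞 K)⁰ K) :=
      FractionalIdeal.mul_mem_mul (lt_mem_FI (by rw [hp]; exact hy)) (coe_mem_coeIdeal ha)
    rw [hmul, FractionalIdeal.mem_one_iff] at h1
    obtain ⟨z, hz⟩ := h1
    rw [mul_comm, ← hz]
    exact z.2
  · intro x hx hxP c hbc
    refine mem_Hb.2 ⟨hx, ?_⟩
    have h1 : FractionalIdeal.spanSingleton (𝓞 K)⁰ x * FI p ≤ FI m :=
      mul_FI_le (fun y hy => lt_mem_FI (hxP y (by rw [← hp]; exact hy)))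
    have h2 := mul_le_mul_left h1 (b : FractionalIdeal (𝓞 K)⁰ K)
    rw [mul_assoc, hmul, mul_one] at h2
    have h3 : (b : FractionalIdeal (𝓞 K)⁰ K) ≤ (c : FractionalIdeal (𝓞 K)⁰ K) :=
      FractionalIdeal.coeIdeal_le_coeIdeal _ |>.2 hbc
    have h4 := h2.trans (mul_le_mul_right h3 (FI m))
    exact h4 (FractionalIdeal.mem_spanSingleton_self _ _)

/-- Divisors of controlled norm. -/
theorem exists_dvd_norm {b0 : Ideal (𝓞 K)} (hb0 : b0 ≠ ⊥) {R : ℕ} {Y : ℝ} (hY : 1 ≤ Y)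
    (hR : ∀ p : Ideal (𝓞 K), p.IsPrime → p ≠ ⊥ → b0 ≤ p → Ideal.absNorm p ≤ R)
    (hN : Y < Ideal.absNorm b0) :
    ∃ b : Ideal (𝓞 K), b0 ≤ b ∧ b ≠ ⊥ ∧ Y < Ideal.absNorm b ∧ (Ideal.absNorm b : ℝ) ≤ Y * R := by
  classical
  have hex : ∃ N : ℕ, ∃ b : Ideal (𝓞 K), b0 ≤ b ∧ b ≠ ⊥ ∧ Y < Ideal.absNorm b ∧
      Ideal.absNorm b = N := ⟨_, b0, le_rfl, hb0, hN, rfl⟩
  obtain ⟨b, hle, hbne, hbY, hbN⟩ := Nat.find_spec hex
  refine ⟨b, hle, hbne, hbY, ?_⟩
  have hb1 : b ≠ ⊤ := by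
    rintro rfl
    rw [Ideal.absNorm_top] at hbY
    push_cast at hbY
    linarith
  obtain ⟨p, hpmax, hbp⟩ := Ideal.exists_le_maximal b hb1
  have hp0 : p ≠ ⊥ := by
    rintro rfl
    exact hbne (le_bot_iff.1 hbp)
  obtain ⟨c, hc⟩ := Ideal.dvd_iff_le.2 hbp
  have hcne : c ≠ ⊥ := by
    rintro rfl
    rw [Ideal.mul_bot] at hc
    exact hbne hc
  have hNp : 2 ≤ Ideal.absNorm p := DivB_684.two_le_absNorm hpmax.isPrime hp0
  have hNb : Ideal.absNorm b = Ideal.absNorm p * Ideal.absNorm c := by rw [hc, map_mul]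
  have hNc : Ideal.absNorm c ≠ 0 := by rw [Ne, Ideal.absNorm_eq_zero_iff]; exact hcne
  have hlt : Ideal.absNorm c < Nat.find hex := by
    rw [← hbN, hNb]
    have : 0 < Ideal.absNorm c := Nat.pos_of_ne_zero hNc
    nlinarith
  have hcY : (Ideal.absNorm c : ℝ) ≤ Y := by
    by_contra hcon
    rw [not_le] at hcon
    refine Nat.find_min hex hlt ⟨c, ?_, hcne, hcon, rfl⟩
    exact hle.trans (hc ▸ Ideal.mul_le_right)
  have hRp := hR p hpmax.isPrime hp0 (hle.trans hbp)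
  have hRp' : (Ideal.absNorm p : ℝ) ≤ R := by exact_mod_cast hRp
  rw [hNb]
  push_cast
  calc (Ideal.absNorm p : ℝ) * Ideal.absNorm c ≤ R * Y :=
        mul_le_mul hRp' hcY (Nat.cast_nonneg _) (Nat.cast_nonneg _)
    _ = Y * R := mul_comm _ _

/-- The subgroup `H_y` of the lattice: `x ∈ M` with `x y ∈ M`. -/
def Hy (m : LatticeBasis n K) (y : K) : AddSubgroup K :=
  lt m ⊓ (lt m).comap (AddMonoidHom.mulRight y)

theorem mem_Hy {m : LatticeBasis n K} {y x : K} :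
    x ∈ Hy m y ↔ x ∈ m.lattice ∧ x * y ∈ m.lattice := Iff.rfl

theorem Hy_le (m : LatticeBasis n K) (y : K) : Hy m y ≤ lt m := inf_le_left

theorem mul_mem_Hy {m : LatticeBasis n K} {y : K} {N : ℕ} (hN : (N : K) * y ∈ multiplierOrder m)
    {x : K} (hx : x ∈ m.lattice) : (N : K) * x ∈ Hy m y := by
  refine mem_Hy.2 ⟨nat_mul_mem (lt m) N hx, ?_⟩
  have e : (N : K) * x * y = ((N : K) * y) * x := by ring
  rw [e]
  exact hN x hx

theorem relIndex_Hy_mul_mem (m : LatticeBasis n K) (y : K) :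
    (((Hy m y).relIndex (lt m) : ℕ) : K) * y ∈ multiplierOrder m := by
  intro x hx
  have := AddSubgroup.nsmul_relIndex_mem (Hy m y) (show x ∈ lt m from hx)
  rw [nsmul_eq_mul] at this
  have h2 := (mem_Hy.1 this).2
  have e : (((Hy m y).relIndex (lt m) : ℕ) : K) * y * x =
    (((Hy m y).relIndex (lt m) : ℕ) : K) * x * y := by ring
  rw [e]
  exact h2

/-- A lower bound for the index of `H_y`. -/
theorem le_relIndex_Hy (hprim : IsPrimitiveField K) (hn : 2 ≤ n) (m : LatticeBasis n K)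
    (σ : Fin n ≃ (K →+* ℝ)) {y : K} (hy : ∀ r : ℚ, y ≠ r) {T : ℝ} (hT : ∀ i, |σ i y| ≤ T)
    (hne : (Hy m y).relIndex (lt m) ≠ 0) :
    latticeDisc m ^ (1 / ((n : ℝ) * ((n : ℝ) - 1))) ≤
      2 * T * ((Hy m y).relIndex (lt m) : ℕ) := by
  set J := (Hy m y).relIndex (lt m) with hJ
  have h1 := relIndex_Hy_mul_mem m y
  rw [← hJ] at h1
  obtain ⟨i, j, hij⟩ := Sl_652.order_diff hprim hn m σ h1 (by
    intro k hk
    have hJ0 : (J : K) ≠ 0 := by exact_mod_cast hne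
    apply hy ((k : ℚ) / (J : ℚ))
    push_cast
    rw [eq_div_iff hJ0, mul_comm]
    exact hk)
  refine hij.trans ?_
  rw [map_mul, map_mul, map_natCast, map_natCast, ← mul_sub, abs_mul,
    abs_of_nonneg (Nat.cast_nonneg J)]
  have h2 : |σ i y - σ j y| ≤ T + T := (abs_sub _ _).trans (add_le_add (hT i) (hT j))
  have h3 : (0 : ℝ) ≤ (J : ℝ) := Nat.cast_nonneg J
  nlinarith

end

end Crest.Agent.R014.Loc6_524
end

-- ▼ part R014/Loc7_524
section

/-!
Row 14, block N2 (helper524), part 7: counting (Rankin, ideals dividing a power of `f`, small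
elements with bounded denominator).
-/

set_option autoImplicit false
set_option linter.unusedSectionVars false

open scoped nonZeroDivisors

namespace Crest.Agent.R014.Loc7_524

open Crest.NumberTheoryR.Packets Module NumberField
open Crest.Agent.R014.Sl_652 (finrank_eq norm_eq_prod)

noncomputable section

/-! ### Rankin -/

/-- The completely multiplicative function `m ↦ m^(-ε)`. -/
def powHom (ε : ℝ) : ℕ →* ℝ where
  toFun m := (m : ℝ) ^ (-ε)
  map_one' := by simp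
  map_mul' a b := by
    push_cast
    rw [Real.mul_rpow (Nat.cast_nonneg a) (Nat.cast_nonneg b)]

theorem powHom_apply (ε : ℝ) (m : ℕ) : powHom ε m = (m : ℝ) ^ (-ε) := rfl

/-- The constant of Rankin's bound. -/
def cR (ε : ℝ) : ℝ := (1 - (2 : ℝ) ^ (-ε))⁻¹

theorem two_rpow_lt_one {ε : ℝ} (hε : 0 < ε) : (2 : ℝ) ^ (-ε) < 1 :=
  Real.rpow_lt_one_of_one_lt_of_neg (by norm_num) (by linarith)

theorem one_le_cR {ε : ℝ} (hε : 0 < ε) : 1 ≤ cR ε := by
  unfold cR
  have h1 := two_rpow_lt_one hε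
  have h2 : (0 : ℝ) < (2 : ℝ) ^ (-ε) := by positivity
  rw [one_le_inv₀ (by linarith)]
  linarith

theorem card_factored_le {ε : ℝ} (hε : 0 < ε) (f : ℕ) (T : Finset ℕ) {X : ℝ} (hX : 0 ≤ X)
    (hT : ∀ a ∈ T, a ≠ 0 ∧ (a : ℝ) ≤ X ∧ a.primeFactors ⊆ f.primeFactors) :
    (T.card : ℝ) ≤ X ^ ε * cR ε ^ f.primeFactors.card := by
  classical
  have hnorm : ∀ {p : ℕ}, p.Prime → ‖powHom ε p‖ < 1 := by
    intro p hp
    have hp1 : (1 : ℝ) < p := by exact_mod_cast hp.one_lt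
    rw [powHom_apply, Real.norm_of_nonneg (by positivity)]
    exact Real.rpow_lt_one_of_one_lt_of_neg hp1 (by linarith)
  obtain ⟨-, hsum⟩ := EulerProduct.summable_and_hasSum_factoredNumbers_prod_filter_prime_geometric
    (f := powHom ε) hnorm f.primeFactors
  have hmem : ∀ a ∈ T, a ∈ Nat.factoredNumbers f.primeFactors := by
    intro a ha
    rw [Nat.mem_factoredNumbers]
    refine ⟨(hT a ha).1, fun p hp => (hT a ha).2.2 ?_⟩
    rw [Nat.mem_primeFactors_iff_mem_primeFactorsList]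
    exact hp
  have h1 : ∑ a ∈ T, (a : ℝ) ^ (-ε) ≤ ∏ p ∈ f.primeFactors with p.Prime, (1 - powHom ε p)⁻¹ := by
    have h2 := sum_le_hasSum (T.subtype (fun a => a ∈ Nat.factoredNumbers f.primeFactors))
      (fun i _ => by rw [powHom_apply]; positivity) hsum
    have h3 := Finset.sum_subtype_of_mem (s := T) (p := fun a => a ∈ Nat.factoredNumbers f.primeFactors)
      (fun a : ℕ => (powHom ε a : ℝ)) hmem
    rw [h3] at h2
    exact h2
  have h2 : ∏ p ∈ f.primeFactors with p.Prime, (1 - powHom ε p)⁻¹ ≤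
      cR ε ^ f.primeFactors.card := by
    have hfil : f.primeFactors.filter (fun p => p.Prime) = f.primeFactors := by
      apply Finset.filter_true_of_mem
      intro p hp
      exact Nat.prime_of_mem_primeFactors hp
    rw [hfil, ← Finset.prod_const]
    apply Finset.prod_le_prod
    · intro p hp
      have := hnorm (Nat.prime_of_mem_primeFactors hp)
      rw [powHom_apply, Real.norm_of_nonneg (by positivity)] at this
      rw [powHom_apply]
      exact inv_nonneg.2 (by linarith)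
    · intro p hp
      have hp2 : (2 : ℝ) ≤ p := by
        exact_mod_cast (Nat.prime_of_mem_primeFactors hp).two_le
      rw [powHom_apply]
      unfold cR
      have h3 : (p : ℝ) ^ (-ε) ≤ (2 : ℝ) ^ (-ε) :=
        Real.rpow_le_rpow_of_nonpos (by norm_num) hp2 (by linarith)
      have h4 := two_rpow_lt_one hε
      exact inv_anti₀ (by linarith) (by linarith)
  have h3 : (T.card : ℝ) ≤ X ^ ε * ∑ a ∈ T, (a : ℝ) ^ (-ε) := by
    rw [Finset.mul_sum, Finset.card_eq_sum_ones]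
    push_cast
    apply Finset.sum_le_sum
    intro a ha
    obtain ⟨ha0, haX, -⟩ := hT a ha
    have ha1 : (0 : ℝ) < a := by exact_mod_cast Nat.pos_of_ne_zero ha0
    have h4 : (a : ℝ) ^ ε ≤ X ^ ε := Real.rpow_le_rpow ha1.le haX hε.le
    rw [Real.rpow_neg ha1.le, ← div_eq_mul_inv, le_div_iff₀ (by positivity), one_mul]
    exact h4
  calc (T.card : ℝ) ≤ X ^ ε * ∑ a ∈ T, (a : ℝ) ^ (-ε) := h3
    _ ≤ X ^ ε * cR ε ^ f.primeFactors.card :=
        mul_le_mul_of_nonneg_left (h1.trans h2) (by positivity)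

/-! ### Ideals dividing a power of `f` -/

variable {n : ℕ} {K : Type*} [Field K] [NumberField K]

theorem card_ideal_le {ε : ℝ} (hε : 0 < ε) {f : ℕ} (hf : f ≠ 0) (T : Finset (Ideal (𝓞 K)))
    {X : ℝ} (hX : 0 ≤ X)
    (hT : ∀ b ∈ T, b ≠ ⊥ ∧ (Ideal.absNorm b : ℝ) ≤ X ∧ ∃ k : ℕ, (f : 𝓞 K) ^ k ∈ b) :
    (T.card : ℝ) ≤ DivB_684.CDiv (finrank ℚ K) (ε / finrank ℚ K) * X ^ ε *
      (X ^ ε * cR ε ^ f.primeFactors.card) := by
  classical
  have hn : 0 < finrank ℚ K := finrank_pos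
  have hn' : (0 : ℝ) < finrank ℚ K := by exact_mod_cast hn
  set C := DivB_684.CDiv (finrank ℚ K) (ε / finrank ℚ K) with hC
  have hC1 : 1 ≤ C := DivB_684.one_le_CDiv _ (by positivity)
  have h0 : ∀ b ∈ T, Ideal.absNorm b ≠ 0 := by
    intro b hb
    rw [Ne, Ideal.absNorm_eq_zero_iff]; exact (hT b hb).1
  have h1 : T.card = ∑ m ∈ T.image Ideal.absNorm, (T.filter (fun b => Ideal.absNorm b = m)).card :=
    Finset.card_eq_sum_card_image _ _
  have h2 : ∀ m ∈ T.image Ideal.absNorm,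
      ((T.filter (fun b => Ideal.absNorm b = m)).card : ℝ) ≤ C * X ^ ε := by
    intro m hm
    obtain ⟨b, hb, hbm⟩ := Finset.mem_image.1 hm
    have hm0 : m ≠ 0 := by rw [← hbm]; exact h0 b hb
    have hmX : (m : ℝ) ≤ X := by rw [← hbm]; exact (hT b hb).2.1
    have h3 := DivB_684.card_norm_le (K := K) hε m hm0
    have h4 : ((T.filter (fun b => Ideal.absNorm b = m)).card : ℝ) ≤
        ({a : Ideal (𝓞 K) | Ideal.absNorm a = m}.ncard : ℝ) := by
      rw [← Set.ncard_coe_finset]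
      have : (↑(T.filter (fun b => Ideal.absNorm b = m)) : Set (Ideal (𝓞 K))) ⊆
          {a : Ideal (𝓞 K) | Ideal.absNorm a = m} := by
        intro a ha
        exact (Finset.mem_filter.1 (Finset.mem_coe.1 ha)).2
      exact_mod_cast Set.ncard_le_ncard this (DivB_684.finite_norm_eq m hm0)
    have h5 : (m : ℝ) ^ ε ≤ X ^ ε := Real.rpow_le_rpow (Nat.cast_nonneg m) hmX hε.le
    calc _ ≤ _ := h4
      _ ≤ _ := h3
      _ ≤ C * X ^ ε := mul_le_mul_of_nonneg_left h5 (by linarith)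
  have h3 : ((T.image Ideal.absNorm).card : ℝ) ≤ X ^ ε * cR ε ^ f.primeFactors.card := by
    apply card_factored_le hε f _ hX
    intro a ha
    obtain ⟨b, hb, rfl⟩ := Finset.mem_image.1 ha
    refine ⟨h0 b hb, (hT b hb).2.1, ?_⟩
    obtain ⟨k, hk⟩ := (hT b hb).2.2
    intro p hp
    have h6 := Ideal.absNorm_dvd_absNorm_of_le (I := b) (J := Ideal.span {((f ^ k : ℕ) : 𝓞 K)})
      ((Ideal.span_singleton_le_iff_mem _).2 (by push_cast; exact hk))
    rw [DivB_684.absNorm_span_nat] at h6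
    have hpp := Nat.prime_of_mem_primeFactors hp
    have h7 := (Nat.dvd_of_mem_primeFactors hp).trans h6
    exact Nat.mem_primeFactors.2 ⟨hpp, hpp.dvd_of_dvd_pow (hpp.dvd_of_dvd_pow h7), hf⟩
  have h1' : (T.card : ℝ) = ∑ m ∈ T.image Ideal.absNorm,
      ((T.filter (fun b => Ideal.absNorm b = m)).card : ℝ) := by exact_mod_cast h1
  have hXε : 0 ≤ X ^ ε := by positivity
  calc (T.card : ℝ) ≤ ∑ _m ∈ T.image Ideal.absNorm, C * X ^ ε := by
        rw [h1']; exact Finset.sum_le_sum h2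
    _ = C * X ^ ε * ((T.image Ideal.absNorm).card : ℝ) := by
        rw [Finset.sum_const, nsmul_eq_mul]; ring
    _ ≤ C * X ^ ε * (X ^ ε * cR ε ^ f.primeFactors.card) :=
        mul_le_mul_of_nonneg_left h3 (by positivity)

/-! ### Small elements -/

/-- An integral element all of whose embeddings are less than one in absolute value is zero. -/
theorem eq_zero_of_lt_one (hn : finrank ℚ K = n) (hn0 : 0 < n) (σ : Fin n ≃ (K →+* ℝ)) {z : K}
    (hz : IsIntegral ℤ z) (h : ∀ i, |σ i z| < 1) : z = 0 := by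
  by_contra hz0
  have h1 : IsIntegral ℤ (Algebra.norm ℚ z) := Algebra.isIntegral_norm ℚ hz
  obtain ⟨a, ha⟩ := IsIntegrallyClosed.isIntegral_iff.1 h1
  have ha' : (a : ℚ) = Algebra.norm ℚ z := by simpa using ha
  have h2 : (a : ℝ) = ∏ i, σ i z := by
    rw [← norm_eq_prod hn σ z, ← ha']
    simp
  have h3 : a ≠ 0 := by
    rintro rfl
    rw [Int.cast_zero] at ha'
    exact hz0 (Algebra.norm_eq_zero_iff.1 ha'.symm)
  have h4 : (1 : ℝ) ≤ |(a : ℝ)| := by
    have : (1 : ℤ) ≤ |a| := Int.one_le_abs h3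
    exact_mod_cast this
  rw [h2, Finset.abs_prod] at h4
  have h5 : ∏ i, |σ i z| < 1 := by
    have : Nonempty (Fin n) := ⟨⟨0, hn0⟩⟩
    calc ∏ i, |σ i z| < ∏ _i : Fin n, (1 : ℝ) := by
          apply Finset.prod_lt_prod_of_nonempty
          · intro i _
            exact abs_pos.2 ((map_ne_zero (σ i)).2 hz0)
          · intro i _; exact h i
          · exact Finset.univ_nonempty
      _ = 1 := by simp
  linarith

theorem card_int_le (hn : finrank ℚ K = n) (hn0 : 0 < n) (σ : Fin n ≃ (K →+* ℝ)) {R : ℝ}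
    (hR : 0 ≤ R) (T : Finset K) (hT : ∀ z ∈ T, IsIntegral ℤ z ∧ ∀ i, |σ i z| ≤ R) :
    (T.card : ℝ) ≤ (2 * R + 2) ^ n := by
  classical
  have hinj : Set.InjOn (fun z : K => fun i : Fin n => ⌊σ i z⌋) T := by
    intro z hz w hw hzw
    have h1 : z - w = 0 := by
      apply eq_zero_of_lt_one hn hn0 σ ((hT z hz).1.sub (hT w hw).1)
      intro i
      rw [map_sub]
      exact Int.abs_sub_lt_one_of_floor_eq_floor (congrFun hzw i)
    exact sub_eq_zero.1 h1
  have hmaps : ∀ z ∈ T, (fun i : Fin n => ⌊σ i z⌋) ∈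
      Fintype.piFinset (fun _ : Fin n => Finset.Icc ⌊-R⌋ ⌊R⌋) := by
    intro z hz
    rw [Fintype.mem_piFinset]
    intro i
    have := abs_le.1 ((hT z hz).2 i)
    rw [Finset.mem_Icc]
    exact ⟨Int.floor_le_floor this.1, Int.floor_le_floor this.2⟩
  have h1 := Finset.card_le_card_of_injOn _ hmaps hinj
  rw [Fintype.card_piFinset_const, Int.card_Icc] at h1
  have h2 : (((⌊R⌋ + 1 - ⌊-R⌋).toNat : ℕ) : ℝ) ≤ 2 * R + 2 := by
    have h3 : 0 ≤ ⌊R⌋ + 1 - ⌊-R⌋ := by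
      have : ⌊-R⌋ ≤ ⌊R⌋ := Int.floor_le_floor (by linarith)
      linarith
    have h4 : (((⌊R⌋ + 1 - ⌊-R⌋).toNat : ℕ) : ℝ) = ((⌊R⌋ + 1 - ⌊-R⌋ : ℤ) : ℝ) := by
      exact_mod_cast congrArg (fun z : ℤ => (z : ℝ)) (Int.toNat_of_nonneg h3)
    rw [h4]
    push_cast
    have h5 := Int.floor_le R
    have h6 := Int.lt_floor_add_one (-R)
    linarith
  calc (T.card : ℝ) ≤ (((⌊R⌋ + 1 - ⌊-R⌋).toNat ^ n : ℕ) : ℝ) := by exact_mod_cast h1
    _ = (((⌊R⌋ + 1 - ⌊-R⌋).toNat : ℕ) : ℝ) ^ n := by push_cast; rfl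
    _ ≤ (2 * R + 2) ^ n := pow_le_pow_left₀ (Nat.cast_nonneg _) h2 n

theorem card_den_le (hn : finrank ℚ K = n) (hn0 : 0 < n) (σ : Fin n ≃ (K →+* ℝ)) {Y T0 : ℝ}
    (hY : 0 ≤ Y) (hT0 : 0 ≤ T0) (T : Finset K)
    (hT : ∀ y ∈ T, (∃ g : ℕ, g ≠ 0 ∧ (g : ℝ) ≤ Y ∧ IsIntegral ℤ ((g : K) * y)) ∧
      ∀ i, |σ i y| ≤ T0) :
    (T.card : ℝ) ≤ Y * (2 * (Y * T0) + 2) ^ n := by
  classical
  have hsub : T ⊆ (Finset.Icc 1 ⌊Y⌋₊).biUnion
      (fun g => T.filter (fun y => IsIntegral ℤ ((g : K) * y))) := by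
    intro y hy
    obtain ⟨⟨g, hg0, hgY, hgi⟩, -⟩ := hT y hy
    refine Finset.mem_biUnion.2 ⟨g, Finset.mem_Icc.2 ⟨Nat.one_le_iff_ne_zero.2 hg0,
      Nat.le_floor hgY⟩, Finset.mem_filter.2 ⟨hy, hgi⟩⟩
  have h1 : ∀ g ∈ Finset.Icc 1 ⌊Y⌋₊,
      ((T.filter (fun y => IsIntegral ℤ ((g : K) * y))).card : ℝ) ≤ (2 * (Y * T0) + 2) ^ n := by
    intro g hg
    obtain ⟨hg1, hg2⟩ := Finset.mem_Icc.1 hg
    have hgY : (g : ℝ) ≤ Y := (Nat.le_floor_iff hY).1 hg2
    have hg0 : (g : K) ≠ 0 := by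
      have : g ≠ 0 := by omega
      exact_mod_cast this
    have hinj : Function.Injective (fun y : K => (g : K) * y) := mul_right_injective₀ hg0
    rw [← Finset.card_image_of_injective _ hinj]
    apply card_int_le hn hn0 σ (by positivity)
    intro z hz
    obtain ⟨y, hy, rfl⟩ := Finset.mem_image.1 hz
    obtain ⟨hyT, hyi⟩ := Finset.mem_filter.1 hy
    refine ⟨hyi, fun i => ?_⟩
    rw [map_mul, map_natCast, abs_mul, abs_of_nonneg (Nat.cast_nonneg g)]
    exact mul_le_mul hgY ((hT y hyT).2 i) (abs_nonneg _) hY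
  calc (T.card : ℝ) ≤ (((Finset.Icc 1 ⌊Y⌋₊).biUnion
      (fun g => T.filter (fun y => IsIntegral ℤ ((g : K) * y)))).card : ℝ) := by
        exact_mod_cast Finset.card_le_card hsub
    _ ≤ ∑ g ∈ Finset.Icc 1 ⌊Y⌋₊,
        ((T.filter (fun y => IsIntegral ℤ ((g : K) * y))).card : ℝ) := by
        exact_mod_cast Finset.card_biUnion_le
    _ ≤ ∑ _g ∈ Finset.Icc 1 ⌊Y⌋₊, (2 * (Y * T0) + 2) ^ n := Finset.sum_le_sum h1
    _ = (⌊Y⌋₊ : ℝ) * (2 * (Y * T0) + 2) ^ n := by simp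
    _ ≤ Y * (2 * (Y * T0) + 2) ^ n :=
        mul_le_mul_of_nonneg_right (Nat.floor_le hY) (by positivity)

end

end Crest.Agent.R014.Loc7_524
end

-- ▼ part R014/Loc8_524

/-!
Row 14, block N2 (helper524), part 8: bad types have small total weight.
-/

set_option autoImplicit false
set_option linter.unusedSectionVars false

open scoped nonZeroDivisors

namespace Crest.Agent.R014.Loc8_524

open Crest.NumberTheoryR.Packets Module NumberField
open Crest.Agent.R014.LocDefs_524 Crest.Agent.R014.Loc1_524 Crest.Agent.R014.Loc2_524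
open Crest.Agent.R014.Loc3_524 Crest.Agent.R014.Loc4_524 Crest.Agent.R014.Loc6_524
open Crest.Agent.R014.Loc7_524
open Crest.Agent.R014.Sl_652 (one_mem_order finrank_eq n_pos)

noncomputable section

section core

variable {n : ℕ} {K : Type*} [Field K] [NumberField K]

theorem relIndex_ne_zero_of_pow (m : LatticeBasis n K) {H : AddSubgroup K} (hH : H ≤ lt m)
    {N : ℕ} (hN : N ≠ 0) (h : ∀ x ∈ m.lattice, (N : K) * x ∈ H) : H.relIndex (lt m) ≠ 0 := by
  have hqH : qA N (lt m) ≤ H := by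
    intro x hx
    obtain ⟨y, hy, rfl⟩ := mem_qA.1 hx
    exact h y hy
  intro h0
  have h1 := AddSubgroup.relIndex_mul_relIndex (qA N (lt m)) H (lt m) hqH hH
  rw [relIndex_qA_lt, h0, mul_zero] at h1
  exact (pow_ne_zero n hN) h1.symm

/-- The core inequality for bad types. -/
theorem bad_core (hprim : IsPrimitiveField K) (hn : 2 ≤ n) (m : LatticeBasis n K)
    (σ : Fin n ≃ (K →+* ℝ)) (hf : fIdx m ≠ 1) {Y T0 ε : ℝ} (hY : 1 ≤ Y) (hT0 : 0 < T0)
    (hε : 0 < ε) (B : Finset (AddSubgroup K))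
    (hB : ∀ P ∈ B, IsTy m P ∧ ∃ y ∈ P, (∀ r : ℚ, y ≠ r) ∧ ∀ i, |σ i y| ≤ T0) :
    ∑ P ∈ B, (((multiplierOrder m).relIndex P : ℕ) : ℝ)⁻¹ ≤
      2 ^ (n * (fIdx m).primeFactors.card) *
        (DivB_684.CDiv n (ε / n) * (Y * (fIdx m : ℝ) ^ n) ^ ε *
          ((Y * (fIdx m : ℝ) ^ n) ^ ε * cR ε ^ (fIdx m).primeFactors.card) * Y ^ (-(1 : ℝ) / n) +
          Y * (2 * (Y * T0) + 2) ^ n *
            (2 * T0 * latticeDisc m ^ (-(1 / ((n : ℝ) * ((n : ℝ) - 1)))))) := by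
  classical
  have hn0 : 0 < n := by omega
  have hnR : (0 : ℝ) < n := by exact_mod_cast hn0
  have hf0 := fIdx_ne_zero m
  have hfr := finrank_eq m
  have hD : 0 < latticeDisc m := Sl_652.latticeDisc_pos m σ
  set X := Y * (fIdx m : ℝ) ^ n with hX
  have hX0 : 0 ≤ X := by positivity
  -- the dichotomy
  let L : AddSubgroup K → Ideal (𝓞 K) → Prop := fun P b =>
    b ≠ ⊥ ∧ Y < Ideal.absNorm b ∧ (Ideal.absNorm b : ℝ) ≤ X ∧ (∃ k : ℕ, (fIdx m : 𝓞 K) ^ k ∈ b) ∧
      ∀ x ∈ m.lattice, IsGen m P x → x ∈ Hb m b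
  let Rr : AddSubgroup K → K → Prop := fun P y =>
    ((∃ g : ℕ, g ≠ 0 ∧ (g : ℝ) ≤ Y ∧ IsIntegral ℤ ((g : K) * y)) ∧ ∀ i, |σ i y| ≤ T0) ∧
      (∀ r : ℚ, y ≠ r) ∧ (∃ k : ℕ, (fIdx m : K) ^ k * y ∈ multiplierOrder m) ∧
      ∀ x ∈ m.lattice, IsGen m P x → x ∈ Hy m y
  have hdich : ∀ P ∈ B, (∃ b, L P b) ∨ (∃ y, Rr P y) := by
    intro P hP
    obtain ⟨hTy, y, hyP, hyr, hyT⟩ := hB P hP
    obtain ⟨b0, hb0, ⟨k, hk⟩, hbi, hbH⟩ := exists_denIdeal hTy
    by_cases hN : Y < Ideal.absNorm b0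
    · left
      obtain ⟨b, hle, hb, hbY, hbX⟩ := exists_dvd_norm hb0 (R := fIdx m ^ n) hY (by
        intro p hp hp0 hbp
        have h1 : (fIdx m : 𝓞 K) ∈ p := hp.mem_of_pow_mem _ (hbp hk)
        have h2 := Ideal.absNorm_dvd_absNorm_of_le (I := p) (J := Ideal.span {(fIdx m : 𝓞 K)})
          ((Ideal.span_singleton_le_iff_mem _).2 h1)
        rw [DivB_684.absNorm_span_nat, hfr] at h2
        exact Nat.le_of_dvd (Nat.pos_of_ne_zero (pow_ne_zero n hf0)) h2) hN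
      refine ⟨b, hb, hbY, ?_, ⟨k, hle hk⟩, ?_⟩
      · rw [hX]; push_cast at hbX; exact hbX
      · intro x hx hg
        exact hbH x hx hg.le b hle
    · right
      rw [not_lt] at hN
      refine ⟨y, ⟨⟨Ideal.absNorm b0, ?_, hN, ?_⟩, hyT⟩, hyr, hTy.away y hyP, ?_⟩
      · rw [Ne, Ideal.absNorm_eq_zero_iff]; exact hb0
      · have := hbi _ (Ideal.absNorm_mem b0) y hyP
        have e : (((Ideal.absNorm b0 : ℕ) : 𝓞 K) : K) = ((Ideal.absNorm b0 : ℕ) : K) := by simp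
        rw [e] at this
        exact this
      · intro x hx hg
        exact mem_Hy.2 ⟨hx, hg.le y hyP⟩
  have hexb : ∀ P : AddSubgroup K, ∃ b, (∃ b, L P b) → L P b := by
    intro P
    by_cases h : ∃ b, L P b
    · obtain ⟨b, hb⟩ := h
      exact ⟨b, fun _ => hb⟩
    · exact ⟨⊤, fun h' => absurd h' h⟩
  choose β hβ using hexb
  have hexy : ∀ P : AddSubgroup K, ∃ y, (∃ y, Rr P y) → Rr P y := by
    intro P
    by_cases h : ∃ y, Rr P y
    · obtain ⟨y, hy⟩ := h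
      exact ⟨y, fun _ => hy⟩
    · exact ⟨0, fun h' => absurd h' h⟩
  choose υ hυ using hexy
  set T1 := (B.filter (fun P => ∃ b, L P b)).image β with hT1
  set T2 := (B.filter (fun P => ∃ y, Rr P y)).image υ with hT2
  have hT1' : ∀ b ∈ T1, ∃ P, L P b := by
    intro b hb
    obtain ⟨P, hP, rfl⟩ := Finset.mem_image.1 hb
    exact ⟨P, hβ P (Finset.mem_filter.1 hP).2⟩
  have hT2' : ∀ y ∈ T2, ∃ P, Rr P y := by
    intro y hy
    obtain ⟨P, hP, rfl⟩ := Finset.mem_image.1 hy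
    exact ⟨P, hυ P (Finset.mem_filter.1 hP).2⟩
  -- elements of the covering family
  have hHb : ∀ b ∈ T1, ∀ k : ℕ, (fIdx m : 𝓞 K) ^ k ∈ b → ∀ x ∈ m.lattice,
      ((fIdx m ^ k : ℕ) : K) * x ∈ Hb m b := by
    intro b _ k hk x hx
    exact pow_mul_mem_Hb (by push_cast; exact hk) hx
  have hHy : ∀ y : K, ∀ k : ℕ, (fIdx m : K) ^ k * y ∈ multiplierOrder m → ∀ x ∈ m.lattice,
      ((fIdx m ^ k : ℕ) : K) * x ∈ Hy m y := by
    intro y k hk x hx
    exact mul_mem_Hy (by push_cast; exact hk) hx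
  set I := T1.image (Hb m) ∪ T2.image (Hy m) with hI
  have hpack := packing m hf B (fun P hP => (hB P hP).1) I (by
    intro H hH
    rcases Finset.mem_union.1 hH with h | h
    · obtain ⟨b, hb, rfl⟩ := Finset.mem_image.1 h
      obtain ⟨P, -, -, -, ⟨k, hk⟩, -⟩ := hT1' b hb
      refine ⟨Hb_le m b, k, fun x hx => ?_⟩
      have := hHb b hb k hk x hx
      rwa [Nat.cast_pow] at this
    · obtain ⟨y, hy, rfl⟩ := Finset.mem_image.1 h
      obtain ⟨P, -, -, ⟨k, hk⟩, -⟩ := hT2' y hy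
      refine ⟨Hy_le m y, k, fun x hx => ?_⟩
      have := hHy y k hk x hx
      rwa [Nat.cast_pow] at this) (by
    intro P hP x hx hg
    rcases hdich P hP with h | h
    · refine ⟨Hb m (β P), Finset.mem_union_left _ (Finset.mem_image_of_mem _
        (Finset.mem_image_of_mem _ (Finset.mem_filter.2 ⟨hP, h⟩))), ?_⟩
      exact (hβ P h).2.2.2.2 x hx hg
    · refine ⟨Hy m (υ P), Finset.mem_union_right _ (Finset.mem_image_of_mem _
        (Finset.mem_image_of_mem _ (Finset.mem_filter.2 ⟨hP, h⟩))), ?_⟩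
      exact (hυ P h).2.2.2 x hx hg)
  refine hpack.trans (mul_le_mul_of_nonneg_left ?_ (by positivity))
  have hsplit : ∑ H ∈ I, ((H.relIndex (lt m) : ℕ) : ℝ)⁻¹ ≤
      ∑ b ∈ T1, (((Hb m b).relIndex (lt m) : ℕ) : ℝ)⁻¹ +
        ∑ y ∈ T2, (((Hy m y).relIndex (lt m) : ℕ) : ℝ)⁻¹ := by
    have h1 : ∑ H ∈ I, ((H.relIndex (lt m) : ℕ) : ℝ)⁻¹ ≤
        ∑ H ∈ T1.image (Hb m), ((H.relIndex (lt m) : ℕ) : ℝ)⁻¹ +
          ∑ H ∈ T2.image (Hy m), ((H.relIndex (lt m) : ℕ) : ℝ)⁻¹ := by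
      rw [hI, ← Finset.sum_union_inter]
      exact le_add_of_nonneg_right (Finset.sum_nonneg fun _ _ => by positivity)
    refine h1.trans (add_le_add ?_ ?_)
    · exact Finset.sum_image_le_of_nonneg (f := fun H : AddSubgroup K =>
        ((H.relIndex (lt m) : ℕ) : ℝ)⁻¹) (fun _ _ => by positivity)
    · exact Finset.sum_image_le_of_nonneg (f := fun H : AddSubgroup K =>
        ((H.relIndex (lt m) : ℕ) : ℝ)⁻¹) (fun _ _ => by positivity)
  refine hsplit.trans (add_le_add ?_ ?_)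
  · -- ideals
    have h1 : ∀ b ∈ T1, (((Hb m b).relIndex (lt m) : ℕ) : ℝ)⁻¹ ≤ Y ^ (-(1 : ℝ) / n) := by
      intro b hb
      obtain ⟨P, -, hbY, -, ⟨k, hk⟩, -⟩ := hT1' b hb
      have hne : (Hb m b).relIndex (lt m) ≠ 0 :=
        relIndex_ne_zero_of_pow m (Hb_le m b) (pow_ne_zero k hf0) (hHb b hb k hk)
      have h2 := absNorm_le m hne
      set h := (Hb m b).relIndex (lt m)
      have h3 : Y ≤ (h : ℝ) ^ n := by
        have : (Ideal.absNorm b : ℝ) ≤ (h : ℝ) ^ n := by exact_mod_cast h2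
        linarith
      have hh : (0 : ℝ) < h := by exact_mod_cast Nat.pos_of_ne_zero hne
      have h4 : Y ^ ((1 : ℝ) / n) ≤ h := by
        calc Y ^ ((1 : ℝ) / n) ≤ ((h : ℝ) ^ n) ^ ((1 : ℝ) / n) :=
              Real.rpow_le_rpow (by linarith) h3 (by positivity)
          _ = h := by
              rw [← Real.rpow_natCast, ← Real.rpow_mul hh.le, mul_one_div_cancel hnR.ne',
                Real.rpow_one]
      rw [neg_div, Real.rpow_neg (by linarith)]
      exact inv_anti₀ (by positivity) h4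
    have h2 := card_ideal_le hε hf0 T1 hX0 (by
      intro b hb
      obtain ⟨P, hb0, -, hbX, hbk, -⟩ := hT1' b hb
      exact ⟨hb0, hbX, hbk⟩)
    rw [hfr] at h2
    calc ∑ b ∈ T1, (((Hb m b).relIndex (lt m) : ℕ) : ℝ)⁻¹
        ≤ ∑ _b ∈ T1, Y ^ (-(1 : ℝ) / n) := Finset.sum_le_sum h1
      _ = (T1.card : ℝ) * Y ^ (-(1 : ℝ) / n) := by rw [Finset.sum_const, nsmul_eq_mul]
      _ ≤ _ := mul_le_mul_of_nonneg_right h2 (by positivity)
  · have h1 : ∀ y ∈ T2, (((Hy m y).relIndex (lt m) : ℕ) : ℝ)⁻¹ ≤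
        2 * T0 * latticeDisc m ^ (-(1 / ((n : ℝ) * ((n : ℝ) - 1)))) := by
      intro y hy
      obtain ⟨P, ⟨-, hyT⟩, hyr, ⟨k, hk⟩, -⟩ := hT2' y hy
      have hne : (Hy m y).relIndex (lt m) ≠ 0 :=
        relIndex_ne_zero_of_pow m (Hy_le m y) (pow_ne_zero k hf0) (hHy y k hk)
      have h2 := le_relIndex_Hy hprim hn m σ hyr hyT hne
      set h := (Hy m y).relIndex (lt m)
      have hh : (0 : ℝ) < h := by exact_mod_cast Nat.pos_of_ne_zero hne
      rw [Real.rpow_neg hD.le, inv_eq_one_div, div_le_iff₀ hh]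
      have hpos : 0 < latticeDisc m ^ (1 / ((n : ℝ) * ((n : ℝ) - 1))) := by positivity
      have e : 2 * T0 * (latticeDisc m ^ (1 / ((n : ℝ) * ((n : ℝ) - 1))))⁻¹ * (h : ℝ) =
          (2 * T0 * h) / latticeDisc m ^ (1 / ((n : ℝ) * ((n : ℝ) - 1))) := by
        rw [div_eq_mul_inv]; ring
      rw [e, le_div_iff₀ hpos, one_mul]
      exact h2
    have h2 := card_den_le hfr hn0 σ (Y := Y) (T0 := T0) (by linarith) hT0.le T2 (by
      intro y hy
      obtain ⟨P, hyY, -⟩ := hT2' y hy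
      exact hyY)
    calc ∑ y ∈ T2, (((Hy m y).relIndex (lt m) : ℕ) : ℝ)⁻¹
        ≤ ∑ _y ∈ T2, 2 * T0 * latticeDisc m ^ (-(1 / ((n : ℝ) * ((n : ℝ) - 1)))) :=
          Finset.sum_le_sum h1
      _ = (T2.card : ℝ) * (2 * T0 * latticeDisc m ^ (-(1 / ((n : ℝ) * ((n : ℝ) - 1))))) := by
          rw [Finset.sum_const, nsmul_eq_mul]
      _ ≤ _ := mul_le_mul_of_nonneg_right h2 (by positivity)

end core

/-! ### Constants -/

/-- `κ = 1/(n(n-1))`. -/
def kap (n : ℕ) : ℝ := 1 / ((n : ℝ) * ((n : ℝ) - 1))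

/-- The exponent `δ` of the threshold (and of the denominators). -/
def dl (n : ℕ) : ℝ := kap n / (4 * (n + 1))

/-- The exponent `η` of the saving. -/
def et (n : ℕ) : ℝ := dl n / (2 * n)

/-- The auxiliary `ε`. -/
def ep (n : ℕ) : ℝ := dl n / (2 * n * (n + 3))

/-- An exponent `j` with `2^n cR ≤ 2^j`. -/
def jj (n : ℕ) : ℕ := n + ⌈cR (ep n)⌉₊

/-- The constant for the `ω(f)` factors. -/
def cw (n : ℕ) : ℝ := (DivB_684.CDiv 1 (ep n / (jj n + 1))) ^ (jj n)

/-- The constant of `bad_sum_le`. -/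
def Cbad (n : ℕ) : ℝ := DivB_684.CDiv n (ep n / n) * cw n + 2 * 4 ^ n * cw n

theorem kap_pos {n : ℕ} (hn : 2 ≤ n) : 0 < kap n := by
  have : (2 : ℝ) ≤ n := by exact_mod_cast hn
  unfold kap
  have : 0 < (n : ℝ) * ((n : ℝ) - 1) := by nlinarith
  positivity

theorem kap_le {n : ℕ} (hn : 2 ≤ n) : kap n ≤ 1 / 2 := by
  have h2 : (2 : ℝ) ≤ n := by exact_mod_cast hn
  unfold kap
  have : 2 ≤ (n : ℝ) * ((n : ℝ) - 1) := by nlinarith
  exact one_div_le_one_div_of_le (by norm_num) this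

theorem dl_pos {n : ℕ} (hn : 2 ≤ n) : 0 < dl n := by
  have := kap_pos hn
  unfold dl
  positivity

theorem et_pos {n : ℕ} (hn : 2 ≤ n) : 0 < et n := by
  have := dl_pos hn
  have : (0 : ℝ) < n := by exact_mod_cast (by omega : 0 < n)
  unfold et
  positivity

theorem ep_pos {n : ℕ} (hn : 2 ≤ n) : 0 < ep n := by
  have := dl_pos hn
  have : (0 : ℝ) < n := by exact_mod_cast (by omega : 0 < n)
  unfold ep
  positivity

theorem four_dl {n : ℕ} : 4 * ((n : ℝ) + 1) * dl n = kap n := by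
  unfold dl
  have : (0 : ℝ) < (n : ℝ) + 1 := by positivity
  field_simp

theorem two_et {n : ℕ} (hn : 2 ≤ n) : 2 * (n : ℝ) * et n = dl n := by
  unfold et
  have : (0 : ℝ) < n := by exact_mod_cast (by omega : 0 < n)
  field_simp

theorem ep_eq {n : ℕ} (hn : 2 ≤ n) : ((n : ℝ) + 3) * ep n = et n := by
  unfold ep et
  have : (0 : ℝ) < n := by exact_mod_cast (by omega : 0 < n)
  have h3 : (0 : ℝ) < (n : ℝ) + 3 := by positivity
  field_simp

theorem one_le_cw {n : ℕ} (hn : 2 ≤ n) : 1 ≤ cw n := by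
  unfold cw
  apply one_le_pow₀
  apply DivB_684.one_le_CDiv
  have := ep_pos hn
  positivity

theorem Cbad_ge {n : ℕ} (hn : 2 ≤ n) : 2 ≤ Cbad n := by
  unfold Cbad
  have h1 := one_le_cw hn
  have h2 : 1 ≤ DivB_684.CDiv n (ep n / n) := by
    apply DivB_684.one_le_CDiv
    have := ep_pos hn
    have : (0 : ℝ) < n := by exact_mod_cast (by omega : 0 < n)
    positivity
  have h3 : (1 : ℝ) ≤ 4 ^ n := one_le_pow₀ (by norm_num)
  have h4 : 1 ≤ DivB_684.CDiv n (ep n / n) * cw n := one_le_mul_of_one_le_of_one_le h2 h1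
  have h5 : 1 ≤ 4 ^ n * cw n := one_le_mul_of_one_le_of_one_le h3 h1
  nlinarith

/-- `2^(n ω(f)) cR^ω(f) ≤ cw f^ε`. -/
theorem omega_le {n : ℕ} (hn : 2 ≤ n) {f : ℕ} (hf : f ≠ 0) :
    (2 : ℝ) ^ (n * f.primeFactors.card) * cR (ep n) ^ f.primeFactors.card ≤
      cw n * (f : ℝ) ^ ep n := by
  have h1 : (2 : ℝ) ^ (n * f.primeFactors.card) * cR (ep n) ^ f.primeFactors.card ≤
      ((2 : ℝ) ^ jj n) ^ f.primeFactors.card := by
    rw [pow_mul, ← mul_pow]
    have h0 := one_le_cR (ep_pos hn)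
    apply pow_le_pow_left₀ (by positivity)
    unfold jj
    rw [pow_add]
    apply mul_le_mul_of_nonneg_left _ (by positivity)
    calc cR (ep n) ≤ (⌈cR (ep n)⌉₊ : ℝ) := Nat.le_ceil _
      _ ≤ 2 ^ ⌈cR (ep n)⌉₊ := by exact_mod_cast (Nat.lt_two_pow_self).le
  exact h1.trans (DivB_684.pow_omega_le (ep_pos hn) (jj n) f hf)

/-- BAD TYPES HAVE SMALL WEIGHT. -/
theorem bad_sum_le {n : ℕ} {K : Type*} [Field K] [NumberField K] (hprim : IsPrimitiveField K)
    (hn : 2 ≤ n) (m : LatticeBasis n K) (σ : Fin n ≃ (K →+* ℝ)) (B : Finset (AddSubgroup K))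
    (hB : ∀ P ∈ B, IsTy m P ∧ ∃ y ∈ P, (∀ r : ℚ, y ≠ r) ∧
      ∀ i, |σ i y| ≤ latticeDisc m ^ dl n) :
    ∑ P ∈ B, (((multiplierOrder m).relIndex P : ℕ) : ℝ)⁻¹ ≤
      Cbad n * latticeDisc m ^ (-et n) := by
  classical
  have hn2 : (2 : ℝ) ≤ n := by exact_mod_cast hn
  have hnR : (0 : ℝ) < n := by linarith
  have hn0 : n ≠ 0 := by omega
  have hD1 := Sl_652.one_le_latticeDisc m σ
  have hD : 0 < latticeDisc m := by linarith
  have hκ := kap_pos hn
  have hdl := dl_pos hn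
  have het := et_pos hn
  have hep := ep_pos hn
  have e1 := four_dl (n := n)
  have e2 := two_et hn
  have e3 := ep_eq hn
  have hetdl : et n ≤ dl n / 4 := by nlinarith
  have hdlk : 12 * dl n ≤ kap n := by nlinarith
  have hepet : ep n ≤ et n := by nlinarith
  set D := latticeDisc m with hDdef
  by_cases hf : fIdx m = 1
  · -- only the order itself, which is bad for bounded discriminant only
    by_cases hBe : B = ∅
    · subst hBe
      have := Cbad_ge hn
      simp only [Finset.sum_empty]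
      positivity
    obtain ⟨P, hP⟩ := Finset.nonempty_iff_ne_empty.2 hBe
    obtain ⟨hTy, y, hyP, hyr, hyT⟩ := hB P hP
    rw [eq_order_of_fIdx_eq_one hTy hf] at hyP
    obtain ⟨i, j, hij⟩ := Sl_652.order_diff hprim hn m σ hyP (fun k hk => hyr k (by
      rw [hk]; simp))
    have h1 : D ^ kap n ≤ 2 * D ^ dl n := by
      have h2 : |σ i y - σ j y| ≤ D ^ dl n + D ^ dl n :=
        (abs_sub _ _).trans (add_le_add (hyT i) (hyT j))
      have h3 : D ^ kap n ≤ |σ i y - σ j y| := hij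
      linarith
    have h2 : D ^ et n ≤ 2 := by
      have h3 : D ^ (kap n - dl n) ≤ 2 := by
        rw [Real.rpow_sub hD, div_le_iff₀ (by positivity)]
        exact h1
      have h4 : D ^ et n ≤ D ^ (kap n - dl n) :=
        Real.rpow_le_rpow_of_exponent_le hD1 (by linarith)
      exact h4.trans h3
    have h5 : (1 : ℝ) ≤ Cbad n * D ^ (-et n) := by
      rw [Real.rpow_neg hD.le, ← div_eq_mul_inv, le_div_iff₀ (by positivity), one_mul]
      exact h2.trans (Cbad_ge hn)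
    have h6 := ty_sum_le m B (fun P hP => (hB P hP).1)
    rw [hf] at h6
    simp only [Nat.primeFactors_one, Finset.card_empty, mul_zero, pow_zero] at h6
    exact h6.trans h5
  · have hf0 := fIdx_ne_zero m
    have hf1 : (1 : ℝ) ≤ (fIdx m : ℝ) := by exact_mod_cast Nat.one_le_iff_ne_zero.2 hf0
    -- f ≤ D^(1/2)
    have hfD : (fIdx m : ℝ) ≤ D ^ ((1 : ℝ) / 2) := by
      have h1 : (1 : ℝ) ≤ |(NumberField.discr K : ℝ)| := by
        have : (1 : ℤ) ≤ |NumberField.discr K| := Int.one_le_abs (NumberField.discr_ne_zero K)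
        exact_mod_cast this
      have h2 : (fIdx m : ℝ) ^ 2 ≤ D := by
        rw [hDdef, latticeDisc_eq]
        nlinarith [sq_nonneg (fIdx m : ℝ)]
      rw [← Real.sqrt_eq_rpow]
      exact Real.le_sqrt_of_sq_le h2
    set Y := D ^ dl n with hY
    have hY1 : 1 ≤ Y := Real.one_le_rpow hD1 hdl.le
    have hcore := bad_core hprim hn m σ hf hY1 (T0 := D ^ dl n) (by positivity) hep B hB
    rw [← hY] at hcore
    refine hcore.trans ?_
    set ω := (fIdx m).primeFactors.card with hω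
    have hcR := one_le_cR hep
    have hCD : 1 ≤ DivB_684.CDiv n (ep n / n) := DivB_684.one_le_CDiv _ (by positivity)
    have hcw := one_le_cw hn
    have hom := omega_le hn hf0
    rw [← hω] at hom
    -- f^ε ≤ D^(ε/2)
    have hfe : (fIdx m : ℝ) ^ ep n ≤ D ^ (ep n / 2) := by
      calc (fIdx m : ℝ) ^ ep n ≤ (D ^ ((1 : ℝ) / 2)) ^ ep n :=
            Real.rpow_le_rpow (by linarith) hfD hep.le
        _ = D ^ (ep n / 2) := by rw [← Real.rpow_mul hD.le]; congr 1; ring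
    have hom1 : (2 : ℝ) ^ (n * ω) * cR (ep n) ^ ω ≤ cw n * D ^ (ep n / 2) :=
      hom.trans (mul_le_mul_of_nonneg_left hfe (by linarith))
    have hom2 : (2 : ℝ) ^ (n * ω) ≤ cw n * D ^ (ep n / 2) := by
      refine le_trans ?_ hom1
      exact le_mul_of_one_le_right (by positivity) (one_le_pow₀ hcR)
    -- X^ε ≤ D^(ε (dl + n/2))
    have hXe : (Y * (fIdx m : ℝ) ^ n) ^ ep n ≤ D ^ (ep n * (dl n + n / 2)) := by
      have h1 : Y * (fIdx m : ℝ) ^ n ≤ D ^ (dl n + n / 2) := by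
        rw [Real.rpow_add hD, ← hY]
        apply mul_le_mul_of_nonneg_left _ (by positivity)
        calc (fIdx m : ℝ) ^ n ≤ (D ^ ((1 : ℝ) / 2)) ^ n := pow_le_pow_left₀ (by linarith) hfD n
          _ = D ^ ((n : ℝ) / 2) := by
              rw [← Real.rpow_natCast, ← Real.rpow_mul hD.le]; congr 1; ring
      calc (Y * (fIdx m : ℝ) ^ n) ^ ep n ≤ (D ^ (dl n + n / 2)) ^ ep n :=
            Real.rpow_le_rpow (by positivity) h1 hep.le
        _ = D ^ (ep n * (dl n + n / 2)) := by rw [← Real.rpow_mul hD.le]; congr 1; ring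
    have hYn : Y ^ (-(1 : ℝ) / n) = D ^ (-(dl n) / n) := by
      rw [hY, ← Real.rpow_mul hD.le]; congr 1; ring
    -- first term
    have ht1 : (2 : ℝ) ^ (n * ω) * (DivB_684.CDiv n (ep n / n) * (Y * (fIdx m : ℝ) ^ n) ^ ep n *
        ((Y * (fIdx m : ℝ) ^ n) ^ ep n * cR (ep n) ^ ω) * Y ^ (-(1 : ℝ) / n)) ≤
        DivB_684.CDiv n (ep n / n) * cw n * D ^ (-et n) := by
      have hx0 : 0 ≤ (Y * (fIdx m : ℝ) ^ n) ^ ep n := by positivity
      calc (2 : ℝ) ^ (n * ω) * (DivB_684.CDiv n (ep n / n) * (Y * (fIdx m : ℝ) ^ n) ^ ep n *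
        ((Y * (fIdx m : ℝ) ^ n) ^ ep n * cR (ep n) ^ ω) * Y ^ (-(1 : ℝ) / n))
          = DivB_684.CDiv n (ep n / n) * ((2 : ℝ) ^ (n * ω) * cR (ep n) ^ ω) *
            ((Y * (fIdx m : ℝ) ^ n) ^ ep n * (Y * (fIdx m : ℝ) ^ n) ^ ep n) *
              Y ^ (-(1 : ℝ) / n) := by ring
        _ ≤ DivB_684.CDiv n (ep n / n) * (cw n * D ^ (ep n / 2)) *
            (D ^ (ep n * (dl n + n / 2)) * D ^ (ep n * (dl n + n / 2))) *
              D ^ (-(dl n) / n) := by
            rw [hYn]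
            gcongr
        _ = DivB_684.CDiv n (ep n / n) * cw n *
            D ^ (ep n / 2 + (ep n * (dl n + n / 2) + ep n * (dl n + n / 2)) + -(dl n) / n) := by
            rw [Real.rpow_add hD, Real.rpow_add hD, Real.rpow_add hD]; ring
        _ ≤ DivB_684.CDiv n (ep n / n) * cw n * D ^ (-et n) := by
            apply mul_le_mul_of_nonneg_left _ (by positivity)
            apply Real.rpow_le_rpow_of_exponent_le hD1
            have h1 : -(dl n) / n = -(2 * et n) := by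
              rw [← e2]; field_simp
            rw [h1]
            have h2 : ep n * dl n ≤ ep n * (1 / 24) := by
              apply mul_le_mul_of_nonneg_left _ hep.le
              have := kap_le hn
              linarith
            nlinarith
    -- second term
    have ht2 : (2 : ℝ) ^ (n * ω) * (Y * (2 * (Y * D ^ dl n) + 2) ^ n *
        (2 * D ^ dl n * D ^ (-(1 / ((n : ℝ) * ((n : ℝ) - 1)))))) ≤
        2 * 4 ^ n * cw n * D ^ (-et n) := by
      have h1 : 2 * (Y * D ^ dl n) + 2 ≤ 4 * D ^ (2 * dl n) := by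
        have h2 : Y * D ^ dl n = D ^ (2 * dl n) := by
          rw [hY, ← Real.rpow_add hD]; congr 1; ring
        rw [h2]
        have : 1 ≤ D ^ (2 * dl n) := Real.one_le_rpow hD1 (by linarith)
        linarith
      have h2 : (2 * (Y * D ^ dl n) + 2) ^ n ≤ 4 ^ n * D ^ (2 * n * dl n) := by
        calc (2 * (Y * D ^ dl n) + 2) ^ n ≤ (4 * D ^ (2 * dl n)) ^ n :=
              pow_le_pow_left₀ (by positivity) h1 n
          _ = 4 ^ n * D ^ (2 * n * dl n) := by
              rw [mul_pow, ← Real.rpow_natCast (D ^ (2 * dl n)), ← Real.rpow_mul hD.le]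
              congr 2; ring
      have hk : -(1 / ((n : ℝ) * ((n : ℝ) - 1))) = -kap n := rfl
      rw [hk]
      calc (2 : ℝ) ^ (n * ω) * (Y * (2 * (Y * D ^ dl n) + 2) ^ n *
            (2 * D ^ dl n * D ^ (-kap n)))
          ≤ (cw n * D ^ (ep n / 2)) * (D ^ dl n * (4 ^ n * D ^ (2 * n * dl n)) *
            (2 * D ^ dl n * D ^ (-kap n))) := by
            gcongr
        _ = 2 * 4 ^ n * cw n *
            D ^ (ep n / 2 + (dl n + 2 * n * dl n + dl n + -kap n)) := by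
            rw [Real.rpow_add hD, Real.rpow_add hD, Real.rpow_add hD, Real.rpow_add hD]; ring
        _ ≤ 2 * 4 ^ n * cw n * D ^ (-et n) := by
            apply mul_le_mul_of_nonneg_left _ (by positivity)
            apply Real.rpow_le_rpow_of_exponent_le hD1
            nlinarith
    rw [mul_add]
    unfold Cbad
    rw [add_mul]
    exact add_le_add ht1 ht2

end

end Crest.Agent.R014.Loc8_524
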