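import Mathlib

-- ▼ part R014/N1B_693
section
set_option autoImplicit false
open IntermediateField Polynomial

namespace Crest.Agent.R014.N1B_693

/-- In `(ZMod q)ˣ` (`q` prime, `2 N ∣ q - 1`), `-1` is an `N`-th power. -/
theorem neg_one_pow {q N : ℕ} (hq : q.Prime) (hN : 2 * N ∣ q - 1) :
    ∃ b : (ZMod q)ˣ, b ^ N = -1 := by
  have : Fact q.Prime := ⟨hq⟩
  obtain ⟨k, hk⟩ := hN
  have hq1 : 0 < q - 1 := by have := hq.two_le; omega
  have hk0 : 0 < k := Nat.pos_of_ne_zero (by rintro rfl; simp at hk; omega)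
  have hN0 : 0 < N := Nat.pos_of_ne_zero (by rintro rfl; simp at hk; omega)
  obtain ⟨g, hg⟩ := IsCyclic.exists_generator (α := (ZMod q)ˣ)
  have hord : orderOf g = q - 1 := by
    rw [orderOf_eq_card_of_forall_mem_zpowers hg, Nat.card_eq_fintype_card, ZMod.card_units]
  refine ⟨g ^ k, ?_⟩
  have h2 : (g ^ (k * N)) ^ 2 = 1 := by
    rw [← pow_mul]
    have : k * N * 2 = orderOf g := by rw [hord, hk]; ring
    rw [this, pow_orderOf_eq_one]
  have h1 : g ^ (k * N) ≠ 1 := by
    intro h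
    have := orderOf_dvd_of_pow_eq_one h
    rw [hord, hk] at this
    have := Nat.le_of_dvd (by positivity) this
    nlinarith [Nat.mul_pos hk0 hN0]
  rw [← pow_mul]
  have h3 : ((g ^ (k * N) : (ZMod q)ˣ) : ZMod q) ^ 2 = 1 := by
    rw [← Units.val_pow_eq_pow_val, h2, Units.val_one]
  rcases sq_eq_one_iff.mp h3 with h | h
  · exact absurd (Units.ext h) h1
  · exact Units.ext h

/-- The image of `x ↦ x ^ N` on `(ZMod q)ˣ` has index `N` when `N ∣ q - 1`. -/
theorem index_powRange {q N : ℕ} (hq : q.Prime) (hN : N ∣ q - 1) :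
    (powMonoidHom N : (ZMod q)ˣ →* (ZMod q)ˣ).range.index = N := by
  have : Fact q.Prime := ⟨hq⟩
  have hcard : Nat.card (ZMod q)ˣ = q - 1 := by
    rw [Nat.card_eq_fintype_card, ZMod.card_units]
  have h := IsCyclic.index_powMonoidHom_range (G := (ZMod q)ˣ) N
  rw [h, hcard]
  exact Nat.gcd_eq_right hN

section cyc

theorem isMulCommutative_gal (C : Type*) [Field C] [NumberField C] (q : ℕ) [NeZero q]
    [IsCyclotomicExtension {q} ℚ C] (σ τ : Gal(C/ℚ)) : σ * τ = τ * σ := by
  apply (IsCyclotomicExtension.Rat.galEquivZMod q C).injective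
  rw [map_mul, map_mul, mul_comm]

theorem isGalois_C (C : Type*) [Field C] [NumberField C] (q : ℕ) [NeZero q]
    [IsCyclotomicExtension {q} ℚ C] : IsGalois ℚ C := IsCyclotomicExtension.isGalois {q} ℚ C

variable (C : Type*) [Field C] [NumberField C] (q N : ℕ) [NeZero q] [IsCyclotomicExtension {q} ℚ C]

/-- Automorphisms of the cyclotomic field which are `N`-th powers. -/
noncomputable def powGal : Subgroup Gal(C/ℚ) :=
  ((powMonoidHom N : (ZMod q)ˣ →* (ZMod q)ˣ).range).comap
    (IsCyclotomicExtension.Rat.galEquivZMod q C).toMonoidHom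

instance powGal_normal : (powGal C q N).Normal := by
  refine ⟨fun n hn g => ?_⟩
  rw [isMulCommutative_gal C q g n, mul_assoc, mul_inv_cancel, mul_one]
  exact hn

/-- The subfield of degree `N`. -/
noncomputable def subB : IntermediateField ℚ C := fixedField (powGal C q N)

instance isGalois_subB : IsGalois ℚ (subB C q N) := by
  have := isGalois_C C q
  exact IsGalois.of_fixedField_normal_subgroup (powGal C q N)

theorem finrank_subB {q N : ℕ} [NeZero q] [IsCyclotomicExtension {q} ℚ C] (hq : q.Prime)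
    (hN : N ∣ q - 1) : Module.finrank ℚ (subB C q N) = N := by
  have := isGalois_C C q
  have h1 : (powGal C q N).index = N := by
    rw [powGal, Subgroup.index_comap_of_surjective]
    · exact index_powRange hq hN
    · exact (IsCyclotomicExtension.Rat.galEquivZMod q C).surjective
  have h2 := (powGal C q N).card_mul_index
  have h3 : Module.finrank (subB C q N) C = Nat.card (powGal C q N) :=
    IntermediateField.finrank_fixedField_eq_card _
  have h4 := Module.finrank_mul_finrank ℚ (subB C q N) C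
  have h5 : Nat.card Gal(C/ℚ) = Module.finrank ℚ C := IsGalois.card_aut_eq_finrank ℚ C
  rw [h1, h5, ← h4, h3, mul_comm] at h2
  have h6 : 0 < Nat.card (powGal C q N) := Nat.card_pos
  exact (Nat.eq_of_mul_eq_mul_right h6 h2).symm

instance normal_subB : Normal ℚ (subB C q N) := IsGalois.to_normal

/-- The (Artin) map `(ZMod q)ˣ → Gal(B/ℚ)`. -/
noncomputable def art : (ZMod q)ˣ →* Gal(subB C q N/ℚ) :=
  (AlgEquiv.restrictNormalHom (subB C q N)).comp
    (IsCyclotomicExtension.Rat.galEquivZMod q C).symm.toMonoidHom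

set_option backward.isDefEq.respectTransparency false in
theorem art_apply (a : (ZMod q)ˣ) (x : subB C q N) :
    (art C q N a x : C) = (IsCyclotomicExtension.Rat.galEquivZMod q C).symm a (x : C) :=
  AlgEquiv.restrictNormalHom_apply (subB C q N) _ x

theorem art_surjective : Function.Surjective (art C q N) := by
  have := isGalois_C C q
  exact (AlgEquiv.restrictNormalHom_surjective C).comp
    (IsCyclotomicExtension.Rat.galEquivZMod q C).symm.surjective

set_option backward.isDefEq.respectTransparency false in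
theorem art_eq_one_iff (a : (ZMod q)ˣ) : art C q N a = 1 ↔ ∃ b : (ZMod q)ˣ, b ^ N = a := by
  have := isGalois_C C q
  have h1 : art C q N a = 1 ↔ (IsCyclotomicExtension.Rat.galEquivZMod q C).symm a ∈
      (subB C q N).fixingSubgroup := by
    rw [← IntermediateField.restrictNormalHom_ker, MonoidHom.mem_ker]
    rfl
  rw [h1, subB, IntermediateField.fixingSubgroup_fixedField, powGal, Subgroup.mem_comap]
  have h2 : (IsCyclotomicExtension.Rat.galEquivZMod q C).toMonoidHom
      ((IsCyclotomicExtension.Rat.galEquivZMod q C).symm a) = a :=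
    (IsCyclotomicExtension.Rat.galEquivZMod q C).apply_symm_apply a
  rw [h2, MonoidHom.mem_range]
  rfl

/-- If `2 N ∣ q - 1` the subfield of degree `N` is totally real. -/
theorem isTotallyReal_subB {q N : ℕ} [NeZero q] [IsCyclotomicExtension {q} ℚ C] (hq : q.Prime)
    (hN : 2 * N ∣ q - 1) : NumberField.IsTotallyReal (subB C q N) := by
  have := isGalois_C C q
  refine ⟨fun v => ?_⟩
  -- extend the embedding to C
  let φ : C →+* ℂ := NumberField.ComplexEmbedding.lift C v.embedding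
  have hφ : ∀ x : subB C q N, φ (x : C) = v.embedding x := fun x =>
    NumberField.ComplexEmbedding.lift_algebraMap_apply (K := C) v.embedding x
  obtain ⟨σ, hσ⟩ := NumberField.ComplexEmbedding.exists_comp_symm_eq_of_comp_eq (k := ℚ) φ
    (NumberField.ComplexEmbedding.conjugate φ) (Subsingleton.elim _ _)
  obtain ⟨b, hb⟩ := neg_one_pow hq hN
  set ζ := IsCyclotomicExtension.zeta q ℚ C with hζdef
  have hζ : IsPrimitiveRoot ζ q := IsCyclotomicExtension.zeta_spec q ℚ C
  have hinv : (starRingEnd ℂ) (φ ζ) = (φ ζ)⁻¹ := by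
    have h1 : (φ ζ) ^ q = 1 := by rw [← map_pow, hζ.pow_eq_one, map_one]
    have h2 : ‖φ ζ‖ = 1 := Complex.norm_eq_one_of_pow_eq_one h1 (NeZero.ne q)
    rw [Complex.inv_def, Complex.normSq_eq_norm_sq, h2]
    simp
  have hσζ : σ.symm ζ = ζ⁻¹ := by
    apply φ.injective
    have := RingHom.congr_fun hσ ζ
    simp only [RingHom.comp_apply, NumberField.ComplexEmbedding.conjugate_coe_eq] at this
    rw [map_inv₀, ← hinv, ← this]
    rfl
  have hσ1 : IsCyclotomicExtension.Rat.galEquivZMod q C σ.symm = -1 := by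
    have h1 := IsCyclotomicExtension.Rat.galEquivZMod_apply_of_pow_eq q C σ.symm hζ.pow_eq_one
    rw [hσζ] at h1
    have h2 : ζ ^ ((IsCyclotomicExtension.Rat.galEquivZMod q C σ.symm).val.val + 1) = 1 := by
      rw [pow_succ, ← h1, inv_mul_cancel₀ (hζ.ne_zero (NeZero.ne q))]
    have h3 : q ∣ (IsCyclotomicExtension.Rat.galEquivZMod q C σ.symm).val.val + 1 :=
      (hζ.pow_eq_one_iff_dvd _).mp h2
    apply Units.ext
    have h4 : ((((IsCyclotomicExtension.Rat.galEquivZMod q C σ.symm).val.val + 1 : ℕ)) : ZMod q) = 0 :=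
      (ZMod.natCast_eq_zero_iff _ _).mpr h3
    rw [Nat.cast_add, ZMod.natCast_val, ZMod.cast_id', id_eq, Nat.cast_one] at h4
    rw [Units.val_neg, Units.val_one]
    exact eq_neg_of_add_eq_zero_left h4
  have hmem : σ.symm ∈ powGal C q N := by
    rw [powGal, Subgroup.mem_comap]
    exact ⟨b, by rw [powMonoidHom_apply, hb]; exact hσ1.symm⟩
  rw [NumberField.InfinitePlace.isReal_iff, NumberField.ComplexEmbedding.isReal_iff]
  ext x
  rw [NumberField.ComplexEmbedding.conjugate_coe_eq, ← hφ x]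
  have := RingHom.congr_fun hσ (x : C)
  simp only [RingHom.comp_apply, NumberField.ComplexEmbedding.conjugate_coe_eq] at this
  rw [← this]
  congr 1
  exact (IntermediateField.mem_fixedField_iff _ _).mp x.2 _ hmem

/-- Frobenius congruence on the ring of integers of the cyclotomic field. -/
theorem frob_C {q : ℕ} [NeZero q] [IsCyclotomicExtension {q} ℚ C]
    {p : ℕ} (hp : p.Prime) (hpq : p.Coprime q) (x : C) (hx : IsIntegral ℤ x) :
    ∃ y : C, IsIntegral ℤ y ∧
      (IsCyclotomicExtension.Rat.galEquivZMod q C).symm (ZMod.unitOfCoprime p hpq) x - x ^ p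
        = p * y := by
  classical
  have : Fact p.Prime := ⟨hp⟩
  set σ := (IsCyclotomicExtension.Rat.galEquivZMod q C).symm (ZMod.unitOfCoprime p hpq) with hσ
  have hζ : IsPrimitiveRoot (IsCyclotomicExtension.zeta q ℚ C) q := IsCyclotomicExtension.zeta_spec q ℚ C
  set ζ := IsCyclotomicExtension.zeta q ℚ C with hζdef
  have hσζ : σ ζ = ζ ^ p := by
    rw [IsCyclotomicExtension.Rat.galEquivZMod_apply_of_pow_eq q C σ hζ.pow_eq_one, hσ,
      MulEquiv.apply_symm_apply, ZMod.coe_unitOfCoprime]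
    rw [ZMod.val_natCast]
    conv_rhs => rw [← Nat.mod_add_div p q]
    rw [pow_add, pow_mul, hζ.pow_eq_one, one_pow, mul_one]
  -- the set of integers with the property is a subring containing ζ
  have key : ∀ x ∈ Algebra.adjoin ℤ ({ζ} : Set C), ∃ y ∈ Algebra.adjoin ℤ ({ζ} : Set C),
      σ x - x ^ p = p * y := by
    intro x hx
    induction hx using Algebra.adjoin_induction with
    | mem x hx =>
      rw [Set.mem_singleton_iff] at hx
      subst hx
      exact ⟨0, Subalgebra.zero_mem _, by rw [hσζ]; ring⟩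
    | algebraMap r =>
      obtain ⟨k, hk⟩ : (p : ℤ) ∣ r - r ^ p := by
        rw [← ZMod.intCast_eq_intCast_iff_dvd_sub]
        push_cast
        rw [ZMod.pow_card]
      refine ⟨algebraMap ℤ C k, Subalgebra.algebraMap_mem _ _, ?_⟩
      have h1 : σ (algebraMap ℤ C r) = algebraMap ℤ C r := by simp
      rw [h1]
      have := congrArg (algebraMap ℤ C) hk
      simpa using this
    | add a b ha hb iha ihb =>
      obtain ⟨u, hu, hu2⟩ := iha
      obtain ⟨v, hv, hv2⟩ := ihb
      obtain ⟨r, hr⟩ := exists_add_pow_prime_eq hp (⟨a, ha⟩ : Algebra.adjoin ℤ ({ζ} : Set C))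
        (⟨b, hb⟩ : Algebra.adjoin ℤ ({ζ} : Set C))
      have hr' : (a + b) ^ p = a ^ p + b ^ p + p * a * b * (r : C) := by
        have := congrArg (Subtype.val) hr
        simpa using this
      refine ⟨u + v - a * b * r, ?_, ?_⟩
      · exact Subalgebra.sub_mem _ (Subalgebra.add_mem _ hu hv)
          (Subalgebra.mul_mem _ (Subalgebra.mul_mem _ ha hb) r.2)
      · rw [map_add, hr']
        linear_combination hu2 + hv2
    | mul a b ha hb iha ihb =>
      obtain ⟨u, hu, hu2⟩ := iha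
      obtain ⟨v, hv, hv2⟩ := ihb
      refine ⟨u * b ^ p + a ^ p * v + p * u * v, ?_, ?_⟩
      · exact Subalgebra.add_mem _ (Subalgebra.add_mem _ (Subalgebra.mul_mem _ hu
          (Subalgebra.pow_mem _ hb _)) (Subalgebra.mul_mem _ (Subalgebra.pow_mem _ ha _) hv))
          (Subalgebra.mul_mem _ (Subalgebra.mul_mem _ (natCast_mem _ p) hu) hv)
      · have h1 : σ a = a ^ p + p * u := by linear_combination hu2
        have h2 : σ b = b ^ p + p * v := by linear_combination hv2
        rw [map_mul, h1, h2, mul_pow]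
        ring
  have hIC := IsCyclotomicExtension.Rat.isIntegralClosure_adjoin_singleton (n := q) (K := C) hζ
  obtain ⟨x', hx'⟩ := (IsIntegralClosure.isIntegral_iff (A := Algebra.adjoin ℤ ({ζ} : Set C))).mp hx
  obtain ⟨y, hy, hy2⟩ := key x (by rw [← hx']; exact x'.2)
  refine ⟨y, ?_, hy2⟩
  exact (IsIntegralClosure.isIntegral_iff (A := Algebra.adjoin ℤ ({ζ} : Set C))).mpr ⟨⟨y, hy⟩, rfl⟩

/-- Frobenius congruence on the integers of `B`. -/
theorem frob_B {q : ℕ} [NeZero q] [IsCyclotomicExtension {q} ℚ C]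
    {p : ℕ} (hp : p.Prime) (hpq : p.Coprime q) (x : subB C q N) (hx : IsIntegral ℤ x) :
    ∃ y : subB C q N, IsIntegral ℤ y ∧ art C q N (ZMod.unitOfCoprime p hpq) x - x ^ p = p * y := by
  have hxC : IsIntegral ℤ (x : C) := hx.map (subB C q N).val.toRingHom.toIntAlgHom
  obtain ⟨y, hy, hy2⟩ := frob_C C hp hpq (x : C) hxC
  have hp0 : (p : C) ≠ 0 := by exact_mod_cast hp.ne_zero
  rw [← art_apply] at hy2
  have hyB : y ∈ subB C q N := by
    have : y = (p : C)⁻¹ * ((art C q N (ZMod.unitOfCoprime p hpq) x : C) - (x : C) ^ p) := by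
      rw [hy2, inv_mul_cancel_left₀ hp0]
    rw [this]
    refine mul_mem (inv_mem (_root_.natCast_mem _ p)) (sub_mem (SetLike.coe_mem _) (pow_mem x.2 _))
  refine ⟨⟨y, hyB⟩, ?_, ?_⟩
  · exact (isIntegral_algHom_iff (subB C q N).val.toRingHom.toIntAlgHom
      (subB C q N).val.injective).mp hy
  · apply Subtype.ext
    simpa using hy2

end cyc

section omega

variable {Ω : Type*} [Field Ω] [CharZero Ω]

theorem isCyclotomic {q : ℕ} (hq : q.Prime) {ζ : Ω} (hζ : IsPrimitiveRoot ζ q) :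
    IsCyclotomicExtension {q} ℚ ℚ⟮ζ⟯ := by
  have : NeZero q := ⟨hq.ne_zero⟩
  change IsCyclotomicExtension {q} ℚ (IntermediateField.adjoin ℚ {ζ}).toSubalgebra
  rw [IntermediateField.adjoin_simple_toSubalgebra_of_isAlgebraic
    ((hζ.isIntegral hq.pos).tower_top (A := ℚ)).isAlgebraic]
  exact hζ.adjoin_isCyclotomicExtension ℚ

/-- The auxiliary field `B`: the cyclic subfield of degree `N` of `ℚ(ζ_q)`, `2 N ∣ q - 1`, with its
Artin map `χ : (ZMod q)ˣ → Gal(B/ℚ)` and the Frobenius congruence. -/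
theorem exists_B {q N : ℕ} (hq : q.Prime) (hN : 2 * N ∣ q - 1) {ζ : Ω}
    (hζ : IsPrimitiveRoot ζ q) :
    ∃ (B : IntermediateField ℚ Ω) (_ : FiniteDimensional ℚ B) (_ : IsGalois ℚ B)
      (χ : (ZMod q)ˣ →* Gal(B/ℚ)),
      B ≤ ℚ⟮ζ⟯ ∧ Module.finrank ℚ B = N ∧ NumberField.IsTotallyReal B ∧
      Function.Surjective χ ∧ (∀ a, χ a = 1 ↔ ∃ b : (ZMod q)ˣ, b ^ N = a) ∧
      (∀ (p : ℕ) (_ : p.Prime) (hpq : p.Coprime q) (x : B), IsIntegral ℤ x →
        ∃ y : B, IsIntegral ℤ y ∧ χ (ZMod.unitOfCoprime p hpq) x - x ^ p = p * y) := by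
  have hq0 : NeZero q := ⟨hq.ne_zero⟩
  have hcyc := isCyclotomic hq hζ
  have hfd : FiniteDimensional ℚ ℚ⟮ζ⟯ := IsCyclotomicExtension.finiteDimensional {q} ℚ ℚ⟮ζ⟯
  have hnf : NumberField ℚ⟮ζ⟯ := { to_charZero := inferInstance, to_finiteDimensional := inferInstance }
  let B₀ := subB ℚ⟮ζ⟯ q N
  let B : IntermediateField ℚ Ω := IntermediateField.lift B₀
  let e : B₀ ≃ₐ[ℚ] B := IntermediateField.liftAlgEquiv B₀
  have hN' : N ∣ q - 1 := (Dvd.intro_left 2 rfl).trans hN
  have hfB : FiniteDimensional ℚ B := FiniteDimensional.of_injective e.symm.toLinearMap e.symm.injective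
  have hgB : IsGalois ℚ B := IsGalois.of_algEquiv e
  let χ : (ZMod q)ˣ →* Gal(B/ℚ) := (e.autCongr.toMonoidHom).comp (art ℚ⟮ζ⟯ q N)
  refine ⟨B, hfB, hgB, χ, IntermediateField.lift_le B₀, ?_, ?_, ?_, ?_, ?_⟩
  · rw [← finrank_subB ℚ⟮ζ⟯ hq hN']
    exact e.toLinearEquiv.finrank_eq.symm
  · have := isTotallyReal_subB ℚ⟮ζ⟯ hq hN
    exact NumberField.IsTotallyReal.ofRingEquiv e.toRingEquiv
  · exact e.autCongr.surjective.comp (art_surjective ℚ⟮ζ⟯ q N)
  · intro a
    rw [← art_eq_one_iff ℚ⟮ζ⟯ q N a]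
    exact map_eq_one_iff e.autCongr.toMonoidHom e.autCongr.injective
  · intro p hp hpq x hx
    have hx' : IsIntegral ℤ (e.symm x) := hx.map (e.symm : B →ₐ[ℚ] B₀).toRingHom.toIntAlgHom
    obtain ⟨y, hy, hy2⟩ := frob_B ℚ⟮ζ⟯ N hp hpq (e.symm x) hx'
    refine ⟨e y, hy.map (e : B₀ →ₐ[ℚ] B).toRingHom.toIntAlgHom, ?_⟩
    have := congrArg e hy2
    simp only [map_sub, map_pow, map_mul, map_natCast, AlgEquiv.apply_symm_apply] at this
    rw [← this]
    rfl

/-- Galois group of a compositum of two disjoint Galois fields. -/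
theorem galProd_gen {k Ω : Type*} [Field k] [Field Ω] [Algebra k Ω] (L B : IntermediateField k Ω)
    [FiniteDimensional k L] [FiniteDimensional k B] [IsGalois k L] [IsGalois k B]
    (h : (L ⊓ B : IntermediateField k Ω) = ⊥) :
    IsGalois k ↥(L ⊔ B) ∧ ∃ e : Gal(↥(L ⊔ B)/k) ≃* Gal(L/k) × Gal(B/k),
      ∀ σ : Gal(↥(L ⊔ B)/k),
        (∀ x : L, (((e σ).1 x : L) : Ω) = σ ⟨x, le_sup_left (a := L) (b := B) x.2⟩) ∧
        (∀ x : B, (((e σ).2 x : B) : Ω) = σ ⟨x, le_sup_right (a := L) (b := B) x.2⟩) := by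
  have hgal : IsGalois k ↥(L ⊔ B) := by
    have : Normal k ↥(L ⊔ B) := inferInstance
    have : Algebra.IsSeparable k ↥(L ⊔ B) := inferInstance
    exact ⟨⟩
  have hfd : FiniteDimensional k ↥(L ⊔ B) := inferInstance
  refine ⟨hgal, ?_⟩
  have h1 : L ≤ L ⊔ B := le_sup_left
  have h2 : B ≤ L ⊔ B := le_sup_right
  let a1 : Algebra L ↥(L ⊔ B) := (IntermediateField.inclusion h1).toRingHom.toAlgebra
  let a2 : Algebra B ↥(L ⊔ B) := (IntermediateField.inclusion h2).toRingHom.toAlgebra
  have t1 : IsScalarTower k L ↥(L ⊔ B) := IsScalarTower.of_algebraMap_eq' rfl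
  have t2 : IsScalarTower k B ↥(L ⊔ B) := IsScalarTower.of_algebraMap_eq' rfl
  let f : Gal(↥(L ⊔ B)/k) →* Gal(L/k) × Gal(B/k) :=
    (AlgEquiv.restrictNormalHom L).prod (AlgEquiv.restrictNormalHom B)
  have hf1 : ∀ σ (x : L), (((f σ).1 x : L) : Ω) = σ ⟨x, h1 x.2⟩ := fun σ x =>
    congrArg Subtype.val (AlgEquiv.restrictNormal_commutes σ L x)
  have hf2 : ∀ σ (x : B), (((f σ).2 x : B) : Ω) = σ ⟨x, h2 x.2⟩ := fun σ x =>
    congrArg Subtype.val (AlgEquiv.restrictNormal_commutes σ B x)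
  have hinj : Function.Injective f := by
    rw [injective_iff_map_eq_one]
    intro σ hσ
    -- the fixed field of σ, lifted
    let F : IntermediateField k ↥(L ⊔ B) := fixedField (Subgroup.zpowers σ)
    have hmem : ∀ y : ↥(L ⊔ B), σ y = y → y ∈ F := by
      intro y hy
      rw [IntermediateField.mem_fixedField_iff]
      intro τ hτ
      obtain ⟨n, rfl⟩ := Subgroup.mem_zpowers_iff.mp hτ
      have : σ ∈ MulAction.stabilizer (Gal(↥(L ⊔ B)/k)) y := hy
      exact (MulAction.stabilizer (Gal(↥(L ⊔ B)/k)) y).zpow_mem this n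
    have hL : L ≤ IntermediateField.lift F := by
      intro y hy
      refine (IntermediateField.mem_lift (F := L ⊔ B) (E := F) ⟨y, h1 hy⟩).mpr (hmem _ ?_)
      apply Subtype.ext
      rw [← hf1 σ ⟨y, hy⟩, hσ]
      rfl
    have hB : B ≤ IntermediateField.lift F := by
      intro y hy
      refine (IntermediateField.mem_lift (F := L ⊔ B) (E := F) ⟨y, h2 hy⟩).mpr (hmem _ ?_)
      apply Subtype.ext
      rw [← hf2 σ ⟨y, hy⟩, hσ]
      rfl
    have hle : L ⊔ B ≤ IntermediateField.lift F := sup_le hL hB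
    ext x
    have hx : x ∈ F := (IntermediateField.mem_lift (F := L ⊔ B) (E := F) x).mp (hle x.2)
    rw [IntermediateField.mem_fixedField_iff] at hx
    rw [hx σ (Subgroup.mem_zpowers σ)]
    rfl
  have hcard : Nat.card (Gal(L/k) × Gal(B/k)) ≤ Nat.card Gal(↥(L ⊔ B)/k) := by
    rw [Nat.card_prod, IsGalois.card_aut_eq_finrank, IsGalois.card_aut_eq_finrank,
      IsGalois.card_aut_eq_finrank]
    exact (IntermediateField.LinearDisjoint.of_inf_eq_bot h).finrank_sup.ge
  have hbij : Function.Bijective f :=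
    (Nat.bijective_iff_injective_and_card f).mpr ⟨hinj, le_antisymm (Nat.card_le_card_of_injective f hinj) hcard⟩
  exact ⟨MulEquiv.ofBijective f hbij, fun σ => ⟨hf1 σ, hf2 σ⟩⟩


set_option backward.isDefEq.respectTransparency false in
/-- Galois group of a compositum of two disjoint Galois number fields. -/
theorem exists_galProd (L B : IntermediateField ℚ Ω) [FiniteDimensional ℚ L]
    [FiniteDimensional ℚ B] [i1 : IsGalois ℚ L] [i2 : IsGalois ℚ B]
    (h : (L ⊓ B : IntermediateField ℚ Ω) = ⊥) :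
    IsGalois ℚ ↥(L ⊔ B) ∧ ∃ e : Gal(↥(L ⊔ B)/ℚ) ≃* Gal(L/ℚ) × Gal(B/ℚ),
      ∀ σ : Gal(↥(L ⊔ B)/ℚ),
        (∀ x : L, (((e σ).1 x : L) : Ω) = σ ⟨x, le_sup_left (a := L) (b := B) x.2⟩) ∧
        (∀ x : B, (((e σ).2 x : B) : Ω) = σ ⟨x, le_sup_right (a := L) (b := B) x.2⟩) :=
  @galProd_gen ℚ Ω _ _ _ L B _ _ i1 i2 h

/-- Composita of totally real fields are totally real. -/
theorem isTotallyReal_iSup {ι : Type*} (L : ι → IntermediateField ℚ Ω)
    (h : ∀ i, NumberField.IsTotallyReal (L i)) : NumberField.IsTotallyReal ↥(⨆ i, L i) := by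
  refine ⟨fun v => ?_⟩
  rw [NumberField.InfinitePlace.isReal_iff, NumberField.ComplexEmbedding.isReal_iff]
  set φ := v.embedding
  let ψ : Ω → Prop := fun x => ∃ hx : x ∈ ⨆ i, L i, (starRingEnd ℂ) (φ ⟨x, hx⟩) = φ ⟨x, hx⟩
  let F : IntermediateField ℚ Ω :=
    { carrier := {x | ψ x}
      mul_mem' := by
        rintro a b ⟨ha, ha'⟩ ⟨hb, hb'⟩
        refine ⟨mul_mem ha hb, ?_⟩
        have : (⟨a * b, mul_mem ha hb⟩ : ↥(⨆ i, L i)) = ⟨a, ha⟩ * ⟨b, hb⟩ := rfl
        rw [this, map_mul, map_mul, ha', hb']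
      one_mem' := ⟨one_mem _, by
        have : (⟨1, one_mem _⟩ : ↥(⨆ i, L i)) = 1 := rfl
        rw [this, map_one, map_one]⟩
      add_mem' := by
        rintro a b ⟨ha, ha'⟩ ⟨hb, hb'⟩
        refine ⟨add_mem ha hb, ?_⟩
        have : (⟨a + b, add_mem ha hb⟩ : ↥(⨆ i, L i)) = ⟨a, ha⟩ + ⟨b, hb⟩ := rfl
        rw [this, map_add, map_add, ha', hb']
      zero_mem' := ⟨zero_mem _, by
        have : (⟨0, zero_mem _⟩ : ↥(⨆ i, L i)) = 0 := rfl
        rw [this, map_zero, map_zero]⟩
      algebraMap_mem' := by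
        intro r
        refine ⟨IntermediateField.algebraMap_mem _ r, ?_⟩
        have : (⟨algebraMap ℚ Ω r, IntermediateField.algebraMap_mem _ r⟩ : ↥(⨆ i, L i)) = (r : ↥(⨆ i, L i)) := by
          apply Subtype.ext
          simp
        rw [this, map_ratCast, map_ratCast]
      inv_mem' := by
        rintro a ⟨ha, ha'⟩
        refine ⟨inv_mem ha, ?_⟩
        have : (⟨a⁻¹, inv_mem ha⟩ : ↥(⨆ i, L i)) = (⟨a, ha⟩)⁻¹ := rfl
        rw [this, map_inv₀, map_inv₀, ha'] }
  have hle : (⨆ i, L i) ≤ F := by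
    refine iSup_le fun i => ?_
    intro x hx
    have hx' : x ∈ ⨆ i, L i := le_iSup L i hx
    refine ⟨hx', ?_⟩
    have h1 := NumberField.IsTotallyReal.complexEmbedding_isReal
      (K := L i) (φ.comp (IntermediateField.inclusion (le_iSup L i)).toRingHom)
    rw [NumberField.ComplexEmbedding.isReal_iff] at h1
    exact RingHom.congr_fun h1 ⟨x, hx⟩
  ext x
  obtain ⟨hx, h2⟩ := hle x.2
  exact h2

theorem isTotallyReal_sup (L B : IntermediateField ℚ Ω) (h1 : NumberField.IsTotallyReal L)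
    (h2 : NumberField.IsTotallyReal B) : NumberField.IsTotallyReal ↥(L ⊔ B) := by
  have h := isTotallyReal_iSup (fun b : Bool => bif b then L else B) (by rintro (_ | _) <;> simpa)
  rw [iSup_bool_eq] at h
  exact h

end omega

end Crest.Agent.R014.N1B_693
end

-- ▼ part R014/N1D_693

/-!
Row 14, Theorem N1: discriminant bounds. If a number field `M` of degree `g` is generated by
totally real subfields of degree `≤ n` and discriminant `≤ X`, then `|disc E| ≤ |disc M| ≤ C X ^ C`.
-/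

set_option autoImplicit false

open scoped Pointwise NumberField
open NumberField

namespace Crest.Agent.R014.N1D_693

section span

variable {A : Type*} [Field A] [Algebra ℚ A] [FiniteDimensional ℚ A]

theorem exists_pow_stab (V : Submodule ℚ A) (h1 : (1 : A) ∈ V) :
    ∃ k ≤ Module.finrank ℚ A, V ^ (k + 1) = V ^ k := by
  by_contra hcon
  push Not at hcon
  have hmono : ∀ k, V ^ k ≤ V ^ (k + 1) := by
    intro k
    rw [pow_succ]
    calc V ^ k = V ^ k * 1 := (mul_one _).symm
      _ ≤ V ^ k * V := by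
        gcongr
        rw [Submodule.one_le]; exact h1
  have key : ∀ k ≤ Module.finrank ℚ A + 1, k ≤ Module.finrank ℚ ↥(V ^ k) := by
    intro k
    induction k with
    | zero => intro _; exact Nat.zero_le _
    | succ k ih =>
      intro hk
      have h2 := ih (by omega)
      have h3 : V ^ k < V ^ (k + 1) := lt_of_le_of_ne (hmono k) (fun h => hcon k (by omega) h.symm)
      have := Submodule.finrank_lt_finrank_of_lt h3
      omega
  have h2 := key _ le_rfl
  have h3 := Submodule.finrank_le (V ^ (Module.finrank ℚ A + 1))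
  omega

theorem exists_pow_eq_top (T : Set A) (h1 : (1 : A) ∈ T) (hT : Algebra.adjoin ℚ T = ⊤) :
    ∃ k ≤ Module.finrank ℚ A, Submodule.span ℚ (T ^ k) = ⊤ := by
  obtain ⟨k, hk, hstab⟩ := exists_pow_stab (Submodule.span ℚ T) (Submodule.subset_span h1)
  refine ⟨k, hk, ?_⟩
  rw [← Submodule.span_pow]
  set V := Submodule.span ℚ T
  have hone : (1 : A) ∈ V ^ k := by
    have : (1 : Submodule ℚ A) ≤ V ^ k := one_le_pow_of_one_le' (by
      rw [Submodule.one_le]; exact Submodule.subset_span h1) k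
    rwa [Submodule.one_le] at this
  have hmul : ∀ x ∈ V ^ k, ∀ t ∈ T, x * t ∈ V ^ k := by
    intro x hx t ht
    rw [← hstab, pow_succ]
    exact Submodule.mul_mem_mul hx (Submodule.subset_span ht)
  rw [eq_top_iff]
  intro x _
  have hx : x ∈ Algebra.adjoin ℚ T := by rw [hT]; trivial
  have key : ∀ y ∈ Algebra.adjoin ℚ T, ∀ z ∈ V ^ k, z * y ∈ V ^ k := by
    intro y hy
    induction hy using Algebra.adjoin_induction with
    | mem t ht => exact fun z hz => hmul z hz t ht
    | algebraMap r =>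
      intro z hz
      rw [mul_comm, ← Algebra.smul_def]
      exact Submodule.smul_mem _ r hz
    | add a b _ _ iha ihb =>
      intro z hz
      rw [mul_add]
      exact Submodule.add_mem _ (iha z hz) (ihb z hz)
    | mul a b _ _ iha ihb =>
      intro z hz
      rw [← mul_assoc]
      exact ihb _ (iha z hz)
  have := key x hx 1 hone
  rwa [one_mul] at this

end span

/-- A basis of integers bounds the discriminant. -/
theorem discr_le_of_basis {M : Type*} [Field M] [NumberField M] {ι : Type*} [Fintype ι]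
    [DecidableEq ι] (b : Module.Basis ι ℚ M) (hb : ∀ i, IsIntegral ℤ (b i)) :
    |(discr M : ℝ)| ≤ |((Algebra.discr ℚ b : ℚ) : ℝ)| := by
  classical
  let ω := integralBasis M
  have hcard : Fintype.card ι = Fintype.card (Module.Free.ChooseBasisIndex ℤ (𝓞 M)) := by
    rw [← Module.finrank_eq_card_basis b, ← Module.finrank_eq_card_basis ω]
  let e : ι ≃ Module.Free.ChooseBasisIndex ℤ (𝓞 M) := Fintype.equivOfCardEq hcard
  let b' : Module.Basis (Module.Free.ChooseBasisIndex ℤ (𝓞 M)) ℚ M := b.reindex e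
  have hdisc : Algebra.discr ℚ b' = Algebra.discr ℚ b := by
    rw [← Algebra.discr_reindex ℚ b e, Module.Basis.coe_reindex]
  have hint : ∀ i, ∃ z : 𝓞 M, (z : M) = b' i := by
    intro i
    refine ⟨⟨b' i, ?_⟩, rfl⟩
    rw [Module.Basis.reindex_apply]
    exact hb _
  choose z hz using hint
  let P : Matrix (Module.Free.ChooseBasisIndex ℤ (𝓞 M)) (Module.Free.ChooseBasisIndex ℤ (𝓞 M)) ℤ :=
    fun i j => (RingOfIntegers.basis M).repr (z j) i
  have hP : ω.toMatrix b' = P.map (Int.cast : ℤ → ℚ) := by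
    ext i j
    rw [Module.Basis.toMatrix_apply, ← hz j, Matrix.map_apply]
    exact integralBasis_repr_apply M (z j) i
  have h1 : Algebra.discr ℚ b' = (P.det : ℚ) ^ 2 * (discr M : ℚ) := by
    have h2 := Algebra.discr_of_matrix_vecMul (A := ℚ) ω (ω.toMatrix b')
    rw [Module.Basis.toMatrix_map_vecMul] at h2
    rw [h2, coe_discr, hP]
    congr 2
    exact (RingHom.map_det (Int.castRingHom ℚ) P).symm
  have hne : Algebra.discr ℚ b' ≠ 0 := Algebra.discr_not_zero_of_basis ℚ b'
  have hdet : P.det ≠ 0 := by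
    intro h0
    rw [h1, h0] at hne
    simp at hne
  have hdet1 : (1 : ℝ) ≤ (P.det : ℝ) ^ 2 := by
    have : (1 : ℤ) ≤ P.det ^ 2 := by
      have := sq_nonneg P.det
      have h3 : P.det ^ 2 ≠ 0 := pow_ne_zero 2 hdet
      omega
    exact_mod_cast this
  have h4 : (((P.det : ℚ) ^ 2 * (discr M : ℚ) : ℚ) : ℝ) = (P.det : ℝ) ^ 2 * (discr M : ℝ) := by
    generalize P.det = d
    push_cast
    ring
  rw [← hdisc, h1, h4, abs_mul, abs_of_nonneg (sq_nonneg (P.det : ℝ))]
  nlinarith [abs_nonneg (discr M : ℝ)]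

/-- discriminant of a basis with bounded conjugates. -/
theorem discr_basis_le {M : Type*} [Field M] [NumberField M] {ι : Type*} [Fintype ι]
    [DecidableEq ι] (b : Module.Basis ι ℚ M) (Y : ℝ) (hb : ∀ i, ∀ φ : M →+* ℂ, ‖φ (b i)‖ ≤ Y) :
    |((Algebra.discr ℚ b : ℚ) : ℝ)| ≤
      ((Module.finrank ℚ M).factorial * Y ^ Module.finrank ℚ M) ^ 2 := by
  classical
  have hcard : Fintype.card ι = Module.finrank ℚ M := (Module.finrank_eq_card_basis b).symm
  have hcard2 : Fintype.card ι = Fintype.card (M →ₐ[ℚ] ℂ) := by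
    rw [hcard, AlgHom.card]
  let e : ι ≃ (M →ₐ[ℚ] ℂ) := Fintype.equivOfCardEq hcard2
  have h1 := Algebra.discr_eq_det_embeddingsMatrixReindex_pow_two ℚ ℂ b e
  have h2 : |((Algebra.discr ℚ b : ℚ) : ℝ)| = ‖(algebraMap ℚ ℂ (Algebra.discr ℚ b))‖ := by
    rw [show algebraMap ℚ ℂ (Algebra.discr ℚ b) = (((Algebra.discr ℚ b : ℚ) : ℝ) : ℂ) by simp,
      Complex.norm_real, Real.norm_eq_abs]
  rw [h2, h1, norm_pow]
  refine pow_le_pow_left₀ (norm_nonneg _) ?_ 2
  have h3 := Matrix.det_le (A := Algebra.embeddingsMatrixReindex ℚ ℂ b e)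
    (abv := NormedField.toAbsoluteValue ℂ) (x := Y) (fun i j => hb i (e j).toRingHom)
  rw [hcard, nsmul_eq_mul] at h3
  exact h3

/-- A number field generated by bounded integers has bounded discriminant. -/
theorem discr_le_of_adjoin {M : Type*} [Field M] [NumberField M] (T : Set M)
    (hTint : ∀ x ∈ T, IsIntegral ℤ x) (Y : ℝ) (hY : 1 ≤ Y)
    (hTY : ∀ x ∈ T, ∀ φ : M →+* ℂ, ‖φ x‖ ≤ Y) (hT : Algebra.adjoin ℚ T = ⊤) :
    |(discr M : ℝ)| ≤
      ((Module.finrank ℚ M).factorial * Y ^ (Module.finrank ℚ M * Module.finrank ℚ M)) ^ 2 := by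
  classical
  set g := Module.finrank ℚ M with hg
  have h1T : Algebra.adjoin ℚ (insert 1 T) = ⊤ := by
    rw [eq_top_iff, ← hT]
    exact Algebra.adjoin_mono (Set.subset_insert _ _)
  obtain ⟨k, hk, hspan⟩ := exists_pow_eq_top (insert 1 T) (Set.mem_insert _ _) h1T
  have hall : ∀ k, ∀ x ∈ (insert (1 : M) T) ^ k, IsIntegral ℤ x ∧ ∀ φ : M →+* ℂ, ‖φ x‖ ≤ Y ^ k := by
    intro k
    induction k with
    | zero =>
      intro x hx
      rw [pow_zero, Set.mem_one] at hx
      subst hx
      exact ⟨isIntegral_one, fun φ => by simp⟩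
    | succ k ih =>
      intro x hx
      rw [pow_succ] at hx
      obtain ⟨a, ha, t, ht, rfl⟩ := Set.mem_mul.mp hx
      obtain ⟨h1, h2⟩ := ih a ha
      rcases Set.mem_insert_iff.mp ht with rfl | ht
      · refine ⟨by rwa [mul_one], fun φ => ?_⟩
        rw [mul_one]
        exact (h2 φ).trans (pow_le_pow_right₀ hY (Nat.le_succ k))
      · refine ⟨h1.mul (hTint t ht), fun φ => ?_⟩
        rw [map_mul, norm_mul, pow_succ]
        exact mul_le_mul (h2 φ) (hTY t ht φ) (norm_nonneg _) (by positivity)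
  obtain ⟨b, hbsub, hbspan, hbli⟩ := exists_linearIndependent ℚ ((insert (1 : M) T) ^ k)
  have hbfin : Finite b := hbli.finite
  have : Fintype b := Fintype.ofFinite b
  let B : Module.Basis b ℚ M := Module.Basis.mk hbli (by rw [Subtype.range_coe, hbspan, hspan])
  have hB : ∀ i : b, B i = (i : M) := fun i => by simp [B]
  have h1 := discr_le_of_basis B (fun i => by rw [hB]; exact (hall k _ (hbsub i.2)).1)
  have h2 := discr_basis_le B (Y ^ k) (fun i φ => by rw [hB]; exact (hall k _ (hbsub i.2)).2 φ)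
  refine h1.trans (h2.trans ?_)
  rw [← hg, ← pow_mul]
  have hle : Y ^ (k * g) ≤ Y ^ (g * g) :=
    pow_le_pow_right₀ hY (Nat.mul_le_mul_right g hk)
  gcongr

/-- Minkowski: a totally real number field has a primitive integer with small conjugates. -/
theorem exists_small_gen (F : Type*) [Field F] [NumberField F] [IsTotallyReal F] :
    ∃ a : 𝓞 F, IntermediateField.adjoin ℚ {(a : F)} = ⊤ ∧
      ∀ φ : F →+* ℂ, ‖φ (a : F)‖ ≤ 2 ^ Module.finrank ℚ F * Real.sqrt |(discr F : ℝ)| + 1 := by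
  classical
  obtain ⟨w₀⟩ : Nonempty (InfinitePlace F) := inferInstance
  let B : NNReal := 2 ^ Module.finrank ℚ F * NNReal.sqrt ‖discr F‖₊ + 1
  have hmink : mixedEmbedding.minkowskiBound F ↑1 < mixedEmbedding.convexBodyLTFactor F * B := by
    have h1 : mixedEmbedding.minkowskiBound F ↑1 ≤
        ((2 ^ Module.finrank ℚ F * NNReal.sqrt ‖discr F‖₊ : NNReal) : ENNReal) := by
      rw [mixedEmbedding.minkowskiBound,
        mixedEmbedding.volume_fundamentalDomain_fractionalIdealLatticeBasis, Units.val_one,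
        FractionalIdeal.absNorm_one, Rat.cast_one, ENNReal.ofReal_one, one_mul,
        mixedEmbedding.finrank, mixedEmbedding.volume_fundamentalDomain_latticeBasis]
      rw [ENNReal.coe_mul, ENNReal.coe_pow, ENNReal.coe_ofNat, mul_comm]
      gcongr
      calc _ ≤ (1 : ENNReal) * (NNReal.sqrt ‖discr F‖₊ : ENNReal) := by
            gcongr
            exact pow_le_one₀ (by positivity) (by simp)
        _ = _ := one_mul _
    have h2 : (1 : NNReal) ≤ mixedEmbedding.convexBodyLTFactor F :=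
      mixedEmbedding.one_le_convexBodyLTFactor F
    refine h1.trans_lt ?_
    rw [← ENNReal.coe_mul, ENNReal.coe_lt_coe]
    calc 2 ^ Module.finrank ℚ F * NNReal.sqrt ‖discr F‖₊ < B := by
          simp only [B]; exact lt_add_one _
      _ = 1 * B := (one_mul _).symm
      _ ≤ mixedEmbedding.convexBodyLTFactor F * B := by gcongr
  obtain ⟨a, ha, hlt⟩ := mixedEmbedding.exists_primitive_element_lt_of_isReal F
    (IsTotallyReal.isReal w₀) hmink
  refine ⟨a, ha, fun φ => ?_⟩
  have h := (hlt (InfinitePlace.mk φ)).le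
  have hB : (max B 1 : NNReal) = B := max_eq_left (by simp only [B]; exact le_add_self)
  rw [InfinitePlace.apply] at h
  refine h.trans (le_of_eq ?_)
  rw [hB]
  simp only [B]
  push_cast
  congr 3

/-- **N1-DISC.** `M` generated by totally real fields `F i` of degree `≤ n`, discriminant `≤ X`. -/
theorem discr_le_of_iSup {M : Type*} [Field M] [NumberField M] {ι : Type*} (F : ι → Type*)
    [∀ i, Field (F i)] [∀ i, NumberField (F i)] [∀ i, IsTotallyReal (F i)]
    (f : ∀ i, F i →ₐ[ℚ] M) (hf : (⨆ i, (f i).fieldRange : IntermediateField ℚ M) = ⊤)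
    (n : ℕ) (hn : ∀ i, Module.finrank ℚ (F i) ≤ n) (X : ℝ) (hX : ∀ i, |(discr (F i) : ℝ)| ≤ X) :
    |(discr M : ℝ)| ≤ ((Module.finrank ℚ M).factorial *
      (2 ^ n * Real.sqrt X + 1) ^ (Module.finrank ℚ M * Module.finrank ℚ M)) ^ 2 := by
  choose a ha hbd using fun i => exists_small_gen (F i)
  refine discr_le_of_adjoin (Set.range fun i => f i (a i : F i)) ?_ _ ?_ ?_ ?_
  · rintro _ ⟨i, rfl⟩
    exact (a i).isIntegral_coe.map (f i).toRingHom.toIntAlgHom
  · have : 0 ≤ 2 ^ n * Real.sqrt X := by positivity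
    linarith
  · rintro _ ⟨i, rfl⟩ φ
    refine (hbd i (φ.comp (f i).toRingHom)).trans ?_
    have h1 : (2 : ℝ) ^ Module.finrank ℚ (F i) ≤ 2 ^ n := pow_le_pow_right₀ (by norm_num) (hn i)
    have h2 : Real.sqrt |(discr (F i) : ℝ)| ≤ Real.sqrt X := Real.sqrt_le_sqrt (hX i)
    gcongr
  · have hint : ∀ x ∈ Set.range (fun i => f i (a i : F i)), IsAlgebraic ℚ x := fun x _ =>
      Algebra.IsAlgebraic.isAlgebraic x
    rw [← IntermediateField.adjoin_toSubalgebra_of_isAlgebraic hint]
    have : IntermediateField.adjoin ℚ (Set.range (fun i => f i (a i : F i))) = ⊤ := by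
      rw [eq_top_iff, ← hf]
      refine iSup_le fun i => ?_
      rintro _ ⟨x, rfl⟩
      have hx : x ∈ IntermediateField.adjoin ℚ {(a i : F i)} := by rw [ha i]; trivial
      have h2 : (IntermediateField.adjoin ℚ {(a i : F i)}).map (f i) ≤
          IntermediateField.adjoin ℚ (Set.range (fun i => f i (a i : F i))) := by
        rw [IntermediateField.adjoin_map, Set.image_singleton]
        exact IntermediateField.adjoin.mono ℚ _ _ (by
          rintro _ rfl; exact ⟨i, rfl⟩)
      exact h2 ⟨x, hx, rfl⟩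
    rw [this]
    rfl

theorem abs_discr_le_of_algebra (E M : Type*) [Field E] [NumberField E] [Field M] [NumberField M]
    [Algebra E M] : |(discr E : ℝ)| ≤ |(discr M : ℝ)| := by
  have h := discr_dvd_discr E M
  have h2 : |discr E| ≤ |discr M| := Int.le_of_dvd (abs_pos.mpr (discr_ne_zero M))
    ((abs_dvd_abs _ _).mpr h)
  exact_mod_cast h2

/-- polynomial form: `|disc E| ≤ C X ^ C` for every subfield `E` of `M`, `C` depends only on the
bounds `g`, `n` for the degrees of `M` and of the generating totally real fields `F i`. -/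
theorem discr_le_rpow (g n : ℕ) : ∃ C : ℝ, 1 ≤ C ∧ ∀ (M : Type*) [Field M] [NumberField M]
    (ι : Type*) (F : ι → Type*) [∀ i, Field (F i)] [∀ i, NumberField (F i)]
    [∀ i, IsTotallyReal (F i)] (f : ∀ i, F i →ₐ[ℚ] M)
    (E : Type*) [Field E] [NumberField E] [Algebra E M] (X : ℝ),
    (⨆ i, (f i).fieldRange : IntermediateField ℚ M) = ⊤ → Module.finrank ℚ M ≤ g →
    (∀ i, Module.finrank ℚ (F i) ≤ n) → 1 ≤ X → (∀ i, |(discr (F i) : ℝ)| ≤ X) →
    |(discr E : ℝ)| ≤ C * X ^ C := by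
  refine ⟨max ((g.factorial * (2 ^ (n + 1)) ^ (g * g)) ^ 2) (2 * (g * g : ℕ)) , ?_, ?_⟩
  · refine le_max_of_le_left ?_
    have h1 : (1 : ℝ) ≤ g.factorial := by exact_mod_cast Nat.one_le_iff_ne_zero.mpr g.factorial_ne_zero
    have h2 : (1 : ℝ) ≤ (2 ^ (n + 1)) ^ (g * g) :=
      one_le_pow₀ (one_le_pow₀ (by norm_num))
    exact one_le_pow₀ (one_le_mul_of_one_le_of_one_le h1 h2)
  · intro M _ _ ι F _ _ _ f E _ _ _ X hf hg hn hX1 hX
    set C : ℝ := max (((g.factorial : ℝ) * (2 ^ (n + 1)) ^ (g * g)) ^ 2) (2 * (g * g : ℕ)) with hC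
    refine (abs_discr_le_of_algebra E M).trans ((discr_le_of_iSup F f hf n hn X hX).trans ?_)
    have hX0 : 0 < X := by linarith
    have h1 : 2 ^ n * Real.sqrt X + 1 ≤ 2 ^ (n + 1) * X := by
      have hs : Real.sqrt X ≤ X := by
        rw [Real.sqrt_le_left hX0.le]
        nlinarith
      have h2 : (1 : ℝ) ≤ 2 ^ n := one_le_pow₀ (by norm_num)
      have h3 : 2 ^ n * Real.sqrt X ≤ 2 ^ n * X := by gcongr
      have h4 : 1 ≤ 2 ^ n * X := one_le_mul_of_one_le_of_one_le h2 hX1
      rw [pow_succ]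
      linarith
    have h5 : (1 : ℝ) ≤ 2 ^ (n + 1) * X :=
      one_le_mul_of_one_le_of_one_le (one_le_pow₀ (by norm_num)) hX1
    have hfac : ((Module.finrank ℚ M).factorial : ℝ) ≤ g.factorial := by
      exact_mod_cast Nat.factorial_le hg
    calc ((Module.finrank ℚ M).factorial *
        (2 ^ n * Real.sqrt X + 1) ^ (Module.finrank ℚ M * Module.finrank ℚ M)) ^ 2
        ≤ (g.factorial * (2 ^ (n + 1) * X) ^ (g * g)) ^ 2 := by
          have h6 : (2 ^ n * Real.sqrt X + 1) ^ (Module.finrank ℚ M * Module.finrank ℚ M) ≤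
              (2 ^ (n + 1) * X) ^ (g * g) :=
            (pow_le_pow_left₀ (by positivity) h1 _).trans
              (pow_le_pow_right₀ h5 (Nat.mul_le_mul hg hg))
          gcongr
      _ = (g.factorial * (2 ^ (n + 1)) ^ (g * g)) ^ 2 * X ^ (2 * (g * g)) := by
          rw [mul_pow, mul_pow, mul_pow, mul_pow, ← pow_mul X (g * g) 2, mul_comm (g * g) 2]
          ring
      _ ≤ C * X ^ C := by
          have h7 : X ^ (2 * (g * g)) ≤ X ^ C := by
            rw [← Real.rpow_natCast]
            refine Real.rpow_le_rpow_of_exponent_le hX1 ?_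
            refine (le_of_eq ?_).trans (le_max_right _ _)
            push_cast
            ring
          have h8 : ((g.factorial : ℝ) * (2 ^ (n + 1)) ^ (g * g)) ^ 2 ≤ C := le_max_left _ _
          have h9 : 0 ≤ ((g.factorial : ℝ) * (2 ^ (n + 1)) ^ (g * g)) ^ 2 := by positivity
          exact mul_le_mul h8 h7 (by positivity) (h9.trans h8)

end Crest.Agent.R014.N1D_693
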