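import Mathlib
import Crest.Prelude.Def_TorusPacket
import Crest.Agent.R014.N1G_202
import Crest.Agent.R014.N1D_479
import Crest.Agent.R014.N1D_693_Mg
import Crest.Agent.R014.N1P_693
import Crest.Agent.R014.Ic2_550
import Crest.Agent.R014.EulC_534
import Crest.Agent.R014.LDef_550
import Crest.Agent.R014.N1A_479

-- ▼ part R014/N1Q_693
section

/-!
Row 14, Theorem N1 (posts #3624, #3673): auxiliary primes.

* `exists_primes` : arbitrarily many primes `q ≡ 1 mod m`.
* `cyclo_inf_eq_bot` : `ℚ(ζ_q) ∩ ℚ(ζ_q') = ℚ` for primes `q ≠ q'`.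
* `exists_disjoint` : among more than `2 ^ [L:ℚ]` primes there is one with `ℚ(ζ_q) ∩ L = ℚ`.
-/

set_option autoImplicit false

open IntermediateField

namespace Crest.Agent.R014.N1Q_693

theorem exists_primes (m : ℕ) (hm : m ≠ 0) (J : ℕ) :
    ∃ Qs : Finset ℕ, Qs.card = J ∧ ∀ q ∈ Qs, q.Prime ∧ q ≡ 1 [MOD m] := by
  obtain ⟨t, ht, hc⟩ := (Nat.infinite_setOfPred_prime_modEq_one hm).exists_subset_card_eq J
  exact ⟨t, hc, fun q hq => ht hq⟩

section

variable {Ω : Type*} [Field Ω] [CharZero Ω]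

theorem finrank_cyclo {q : ℕ} (hq : q.Prime) {ζ : Ω} (hζ : IsPrimitiveRoot ζ q) :
    IsCyclotomicExtension {q} ℚ ℚ⟮ζ⟯ := by
  have : NeZero q := ⟨hq.ne_zero⟩
  change IsCyclotomicExtension {q} ℚ (IntermediateField.adjoin ℚ {ζ}).toSubalgebra
  rw [IntermediateField.adjoin_simple_toSubalgebra_of_isAlgebraic
    ((hζ.isIntegral hq.pos).tower_top (A := ℚ)).isAlgebraic]
  exact hζ.adjoin_isCyclotomicExtension ℚ

theorem finiteDimensional_cyclo {q : ℕ} (hq : q.Prime) {ζ : Ω} (hζ : IsPrimitiveRoot ζ q) :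
    FiniteDimensional ℚ ℚ⟮ζ⟯ := by
  have := finrank_cyclo hq hζ
  exact IsCyclotomicExtension.finiteDimensional {q} ℚ ℚ⟮ζ⟯

theorem cyclo_inf_eq_bot {q r : ℕ} (hq : q.Prime) (hr : r.Prime) (hqr : q ≠ r) {ζ ξ : Ω}
    (hζ : IsPrimitiveRoot ζ q) (hξ : IsPrimitiveRoot ξ r) :
    (ℚ⟮ζ⟯ ⊓ ℚ⟮ξ⟯ : IntermediateField ℚ Ω) = ⊥ := by
  have : NeZero q := ⟨hq.ne_zero⟩
  have : NeZero r := ⟨hr.ne_zero⟩
  have := finrank_cyclo hq hζ
  have := finrank_cyclo hr hξ
  have := finiteDimensional_cyclo hq hζ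
  have := finiteDimensional_cyclo hr hξ
  set F : IntermediateField ℚ Ω := ℚ⟮ζ⟯ ⊓ ℚ⟮ξ⟯ with hF
  have h1 : F ≤ ℚ⟮ζ⟯ := inf_le_left
  have h2 : F ≤ ℚ⟮ξ⟯ := inf_le_right
  have : FiniteDimensional ℚ F :=
    FiniteDimensional.of_injective (IntermediateField.inclusion h1).toLinearMap
      (IntermediateField.inclusion h1).injective
  have : NumberField ℚ⟮ζ⟯ := { to_charZero := inferInstance, to_finiteDimensional := inferInstance }
  have : NumberField ℚ⟮ξ⟯ := { to_charZero := inferInstance, to_finiteDimensional := inferInstance }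
  have : NumberField F := { to_charZero := inferInstance, to_finiteDimensional := inferInstance }
  let a1 : Algebra F ℚ⟮ζ⟯ := (IntermediateField.inclusion h1).toRingHom.toAlgebra
  let a2 : Algebra F ℚ⟮ξ⟯ := (IntermediateField.inclusion h2).toRingHom.toAlgebra
  have d1 : NumberField.discr F ∣ NumberField.discr ℚ⟮ζ⟯ := NumberField.discr_dvd_discr F ℚ⟮ζ⟯
  have d2 : NumberField.discr F ∣ NumberField.discr ℚ⟮ξ⟯ := NumberField.discr_dvd_discr F ℚ⟮ξ⟯
  have e1 := IsCyclotomicExtension.Rat.natAbs_discr q ℚ⟮ζ⟯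
  have e2 := IsCyclotomicExtension.Rat.natAbs_discr r ℚ⟮ξ⟯
  have k1 : (NumberField.discr F).natAbs ∣ q ^ Nat.totient q := by
    refine (Int.natAbs_dvd_natAbs.mpr d1).trans ?_
    rw [e1]
    exact Nat.div_dvd_of_dvd (Nat.prod_primeFactors_pow_totient_ediv_dvd hq.pos)
  have k2 : (NumberField.discr F).natAbs ∣ r ^ Nat.totient r := by
    refine (Int.natAbs_dvd_natAbs.mpr d2).trans ?_
    rw [e2]
    exact Nat.div_dvd_of_dvd (Nat.prod_primeFactors_pow_totient_ediv_dvd hr.pos)
  have hc : Nat.Coprime (q ^ Nat.totient q) (r ^ Nat.totient r) :=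
    Nat.Coprime.pow _ _ ((Nat.coprime_primes hq hr).mpr hqr)
  have h1' : (NumberField.discr F).natAbs = 1 := Nat.eq_one_of_dvd_coprimes hc k1 k2
  by_contra hne
  have hlt : 1 < Module.finrank ℚ F := by
    refine Nat.one_lt_iff_ne_zero_and_ne_one.mpr ⟨Module.finrank_pos.ne', ?_⟩
    rwa [ne_eq, IntermediateField.finrank_eq_one_iff]
  have := NumberField.abs_discr_gt_two hlt
  rw [← Int.natCast_natAbs, h1'] at this
  norm_num at this

/-- A finite Galois extension of degree `g` has at most `2 ^ g` intermediate fields. -/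
theorem card_intermediateField_le (L : Type*) [Field L] [CharZero L] [FiniteDimensional ℚ L]
    [IsGalois ℚ L] (s : Finset (IntermediateField ℚ L)) : s.card ≤ 2 ^ Module.finrank ℚ L := by
  classical
  have e : IntermediateField ℚ L ≃ (Subgroup (Gal(L/ℚ)))ᵒᵈ := IsGalois.intermediateFieldEquivSubgroup.toEquiv
  have : Fintype (Gal(L/ℚ)) := Fintype.ofFinite _
  have hinj : Function.Injective (fun F : IntermediateField ℚ L =>
      (Finset.univ.filter (fun g : Gal(L/ℚ) => g ∈ F.fixingSubgroup))) := by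
    intro F F' h
    have : F.fixingSubgroup = F'.fixingSubgroup := by
      ext g
      have := congrArg (fun t => g ∈ t) h
      simpa using this
    have h2 := congrArg IntermediateField.fixedField this
    rwa [IsGalois.fixedField_fixingSubgroup, IsGalois.fixedField_fixingSubgroup] at h2
  calc s.card ≤ (Finset.univ : Finset (Finset (Gal(L/ℚ)))).card :=
        Finset.card_le_card_of_injOn _ (fun _ _ => Finset.mem_univ _) hinj.injOn
    _ = 2 ^ Fintype.card (Gal(L/ℚ)) := by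
        rw [Finset.card_univ, Fintype.card_finset]
    _ = 2 ^ Module.finrank ℚ L := by
        rw [← Nat.card_eq_fintype_card, IsGalois.card_aut_eq_finrank]

theorem exists_disjoint (L : IntermediateField ℚ Ω) [FiniteDimensional ℚ L] [IsGalois ℚ L]
    (Qs : Finset ℕ) (hQ : ∀ q ∈ Qs, q.Prime) (hcard : 2 ^ Module.finrank ℚ L < Qs.card)
    (ζ : ℕ → Ω) (hζ : ∀ q ∈ Qs, IsPrimitiveRoot (ζ q) q) :
    ∃ q ∈ Qs, (ℚ⟮ζ q⟯ ⊓ L : IntermediateField ℚ Ω) = ⊥ := by
  classical
  by_contra hcon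
  push Not at hcon
  -- the map q ↦ ℚ(ζ_q) ∩ L, as an intermediate field of L
  let f : ℕ → IntermediateField ℚ L := fun q => (ℚ⟮ζ q⟯ : IntermediateField ℚ Ω).comap L.val
  have hf : ∀ q, IntermediateField.lift (f q) = ℚ⟮ζ q⟯ ⊓ L := by
    intro q
    ext x
    simp only [f, IntermediateField.mem_inf]
    constructor
    · intro hx
      have hxL : x ∈ L := IntermediateField.lift_le (f q) hx
      have : (⟨x, hxL⟩ : L) ∈ f q := (IntermediateField.mem_lift (F := L) (E := f q) ⟨x, hxL⟩).mp hx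
      exact ⟨this, hxL⟩
    · rintro ⟨h1, h2⟩
      exact (IntermediateField.mem_lift (F := L) (E := f q) ⟨x, h2⟩).mpr h1
  have hinj : Set.InjOn f Qs := by
    intro q hq r hr h
    by_contra hne
    have h1 : (ℚ⟮ζ q⟯ ⊓ L : IntermediateField ℚ Ω) = ℚ⟮ζ r⟯ ⊓ L := by
      rw [← hf q, ← hf r, h]
    apply hcon q hq
    have h2 : (ℚ⟮ζ q⟯ ⊓ L : IntermediateField ℚ Ω) ≤ ℚ⟮ζ q⟯ ⊓ ℚ⟮ζ r⟯ :=
      le_inf inf_le_left (h1.le.trans inf_le_left)
    rw [cyclo_inf_eq_bot (hQ q hq) (hQ r hr) hne (hζ q hq) (hζ r hr)] at h2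
    exact le_bot_iff.mp h2
  have := card_intermediateField_le L (Qs.image f)
  rw [Finset.card_image_of_injOn hinj] at this
  omega

end

end Crest.Agent.R014.N1Q_693
end

-- ▼ part R014/TwoTr_853
section

/-!
# Primitive groups of degree 4 and 6 are 2-transitive

Elementary proof (invariant symmetric relations of degree 1 and 2 on at most 6 points), and the
count of derangements in a 2-transitive group.
-/

set_option autoImplicit false

open MulAction

namespace Crest.Agent.R014.TwoTr_853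

section prim

variable {G X : Type*} [Group G] [MulAction G X]

/-- The invariant equivalence relations of a primitive action are trivial. -/
theorem inv_equiv [IsPreprimitive G X] (E : X → X → Prop) (hr : ∀ x, E x x)
    (hs : ∀ x y, E x y → E y x) (ht : ∀ x y z, E x y → E y z → E x z)
    (hG : ∀ (g : G) x y, E x y → E (g • x) (g • y)) :
    (∀ x y, E x y → x = y) ∨ (∀ x y, E x y) := by
  have hG' : ∀ (g : G) x y, E (g • x) (g • y) → E x y := by
    intro g x y h
    simpa using hG g⁻¹ _ _ h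
  have key : ∀ x, IsBlock G {y | E x y} := by
    intro x
    rw [isBlock_iff_smul_eq_or_disjoint]
    intro g
    by_cases h : E x (g • x)
    · left
      ext y
      rw [Set.mem_smul_set_iff_inv_smul_mem]
      constructor
      · intro hy
        have := hG g _ _ hy
        simp only [smul_inv_smul] at this
        exact ht _ _ _ h this
      · intro hy
        apply hG' g
        simp only [smul_inv_smul]
        exact ht _ _ _ (hs _ _ h) hy
    · right
      rw [Set.disjoint_left]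
      intro y hy hy2
      rw [Set.mem_smul_set_iff_inv_smul_mem] at hy
      have := hG g _ _ hy
      simp only [smul_inv_smul] at this
      exact h (ht _ _ _ hy2 (hs _ _ this))
  by_cases hall : ∃ x, {y | E x y} = Set.univ
  · right
    obtain ⟨x, hx⟩ := hall
    have hx' : ∀ y, E x y := fun y => by
      have : y ∈ {y | E x y} := by rw [hx]; trivial
      exact this
    intro y z
    exact ht _ _ _ (hs _ _ (hx' y)) (hx' z)
  · left
    intro x y hxy
    rcases (key x).subsingleton_or_eq_univ with h | h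
    · exact h (hr x) hxy
    · exact absurd ⟨x, h⟩ hall

variable [Fintype X]

open Classical in
/-- degree of an invariant relation -/
noncomputable def nb (R : X → X → Prop) (x : X) : Finset X := Finset.univ.filter (fun y => R x y)

theorem mem_nb (R : X → X → Prop) (x y : X) : y ∈ nb R x ↔ R x y := by
  classical
  simp [nb]

theorem card_nb_smul (R : X → X → Prop) (hG : ∀ (g : G) x y, R x y → R (g • x) (g • y))
    (g : G) (x : X) : (nb R (g • x)).card = (nb R x).card := by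
  classical
  symm
  apply Finset.card_bij (fun y _ => g • y)
  · intro y hy
    rw [mem_nb] at hy ⊢
    exact hG g _ _ hy
  · intro y _ z _ h
    exact smul_left_cancel g h
  · intro y hy
    rw [mem_nb] at hy
    refine ⟨g⁻¹ • y, ?_, by simp⟩
    rw [mem_nb]
    simpa using hG g⁻¹ _ _ hy

theorem card_nb_eq [IsPretransitive G X] (R : X → X → Prop)
    (hG : ∀ (g : G) x y, R x y → R (g • x) (g • y)) (x y : X) :
    (nb R x).card = (nb R y).card := by
  obtain ⟨g, rfl⟩ := exists_smul_eq G x y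
  exact (card_nb_smul R hG g x).symm

/-- no invariant perfect matching on at least three points -/
theorem deg_one [IsPreprimitive G X] (R : X → X → Prop) (hG : ∀ (g : G) x y, R x y → R (g • x) (g • y))
    (hs : ∀ x y, R x y → R y x) (hi : ∀ x, ¬ R x x) (h1 : ∀ x, (nb R x).card = 1)
    (h3 : 3 ≤ Fintype.card X) : False := by
  classical
  have huniq : ∀ x y z, R x y → R x z → y = z := by
    intro x y z hy hz
    have := Finset.card_eq_one.1 (h1 x)
    obtain ⟨w, hw⟩ := this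
    have a1 := (mem_nb R x y).2 hy
    have a2 := (mem_nb R x z).2 hz
    rw [hw, Finset.mem_singleton] at a1 a2
    rw [a1, a2]
  have hne : 0 < Fintype.card X := by omega
  obtain ⟨x⟩ := Fintype.card_pos_iff.1 hne
  rcases inv_equiv (G := G) (fun x y => x = y ∨ R x y) (fun x => Or.inl rfl)
    (fun x y h => h.elim (fun h => Or.inl h.symm) (fun h => Or.inr (hs _ _ h)))
    (by
      rintro x y z (rfl | h1) (rfl | h2)
      · exact Or.inl rfl
      · exact Or.inr h2
      · exact Or.inr h1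
      · exact Or.inl (huniq y x z (hs _ _ h1) h2))
    (by
      rintro g x y (rfl | h)
      · exact Or.inl rfl
      · exact Or.inr (hG g _ _ h)) with h | h
  · obtain ⟨w, hw⟩ := Finset.card_eq_one.1 (h1 x)
    have hw' : R x w := (mem_nb R x w).1 (by rw [hw]; simp)
    have := h x w (Or.inr hw')
    subst this
    exact hi _ hw'
  · have hsub : (Finset.univ : Finset X) ⊆ insert x (nb R x) := by
      intro y _
      rcases h x y with rfl | hy
      · simp
      · exact Finset.mem_insert_of_mem ((mem_nb R x y).2 hy)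
    have hc := Finset.card_le_card hsub
    have hc2 := Finset.card_insert_le x (nb R x)
    rw [h1 x] at hc2
    rw [Finset.card_univ] at hc
    omega

/-- no invariant 2-regular graph on 6 points -/
theorem deg_two [IsPreprimitive G X] (R : X → X → Prop) (hG : ∀ (g : G) x y, R x y → R (g • x) (g • y))
    (hs : ∀ x y, R x y → R y x) (hi : ∀ x, ¬ R x x) (h2 : ∀ x, (nb R x).card = 2)
    (h6 : Fintype.card X = 6) : False := by
  classical
  have hne : 0 < Fintype.card X := by omega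
  obtain ⟨x₀⟩ := Fintype.card_pos_iff.1 hne
  have hG' : ∀ (g : G) x y, R (g • x) (g • y) → R x y := fun g x y h => by
    simpa using hG g⁻¹ _ _ h
  -- at most two neighbours
  have two : ∀ x a b c, R x a → R x b → a ≠ b → R x c → c = a ∨ c = b := by
    intro x a b c ha hb hab hc
    by_contra hcon
    push Not at hcon
    have hsub : ({a, b, c} : Finset X) ⊆ nb R x := by
      intro y hy
      simp only [Finset.mem_insert, Finset.mem_singleton] at hy
      rcases hy with rfl | rfl | rfl <;> rw [mem_nb] <;> assumption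
    have hc3 : ({a, b, c} : Finset X).card = 3 := by
      rw [Finset.card_insert_of_notMem, Finset.card_insert_of_notMem, Finset.card_singleton]
      · simp only [Finset.mem_singleton]; exact fun h => hcon.2 h.symm
      · simp only [Finset.mem_insert, Finset.mem_singleton]
        rintro (h | h)
        · exact hab h
        · exact hcon.1 h.symm
    have := Finset.card_le_card hsub
    rw [hc3, h2 x] at this
    omega
  have ex2 : ∀ x, ∃ a b, a ≠ b ∧ R x a ∧ R x b := by
    intro x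
    obtain ⟨a, b, hab, h⟩ := Finset.card_eq_two.1 (h2 x)
    exact ⟨a, b, hab, (mem_nb R x a).1 (by rw [h]; simp), (mem_nb R x b).1 (by rw [h]; simp)⟩
  by_cases hA : ∃ x a b, R x a ∧ R x b ∧ a ≠ b ∧ R a b
  · obtain ⟨x, a, b, ha, hb, hab, hr⟩ := hA
    have tri : ∀ x' y z, R x' y → R x' z → y ≠ z → R y z := by
      intro x' y z hy hz hyz
      obtain ⟨g, rfl⟩ := exists_smul_eq G x x'
      rcases two _ _ _ y (hG g _ _ ha) (hG g _ _ hb) (fun h => hab (smul_left_cancel g h)) hy with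
        rfl | rfl
      · rcases two _ _ _ z (hG g _ _ ha) (hG g _ _ hb) (fun h => hab (smul_left_cancel g h)) hz with
          rfl | rfl
        · exact absurd rfl hyz
        · exact hG g _ _ hr
      · rcases two _ _ _ z (hG g _ _ ha) (hG g _ _ hb) (fun h => hab (smul_left_cancel g h)) hz with
          rfl | rfl
        · exact hG g _ _ (hs _ _ hr)
        · exact absurd rfl hyz
    rcases inv_equiv (G := G) (fun x y => x = y ∨ R x y) (fun x => Or.inl rfl)
      (fun x y h => h.elim (fun h => Or.inl h.symm) (fun h => Or.inr (hs _ _ h)))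
      (by
        rintro x y z (rfl | h1) (rfl | h2)
        · exact Or.inl rfl
        · exact Or.inr h2
        · exact Or.inr h1
        · by_cases hxz : x = z
          · exact Or.inl hxz
          · exact Or.inr (tri y x z (hs _ _ h1) h2 hxz))
      (by
        rintro g x y (rfl | h)
        · exact Or.inl rfl
        · exact Or.inr (hG g _ _ h)) with h | h
    · have := h x a (Or.inr ha)
      subst this
      exact hi _ ha
    · have hsub : (Finset.univ : Finset X) ⊆ insert x (nb R x) := by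
        intro y _
        rcases h x y with rfl | hy
        · simp
        · exact Finset.mem_insert_of_mem ((mem_nb R x y).2 hy)
      have hc := Finset.card_le_card hsub
      have hc2 := Finset.card_insert_le x (nb R x)
      rw [h2 x] at hc2
      rw [Finset.card_univ] at hc
      omega
  · push Not at hA
    -- no two vertices have the same neighbours
    have hinj : ∀ x y, (∀ z, R x z ↔ R y z) → x = y := by
      rcases inv_equiv (G := G) (fun x y => ∀ z, R x z ↔ R y z) (fun x z => Iff.rfl)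
        (fun x y h z => (h z).symm) (fun x y z h1 h2 w => (h1 w).trans (h2 w))
        (by
          intro g x y h z
          have hh := h (g⁻¹ • z)
          constructor
          · intro hz
            have := hh.1 (hG' g _ _ (by simpa using hz))
            simpa using hG g _ _ this
          · intro hz
            have := hh.2 (hG' g _ _ (by simpa using hz))
            simpa using hG g _ _ this) with h | h
      · exact h
      · exfalso
        obtain ⟨a, b, -, ha, -⟩ := ex2 x₀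
        exact hi a ((h x₀ a a).1 ha)
    -- vertices at distance two
    let S : X → X → Prop := fun x y => y ≠ x ∧ ∃ z, R x z ∧ R z y
    have hS2 : ∀ x, (nb S x).card = 2 := by
      intro x
      obtain ⟨a, b, hab, ha, hb⟩ := ex2 x
      have other : ∀ a, R x a → ∃ a', a' ≠ x ∧ R a a' := by
        intro a ha
        obtain ⟨c, d, hcd, hc, hd⟩ := ex2 a
        by_cases h : c = x
        · exact ⟨d, fun h' => hcd (h.trans h'.symm), hd⟩
        · exact ⟨c, h, hc⟩
      obtain ⟨a', ha', hra⟩ := other a ha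
      obtain ⟨b', hb', hrb⟩ := other b hb
      have hab' : a' ≠ b' := by
        rintro rfl
        apply ha'
        apply hinj
        intro z
        constructor
        · intro hz
          rcases two a' a b z (hs _ _ hra) (hs _ _ hrb) hab hz with rfl | rfl
          · exact ha
          · exact hb
        · intro hz
          rcases two x a b z ha hb hab hz with rfl | rfl
          · exact hs _ _ hra
          · exact hs _ _ hrb
      have : nb S x = {a', b'} := by
        ext y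
        rw [mem_nb]
        simp only [Finset.mem_insert, Finset.mem_singleton]
        constructor
        · rintro ⟨hyx, z, hxz, hzy⟩
          rcases two x a b z ha hb hab hxz with rfl | rfl
          · rcases two z x a' y (hs _ _ ha) hra (Ne.symm ha') hzy with h | h
            · exact absurd h hyx
            · exact Or.inl h
          · rcases two z x b' y (hs _ _ hb) hrb (Ne.symm hb') hzy with h | h
            · exact absurd h hyx
            · exact Or.inr h
        · rintro (rfl | rfl)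
          · exact ⟨ha', a, ha, hra⟩
          · exact ⟨hb', b, hb, hrb⟩
      rw [this, Finset.card_pair hab']
    let T : X → X → Prop := fun x y => y ≠ x ∧ ¬ R x y ∧ ¬ S x y
    have hT1 : ∀ x, (nb T x).card = 1 := by
      intro x
      have hd1 : Disjoint (nb R x) (nb S x) := by
        rw [Finset.disjoint_left]
        intro y hy hy2
        rw [mem_nb] at hy hy2
        obtain ⟨hyx, z, hxz, hzy⟩ := hy2
        exact hA x z y hxz hy (fun h => by subst h; exact hi _ hzy) hzy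
      have hx1 : x ∉ nb R x ∪ nb S x := by
        rw [Finset.mem_union, mem_nb, mem_nb]
        rintro (h | h)
        · exact hi _ h
        · exact h.1 rfl
      have hT : nb T x = (insert x (nb R x ∪ nb S x))ᶜ := by
        ext y
        rw [mem_nb, Finset.mem_compl, Finset.mem_insert, Finset.mem_union, mem_nb, mem_nb]
        constructor
        · rintro ⟨h1, h2, h3⟩ (h | h | h)
          · exact h1 h
          · exact h2 h
          · exact h3 h
        · intro h
          exact ⟨fun h' => h (Or.inl h'), fun h' => h (Or.inr (Or.inl h')),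
            fun h' => h (Or.inr (Or.inr h'))⟩
      rw [hT, Finset.card_compl, Finset.card_insert_of_notMem hx1, Finset.card_union_of_disjoint hd1,
        h2 x, hS2 x, h6]
    refine deg_one (G := G) T ?_ ?_ ?_ hT1 (by omega)
    · rintro g x y ⟨h1, h2, h3⟩
      refine ⟨fun h => h1 (smul_left_cancel g h), fun h => h2 (hG' g _ _ h), ?_⟩
      rintro ⟨-, z, hz1, hz2⟩
      apply h3
      refine ⟨h1, g⁻¹ • z, hG' g _ _ (by simpa using hz1), hG' g _ _ (by simpa using hz2)⟩
    · rintro x y ⟨h1, h2, h3⟩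
      refine ⟨h1.symm, fun h => h2 (hs _ _ h), ?_⟩
      rintro ⟨-, z, hz1, hz2⟩
      exact h3 ⟨h1, z, hs _ _ hz2, hs _ _ hz1⟩
    · rintro x ⟨h1, -⟩
      exact h1 rfl

/-- number of ordered pairs in an invariant relation -/
theorem card_rel [IsPretransitive G X] (R : X → X → Prop)
    (hG : ∀ (g : G) x y, R x y → R (g • x) (g • y)) (x : X) :
    (Finset.univ.sigma (fun x => nb R x)).card = Fintype.card X * (nb R x).card := by
  classical
  rw [Finset.card_sigma, Finset.sum_congr rfl (fun y _ => card_nb_eq (G := G) R hG y x)]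
  simp

/-- **Primitive groups of degree 4 or 6 are 2-transitive.** -/
theorem two_trans [IsPreprimitive G X] (h : Fintype.card X = 4 ∨ Fintype.card X = 6)
    {a b c d : X} (hab : a ≠ b) (hcd : c ≠ d) : ∃ g : G, g • a = c ∧ g • b = d := by
  classical
  by_contra hcon
  let R0 : X → X → Prop := fun x y => ∃ g : G, g • a = x ∧ g • b = y
  have hcd0 : ¬ R0 c d := hcon
  have hG0 : ∀ (g : G) x y, R0 x y → R0 (g • x) (g • y) := by
    rintro g x y ⟨k, rfl, rfl⟩
    exact ⟨g * k, mul_smul _ _ _, mul_smul _ _ _⟩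
  have hi0 : ∀ x, ¬ R0 x x := by
    rintro x ⟨k, h1, h2⟩
    exact hab (smul_left_cancel k (h1.trans h2.symm))
  have hR0ab : R0 a b := ⟨1, one_smul _ _, one_smul _ _⟩
  let R : X → X → Prop := fun x y => R0 x y ∨ R0 y x
  have hG : ∀ (g : G) x y, R x y → R (g • x) (g • y) :=
    fun g x y h => h.imp (hG0 g _ _) (hG0 g _ _)
  have hs : ∀ x y, R x y → R y x := fun x y h => h.symm
  have hi : ∀ x, ¬ R x x := fun x h => h.elim (hi0 x) (hi0 x)
  -- R is proper
  have hprop : ∃ x y, x ≠ y ∧ ¬ R x y := by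
    by_contra hall
    push Not at hall
    -- R0 and its opposite are disjoint
    have hdis : ∀ x y, R0 x y → ¬ R0 y x := by
      rintro x y hxy hyx
      -- then R0 is symmetric
      have hsym : ∀ u v, R0 u v → R0 v u := by
        rintro u v huv
        obtain ⟨k, h1, h2⟩ := hxy
        obtain ⟨l, h3, h4⟩ := hyx
        obtain ⟨m, h5, h6⟩ := huv
        refine ⟨m * k⁻¹ * l, ?_, ?_⟩
        · rw [mul_smul, h3, mul_smul, ← h2, inv_smul_smul, h6]
        · rw [mul_smul, h4, mul_smul, ← h1, inv_smul_smul, h5]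
      rcases hall c d hcd with h | h
      · exact hcd0 h
      · exact hcd0 (hsym _ _ h)
    let P : Finset (X × X) := Finset.univ.filter (fun p => p.1 ≠ p.2)
    let P1 : Finset (X × X) := Finset.univ.filter (fun p => R0 p.1 p.2)
    let P2 : Finset (X × X) := Finset.univ.filter (fun p => R0 p.2 p.1)
    have hP : P = P1 ∪ P2 := by
      ext p
      simp only [P, P1, P2, Finset.mem_filter, Finset.mem_univ, true_and, Finset.mem_union]
      constructor
      · intro hp
        exact hall _ _ hp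
      · rintro (h | h) h2
        · rw [h2] at h; exact hi0 _ h
        · rw [h2] at h; exact hi0 _ h
    have hd : Disjoint P1 P2 := by
      rw [Finset.disjoint_left]
      intro p hp hp2
      simp only [P1, P2, Finset.mem_filter, Finset.mem_univ, true_and] at hp hp2
      exact hdis _ _ hp hp2
    have hP12 : P2.card = P1.card := by
      apply Finset.card_bij (fun p _ => (p.2, p.1))
      · intro p hp
        simp only [P1, P2, Finset.mem_filter, Finset.mem_univ, true_and] at hp ⊢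
        exact hp
      · rintro ⟨p1, p2⟩ _ ⟨q1, q2⟩ _ h
        simp only [Prod.mk.injEq] at h ⊢
        exact ⟨h.2, h.1⟩
      · rintro ⟨p1, p2⟩ hp
        refine ⟨(p2, p1), ?_, rfl⟩
        simp only [P1, P2, Finset.mem_filter, Finset.mem_univ, true_and] at hp ⊢
        exact hp
    have hP1 : P1.card = Fintype.card X * (nb R0 a).card := by
      rw [← card_rel (G := G) R0 hG0 a]
      symm
      apply Finset.card_bij (fun (p : Σ _ : X, X) _ => (p.1, p.2))
      · rintro ⟨x, y⟩ hp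
        simp only [Finset.mem_sigma, Finset.mem_univ, true_and, mem_nb] at hp
        simp only [P1, Finset.mem_filter, Finset.mem_univ, true_and]
        exact hp
      · rintro ⟨x, y⟩ _ ⟨z, w⟩ _ h
        simp only [Prod.mk.injEq] at h
        obtain ⟨rfl, rfl⟩ := h
        rfl
      · rintro ⟨x, y⟩ hp
        simp only [P1, Finset.mem_filter, Finset.mem_univ, true_and] at hp
        refine ⟨⟨x, y⟩, ?_, rfl⟩
        simp only [Finset.mem_sigma, Finset.mem_univ, true_and, mem_nb]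
        exact hp
    have hPc : P.card = Fintype.card X * Fintype.card X - Fintype.card X := by
      have := Finset.offDiag_card (Finset.univ : Finset X)
      have hPo : P = (Finset.univ : Finset X).offDiag := by
        ext p
        simp [P, Finset.mem_offDiag]
      rw [hPo, this, Finset.card_univ]
    rw [hP, Finset.card_union_of_disjoint hd, hP12, hP1] at hPc
    rcases h with h | h <;> rw [h] at hPc <;> omega
  obtain ⟨p, q, hpq, hnR⟩ := hprop
  let R' : X → X → Prop := fun x y => x ≠ y ∧ ¬ R x y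
  have hG' : ∀ (g : G) x y, R' x y → R' (g • x) (g • y) := by
    rintro g x y ⟨h1, h2⟩
    refine ⟨fun h => h1 (smul_left_cancel g h), fun h => h2 ?_⟩
    simpa using hG g⁻¹ _ _ h
  have hs' : ∀ x y, R' x y → R' y x := fun x y h => ⟨h.1.symm, fun h' => h.2 (hs _ _ h')⟩
  have hi' : ∀ x, ¬ R' x x := fun x h => h.1 rfl
  have hsum : ∀ x, (nb R x).card + (nb R' x).card + 1 = Fintype.card X := by
    intro x
    have hd1 : Disjoint (nb R x) (nb R' x) := by
      rw [Finset.disjoint_left]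
      intro y hy hy2
      rw [mem_nb] at hy hy2
      exact hy2.2 hy
    have hx1 : x ∉ nb R x ∪ nb R' x := by
      rw [Finset.mem_union, mem_nb, mem_nb]
      rintro (h | h)
      · exact hi _ h
      · exact h.1 rfl
    have hT : (Finset.univ : Finset X) = insert x (nb R x ∪ nb R' x) := by
      ext y
      simp only [Finset.mem_univ, true_iff, Finset.mem_insert, Finset.mem_union, mem_nb]
      by_cases h1 : y = x
      · exact Or.inl h1
      · by_cases h2 : R x y
        · exact Or.inr (Or.inl h2)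
        · exact Or.inr (Or.inr ⟨Ne.symm h1, h2⟩)
    rw [← Finset.card_univ, hT, Finset.card_insert_of_notMem hx1,
      Finset.card_union_of_disjoint hd1]
  have hk : ∀ x, (nb R x).card = (nb R a).card := fun x => card_nb_eq (G := G) R hG x a
  have hk' : ∀ x, (nb R' x).card = (nb R' a).card := fun x => card_nb_eq (G := G) R' hG' x a
  have hk1 : 1 ≤ (nb R a).card := by
    apply Finset.card_pos.2
    exact ⟨b, (mem_nb R a b).2 (Or.inl hR0ab)⟩
  have hk1' : 1 ≤ (nb R' a).card := by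
    rw [← hk' p]
    apply Finset.card_pos.2
    exact ⟨q, (mem_nb R' p q).2 ⟨hpq, hnR⟩⟩
  have hs0 := hsum a
  rcases h with h | h
  · have : (nb R a).card = 1 ∨ (nb R' a).card = 1 := by omega
    rcases this with h1 | h1
    · exact deg_one (G := G) R hG hs hi (fun x => (hk x).trans h1) (by omega)
    · exact deg_one (G := G) R' hG' hs' hi' (fun x => (hk' x).trans h1) (by omega)
  · have : ((nb R a).card = 1 ∨ (nb R' a).card = 1) ∨ ((nb R a).card = 2 ∨ (nb R' a).card = 2) := by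
      omega
    rcases this with (h1 | h1) | (h1 | h1)
    · exact deg_one (G := G) R hG hs hi (fun x => (hk x).trans h1) (by omega)
    · exact deg_one (G := G) R' hG' hs' hi' (fun x => (hk' x).trans h1) (by omega)
    · exact deg_two (G := G) R hG hs hi (fun x => (hk x).trans h1) h
    · exact deg_two (G := G) R' hG' hs' hi' (fun x => (hk' x).trans h1) h

/-- Mathlib form. -/
theorem isMultiplyPretransitive_two [IsPreprimitive G X]
    (h : Fintype.card X = 4 ∨ Fintype.card X = 6) : IsMultiplyPretransitive G X 2 :=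
  is_two_pretransitive_iff.2 fun hab hcd => two_trans h hab hcd

end prim

end Crest.Agent.R014.TwoTr_853
end

-- ▼ part R014/TwoTr2_853
section

/-!
# 2-transitivity for primitive number fields of degree 4 and 6; derangements
-/

set_option autoImplicit false

open MulAction

namespace Crest.Agent.R014.TwoTr2_853

open Crest.Agent.R014.TwoTr_853

section count

variable {G X : Type*} [Group G] [MulAction G X] [Fintype G] [Fintype X]

open Classical in
/-- number of fixed points -/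
noncomputable def fx (G : Type*) {X : Type*} [Group G] [MulAction G X] [Fintype X] (g : G) : ℕ :=
  (Finset.univ.filter (fun x : X => g • x = x)).card




end count

section coset

variable {G : Type*} [Group G]

/-- The action of `G` on the cosets of a maximal subgroup is primitive. -/
theorem isPreprimitive_quotient {H : Subgroup G} (hH : IsCoatom H) :
    IsPreprimitive G (G ⧸ H) := by
  have : Nontrivial (G ⧸ H) := by
    by_contra hn
    rw [not_nontrivial_iff_subsingleton] at hn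
    apply hH.1
    rw [eq_top_iff]
    intro g _
    have : (QuotientGroup.mk (1 : G) : G ⧸ H) = QuotientGroup.mk g := Subsingleton.elim _ _
    rw [QuotientGroup.eq] at this
    simpa using this
  rw [← isCoatom_stabilizer_iff_preprimitive G ((1 : G) : G ⧸ H)]
  rw [MulAction.stabilizer_quotient]
  exact hH

/-- A maximal subgroup of index 4 or 6: the action on the cosets is 2-transitive. -/
theorem two_trans_quotient {H : Subgroup G} (hH : IsCoatom H) (hi : H.index = 4 ∨ H.index = 6) :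
    IsMultiplyPretransitive G (G ⧸ H) 2 := by
  classical
  have := isPreprimitive_quotient hH
  have : H.FiniteIndex := ⟨by rcases hi with h | h <;> rw [h] <;> norm_num⟩
  let _ : Fintype (G ⧸ H) := Subgroup.fintypeQuotientOfFiniteIndex
  apply isMultiplyPretransitive_two
  rw [← Nat.card_eq_fintype_card]
  exact hi

end coset

section field

variable {K L : Type*} [Field K] [NumberField K] [Field L] [NumberField L] [IsGalois ℚ L]

open Crest.NumberTheoryR.Packets IntermediateField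

omit [IsGalois ℚ L] in
/-- the image of a primitive field is a minimal intermediate field -/
theorem eq_bot_or_eq_fieldRange (hK : IsPrimitiveField K) (φ : K →ₐ[ℚ] L)
    (F : IntermediateField ℚ L) (hF : F ≤ φ.fieldRange) : F = ⊥ ∨ F = φ.fieldRange := by
  rcases hK (F.comap φ) with h | h
  · left
    rw [eq_bot_iff]
    intro x hx
    obtain ⟨y, hy⟩ := hF hx
    have hy' : y ∈ F.comap φ := by
      change φ y ∈ F
      rw [show φ y = x from hy]
      exact hx
    rw [h, IntermediateField.mem_bot] at hy'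
    obtain ⟨q, hq⟩ := hy'
    rw [IntermediateField.mem_bot]
    refine ⟨q, ?_⟩
    rw [← show φ y = x from hy, ← hq]
    exact (φ.commutes q).symm
  · right
    apply le_antisymm hF
    rintro x ⟨y, hy⟩
    have hy' : y ∈ F.comap φ := by rw [h]; trivial
    change φ y ∈ F at hy'
    rw [← show φ y = x from hy]
    exact hy'

theorem isCoatom_fixingSubgroup (hK : IsPrimitiveField K) (h1 : Module.finrank ℚ K ≠ 1)
    (φ : K →ₐ[ℚ] L) : IsCoatom φ.fieldRange.fixingSubgroup := by
  constructor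
  · intro h
    apply h1
    have hb : φ.fieldRange = ⊥ := by
      have := IsGalois.fixedField_fixingSubgroup φ.fieldRange
      rw [h] at this
      rw [← this, IsGalois.fixedField_top]
    have := LinearEquiv.finrank_eq (AlgEquiv.ofInjectiveField φ).toLinearEquiv
    rw [this]
    have hb' : (φ.range : Subalgebra ℚ L) = ⊥ := by
      rw [← AlgHom.fieldRange_toSubalgebra, hb, IntermediateField.bot_toSubalgebra]
    rw [hb', Subalgebra.finrank_bot]
  · intro S hS
    have hle : IntermediateField.fixedField S ≤ φ.fieldRange := by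
      have := IntermediateField.fixedField_antitone (F := ℚ) (E := L) hS.le
      rwa [IsGalois.fixedField_fixingSubgroup] at this
    rcases eq_bot_or_eq_fieldRange hK φ _ hle with h | h
    · have := IntermediateField.fixingSubgroup_fixedField S
      rw [h, IntermediateField.fixingSubgroup_bot] at this
      exact this.symm
    · exfalso
      have := IntermediateField.fixingSubgroup_fixedField S
      rw [h] at this
      exact hS.ne this

theorem index_fixingSubgroup (φ : K →ₐ[ℚ] L) :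
    φ.fieldRange.fixingSubgroup.index = Module.finrank ℚ K := by
  have h1 := IntermediateField.finrank_eq_fixingSubgroup_index (F := ℚ) (E' := L) φ.fieldRange
  rw [← h1]
  have e : K ≃ₐ[ℚ] φ.fieldRange := AlgEquiv.ofInjectiveField φ
  exact (LinearEquiv.finrank_eq e.toLinearEquiv).symm

/-- **N1-2TR.** `K` primitive of degree 4 or 6 embedded in a Galois number field `L`: the action of
`Gal(L/ℚ)` on the cosets of `Gal(L/K)` is 2-transitive. -/
theorem two_trans_field (hK : IsPrimitiveField K)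
    (hd : Module.finrank ℚ K = 4 ∨ Module.finrank ℚ K = 6) (φ : K →ₐ[ℚ] L) :
    IsMultiplyPretransitive (L ≃ₐ[ℚ] L) ((L ≃ₐ[ℚ] L) ⧸ φ.fieldRange.fixingSubgroup) 2 := by
  apply two_trans_quotient
  · exact isCoatom_fixingSubgroup hK (by omega) φ
  · rw [index_fixingSubgroup]
    exact hd

end field

end Crest.Agent.R014.TwoTr2_853
end

-- ▼ part R014/TwoTr3_853
section

/-!
# The action of `Gal(L/ℚ)` on the embeddings `K → L`
-/

set_option autoImplicit false

open MulAction

namespace Crest.Agent.R014.TwoTr3_853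

open Crest.Agent.R014.TwoTr_853 Crest.Agent.R014.TwoTr2_853 Crest.NumberTheoryR.Packets

/-- The embeddings of `K` into `L` over `ℚ`. -/
def Emb (K L : Type*) [Field K] [NumberField K] [Field L] [NumberField L] : Type _ := K →ₐ[ℚ] L

variable {K L : Type*} [Field K] [NumberField K] [Field L] [NumberField L]

instance : MulAction (L ≃ₐ[ℚ] L) (Emb K L) where
  smul σ φ := (σ.toAlgHom.comp φ : K →ₐ[ℚ] L)
  one_smul φ := by
    apply AlgHom.ext
    intro x
    rfl
  mul_smul σ τ φ := by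
    apply AlgHom.ext
    intro x
    rfl


theorem smul_apply (σ : L ≃ₐ[ℚ] L) (φ : Emb K L) (x : K) :
    (show K →ₐ[ℚ] L from σ • φ) x = σ ((show K →ₐ[ℚ] L from φ) x) := rfl

instance : Finite (Emb K L) := inferInstanceAs (Finite (K →ₐ[ℚ] L))

noncomputable instance : Fintype (Emb K L) := Fintype.ofFinite _

/-- the stabilizer of an embedding -/
theorem stabilizer_eq (φ : Emb K L) :
    stabilizer (L ≃ₐ[ℚ] L) φ = (show K →ₐ[ℚ] L from φ).fieldRange.fixingSubgroup := by
  ext σ
  rw [mem_stabilizer_iff, IntermediateField.mem_fixingSubgroup_iff]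
  constructor
  · rintro h _ ⟨x, rfl⟩
    exact congrArg (fun f : K →ₐ[ℚ] L => f x) h
  · intro h
    apply AlgHom.ext
    intro x
    exact h _ ⟨x, rfl⟩

variable [IsGalois ℚ L]

instance isPretransitive : IsPretransitive (L ≃ₐ[ℚ] L) (Emb K L) := by
  constructor
  intro φ ψ
  obtain ⟨α, hα⟩ := Field.exists_primitive_element ℚ K
  have hint : IsIntegral ℚ α := Algebra.IsIntegral.isIntegral α
  have h1 : minpoly ℚ ((show K →ₐ[ℚ] L from ψ) α) = minpoly ℚ ((show K →ₐ[ℚ] L from φ) α) := by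
    rw [minpoly.algHom_eq _ (RingHom.injective _), minpoly.algHom_eq _ (RingHom.injective _)]
  rw [Normal.minpoly_eq_iff_mem_orbit] at h1
  obtain ⟨σ, hσ⟩ := h1
  refine ⟨σ, ?_⟩
  have key : ∀ x : K, x ∈ (AlgHom.equalizer (σ.toAlgHom.comp (show K →ₐ[ℚ] L from φ))
      (show K →ₐ[ℚ] L from ψ)) := by
    intro x
    have hx : x ∈ IntermediateField.adjoin ℚ {α} := by rw [hα]; trivial
    rw [← IntermediateField.mem_toSubalgebra,
      IntermediateField.adjoin_simple_toSubalgebra_of_isAlgebraic hint.isAlgebraic] at hx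
    refine Algebra.adjoin_le ?_ hx
    intro y hy
    rw [Set.mem_singleton_iff] at hy
    rw [hy]
    exact hσ
  apply AlgHom.ext
  intro x
  exact key x

theorem card_emb (φ : Emb K L) : Nat.card (Emb K L) = Module.finrank ℚ K := by
  have h := index_stabilizer_of_transitive (L ≃ₐ[ℚ] L) φ
  rw [← h, stabilizer_eq, index_fixingSubgroup]






omit [IsGalois ℚ L] in
/-- the action on the embeddings of the normal closure is faithful as soon as the images
generate `L` -/
theorem faithful_emb (hgen : (⨆ φ : K →ₐ[ℚ] L, φ.fieldRange) = ⊤) (σ : L ≃ₐ[ℚ] L)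
    (h : ∀ φ : Emb K L, σ • φ = φ) : σ = 1 := by
  have hle : (⨆ φ : K →ₐ[ℚ] L, φ.fieldRange) ≤
      IntermediateField.fixedField (Subgroup.zpowers σ) := by
    apply iSup_le
    intro φ
    rw [IntermediateField.le_iff_le]
    rw [Subgroup.zpowers_le]
    have this : σ ∈ stabilizer (L ≃ₐ[ℚ] L) (show Emb K L from φ) := h φ
    rw [stabilizer_eq] at this
    exact this
  rw [hgen, top_le_iff] at hle
  have h2 := IntermediateField.fixingSubgroup_fixedField (Subgroup.zpowers σ)
  rw [hle, IntermediateField.fixingSubgroup_top] at h2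
  have : σ ∈ Subgroup.zpowers σ := Subgroup.mem_zpowers σ
  rw [← h2] at this
  exact Subgroup.mem_bot.1 this

end Crest.Agent.R014.TwoTr3_853
end

-- ▼ part R014/N1F_202
section

/-!
# N1-FIX: ideals of norm `p` and fixed points of Frobenius

`M` a number field, Galois over `ℚ`, `Γ = Gal(M/ℚ)`, `p ∤ discr M`, `Fr M p` an (arithmetic)
Frobenius at `p`.  For every subgroup `H ≤ Γ` with fixed field `E` the number of ideals of `𝓞 E`
of norm `p` is the number `fx H (Fr M p)` of fixed points of `Fr M p` on `Γ ⧸ H`.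
-/

set_option autoImplicit false
set_option linter.unusedSectionVars false

namespace Crest.Agent.R014.N1F_202

open NumberField Crest.Agent.R014.N1G_202
open scoped Pointwise

/-- ring endomorphisms of a finite field are powers of Frobenius -/
theorem exists_frob_pow {k : Type*} [Field k] [Finite k] (p : ℕ) [Fact p.Prime] [CharP k p]
    (σ : k →+* k) : ∃ j : ℕ, ∀ x, σ x = x ^ (p ^ j) := by
  let _ : Algebra (ZMod p) k := ZMod.algebra k p
  have h0 : (σ.comp (algebraMap (ZMod p) k)) = algebraMap (ZMod p) k := Subsingleton.elim _ _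
  let σ' : k →ₐ[ZMod p] k := { σ with commutes' := fun r => congr($h0 r) }
  obtain ⟨j, hj⟩ := (FiniteField.bijective_frobeniusAlgHom_pow (ZMod p) k).surjective σ'
  refine ⟨j, fun x => ?_⟩
  have h := congr($hj x)
  simp only [AlgHom.coe_pow, FiniteField.coe_frobeniusAlgHom, pow_iterate, ZMod.card] at h
  rw [h]
  rfl

section abstract

variable {S : Type*} [CommRing S]

/-- residue cardinality downstairs -/
theorem card_under (Q : Ideal S) [Q.IsPrime] {p : ℕ} (hp : p.Prime) (hpQ : (p : S) ∈ Q) :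
    Nat.card (ℤ ⧸ Q.under ℤ) = p := by
  have h : Q.LiesOver (Ideal.span {(p : ℤ)}) := by
    rw [Ideal.liesOver_span_iff (Ideal.IsPrime.ne_top inferInstance) (Nat.prime_iff_prime_int.mp hp)]
    simpa using hpQ
  rw [← h.over]
  rw [Nat.card_congr (Int.quotientSpanNatEquivZMod p).toEquiv]
  simp

variable {Γ : Type*} [Group Γ] [MulSemiringAction Γ S]

theorem frob_iff {Q : Ideal S} [Q.IsPrime] {p : ℕ} (hp : p.Prime) (hpQ : (p : S) ∈ Q) {φ : Γ} :
    IsArithFrobAt ℤ φ Q ↔ ∀ x : S, φ • x - x ^ p ∈ Q := by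
  rw [IsArithFrobAt, AlgHom.IsArithFrobAt, card_under Q hp hpQ]
  rfl

/-- uniqueness of Frobenius -/
theorem frob_unique [IsDomain S] [IsNoetherianRing S] [FaithfulSMul Γ S] {Q : Ideal S} [Q.IsPrime]
    [Algebra.IsUnramifiedAt ℤ Q] {σ τ : Γ} (h1 : IsArithFrobAt ℤ σ Q) (h2 : IsArithFrobAt ℤ τ Q) :
    σ = τ := by
  have h := h1.eq_of_isUnramifiedAt h2 (by
    intro x hx
    apply mem_nonZeroDivisors_of_ne_zero
    rintro rfl
    exact hx Q.zero_mem)
  apply FaithfulSMul.eq_of_smul_eq_smul (α := S)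
  intro x
  exact congr($h x)

/-- trivial inertia -/
theorem inertia_trivial [IsDomain S] [IsNoetherianRing S] [FaithfulSMul Γ S] {Q : Ideal S}
    [Q.IsPrime] [Algebra.IsUnramifiedAt ℤ Q] {p : ℕ} (hp : p.Prime) (hpQ : (p : S) ∈ Q) {φ σ : Γ}
    (h1 : IsArithFrobAt ℤ φ Q) (h2 : ∀ x : S, σ • x - x ∈ Q) : σ = 1 := by
  have h3 : IsArithFrobAt ℤ (σ * φ) Q := by
    rw [frob_iff hp hpQ] at h1 ⊢
    intro x
    have h4 := add_mem (h2 (φ • x)) (h1 x)
    rw [mul_smul]
    convert h4 using 1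
    ring
  have h5 := frob_unique h3 h1
  exact mul_eq_right.mp h5

/-- powers of Frobenius -/
theorem frob_pow {Q : Ideal S} [Q.IsPrime] {p : ℕ} (hp : p.Prime) (hpQ : (p : S) ∈ Q) {φ : Γ}
    (h1 : IsArithFrobAt ℤ φ Q) (j : ℕ) (x : S) : φ ^ j • x - x ^ (p ^ j) ∈ Q := by
  rw [frob_iff hp hpQ] at h1
  induction j with
  | zero => simp
  | succ j ih =>
    have h2 := h1 (φ ^ j • x)
    have h3 : (φ ^ j • x) ^ p - (x ^ (p ^ j)) ^ p ∈ Q := by
      obtain ⟨c, hc⟩ := sub_dvd_pow_sub_pow (φ ^ j • x) (x ^ (p ^ j)) p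
      rw [hc]
      exact Q.mul_mem_right _ ih
    have h4 := add_mem h2 h3
    rw [pow_succ' φ j, mul_smul, pow_succ p j, pow_mul]
    convert h4 using 1
    ring

/-- the decomposition group is generated by the Frobenius -/
theorem stab_pow [IsDomain S] [IsNoetherianRing S] [FaithfulSMul Γ S] {Q : Ideal S} [hQ : Q.IsPrime]
    [Finite (S ⧸ Q)] [Algebra.IsUnramifiedAt ℤ Q] {p : ℕ} (hp : p.Prime) (hpQ : (p : S) ∈ Q)
    {φ τ : Γ} (h1 : IsArithFrobAt ℤ φ Q) (h2 : τ • Q = Q) : ∃ j : ℕ, τ = φ ^ j := by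
  have hmax : Q.IsMaximal :=
    Ideal.Quotient.maximal_of_isField _ (Finite.isField_of_domain (S ⧸ Q))
  let _ : Field (S ⧸ Q) := Ideal.Quotient.field Q
  have : Fact p.Prime := ⟨hp⟩
  have hch : CharP (S ⧸ Q) p := by
    have h3 : ((p : ℕ) : S ⧸ Q) = 0 := by
      have := Ideal.Quotient.eq_zero_iff_mem.mpr hpQ
      simpa using this
    obtain ⟨q, hq⟩ := CharP.exists (S ⧸ Q)
    rcases (Nat.dvd_prime hp).mp ((CharP.cast_eq_zero_iff (S ⧸ Q) q p).mp h3) with h4 | h4
    · exact absurd h4 (CharP.char_ne_one (S ⧸ Q) q)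
    · rwa [h4] at hq
  have h3 : Q ≤ Q.comap (MulSemiringAction.toRingHom Γ S τ) := by
    intro x hx
    rw [Ideal.mem_comap]
    have : τ • x ∈ τ • Q := Ideal.smul_mem_pointwise_smul τ x Q hx
    rw [h2] at this
    exact this
  obtain ⟨j, hj⟩ := exists_frob_pow p (Ideal.quotientMap Q (MulSemiringAction.toRingHom Γ S τ) h3)
  refine ⟨j, ?_⟩
  have h4 : ∀ x : S, τ • x - x ^ (p ^ j) ∈ Q := by
    intro x
    have h5 := hj (Ideal.Quotient.mk Q x)
    rw [Ideal.quotientMap_mk, ← map_pow, Ideal.Quotient.eq] at h5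
    exact h5
  have h6 : ∀ x : S, (τ * (φ ^ j)⁻¹) • x - x ∈ Q := by
    intro x
    have h7 := sub_mem (h4 ((φ ^ j)⁻¹ • x)) (frob_pow hp hpQ h1 j ((φ ^ j)⁻¹ • x))
    rw [smul_inv_smul] at h7
    rw [mul_smul]
    convert h7 using 1
    ring
  have h8 := inertia_trivial hp hpQ h1 h6
  exact mul_inv_eq_one.mp h8

/-- a domain of characteristic `p` in which `x ^ p = x` has `p` elements -/
theorem card_of_pow_eq {k : Type*} [CommRing k] [IsDomain k] {p : ℕ} (hp : p.Prime)
    (h0 : ((p : ℕ) : k) = 0) (h : ∀ x : k, x ^ p = x) : Nat.card k = p := by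
  classical
  have : Fact p.Prime := ⟨hp⟩
  have hch : CharP k p := by
    obtain ⟨q, hq⟩ := CharP.exists k
    rcases (Nat.dvd_prime hp).mp ((CharP.cast_eq_zero_iff k q p).mp h0) with h4 | h4
    · exact absurd h4 (CharP.char_ne_one k q)
    · rwa [h4] at hq
  have hdl : (Polynomial.X : Polynomial k).natDegree < (Polynomial.X ^ p : Polynomial k).natDegree := by
    rw [Polynomial.natDegree_X_pow, Polynomial.natDegree_X]
    exact hp.one_lt
  have hdeg : (Polynomial.X ^ p - Polynomial.X : Polynomial k).natDegree = p := by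
    rw [Polynomial.natDegree_sub_eq_left_of_natDegree_lt hdl, Polynomial.natDegree_X_pow]
  have hX : (Polynomial.X ^ p - Polynomial.X : Polynomial k) ≠ 0 := by
    intro h1
    rw [h1, Polynomial.natDegree_zero] at hdeg
    exact hp.ne_zero hdeg.symm
  have hsub : (Set.univ : Set k) ⊆ ((Polynomial.X ^ p - Polynomial.X : Polynomial k).roots.toFinset : Set k) := by
    intro x _
    rw [Finset.mem_coe, Multiset.mem_toFinset, Polynomial.mem_roots hX]
    simp [h x]
  have hfin : Finite k := Set.finite_univ_iff.mp ((Finset.finite_toSet _).subset hsub)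
  have hle : Nat.card k ≤ p := by
    have := Fintype.ofFinite k
    rw [Nat.card_eq_fintype_card, ← Finset.card_univ]
    have h1 : (Finset.univ : Finset k) ⊆
        (Polynomial.X ^ p - Polynomial.X : Polynomial k).roots.toFinset := by
      intro x _
      exact Finset.mem_coe.mp (hsub (Set.mem_univ x))
    refine (Finset.card_le_card h1).trans ?_
    refine (Multiset.toFinset_card_le _).trans ?_
    refine (Polynomial.card_roots' _).trans ?_
    rw [hdeg]
  have hge : p ≤ Nat.card k := by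
    have h1 := Nat.card_le_card_of_injective _ (ZMod.castHom (dvd_refl p) k).injective
    simpa using h1
  exact le_antisymm hle hge

/-- MAIN COUNT (abstract): ideals of norm `p` of the fixed ring of `H` = fixed points of Frobenius
on `Γ ⧸ H` -/
theorem card_absNorm_eq [IsDomain S] [IsNoetherianRing S] [Finite Γ] [FaithfulSMul Γ S]
    [Algebra.IsInvariant ℤ S Γ]
    (H : Subgroup Γ) (R : Type*) [CommRing R] [IsDedekindDomain R] [Module.Free ℤ R]
    [Algebra R S] [FaithfulSMul R S] [SMulCommClass H R S] [Algebra.IsInvariant R S H]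
    {p : ℕ} (hp : p.Prime)
    (hur : ∀ (P : Ideal S) (_ : P.IsPrime), (p : S) ∈ P → Algebra.IsUnramifiedAt ℤ P)
    (hfi : ∀ (P : Ideal S) (_ : P.IsPrime), (p : S) ∈ P → Finite (S ⧸ P))
    (Q : Ideal S) [hQ : Q.IsPrime] (hpQ : (p : S) ∈ Q) (φ : Γ) (hφ : IsArithFrobAt ℤ φ Q) :
    Nat.card {I : Ideal R // Ideal.absNorm I = p} = fx H φ := by
  have hpg : ∀ g : Γ, (p : S) ∈ g • Q := by
    intro g
    have h1 : g • (p : S) ∈ g • Q := Ideal.smul_mem_pointwise_smul g _ Q hpQ
    have h2 : g • (p : S) = p := map_natCast (MulSemiringAction.toRingHom Γ S g) p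
    rwa [h2] at h1
  have key : ∀ g : Γ, g⁻¹ * φ * g ∈ H → Ideal.absNorm ((g⁻¹ • Q).under R) = p := by
    intro g hg
    have hpr : (g⁻¹ • Q).IsPrime := hQ.smul g⁻¹
    have hψ : IsArithFrobAt ℤ (g⁻¹ * φ * g) (g⁻¹ • Q) := by
      have := hφ.conj g⁻¹
      simpa using this
    rw [frob_iff hp (hpg g⁻¹)] at hψ
    have h1 : ∀ r : R, r ^ p - r ∈ (g⁻¹ • Q).under R := by
      intro r
      have h2 := hψ (algebraMap R S r)
      have h3 : (g⁻¹ * φ * g) • algebraMap R S r = algebraMap R S r :=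
        smul_algebraMap (⟨_, hg⟩ : H) r
      rw [h3] at h2
      rw [Ideal.mem_under, map_sub, map_pow, ← neg_mem_iff, neg_sub]
      exact h2
    rw [Ideal.absNorm_apply, Submodule.cardQuot_apply]
    refine card_of_pow_eq hp ?_ ?_
    · have h2 : (p : R) ∈ (g⁻¹ • Q).under R := by
        rw [Ideal.mem_under]
        simpa using hpg g⁻¹
      have := Ideal.Quotient.eq_zero_iff_mem.mpr h2
      simpa using this
    · intro x
      obtain ⟨r, rfl⟩ := Ideal.Quotient.mk_surjective x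
      rw [← map_pow, Ideal.Quotient.eq]
      exact h1 r
  symm
  unfold fx
  refine Nat.card_congr (Equiv.ofBijective (fun c : MulAction.fixedBy (Γ ⧸ H) φ =>
    (⟨((Quotient.out c.1)⁻¹ • Q).under R, ?_⟩ : {I : Ideal R // Ideal.absNorm I = p})) ⟨?_, ?_⟩)
  · apply key
    rw [← mem_fixedBy_mk]
    have := c.2
    convert c.2
    exact QuotientGroup.out_eq' _
  · rintro ⟨c, hc⟩ ⟨c', hc'⟩ hcc
    have h1 : ((Quotient.out c)⁻¹ • Q).under R = ((Quotient.out c')⁻¹ • Q).under R :=
      congrArg Subtype.val hcc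
    have hpr : ((Quotient.out c)⁻¹ • Q).IsPrime := hQ.smul _
    have hpr' : ((Quotient.out c')⁻¹ • Q).IsPrime := hQ.smul _
    obtain ⟨h, hh⟩ := Algebra.IsInvariant.exists_smul_of_under_eq R S H _ _ h1
    have h2 : (Quotient.out c' * (h : Γ) * (Quotient.out c)⁻¹) • Q = Q := by
      rw [mul_smul, mul_smul]
      have h3 : (h : Γ) • ((Quotient.out c)⁻¹ • Q) = (Quotient.out c')⁻¹ • Q := hh.symm
      rw [h3, smul_inv_smul]
    have := hfi Q hQ hpQ
    have := hur Q hQ hpQ
    obtain ⟨j, hj⟩ := stab_pow hp hpQ hφ h2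
    apply Subtype.ext
    show c = c'
    have h4 : Quotient.out c' * (h : Γ) = φ ^ j * Quotient.out c := by
      rw [← hj]; group
    have h5 : ∀ n : ℕ, φ ^ n • c = c := by
      intro n
      induction n with
      | zero => simp
      | succ n ih => rw [pow_succ, mul_smul, MulAction.mem_fixedBy.mp hc, ih]
    calc c = φ ^ j • c := (h5 j).symm
      _ = φ ^ j • (QuotientGroup.mk (Quotient.out c) : Γ ⧸ H) := by
          rw [QuotientGroup.out_eq']
      _ = QuotientGroup.mk (φ ^ j * Quotient.out c) := rfl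
      _ = QuotientGroup.mk (Quotient.out c' * (h : Γ)) := by rw [h4]
      _ = QuotientGroup.mk (Quotient.out c') := by
          rw [QuotientGroup.mk_mul_of_mem _ h.2]
      _ = c' := QuotientGroup.out_eq' c'
  · rintro ⟨I, hI⟩
    have hIp : I.IsPrime := Ideal.isPrime_of_irreducible_absNorm (by rw [hI]; exact hp)
    have hint : Algebra.IsIntegral R S := Algebra.IsInvariant.isIntegral R S H
    obtain ⟨⟨P, hP, hPI⟩⟩ := (inferInstance : Nonempty (I.primesOver S))
    have hPI' := hPI.over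
    have hpI : (p : R) ∈ I := by
      rw [← hI]; exact Ideal.absNorm_mem I
    have hpP : (p : S) ∈ P := by
      rw [hPI', Ideal.mem_under] at hpI
      simpa using hpI
    have hu : Q.under ℤ = P.under ℤ := by
      have h1 : ∀ P' : Ideal S, P'.IsPrime → (p : S) ∈ P' → P'.LiesOver (Ideal.span {(p : ℤ)}) := by
        intro P' hP' hpP'
        rw [Ideal.liesOver_span_iff hP'.ne_top (Nat.prime_iff_prime_int.mp hp)]
        simpa using hpP'
      rw [← (h1 Q hQ hpQ).over, ← (h1 P hP hpP).over]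
    obtain ⟨g, hg⟩ := Algebra.IsInvariant.exists_smul_of_under_eq ℤ S Γ Q P hu
    have := hfi P hP hpP
    have := hur P hP hpP
    obtain ⟨h, hh⟩ := IsArithFrobAt.exists_of_isInvariant R H P
    have hψ : IsArithFrobAt ℤ (g * φ * g⁻¹) P := by
      rw [hg]; exact hφ.conj g
    have hh' : IsArithFrobAt ℤ (h : Γ) P := by
      rw [frob_iff hp hpP]
      intro x
      have h1 := hh x
      have h2 : Nat.card (R ⧸ P.under R) = p := by
        rw [← hPI', ← Submodule.cardQuot_apply, ← Ideal.absNorm_apply, hI]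
      rw [h2] at h1
      exact h1
    have h3 := frob_unique hψ hh'
    have h4 : (g⁻¹)⁻¹ * φ * g⁻¹ ∈ H := by
      rw [inv_inv, h3]; exact h.2
    refine ⟨⟨QuotientGroup.mk g⁻¹, mem_fixedBy_mk.mpr h4⟩, ?_⟩
    apply Subtype.ext
    show ((Quotient.out (QuotientGroup.mk g⁻¹ : Γ ⧸ H))⁻¹ • Q).under R = I
    obtain ⟨h', hh'⟩ := QuotientGroup.mk_out_eq_mul H g⁻¹
    rw [hh', mul_inv_rev, mul_smul, inv_inv, ← hg]
    have h6 := Ideal.under_smul R P (h'⁻¹ : H)
    exact h6.trans hPI'.symm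

end abstract

section nf

variable {M : Type*} [Field M] [NumberField M]

theorem faithful_int : FaithfulSMul (M ≃ₐ[ℚ] M) (𝓞 M) := by
  constructor
  intro σ τ h
  ext x
  obtain ⟨a, b, hb, rfl⟩ := IsFractionRing.div_surjective (𝓞 M) x
  have h1 : ∀ (ρ : M ≃ₐ[ℚ] M) (c : 𝓞 M), ρ (algebraMap (𝓞 M) M c) = algebraMap (𝓞 M) M (ρ • c) :=
    fun ρ c => rfl
  rw [map_div₀, map_div₀, h1, h1, h1, h1, h a, h b]

theorem finite_quot {p : ℕ} (hp : p.Prime) (P : Ideal (𝓞 M)) (hpP : (p : 𝓞 M) ∈ P) :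
    Finite (𝓞 M ⧸ P) := by
  have : P ≠ ⊥ := by
    rintro rfl
    rw [Ideal.mem_bot] at hpP
    exact hp.ne_zero (by exact_mod_cast hpP)
  exact Ideal.finiteQuotientOfFreeOfNeBot P this

theorem unram {p : ℕ} (hp : p.Prime) (hpM : ¬ (p : ℤ) ∣ discr M) (P : Ideal (𝓞 M)) (_ : P.IsPrime)
    (hpP : (p : 𝓞 M) ∈ P) : Algebra.IsUnramifiedAt ℤ P :=
  (not_dvd_discr_iff_forall_mem M (𝓞 M) (Nat.prime_iff_prime_int.mp hp)).mp hpM P ‹_›
    (by simpa using hpP)

variable [IsGalois ℚ M]

/-- ideals of norm `p` in a subfield `E` of a Galois `M` -/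
theorem card_absNorm (H : Subgroup (M ≃ₐ[ℚ] M)) (E : Type*) [Field E] [NumberField E] [Algebra E M]
    [IsGaloisGroup H E M] {p : ℕ} (hp : p.Prime) (hpM : ¬ (p : ℤ) ∣ discr M)
    (Q : Ideal (𝓞 M)) [hQ : Q.IsPrime] (hpQ : (p : 𝓞 M) ∈ Q) (φ : M ≃ₐ[ℚ] M)
    (hφ : IsArithFrobAt ℤ φ Q) :
    Nat.card {I : Ideal (𝓞 E) // Ideal.absNorm I = p} = fx H φ := by
  have h1 : IsGaloisGroup H (𝓞 E) (𝓞 M) := IsGaloisGroup.of_isFractionRing H (𝓞 E) (𝓞 M) E M
  have h2 : Algebra.IsInvariant (𝓞 E) (𝓞 M) H := h1.isInvariant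
  have h3 : SMulCommClass H (𝓞 E) (𝓞 M) := h1.commutes
  have := faithful_int (M := M)
  exact card_absNorm_eq H (𝓞 E) hp (unram hp hpM) (fun P _ h => finite_quot hp P h) Q hpQ φ hφ



/-! ### the Frobenius family -/

omit [IsGalois ℚ M] in
theorem exists_prime_over {p : ℕ} (hp : p.Prime) :
    ∃ Q : Ideal (𝓞 M), Q.IsPrime ∧ (p : 𝓞 M) ∈ Q := by
  have hpr : (Ideal.span {(p : ℤ)}).IsPrime := by
    rw [Ideal.span_singleton_prime (by exact_mod_cast hp.ne_zero)]
    exact Nat.prime_iff_prime_int.mp hp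
  obtain ⟨⟨P, hP, hPI⟩⟩ := (inferInstance : Nonempty ((Ideal.span {(p : ℤ)}).primesOver (𝓞 M)))
  refine ⟨P, hP, ?_⟩
  have h1 : (p : ℤ) ∈ Ideal.span {(p : ℤ)} := Ideal.mem_span_singleton_self _
  rw [hPI.over, Ideal.mem_under] at h1
  simpa using h1

theorem exists_frob {p : ℕ} (hp : p.Prime) : ∃ (σ : M ≃ₐ[ℚ] M) (Q : Ideal (𝓞 M)),
    Q.IsPrime ∧ (p : 𝓞 M) ∈ Q ∧ IsArithFrobAt ℤ σ Q := by
  obtain ⟨Q, hQ, hpQ⟩ := exists_prime_over (M := M) hp
  have := finite_quot hp Q hpQ
  obtain ⟨σ, hσ⟩ := IsArithFrobAt.exists_of_isInvariant ℤ (M ≃ₐ[ℚ] M) Q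
  exact ⟨σ, Q, hQ, hpQ, hσ⟩

variable (M) in
open scoped Classical in
/-- a Frobenius at `p` (for some prime of `𝓞 M` over `p`); `1` if `p` is not prime -/
noncomputable def Fr (p : ℕ) : M ≃ₐ[ℚ] M :=
  if h : p.Prime then (exists_frob (M := M) h).choose else 1

theorem Fr_spec {p : ℕ} (hp : p.Prime) : ∃ Q : Ideal (𝓞 M),
    Q.IsPrime ∧ (p : 𝓞 M) ∈ Q ∧ IsArithFrobAt ℤ (Fr M p) Q := by
  unfold Fr
  rw [dif_pos hp]
  exact (exists_frob (M := M) hp).choose_spec

/-- **N1-FIX**: ideals of norm `p` of a field `E` with Galois group `H ≤ Gal(M/ℚ)` -/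
theorem card_absNorm_Fr (H : Subgroup (M ≃ₐ[ℚ] M)) (E : Type*) [Field E] [NumberField E]
    [Algebra E M] [IsGaloisGroup H E M] {p : ℕ} (hp : p.Prime) (hpM : ¬ (p : ℤ) ∣ discr M) :
    Nat.card {I : Ideal (𝓞 E) // Ideal.absNorm I = p} = fx H (Fr M p) := by
  obtain ⟨Q, hQ, hpQ, hφ⟩ := Fr_spec (M := M) hp
  exact card_absNorm H E hp hpM Q hpQ _ hφ

theorem isGaloisGroup_fixedField (H : Subgroup (M ≃ₐ[ℚ] M)) :
    IsGaloisGroup H (IntermediateField.fixedField H) M :=
  (inferInstance : IsGaloisGroup H (FixedPoints.intermediateField H : IntermediateField ℚ M) M)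

/-- **N1-FIX**, literal shape -/
theorem card_absNorm_fixedField (H : Subgroup (M ≃ₐ[ℚ] M)) {p : ℕ} (hp : p.Prime)
    (hpM : ¬ (p : ℤ) ∣ discr M) :
    Nat.card {I : Ideal (𝓞 (IntermediateField.fixedField H)) // Ideal.absNorm I = p} =
      fx H (Fr M p) := by
  have := isGaloisGroup_fixedField H
  exact card_absNorm_Fr H _ hp hpM





end nf

end Crest.Agent.R014.N1F_202
end

-- ▼ part R014/N1C_693
section

/-!
Row 14, Theorem N1: the restriction to `B` of an arithmetic Frobenius of `M ⊇ B` at an unramified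
prime is the Artin map `χ p` (characterised by the congruence `χ p x ≡ x ^ p mod p`).
-/

set_option autoImplicit false

open scoped NumberField
open NumberField

namespace Crest.Agent.R014.N1C_693

theorem restrict_frob {M B : Type*} [Field M] [NumberField M] [Field B] [NumberField B]
    [Algebra B M] {p : ℕ} (hp : p.Prime) (hdisc : ¬ (p : ℤ) ∣ discr B) (P : Ideal (𝓞 M))
    (hP : P.IsPrime) (hpP : (p : 𝓞 M) ∈ P) (σ : Gal(M/ℚ)) (hσ : ∀ x : 𝓞 M, σ • x - x ^ p ∈ P)
    (τ τ' : Gal(B/ℚ)) (hτ : ∀ x : B, algebraMap B M (τ x) = σ (algebraMap B M x))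
    (hτ' : ∀ x : B, IsIntegral ℤ x → ∃ y : B, IsIntegral ℤ y ∧ τ' x - x ^ p = p * y) :
    τ = τ' := by
  classical
  have hpZ : Prime (p : ℤ) := Nat.prime_iff_prime_int.mp hp
  let Q : Ideal (𝓞 B) := P.comap (algebraMap (𝓞 B) (𝓞 M))
  have hQ : Q.IsPrime := Ideal.comap_isPrime _ P
  have hpQ : (p : 𝓞 B) ∈ Q := by
    rw [Ideal.mem_comap, map_natCast]; exact hpP
  have hunr : Algebra.IsUnramifiedAt ℤ Q :=
    (not_dvd_discr_iff_forall_mem B (𝓞 B) hpZ).mp hdisc Q hQ (by exact_mod_cast hpQ)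
  have hover : Q.LiesOver (Ideal.span {(p : ℤ)}) :=
    (Ideal.liesOver_span_iff hQ.ne_top hpZ).mpr (by exact_mod_cast hpQ)
  have hcard : Nat.card (ℤ ⧸ Q.under ℤ) = p := by
    rw [← hover.over, Nat.card_congr (Int.quotientSpanNatEquivZMod p).toEquiv, Nat.card_zmod]
  let φ : 𝓞 B →ₐ[ℤ] 𝓞 B := MulSemiringAction.toAlgHom ℤ (𝓞 B) τ
  let ψ : 𝓞 B →ₐ[ℤ] 𝓞 B := MulSemiringAction.toAlgHom ℤ (𝓞 B) τ'
  have hφ : φ.IsArithFrobAt Q := by
    intro x
    rw [hcard, Ideal.mem_comap]
    have h1 := hσ (algebraMap (𝓞 B) (𝓞 M) x)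
    convert h1 using 1
    rw [map_sub, map_pow]
    congr 1
    apply RingOfIntegers.ext
    exact hτ x
  have hψ : ψ.IsArithFrobAt Q := by
    intro x
    rw [hcard]
    obtain ⟨y, hy, hy2⟩ := hτ' x x.isIntegral_coe
    obtain ⟨z, hz⟩ : ∃ z : 𝓞 B, algebraMap (𝓞 B) B z = y := ⟨⟨y, hy⟩, rfl⟩
    have h1 : ψ x - x ^ p = (p : 𝓞 B) * z := by
      apply RingOfIntegers.ext
      change algebraMap (𝓞 B) B _ = algebraMap (𝓞 B) B _
      rw [map_sub, map_pow, map_mul, map_natCast, hz]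
      exact hy2
    rw [h1]
    exact Ideal.mul_mem_right _ _ hpQ
  have heq : φ = ψ := hφ.eq_of_isUnramifiedAt hψ (by
    intro x hx
    rw [mem_nonZeroDivisors_iff_ne_zero]
    rintro rfl
    exact hx Q.zero_mem)
  -- conclude on B
  have hO : ∀ x : 𝓞 B, τ (x : B) = τ' (x : B) := by
    intro x
    have := congrArg (fun f : 𝓞 B →ₐ[ℤ] 𝓞 B => ((f x : 𝓞 B) : B)) heq
    exact this
  ext x
  obtain ⟨a, b, hb, rfl⟩ := IsFractionRing.div_surjective (A := 𝓞 B) x
  rw [map_div₀, map_div₀]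
  congr 1
  · exact hO a
  · exact hO b

end Crest.Agent.R014.N1C_693
end

-- ▼ part R014/N1E_479
section

/-!
N1-MAIN (row 14): existence of the auxiliary field `M` for every `K`.  Helper479.
-/

set_option autoImplicit false

universe u

namespace Crest.Agent.R014.N1E_479

open NumberField IntermediateField Crest.Agent.R014.LDef_550 Crest.Agent.R014.N1D_479
  Crest.Agent.R014

/-- the cyclic quotient of `(ZMod q)ˣ` of order `N` -/
abbrev AQ (q N : ℕ) : Type := (ZMod q)ˣ ⧸ (powMonoidHom N : (ZMod q)ˣ →* (ZMod q)ˣ).range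

section L

variable (Ω : Type) [Field Ω] [CharZero Ω] [IsAlgClosed Ω] (K : Type u) [Field K] [NumberField K]

/-- normal closure of `K` in `Ω` -/
noncomputable def LL : IntermediateField ℚ Ω := normalClosure ℚ K Ω

instance : FiniteDimensional ℚ (LL Ω K) := by unfold LL; infer_instance

instance : Normal ℚ (LL Ω K) := by
  unfold LL
  exact (Algebra.IsAlgebraic.isNormalClosure_normalClosure (F := ℚ) (K := K) (L := Ω)
    fun x => IsAlgClosed.splits _).normal

instance : IsGalois ℚ (LL Ω K) := ⟨⟩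

omit [IsAlgClosed Ω] in
theorem isTotallyReal_LL [IsTotallyReal K] : IsTotallyReal (LL Ω K) := by
  unfold LL
  rw [normalClosure_def]
  refine N1B_693.isTotallyReal_iSup _ fun φ => ?_
  exact IsTotallyReal.ofRingEquiv (AlgEquiv.ofInjectiveField φ).toRingEquiv

variable {Ω K} in
omit [IsAlgClosed Ω] in
theorem mem_LL (φ : K →ₐ[ℚ] Ω) (x : K) : φ x ∈ LL Ω K := by
  have h : φ.fieldRange ≤ normalClosure ℚ K Ω := φ.fieldRange_le_normalClosure
  exact h ⟨x, rfl⟩

instance : NumberField (LL Ω K) where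
  to_charZero := inferInstance
  to_finiteDimensional := inferInstance

omit [IsAlgClosed Ω] in
/-- the images of `K` generate `LL` -/
theorem iSup_LL : (⨆ φ : K →ₐ[ℚ] LL Ω K, φ.fieldRange) = ⊤ := by
  refine top_unique fun y _ => ?_
  set S : IntermediateField ℚ (LL Ω K) := ⨆ φ : K →ₐ[ℚ] LL Ω K, φ.fieldRange with hS
  have h : LL Ω K ≤ S.map (LL Ω K).val := by
    conv_lhs => unfold LL
    rw [normalClosure_def]
    refine iSup_le fun φ => ?_
    rintro _ ⟨x, rfl⟩
    let φ' : K →ₐ[ℚ] LL Ω K := φ.codRestrict (LL Ω K).toSubalgebra (mem_LL φ)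
    have h1 : φ'.fieldRange ≤ S := le_iSup (fun φ : K →ₐ[ℚ] LL Ω K => φ.fieldRange) φ'
    have h2 : φ' x ∈ S := h1 ⟨x, rfl⟩
    exact ⟨φ' x, h2, rfl⟩
  obtain ⟨z, hz, hzy⟩ := h y.2
  have : z = y := Subtype.ext hzy
  rw [← this]
  exact hz

/-- the order of the Galois group of the normal closure divides `n!` -/
theorem card_gal_dvd : Nat.card (LL Ω K ≃ₐ[ℚ] LL Ω K) ∣ (Module.finrank ℚ K).factorial := by
  classical
  let φ0 : K →ₐ[ℚ] Ω := IsAlgClosed.lift
  let φ' : K →ₐ[ℚ] LL Ω K := φ0.codRestrict (LL Ω K).toSubalgebra (mem_LL φ0)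
  have hcard : Nat.card (TwoTr3_853.Emb K (LL Ω K)) = Module.finrank ℚ K :=
    TwoTr3_853.card_emb (show TwoTr3_853.Emb K (LL Ω K) from φ')
  let ρ : (LL Ω K ≃ₐ[ℚ] LL Ω K) →* Equiv.Perm (TwoTr3_853.Emb K (LL Ω K)) :=
    MulAction.toPermHom _ _
  have hinj : Function.Injective ρ := by
    rw [injective_iff_map_eq_one]
    intro σ hσ
    apply TwoTr3_853.faithful_emb (iSup_LL Ω K) σ
    intro φ
    have : ρ σ φ = φ := by rw [hσ]; rfl
    exact this
  have h1 := Subgroup.card_dvd_of_injective ρ hinj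
  rwa [Nat.card_perm, hcard] at h1

end L

section M

variable {Ω : Type} [Field Ω] [CharZero Ω] {q N : ℕ} {B : IntermediateField ℚ Ω}

/-- `AQ q N` is the Galois group of `B` -/
noncomputable def eB (χB : (ZMod q)ˣ →* (B ≃ₐ[ℚ] B)) (hsurj : Function.Surjective χB)
    (hker : ∀ a, χB a = 1 ↔ ∃ b : (ZMod q)ˣ, b ^ N = a) : AQ q N ≃* (B ≃ₐ[ℚ] B) :=
  (QuotientGroup.quotientMulEquivOfEq (by
    ext a
    rw [MonoidHom.mem_range, MonoidHom.mem_ker, hker]
    rfl)).trans (QuotientGroup.quotientKerEquivOfSurjective χB hsurj)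

theorem eB_mk (χB : (ZMod q)ˣ →* (B ≃ₐ[ℚ] B)) (hsurj : Function.Surjective χB)
    (hker : ∀ a, χB a = 1 ↔ ∃ b : (ZMod q)ˣ, b ^ N = a) (a : (ZMod q)ˣ) :
    eB χB hsurj hker (QuotientGroup.mk a) = χB a := rfl

variable (K : Type u) [Field K] [NumberField K] [IsTotallyReal K] [IsAlgClosed Ω]

/-- the auxiliary field -/
theorem build (hN : (Module.finrank ℚ K).factorial = N)
    [FiniteDimensional ℚ B] [hgB : IsGalois ℚ B] (hB : IsTotallyReal B)
    (hBN : Module.finrank ℚ B = N)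
    (χB : (ZMod q)ˣ →* (B ≃ₐ[ℚ] B)) (hsurj : Function.Surjective χB)
    (hker : ∀ a, χB a = 1 ↔ ∃ b : (ZMod q)ˣ, b ^ N = a)
    (hfrob : ∀ (p : ℕ) (_ : p.Prime) (hpq : p.Coprime q) (x : B), IsIntegral ℤ x →
        ∃ y : B, IsIntegral ℤ y ∧ χB (ZMod.unitOfCoprime p hpq) x - x ^ p = p * y)
    (hdisj : (LL Ω K ⊓ B : IntermediateField ℚ Ω) = ⊥) :
    ∃ (M : Type) (_ : Field M) (_ : NumberField M) (_ : IsGalois ℚ M) (_ : IsTotallyReal M)
      (d : FldData M q (AQ q N)) (_ : K →ₐ[ℚ] M) (fB : B →ₐ[ℚ] M),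
      (∀ a, d.χ a = QuotientGroup.mk a) ∧
      Module.finrank ℚ M ≤ N * N ∧
      ((⨆ φ : K →ₐ[ℚ] M, φ.fieldRange) ⊔ fB.fieldRange = ⊤) ∧
      (∀ g : M ≃ₐ[ℚ] M, g ^ N = 1) ∧
      (∀ a : AQ q N, ∃ t, d.pr t = a ∧ ∀ (φ : K →ₐ[ℚ] M) (x : K), t (φ x) = φ x) := by
  obtain ⟨hgal, e, he⟩ := N1B_693.exists_galProd (LL Ω K) B hdisj
  have hfd : FiniteDimensional ℚ ↥(LL Ω K ⊔ B) := IntermediateField.finiteDimensional_sup _ _
  have hnf : NumberField ↥(LL Ω K ⊔ B) :=
    { to_charZero := inferInstance, to_finiteDimensional := hfd }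
  have htr : IsTotallyReal ↥(LL Ω K ⊔ B) :=
    N1B_693.isTotallyReal_sup _ _ (isTotallyReal_LL Ω K) hB
  have hLcard : Nat.card (LL Ω K ≃ₐ[ℚ] LL Ω K) ∣ N := hN ▸ card_gal_dvd Ω K
  have hBcard : Nat.card (B ≃ₐ[ℚ] B) ∣ N := by
    have h1 : Nat.card (B ≃ₐ[ℚ] B) = Module.finrank ℚ B := IsGalois.card_aut_eq_finrank _ _
    rw [h1, hBN]
  have hchi : ∀ (p : ℕ) (_ : p.Prime) (hpq : p.Coprime q),
      ¬ (p : ℤ) ∣ discr ↥(LL Ω K ⊔ B) →
      (e (N1F_202.Fr ↥(LL Ω K ⊔ B) p)).2 = χB (ZMod.unitOfCoprime p hpq) := by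
    intro p hp hpq hpM
    have hnB : NumberField B := { to_charZero := inferInstance, to_finiteDimensional := inferInstance }
    let _ : Algebra B ↥(LL Ω K ⊔ B) :=
      (IntermediateField.inclusion (le_sup_right : B ≤ LL Ω K ⊔ B)).toRingHom.toAlgebra
    obtain ⟨Q, hQ, hpQ, hφ⟩ := N1F_202.Fr_spec (M := ↥(LL Ω K ⊔ B)) hp
    have hdB : ¬ (p : ℤ) ∣ discr B := fun h => hpM (h.trans (discr_dvd_discr B ↥(LL Ω K ⊔ B)))
    refine N1C_693.restrict_frob hp hdB Q hQ hpQ (N1F_202.Fr ↥(LL Ω K ⊔ B) p) ?_ _ _ ?_ ?_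
    · intro x
      have hpZ : Prime (p : ℤ) := Nat.prime_iff_prime_int.mp hp
      have hover : Q.LiesOver (Ideal.span {(p : ℤ)}) :=
        (Ideal.liesOver_span_iff hQ.ne_top hpZ).mpr (by exact_mod_cast hpQ)
      have hcard : Nat.card (ℤ ⧸ Q.under ℤ) = p := by
        rw [← hover.over, Nat.card_congr (Int.quotientSpanNatEquivZMod p).toEquiv, Nat.card_zmod]
      have h1 := hφ x
      rw [hcard] at h1
      exact h1
    · intro x
      apply Subtype.ext
      exact (he _).2 x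
    · exact hfrob p hp hpq
  let d : FldData ↥(LL Ω K ⊔ B) q (AQ q N) :=
    { pr := (eB χB hsurj hker).symm.toMonoidHom.comp ((MonoidHom.snd _ _).comp e.toMonoidHom)
      χ := QuotientGroup.mk' _
      φ := N1F_202.Fr ↥(LL Ω K ⊔ B)
      hpr := by
        intro a
        refine ⟨e.symm (1, eB χB hsurj hker a), ?_⟩
        show (eB χB hsurj hker).symm (e (e.symm (1, eB χB hsurj hker a))).2 = a
        rw [MulEquiv.apply_symm_apply, MulEquiv.symm_apply_apply]
      hχs := QuotientGroup.mk'_surjective _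
      hfix := fun p hp hpM H => N1F_202.card_absNorm_fixedField H hp hpM
      hχ := by
        intro p hp hpq hpM
        show (eB χB hsurj hker).symm (e (N1F_202.Fr ↥(LL Ω K ⊔ B) p)).2 = _
        rw [hchi p hp hpq hpM, MulEquiv.symm_apply_eq]
        exact (eB_mk χB hsurj hker _).symm }
  let φ0 : K →ₐ[ℚ] Ω := IsAlgClosed.lift
  have hle : LL Ω K ≤ LL Ω K ⊔ B := le_sup_left
  let f : K →ₐ[ℚ] ↥(LL Ω K ⊔ B) :=
    φ0.codRestrict (LL Ω K ⊔ B).toSubalgebra fun x => hle (mem_LL φ0 x)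
  let fB : B →ₐ[ℚ] ↥(LL Ω K ⊔ B) := IntermediateField.inclusion le_sup_right
  refine ⟨↥(LL Ω K ⊔ B), inferInstance, hnf, hgal, htr, d, f, fB, fun a => rfl, ?_, ?_, ?_, ?_⟩
  · -- degree
    have h1 : Nat.card (↥(LL Ω K ⊔ B) ≃ₐ[ℚ] ↥(LL Ω K ⊔ B)) = Module.finrank ℚ ↥(LL Ω K ⊔ B) :=
      IsGalois.card_aut_eq_finrank _ _
    rw [← h1, Nat.card_congr e.toEquiv, Nat.card_prod]
    refine Nat.mul_le_mul ?_ ?_
    · exact Nat.le_of_dvd (by rw [← hN]; exact Nat.factorial_pos _) hLcard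
    · exact Nat.le_of_dvd (by rw [← hN]; exact Nat.factorial_pos _) hBcard
  · -- generation
    refine top_unique fun y _ => ?_
    set S : IntermediateField ℚ ↥(LL Ω K ⊔ B) :=
      (⨆ φ : K →ₐ[ℚ] ↥(LL Ω K ⊔ B), φ.fieldRange) ⊔ fB.fieldRange with hS
    have h : LL Ω K ⊔ B ≤ S.map (LL Ω K ⊔ B).val := by
      refine sup_le ?_ ?_
      · conv_lhs => unfold LL
        rw [normalClosure_def]
        refine iSup_le fun φ => ?_
        rintro _ ⟨x, rfl⟩
        let φ' : K →ₐ[ℚ] ↥(LL Ω K ⊔ B) :=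
          φ.codRestrict (LL Ω K ⊔ B).toSubalgebra fun x => hle (mem_LL φ x)
        have h1 : φ'.fieldRange ≤ S :=
          (le_iSup (fun φ : K →ₐ[ℚ] ↥(LL Ω K ⊔ B) => φ.fieldRange) φ').trans le_sup_left
        have h2 : φ' x ∈ S := h1 ⟨x, rfl⟩
        exact ⟨φ' x, h2, rfl⟩
      · intro x hx
        have h1 : fB.fieldRange ≤ S := le_sup_right
        have h2 : fB ⟨x, hx⟩ ∈ S := h1 ⟨⟨x, hx⟩, rfl⟩
        exact ⟨fB ⟨x, hx⟩, h2, rfl⟩
    obtain ⟨z, hz, hzy⟩ := h y.2
    have : z = y := Subtype.ext hzy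
    rw [← this]
    exact hz
  · intro g
    apply e.injective
    rw [map_pow, map_one]
    refine Prod.ext ?_ ?_
    · exact orderOf_dvd_iff_pow_eq_one.1 ((orderOf_dvd_natCard _).trans hLcard)
    · exact orderOf_dvd_iff_pow_eq_one.1 ((orderOf_dvd_natCard _).trans hBcard)
  · intro a
    refine ⟨e.symm (1, eB χB hsurj hker a), ?_, ?_⟩
    · show (eB χB hsurj hker).symm (e (e.symm (1, eB χB hsurj hker a))).2 = a
      rw [MulEquiv.apply_symm_apply, MulEquiv.symm_apply_apply]
    · intro φ x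
      set t := e.symm (1, eB χB hsurj hker a) with ht
      have h1 : e t = (1, eB χB hsurj hker a) := MulEquiv.apply_symm_apply _ _
      -- `φ x` lies in the normal closure
      let φ1 : K →ₐ[ℚ] Ω := (LL Ω K ⊔ B).val.comp φ
      have h2 : ((φ x : ↥(LL Ω K ⊔ B)) : Ω) ∈ LL Ω K := mem_LL φ1 x
      have h3 := (he t).1 ⟨_, h2⟩
      rw [h1] at h3
      apply Subtype.ext
      exact h3.symm

end M

section Exists

/-- everything that the final argument needs about the auxiliary field -/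
structure Aux (n : ℕ) (C : ℝ) (K : Type u) [Field K] [NumberField K] (q : ℕ) (M : Type) [Field M]
    [NumberField M] (d : FldData M q (AQ q n.factorial)) : Prop where
  hχ : ∀ a, d.χ a = QuotientGroup.mk a
  hdeg : Module.finrank ℚ M ≤ n.factorial * n.factorial
  hdisc : |(discr M : ℝ)| ≤ C * |(discr K : ℝ)| ^ C
  hexp : ∀ g : M ≃ₐ[ℚ] M, g ^ n.factorial = 1
  htriv : ∀ a : AQ q n.factorial, ∃ t, d.pr t = a ∧ ∀ (φ : K →ₐ[ℚ] M) (x : K), t (φ x) = φ x

/-- discriminant bound -/
theorem disc_bound (g n : ℕ) : ∃ C : ℝ, 1 ≤ C ∧ ∀ (K : Type u) [Field K] [NumberField K]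
    (B : Type) [Field B] [NumberField B] [IsTotallyReal B]
    (M : Type) [Field M] [NumberField M] [IsTotallyReal M] (fB : B →ₐ[ℚ] M) (X : ℝ),
    ((⨆ φ : K →ₐ[ℚ] M, φ.fieldRange) ⊔ fB.fieldRange = ⊤) → Module.finrank ℚ M ≤ g →
    Module.finrank ℚ K ≤ n → Module.finrank ℚ B ≤ n → 1 ≤ X →
    |(discr K : ℝ)| ≤ X → |(discr B : ℝ)| ≤ X → |(discr M : ℝ)| ≤ C * X ^ C := by
  obtain ⟨C, hC1, hC⟩ := N1D_693.discr_le_rpow.{0, u, 0, 0} g n
  refine ⟨C, hC1, ?_⟩
  intro K _ _ B _ _ _ M _ _ _ fB X hgen hg hK hB hX1 hXK hXB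
  let F : Option (K →ₐ[ℚ] M) → IntermediateField ℚ M := fun o =>
    o.elim fB.fieldRange (fun φ => φ.fieldRange)
  have hnf : ∀ o, NumberField (F o) := fun o =>
    { to_charZero := inferInstance, to_finiteDimensional := inferInstance }
  refine hC M (Option (K →ₐ[ℚ] M)) (fun o => ↥(F o)) (fun o => (F o).val) M X ?_ hg ?_ hX1 ?_
  · rw [← hgen, iSup_option, sup_comm]
    congr 1
    · congr 1
      funext φ
      exact IntermediateField.fieldRange_val _
    · exact IntermediateField.fieldRange_val _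
  · intro o
    cases o with
    | none =>
      refine le_trans (le_of_eq ?_) hB
      exact (LinearEquiv.finrank_eq (AlgEquiv.ofInjectiveField fB).toLinearEquiv).symm
    | some φ =>
      refine le_trans (le_of_eq ?_) hK
      exact (LinearEquiv.finrank_eq (AlgEquiv.ofInjectiveField φ).toLinearEquiv).symm
  · intro o
    cases o with
    | none =>
      refine le_trans (le_of_eq ?_) hXB
      have e : B ≃+* ↥(F none) := (AlgEquiv.ofInjectiveField fB).toRingEquiv
      have := discr_eq_discr_of_ringEquiv B e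
      exact congrArg (fun z : ℤ => |(z : ℝ)|) this.symm
    | some φ =>
      refine le_trans (le_of_eq ?_) hXK
      have e : K ≃+* ↥(F (some φ)) := (AlgEquiv.ofInjectiveField φ).toRingEquiv
      have := discr_eq_discr_of_ringEquiv K e
      exact congrArg (fun z : ℤ => |(z : ℝ)|) this.symm

theorem real_aux {C DB D : ℝ} (hC : 1 ≤ C) (hDB : 1 ≤ DB) (hD : 1 ≤ D) :
    C * (DB * D) ^ C ≤ (C * DB ^ C) * D ^ (C * DB ^ C) := by
  have h1 : 1 ≤ DB ^ C := Real.one_le_rpow hDB (by linarith)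
  rw [Real.mul_rpow (by linarith) (by linarith), ← mul_assoc]
  refine mul_le_mul_of_nonneg_left ?_ (by positivity)
  exact Real.rpow_le_rpow_of_exponent_le hD (le_mul_of_one_le_right (by linarith) h1)

/-- existence of the auxiliary field -/
theorem exists_data (n : ℕ) : ∃ (Qs : Finset ℕ) (C : ℝ), 1 ≤ C ∧
    (∀ q ∈ Qs, q.Prime ∧ 2 * n.factorial ∣ q - 1) ∧
    ∀ (K : Type u) [Field K] [NumberField K] [IsTotallyReal K], Module.finrank ℚ K = n →
      ∃ q ∈ Qs, ∃ (M : Type) (_ : Field M) (_ : NumberField M) (_ : IsGalois ℚ M)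
        (_ : IsTotallyReal M) (d : FldData M q (AQ q n.factorial)) (_ : K →ₐ[ℚ] M),
        Aux n C K q M d := by
  classical
  set N : ℕ := n.factorial with hNdef
  have hN0 : N ≠ 0 := Nat.factorial_ne_zero _
  obtain ⟨Qs, hQcard, hQs⟩ := N1Q_693.exists_primes (2 * N) (by omega) (2 ^ N + 1)
  have hQ : ∀ q ∈ Qs, q.Prime ∧ 2 * N ∣ q - 1 := by
    intro q hq
    obtain ⟨h1, h2⟩ := hQs q hq
    exact ⟨h1, (Nat.modEq_iff_dvd' h1.one_lt.le).1 h2.symm⟩
  let Ω := AlgebraicClosure ℚ
  have hζ : ∀ q : ℕ, ∃ ζ : Ω, q ∈ Qs → IsPrimitiveRoot ζ q := by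
    intro q
    by_cases hq : q ∈ Qs
    · have hq0 : NeZero q := ⟨(hQ q hq).1.ne_zero⟩
      have hq1 : NeZero (q : Ω) := ⟨by exact_mod_cast (hQ q hq).1.ne_zero⟩
      obtain ⟨ζ, hζ⟩ := HasEnoughRootsOfUnity.exists_primitiveRoot Ω q
      exact ⟨ζ, fun _ => hζ⟩
    · exact ⟨1, fun h => absurd h hq⟩
  choose ζ hζ using hζ
  have hBex : ∀ q : Qs, _ := fun q => N1B_693.exists_B (N := N) (hQ q q.2).1 (hQ q q.2).2 (hζ q q.2)
  choose B hBfd hBgal χB hBle hBdeg hBreal hBsurj hBker hBfrob using hBex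
  have hBnf : ∀ q, NumberField (B q) := fun q =>
    { to_charZero := inferInstance, to_finiteDimensional := hBfd q }
  obtain ⟨C, hC1, hC⟩ := disc_bound.{u} (N * N) (n + N)
  set DB : ℝ := 1 + ∑ q : Qs, |(discr (B q) : ℝ)| with hDB
  have hDB1 : 1 ≤ DB := by
    have : 0 ≤ ∑ q : Qs, |(discr (B q) : ℝ)| := Finset.sum_nonneg fun q _ => abs_nonneg _
    linarith
  have hDBC : 1 ≤ DB ^ C := Real.one_le_rpow hDB1 (by linarith)
  refine ⟨Qs, C * DB ^ C, one_le_mul_of_one_le_of_one_le hC1 hDBC, hQ, ?_⟩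
  intro K _ _ _ hK
  have hLdeg : Module.finrank ℚ (LL Ω K) ≤ N := by
    have h1 : Nat.card (LL Ω K ≃ₐ[ℚ] LL Ω K) = Module.finrank ℚ (LL Ω K) :=
      IsGalois.card_aut_eq_finrank _ _
    rw [← h1]
    refine Nat.le_of_dvd (Nat.pos_of_ne_zero hN0) ?_
    rw [hNdef, ← hK]
    exact card_gal_dvd Ω K
  obtain ⟨q, hq, hqL⟩ := N1Q_693.exists_disjoint (LL Ω K) Qs (fun q hq => (hQ q hq).1) (by
    rw [hQcard]
    exact Nat.lt_succ_of_le (Nat.pow_le_pow_right (by norm_num) hLdeg)) ζ hζ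
  have hdisj : (LL Ω K ⊓ B ⟨q, hq⟩ : IntermediateField ℚ Ω) = ⊥ := by
    rw [eq_bot_iff, ← hqL, inf_comm]
    exact inf_le_inf_right _ (hBle ⟨q, hq⟩)
  have hfd := hBfd ⟨q, hq⟩
  have hgal := hBgal ⟨q, hq⟩
  obtain ⟨M, i1, i2, i3, i4, d, f, fB, h1, h2, h3, h4, h5⟩ :=
    build (Ω := Ω) (q := q) (N := N) K (by rw [hK]) (hBreal ⟨q, hq⟩) (hBdeg ⟨q, hq⟩)
      (χB ⟨q, hq⟩) (hBsurj ⟨q, hq⟩) (hBker ⟨q, hq⟩) (hBfrob ⟨q, hq⟩) hdisj
  refine ⟨q, hq, M, i1, i2, i3, i4, d, f, ?_⟩
  refine { hχ := h1, hdeg := h2, hdisc := ?_, hexp := h4, htriv := h5 }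
  have hD1 : (1 : ℝ) ≤ |(discr K : ℝ)| := by
    have : (1 : ℤ) ≤ |discr K| := Int.one_le_abs (discr_ne_zero K)
    exact_mod_cast this
  have hBr := hBreal ⟨q, hq⟩
  have k1 : Module.finrank ℚ K ≤ n + N := by omega
  have k2 : Module.finrank ℚ (B ⟨q, hq⟩) ≤ n + N := by rw [hBdeg]; omega
  have k3 : 1 ≤ DB * |(discr K : ℝ)| := one_le_mul_of_one_le_of_one_le hDB1 hD1
  have k4 : |(discr K : ℝ)| ≤ DB * |(discr K : ℝ)| := le_mul_of_one_le_left (abs_nonneg _) hDB1
  have k5 : |(discr (B ⟨q, hq⟩) : ℝ)| ≤ DB * |(discr K : ℝ)| := by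
    have h7 : |(discr (B ⟨q, hq⟩) : ℝ)| ≤ ∑ q : Qs, |(discr (B q) : ℝ)| :=
      Finset.single_le_sum (f := fun q : Qs => |(discr (B q) : ℝ)|)
        (fun q _ => abs_nonneg _) (Finset.mem_univ _)
    have h8 : DB ≤ DB * |(discr K : ℝ)| := le_mul_of_one_le_right (by linarith) hD1
    linarith
  have h6 : |(discr M : ℝ)| ≤ C * (DB * |(discr K : ℝ)|) ^ C :=
    hC K (B ⟨q, hq⟩) M fB (DB * |(discr K : ℝ)|) h3 h2 k1 k2 k3 k4 k5
  exact h6.trans (real_aux hC1 hDB1 hD1)

end Exists

end Crest.Agent.R014.N1E_479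
end

-- ▼ part R014/N1Br_652
section

/-!
Row 14, theorem N1: the bridge between sums over primes and sums over the Galois group
(helper652).  `phi p : Γ` is a Frobenius of the prime `p` (only used for `p ∤ B`),
`V phi B s x = ∑_{p ∤ B, phi p = x} p^{-1-s}`.
-/

set_option autoImplicit false

namespace Crest.Agent.R014.N1Br_652

open Finset

section Bridge

variable {Γ : Type*} (phi : ℕ → Γ) (B : ℕ)

open scoped Classical in
/-- one term of `V` -/
noncomputable def vt (s : ℝ) (x : Γ) (p : Nat.Primes) : ℝ :=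
  if ¬ (p : ℕ) ∣ B ∧ phi p = x then ((p : ℕ) : ℝ) ^ (-(1 + s)) else 0

/-- the mass of the primes with Frobenius `x` -/
noncomputable def V (s : ℝ) (x : Γ) : ℝ := ∑' p : Nat.Primes, vt phi B s x p

theorem vt_nonneg (s : ℝ) (x : Γ) (p : Nat.Primes) : 0 ≤ vt phi B s x p := by
  unfold vt; split_ifs <;> positivity

theorem V_nonneg (s : ℝ) (x : Γ) : 0 ≤ V phi B s x := tsum_nonneg fun _ => vt_nonneg _ _ _ _ _

theorem vt_le (s : ℝ) (x : Γ) (p : Nat.Primes) :
    vt phi B s x p ≤ ((p : ℕ) : ℝ) ^ (-(1 + s)) := by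
  unfold vt; split_ifs
  · exact le_rfl
  · positivity

theorem summable_primes {s : ℝ} (hs : 0 < s) :
    Summable fun p : Nat.Primes => ((p : ℕ) : ℝ) ^ (-(1 + s)) :=
  Nat.Primes.summable_rpow.mpr (by linarith)

theorem summable_vt {s : ℝ} (hs : 0 < s) (x : Γ) : Summable (vt phi B s x) :=
  Summable.of_nonneg_of_le (vt_nonneg _ _ _ _) (vt_le _ _ _ _) (summable_primes hs)

theorem pow_le_inv {s : ℝ} (hs : 0 < s) (p : Nat.Primes) :
    ((p : ℕ) : ℝ) ^ (-(1 + s)) ≤ 1 / (p : ℕ) := by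
  have h1 : (1 : ℝ) ≤ (p : ℕ) := by exact_mod_cast p.2.one_le
  calc ((p : ℕ) : ℝ) ^ (-(1 + s)) ≤ ((p : ℕ) : ℝ) ^ (-1 : ℝ) :=
        Real.rpow_le_rpow_of_exponent_le h1 (by linarith)
    _ = 1 / (p : ℕ) := by rw [Real.rpow_neg_one, one_div]

/-- the finite set of bad primes -/
noncomputable def badP : Finset Nat.Primes := B.primeFactors.attach.map
  ⟨fun p => ⟨p.1, Nat.prime_of_mem_primeFactors p.2⟩, fun p q h => by
    apply Subtype.ext
    have := congrArg (fun r : Nat.Primes => (r : ℕ)) h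
    exact this⟩

theorem mem_badP (hB : B ≠ 0) {p : Nat.Primes} : p ∈ badP B ↔ (p : ℕ) ∣ B := by
  unfold badP
  rw [Finset.mem_map]
  constructor
  · rintro ⟨⟨q, hq⟩, -, rfl⟩
    exact Nat.dvd_of_mem_primeFactors hq
  · intro h
    exact ⟨⟨p, Nat.mem_primeFactors.mpr ⟨p.2, h, hB⟩⟩, Finset.mem_attach _ _, rfl⟩

theorem sum_badP : ∑ p ∈ badP B, (1 / ((p : ℕ) : ℝ)) = ∑ p ∈ B.primeFactors, 1 / (p : ℝ) := by
  unfold badP
  rw [Finset.sum_map]
  exact Finset.sum_attach B.primeFactors (fun p => 1 / (p : ℝ))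

/-- the error of the bad primes -/
noncomputable def bad : ℝ := 3 + Real.log (1 + Real.log B)

theorem sum_badP_le (hB : B ≠ 0) : ∑ p ∈ badP B, (1 / ((p : ℕ) : ℝ)) ≤ bad B := by
  rw [sum_badP]
  exact N1P_693.sum_primeFactors_le hB

variable [Fintype Γ]

open scoped Classical in
/-- sums over good primes are sums over the group -/
theorem sum_good {s : ℝ} (hs : 0 < s) (G : Γ → ℝ) :
    HasSum (fun p : Nat.Primes => if ¬ (p : ℕ) ∣ B then
      ((p : ℕ) : ℝ) ^ (-(1 + s)) * G (phi p) else 0) (∑ y, V phi B s y * G y) := by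
  have h1 : (fun p : Nat.Primes => if ¬ (p : ℕ) ∣ B then
      ((p : ℕ) : ℝ) ^ (-(1 + s)) * G (phi p) else 0) =
      fun p => ∑ y, vt phi B s y p * G y := by
    funext p
    by_cases hp : (p : ℕ) ∣ B
    · rw [if_neg (by simpa using hp)]
      symm
      refine Finset.sum_eq_zero fun y _ => ?_
      unfold vt
      rw [if_neg (fun h => h.1 hp), zero_mul]
    · rw [if_pos hp, Finset.sum_eq_single (phi p)]
      · unfold vt
        rw [if_pos ⟨hp, rfl⟩]
      · intro y _ hy
        unfold vt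
        rw [if_neg (fun h => hy h.2.symm), zero_mul]
      · intro h; exact absurd (Finset.mem_univ _) h
  rw [h1]
  exact hasSum_sum fun y _ => (summable_vt phi B hs y).hasSum.mul_right (G y)

/-- **Bridge**: a sum over all primes whose terms at the good primes only depend on the Frobenius
is the corresponding sum over the group, up to the contribution of the bad primes. -/
theorem bridge (hB : B ≠ 0) {s : ℝ} (hs : 0 < s) (G : Γ → ℝ) (a : Nat.Primes → ℝ) (d : ℝ)
    (hd : ∀ p, |a p| ≤ d) (hgood : ∀ p : Nat.Primes, ¬ (p : ℕ) ∣ B → a p = G (phi p)) :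
    Summable (fun p : Nat.Primes => a p * ((p : ℕ) : ℝ) ^ (-(1 + s))) ∧
    |∑' p : Nat.Primes, a p * ((p : ℕ) : ℝ) ^ (-(1 + s)) - ∑ y, V phi B s y * G y| ≤
      d * bad B := by
  classical
  have hsum := sum_good phi B hs G
  have hbad : HasSum (fun p : Nat.Primes => if (p : ℕ) ∣ B then
      a p * ((p : ℕ) : ℝ) ^ (-(1 + s)) else 0)
      (∑ p ∈ badP B, a p * ((p : ℕ) : ℝ) ^ (-(1 + s))) := by
    have h1 : ∑ p ∈ badP B, a p * ((p : ℕ) : ℝ) ^ (-(1 + s)) =
        ∑ p ∈ badP B, (if (p : ℕ) ∣ B then a p * ((p : ℕ) : ℝ) ^ (-(1 + s)) else 0) := by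
      refine Finset.sum_congr rfl fun p hp => ?_
      rw [if_pos ((mem_badP B hB).mp hp)]
    rw [h1]
    refine hasSum_sum_of_ne_finset_zero fun p hp => ?_
    rw [if_neg fun h => hp ((mem_badP B hB).mpr h)]
  have htot := hsum.add hbad
  have he : (fun p : Nat.Primes => (if ¬ (p : ℕ) ∣ B then
      ((p : ℕ) : ℝ) ^ (-(1 + s)) * G (phi p) else 0) + (if (p : ℕ) ∣ B then
      a p * ((p : ℕ) : ℝ) ^ (-(1 + s)) else 0)) =
      fun p => a p * ((p : ℕ) : ℝ) ^ (-(1 + s)) := by
    funext p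
    by_cases hp : (p : ℕ) ∣ B
    · simp [hp]
    · simp only [hp, not_false_iff, if_true, if_false, add_zero]
      rw [hgood p hp]; ring
  rw [he] at htot
  refine ⟨htot.summable, ?_⟩
  rw [htot.tsum_eq, add_sub_cancel_left]
  have hd0 : 0 ≤ d := (abs_nonneg _).trans (hd ⟨2, Nat.prime_two⟩)
  calc |∑ p ∈ badP B, a p * ((p : ℕ) : ℝ) ^ (-(1 + s))|
      ≤ ∑ p ∈ badP B, |a p * ((p : ℕ) : ℝ) ^ (-(1 + s))| := Finset.abs_sum_le_sum_abs _ _
    _ ≤ ∑ p ∈ badP B, d * (1 / ((p : ℕ) : ℝ)) := by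
        refine Finset.sum_le_sum fun p _ => ?_
        rw [abs_mul, abs_of_nonneg (by positivity : (0 : ℝ) ≤ ((p : ℕ) : ℝ) ^ (-(1 + s)))]
        exact mul_le_mul (hd p) (pow_le_inv hs p) (by positivity) hd0
    _ = d * ∑ p ∈ badP B, (1 / ((p : ℕ) : ℝ)) := by rw [Finset.mul_sum]
    _ ≤ d * bad B := mul_le_mul_of_nonneg_left (sum_badP_le B hB) hd0

end Bridge

section Field

open NumberField Crest.Agent.R014.N1G_202 Crest.Agent.R014.LDef_550 Crest.Agent.R014.N1C_479
  Crest.Agent.R014.N1D_479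

/-- The number of ideals of prime norm is at most the degree. -/
theorem rE_prime_le (E : Type*) [Field E] [NumberField E] {p : ℕ} (hp : p.Prime) :
    rE E p ≤ Module.finrank ℚ E := by
  classical
  unfold rE
  have hfin : {I : Ideal (𝓞 E) | Ideal.absNorm I = p}.Finite := by
    refine (Ic2_550.finite_norm_le (E := E) p).subset ?_
    intro I hI
    refine ⟨?_, ?_⟩
    · rintro rfl
      have h1 : Ideal.absNorm (⊥ : Ideal (𝓞 E)) = p := hI
      rw [Ideal.absNorm_bot] at h1
      exact hp.ne_zero h1.symm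
    · have h1 : Ideal.absNorm I = p := hI
      rw [h1]
  have h1 : Nat.card {I : Ideal (𝓞 E) // Ideal.absNorm I = p} = hfin.toFinset.card := by
    have : Nat.card {I : Ideal (𝓞 E) // Ideal.absNorm I = p} =
        Set.ncard {I : Ideal (𝓞 E) | Ideal.absNorm I = p} := rfl
    rw [this, Set.ncard_eq_toFinset_card _ hfin]
  rw [h1]
  refine Ic2_550.card_above_le (p := p) hfin.toFinset fun P hP => ?_
  have h2 : Ideal.absNorm P = p := (hfin.mem_toFinset).mp hP
  have h3 : P.IsPrime := Ideal.isPrime_of_irreducible_absNorm (by rw [h2]; exact hp)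
  refine ⟨h3, ?_, ?_⟩
  · rintro rfl
    rw [Ideal.absNorm_bot] at h2
    exact hp.ne_zero h2.symm
  · rw [h2, hp.minFac_eq]

/-- The Euler product input (helper534's EUL). -/
def EulE (C : ℝ) (E : Type) [Field E] [NumberField E] : Prop :=
  ∀ s ∈ Set.Ioc (0:ℝ) 1,
    (zE E s ≠ 0 ∧ |Real.log (zE E s) -
      ∑' p : Nat.Primes, (rE E p : ℝ) * ((p : ℕ) : ℝ) ^ (-(1 + s))| ≤ C) ∧
    ∀ (q : ℕ) (_ : NeZero q) (ψ : DirichletCharacter ℂ q), LEpsi E ψ s ≠ 0 ∧
      |Real.log ‖LEpsi E ψ s‖ -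
        ∑' p : Nat.Primes, ((ψ ((p : ℕ) : ZMod q)).re * (rE E p : ℝ)) *
          ((p : ℕ) : ℝ) ^ (-(1 + s))| ≤ C

variable {M : Type} [Field M] [NumberField M] {q : ℕ} {A : Type} [CommGroup A]

/-- the bad modulus -/
noncomputable def Bm (M : Type) [Field M] [NumberField M] (q : ℕ) : ℕ := q * (discr M).natAbs

theorem Bm_ne_zero (hq : q ≠ 0) : Bm M q ≠ 0 := by
  unfold Bm
  exact mul_ne_zero hq (Int.natAbs_ne_zero.mpr (discr_ne_zero M))

theorem good_iff {p : ℕ} (hp : p.Prime) : Good M q p ↔ ¬ p ∣ Bm M q := by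
  unfold Good Bm
  rw [hp.dvd_mul, not_or, ← hp.coprime_iff_not_dvd, ← Int.natCast_dvd]
  exact ⟨fun h => h.2, fun h => ⟨hp, h⟩⟩

theorem V_eq (d : FldData M q A) (s : ℝ) (x : M ≃ₐ[ℚ] M) : d.V s x = V d.φ (Bm M q) s x := by
  classical
  unfold FldData.V V
  have h : ∀ n : ℕ, (if Good M q n ∧ d.φ n = x then (n : ℝ) ^ (-(1 + s)) else 0) =
      Set.indicator {p : ℕ | p.Prime} (fun n : ℕ => if Good M q n ∧ d.φ n = x then
        (n : ℝ) ^ (-(1 + s)) else 0) n := by
    intro n
    by_cases hn : n.Prime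
    · rw [Set.indicator_of_mem (by exact hn)]
    · rw [Set.indicator_of_notMem (by exact hn), if_neg fun h => hn h.1.1]
  have h2 : (∑' n : ℕ, (if Good M q n ∧ d.φ n = x then (n : ℝ) ^ (-(1 + s)) else 0)) =
      ∑' p : Nat.Primes, (if Good M q p ∧ d.φ p = x then ((p : ℕ) : ℝ) ^ (-(1 + s)) else 0) := by
    rw [tsum_congr h]
    exact (tsum_subtype {p : ℕ | p.Prime} (fun n : ℕ => if Good M q n ∧ d.φ n = x then
        (n : ℝ) ^ (-(1 + s)) else 0)).symm
  refine Eq.trans ?_ (Eq.trans h2 ?_)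
  · exact tsum_congr fun n => by congr
  · refine tsum_congr fun p => ?_
    unfold vt
    have h3 : (Good M q p ∧ d.φ p = x) ↔ (¬ (p : ℕ) ∣ Bm M q ∧ d.φ p = x) := by
      rw [good_iff p.2]
    by_cases h4 : Good M q p ∧ d.φ p = x
    · rw [if_pos h4, if_pos (h3.mp h4)]
    · rw [if_neg h4, if_neg (fun h => h4 (h3.mpr h))]

theorem finrank_fixed_le (H : Subgroup (M ≃ₐ[ℚ] M)) :
    Module.finrank ℚ (IntermediateField.fixedField H) ≤ Module.finrank ℚ M := by
  have h1 := Module.finrank_mul_finrank ℚ (IntermediateField.fixedField H) M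
  rw [← h1]
  exact Nat.le_mul_of_pos_right _ Module.finrank_pos

theorem bad_le (hq : q ≠ 0) : bad (Bm M q) ≤
    3 + Real.log (1 + Real.logb 2 (q * |(discr M : ℝ)|)) := by
  unfold bad
  have h0 : (Bm M q : ℝ) = q * |(discr M : ℝ)| := by
    unfold Bm
    push_cast
    rw [Nat.cast_natAbs]
    push_cast
    rfl
  rw [h0]
  have h1 : (1 : ℝ) ≤ q * |(discr M : ℝ)| := by
    rw [← h0]
    exact_mod_cast Nat.one_le_iff_ne_zero.mpr (Bm_ne_zero (M := M) hq)
  have h2 : 0 ≤ Real.log (q * |(discr M : ℝ)|) := Real.log_nonneg h1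
  have h3 : Real.log (q * |(discr M : ℝ)|) ≤ Real.logb 2 (q * |(discr M : ℝ)|) := by
    rw [Real.logb, le_div_iff₀ (Real.log_pos one_lt_two)]
    have := Real.log_two_lt_d9
    nlinarith
  have h4 : Real.log (1 + Real.log (q * |(discr M : ℝ)|)) ≤
      Real.log (1 + Real.logb 2 (q * |(discr M : ℝ)|)) :=
    Real.log_le_log (by linarith) (by linarith)
  linarith

/-- **BRIDGE.** -/
theorem bridge_fld {C0 : ℝ} (hq : q ≠ 0) (d : FldData M q A)
    (hE : ∀ H : Subgroup (M ≃ₐ[ℚ] M), EulE C0 (IntermediateField.fixedField H)) :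
    Bridge (C0 + 3 * Module.finrank ℚ M) d := by
  classical
  intro H ψ s hs
  have hqz : NeZero q := ⟨hq⟩
  obtain ⟨⟨hz0, hz⟩, hL⟩ := hE H s hs
  set E := IntermediateField.fixedField H with hEdef
  -- the two cases have a common form
  have key : ∀ (a : Nat.Primes → ℝ) (w : ℝ),
      (∀ p, |a p| ≤ Module.finrank ℚ M) →
      (∀ p : Nat.Primes, ¬ (p : ℕ) ∣ Bm M q →
        a p = (fx H (d.φ p) : ℝ) * ((ψ (d.pr (d.φ p)) : ℂˣ) : ℂ).re) →
      |w - ∑' p : Nat.Primes, a p * ((p : ℕ) : ℝ) ^ (-(1 + s))| ≤ C0 →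
      |w - R d.pr (d.V s) H ψ| ≤ C0 + 3 * Module.finrank ℚ M +
        Module.finrank ℚ M * Real.log (1 + Real.logb 2 (q * |(discr M : ℝ)|)) := by
    intro a w ha hg hw
    have h1 := (bridge d.φ (Bm M q) (Bm_ne_zero hq) hs.1
      (fun y => (fx H y : ℝ) * ((ψ (d.pr y) : ℂˣ) : ℂ).re) a (Module.finrank ℚ M) ha hg).2
    have h2 : R d.pr (d.V s) H ψ =
        ∑ y, V d.φ (Bm M q) s y * ((fx H y : ℝ) * ((ψ (d.pr y) : ℂˣ) : ℂ).re) := by
      rw [R_eq]
      refine Finset.sum_congr rfl fun y _ => ?_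
      rw [V_eq]; ring
    rw [← h2] at h1
    have h3 : (Module.finrank ℚ M : ℝ) * bad (Bm M q) ≤ Module.finrank ℚ M *
        (3 + Real.log (1 + Real.logb 2 (q * |(discr M : ℝ)|))) :=
      mul_le_mul_of_nonneg_left (bad_le hq) (Nat.cast_nonneg _)
    have h4 := abs_sub_le w (∑' p : Nat.Primes, a p * ((p : ℕ) : ℝ) ^ (-(1 + s)))
      (R d.pr (d.V s) H ψ)
    linarith
  have hrE : ∀ p : Nat.Primes, (rE E p : ℝ) ≤ Module.finrank ℚ M := fun p => by
    exact_mod_cast (rE_prime_le E p.2).trans (finrank_fixed_le H)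
  have hgood : ∀ p : Nat.Primes, ¬ (p : ℕ) ∣ Bm M q → (rE E p : ℝ) = (fx H (d.φ p) : ℝ) := by
    intro p hp
    have h1 := (good_iff (M := M) (q := q) p.2).mpr hp
    exact_mod_cast d.hfix p p.2 h1.2.2 H
  unfold FldData.F
  by_cases hψ : ψ = 1
  · rw [if_pos hψ]
    refine ⟨by exact_mod_cast hz0, ?_⟩
    rw [Complex.norm_real, Real.norm_eq_abs, Real.log_abs]
    refine key (fun p => (rE E p : ℝ)) _ (fun p => ?_) (fun p hp => ?_) hz
    · rw [abs_of_nonneg (Nat.cast_nonneg _)]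
      exact hrE p
    · rw [hgood p hp, hψ]
      simp
  · rw [if_neg hψ]
    obtain ⟨h1, h2⟩ := hL q hqz (d.dir ψ)
    refine ⟨h1, key (fun p => ((d.dir ψ) ((p : ℕ) : ZMod q)).re * (rE E p : ℝ)) _ (fun p => ?_)
      (fun p hp => ?_) h2⟩
    · rw [abs_mul, abs_of_nonneg (Nat.cast_nonneg (rE E p) : (0 : ℝ) ≤ (rE E p : ℝ))]
      calc |((d.dir ψ) ((p : ℕ) : ZMod q)).re| * (rE E p : ℝ)
          ≤ 1 * (rE E p : ℝ) := by
            refine mul_le_mul_of_nonneg_right ?_ (Nat.cast_nonneg _)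
            exact (Complex.abs_re_le_norm _).trans (DirichletCharacter.norm_le_one _ _)
        _ ≤ _ := by rw [one_mul]; exact hrE p
    · have h3 := (good_iff (M := M) (q := q) p.2).mpr hp
      have h4 : ((p : ℕ) : ZMod q) = ((ZMod.unitOfCoprime p h3.2.1 : (ZMod q)ˣ) : ZMod q) :=
        (ZMod.coe_unitOfCoprime _ _).symm
      rw [hgood p hp, h4]
      unfold FldData.dir
      rw [MulChar.ofUnitHom_coe, d.hχ p p.2 h3.2.1 h3.2.2, mul_comm]
      rfl

end Field

end Crest.Agent.R014.N1Br_652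
end

-- ▼ part R014/N1Nt_652
section

/-!
Row 14, theorem N1: nontriviality of `psi ∘ N` on `E = M^⟨g⟩` (helper652), from the simple poles of the
zeta functions of `E` and of one extension.
-/

set_option autoImplicit false

namespace Crest.Agent.R014.N1Nt_652

open NumberField Filter Topology Crest.Agent.R014.N1G_202 Crest.Agent.R014.LDef_550
  Crest.Agent.R014.N1C_479 Crest.Agent.R014.N1D_479

/-! ### The simple pole -/

theorem zE_eq (E : Type*) [Field E] [NumberField E] {s : ℝ} (hs : 0 < s) :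
    (zE E s : ℂ) = dedekindZeta E ((1 + s : ℝ) : ℂ) := by
  unfold zE dedekindZeta LSeries
  rw [Complex.ofReal_tsum]
  refine tsum_congr fun n => ?_
  by_cases hn : n = 0
  · subst hn
    have hs' : (-(1 + s)) ≠ 0 := by linarith
    rw [LSeries.term_zero, Nat.cast_zero, Real.zero_rpow hs', mul_zero, Complex.ofReal_zero]
  · rw [LSeries.term_of_ne_zero hn, Complex.ofReal_mul, Complex.ofReal_natCast, div_eq_mul_inv,
      Real.rpow_neg (Nat.cast_nonneg _), Complex.ofReal_inv,
      Complex.ofReal_cpow (Nat.cast_nonneg _), Complex.ofReal_natCast]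
    rfl

theorem zE_tendsto (E : Type*) [Field E] [NumberField E] :
    Tendsto (fun s : ℝ => s * zE E s) (𝓝[>] 0) (𝓝 (dedekindZeta_residue E)) := by
  have h1 := tendsto_sub_one_mul_dedekindZeta_nhdsGT (K := E)
  have h2 : Tendsto (fun s : ℝ => 1 + s) (𝓝[>] 0) (𝓝[>] 1) := by
    refine tendsto_nhdsWithin_of_tendsto_nhds_of_eventually_within _ ?_ ?_
    · have : Tendsto (fun s : ℝ => 1 + s) (𝓝 0) (𝓝 (1 + 0)) := tendsto_const_nhds.add tendsto_id
      rw [add_zero] at this
      exact this.mono_left nhdsWithin_le_nhds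
    · filter_upwards [self_mem_nhdsWithin] with s hs
      have : (0 : ℝ) < s := hs
      show (1 : ℝ) < 1 + s
      linarith
  have h3 := h1.comp h2
  have h4 : Tendsto (fun s : ℝ => ((s * zE E s : ℝ) : ℂ)) (𝓝[>] 0)
      (𝓝 ((dedekindZeta_residue E : ℝ) : ℂ)) := by
    refine h3.congr' ?_
    filter_upwards [self_mem_nhdsWithin] with s hs
    simp only [Function.comp]
    rw [Complex.ofReal_mul, zE_eq E hs]
    push_cast
    ring
  have h5 := (Complex.continuous_re.tendsto _).comp h4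
  rw [Complex.ofReal_re] at h5
  exact h5

/-- `log ζ_E(1+s) = log (1/s) + O(1)` near `0`. -/
theorem log_zE_bound (E : Type*) [Field E] [NumberField E] :
    ∃ C : ℝ, ∀ᶠ s : ℝ in 𝓝[>] 0, |Real.log (zE E s) - Real.log (1 / s)| ≤ C := by
  have hκ := dedekindZeta_residue_pos E
  have h1 := (zE_tendsto E).log hκ.ne'
  refine ⟨|Real.log (dedekindZeta_residue E)| + 1, ?_⟩
  have h2 : ∀ᶠ s : ℝ in 𝓝[>] 0,
      |Real.log (s * zE E s) - Real.log (dedekindZeta_residue E)| < 1 := by
    have := (Metric.tendsto_nhds.mp h1) 1 one_pos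
    simpa [Real.dist_eq] using this
  have h3 : ∀ᶠ s : ℝ in 𝓝[>] 0, 0 < s * zE E s :=
    (zE_tendsto E).eventually (lt_mem_nhds hκ)
  filter_upwards [h2, h3, self_mem_nhdsWithin] with s hs2 hs3 hs
  have hs0 : (0 : ℝ) < s := hs
  have hz : 0 < zE E s := (pos_iff_pos_of_mul_pos hs3).mp hs0
  have h4 : Real.log (zE E s) - Real.log (1 / s) = Real.log (s * zE E s) := by
    rw [Real.log_mul hs0.ne' hz.ne', one_div, Real.log_inv]; ring
  rw [h4]
  have h5 := abs_sub_abs_le_abs_sub (Real.log (s * zE E s)) (Real.log (dedekindZeta_residue E))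
  linarith

/-! ### Fixed points on cosets of the kernel -/

section Group

variable {Γ A : Type*} [Group Γ] [Fintype Γ] [CommGroup A]

/-- the kernel of a character inside `H` -/
def H1 (pr : Γ →* A) (H : Subgroup Γ) (ψ : A →* ℂˣ) : Subgroup Γ := H ⊓ (ψ.comp pr).ker

omit [Fintype Γ] in
theorem fx_eq_of_ker (pr : Γ →* A) (H : Subgroup Γ) (ψ : A →* ℂˣ) (y : Γ)
    (hy : ψ (pr y) = 1) :
    fx (H1 pr H ψ) y * Nat.card (H1 pr H ψ) = fx H y * Nat.card H := by
  rw [fx_mul_card, fx_mul_card]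
  refine Nat.card_congr (Equiv.subtypeEquivRight fun g => ?_)
  unfold H1
  rw [Subgroup.mem_inf]
  constructor
  · exact fun h => h.1
  · intro h
    refine ⟨h, ?_⟩
    rw [MonoidHom.mem_ker]
    simp only [MonoidHom.comp_apply, map_mul, map_inv, hy, mul_one, inv_mul_cancel]

theorem fx_zero_of_not_ker (pr : Γ →* A) (H : Subgroup Γ) (ψ : A →* ℂˣ) (y : Γ)
    (hy : ψ (pr y) ≠ 1) : fx (H1 pr H ψ) y = 0 := by
  have h1 := fx_mul_card (H1 pr H ψ) y
  have h2 : Nat.card {g : Γ // g⁻¹ * y * g ∈ H1 pr H ψ} = 0 := by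
    rw [Nat.card_eq_zero]
    left
    constructor
    rintro ⟨g, hg⟩
    have h3 := (Subgroup.mem_inf.mp hg).2
    rw [MonoidHom.mem_ker] at h3
    simp only [MonoidHom.comp_apply, map_mul, map_inv] at h3
    apply hy
    rwa [mul_comm (ψ (pr g))⁻¹, inv_mul_cancel_right] at h3
  rw [h2] at h1
  exact (Nat.mul_eq_zero.mp h1).resolve_right Nat.card_pos.ne'

theorem card_H1 (pr : Γ →* A) {H : Subgroup Γ} {ψ : A →* ℂˣ} {g : Γ} (hg : g ∈ H)
    (hψ : ψ (pr g) ≠ 1) : 2 * Nat.card (H1 pr H ψ) ≤ Nat.card H := by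
  have hle : H1 pr H ψ ≤ H := inf_le_left
  obtain ⟨k, hk⟩ := Subgroup.card_dvd_of_le hle
  have hpos : 0 < Nat.card H := Nat.card_pos
  have hk0 : k ≠ 0 := by rintro rfl; omega
  have hk1 : k ≠ 1 := by
    rintro rfl
    rw [mul_one] at hk
    have h1 : H1 pr H ψ = H := Subgroup.eq_of_le_of_card_ge hle hk.le
    have h2 : g ∈ H1 pr H ψ := by rw [h1]; exact hg
    exact hψ ((MonoidHom.mem_ker).mp (Subgroup.mem_inf.mp h2).2)
  have hk2 : 2 ≤ k := by omega
  rw [hk]
  nlinarith [Nat.zero_le (Nat.card (H1 pr H ψ))]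

end Group

/-! ### Nontriviality -/

variable {M : Type} [Field M] [NumberField M] {q : ℕ} {A : Type} [CommGroup A]

theorem V_pos_imp (d : FldData M q A) {s : ℝ} {y : M ≃ₐ[ℚ] M} (h : d.V s y ≠ 0) :
    ∃ p, Good M q p ∧ d.φ p = y := by
  classical
  by_contra hne
  apply h
  push Not at hne
  unfold FldData.V
  have h0 : (fun p : ℕ => if Good M q p ∧ d.φ p = y then (p : ℝ) ^ (-(1 + s)) else 0) =
      fun _ => 0 := by
    funext p
    rw [if_neg]
    rintro ⟨h1, h2⟩
    exact hne p h1 h2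
  calc (∑' p : ℕ, if Good M q p ∧ d.φ p = y then (p : ℝ) ^ (-(1 + s)) else 0) =
        ∑' _p : ℕ, (0 : ℝ) := by rw [h0]
    _ = 0 := tsum_zero

theorem nontriv (d : FldData M q A) {C : ℝ} (hB : Bridge C d) {τ : A}
    (hgen : ∀ ψ : A →* ℂˣ, ψ τ = 1 → ψ = 1) : Nontriv d τ := by
  classical
  intro g hg ψ hψ
  by_contra hno
  push Not at hno
  set H : Subgroup (M ≃ₐ[ℚ] M) := Subgroup.zpowers g with hH
  set K1 := H1 d.pr H ψ with hK1
  have hψg : ψ (d.pr g) ≠ 1 := by
    rw [hg]; exact fun h => hψ (hgen ψ h)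
  have hcard := card_H1 d.pr (H := H) (ψ := ψ) (Subgroup.mem_zpowers g) hψg
  rw [← hK1] at hcard
  have hK1pos : (0 : ℝ) < Nat.card K1 := by exact_mod_cast Nat.card_pos
  set m : ℝ := (Nat.card H : ℝ) / Nat.card K1 with hm
  have hm2 : 2 ≤ m := by
    rw [hm, le_div_iff₀ hK1pos]
    exact_mod_cast hcard
  -- the values at Frobenius elements
  have hfx : ∀ y, (∃ p, Good M q p ∧ d.φ p = y) → (fx K1 y : ℝ) = m * fx H y := by
    rintro y ⟨p, hp, rfl⟩
    by_cases hy : ψ (d.pr (d.φ p)) = 1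
    · have h1 := fx_eq_of_ker d.pr H ψ (d.φ p) hy
      rw [← hK1] at h1
      have h2 : (fx K1 (d.φ p) : ℝ) * Nat.card K1 = fx H (d.φ p) * Nat.card H := by
        exact_mod_cast h1
      rw [hm]
      field_simp
      linarith
    · rw [hK1, fx_zero_of_not_ker d.pr H ψ _ hy]
      have h3 : fx H (d.φ p) = 0 := by
        by_contra h0
        rw [← d.hfix p hp.1 hp.2.2 H] at h0
        obtain ⟨⟨a, ha⟩⟩ := (Nat.card_pos_iff.mp (Nat.pos_of_ne_zero h0)).1
        have ha0 : a ≠ ⊥ := by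
          rintro rfl
          rw [Ideal.absNorm_bot] at ha
          exact hp.1.ne_zero ha.symm
        have h4 := hno a ha0 (by rw [ha]; exact hp.2.1)
        rw [ha] at h4
        apply hy
        have h5 : ((p : ℕ) : ZMod q) = ((ZMod.unitOfCoprime p hp.2.1 : (ZMod q)ˣ) : ZMod q) :=
          (ZMod.coe_unitOfCoprime _ _).symm
        rw [h5] at h4
        unfold FldData.dir at h4
        rw [MulChar.ofUnitHom_coe, MonoidHom.comp_apply, ← d.hχ p hp.1 hp.2.1 hp.2.2] at h4
        exact Units.ext h4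
      rw [h3]; simp
  have hR : ∀ s, R d.pr (d.V s) K1 1 = m * R d.pr (d.V s) H 1 := by
    intro s
    rw [R_one, R_one, Finset.mul_sum]
    refine Finset.sum_congr rfl fun y _ => ?_
    by_cases hV : d.V s y = 0
    · rw [hV]; ring
    · rw [hfx y (V_pos_imp d hV)]; ring
  -- asymptotics
  obtain ⟨C1, h1⟩ := log_zE_bound (IntermediateField.fixedField H)
  obtain ⟨C2, h2⟩ := log_zE_bound (IntermediateField.fixedField K1)
  set C' := C + Module.finrank ℚ M * Real.log (1 + Real.logb 2 (q * |(discr M : ℝ)|)) with hC'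
  have h3 : ∀ᶠ s : ℝ in 𝓝[>] 0, (m - 1) * Real.log (1 / s) ≤ m * (C1 + C') + (C2 + C') := by
    have hmem : ∀ᶠ s : ℝ in 𝓝[>] 0, s ∈ Set.Ioc (0:ℝ) 1 := Ioc_mem_nhdsGT one_pos
    filter_upwards [h1, h2, hmem] with s hs1 hs2 hs
    have hb1 := (hB H 1 s hs).2
    have hb2 := (hB K1 1 s hs).2
    unfold FldData.F at hb1 hb2
    rw [if_pos rfl, Complex.norm_real, Real.norm_eq_abs, Real.log_abs, ← hC'] at hb1 hb2
    rw [hR] at hb2
    rw [abs_le] at hb1 hb2 hs1 hs2
    nlinarith [hb1.1, hb1.2, hb2.1, hb2.2, hs1.1, hs1.2, hs2.1, hs2.2]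
  have h4 : Tendsto (fun s : ℝ => (m - 1) * Real.log (1 / s)) (𝓝[>] 0) atTop := by
    have h5 : Tendsto (fun s : ℝ => Real.log (1 / s)) (𝓝[>] 0) atTop := by
      have h6 : Tendsto (fun s : ℝ => -Real.log s) (𝓝[>] 0) atTop :=
        tendsto_neg_atBot_atTop.comp Real.tendsto_log_nhdsGT_zero
      refine h6.congr fun s => ?_
      rw [one_div, Real.log_inv]
    exact h5.const_mul_atTop (by linarith)
  have h5 := h4.eventually_gt_atTop (m * (C1 + C') + (C2 + C'))
  obtain ⟨s, hs3, hs5⟩ := (h3.and h5).exists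
  linarith

end Crest.Agent.R014.N1Nt_652
end

-- ▼ part R014/EulD_534
section

/-!
# Row 14, N1-EUL, part D (helper534): the Euler product in the notation of `LDef_550`

`eul_psi` : `L_E(1+s, ψ ∘ N) = exp w`, `‖w - ∑_p ψ(p) r_E(p) p^{-1-s}‖ ≤ 4 [E : ℚ]`.
`eul_zeta` : `|log ζ_E(1+s) - ∑_p r_E(p) p^{-1-s}| ≤ 4 [E : ℚ]`, `1 ≤ ζ_E(1+s)`.
-/

set_option autoImplicit false

namespace Crest.Agent.R014.EulD_534

open NumberField LDef_550 EulC_534

variable {E : Type*} [Field E] [NumberField E]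

/-- a Dirichlet character as a monoid homomorphism on `ℕ` -/
noncomputable def chM {q : ℕ} (ψ : DirichletCharacter ℂ q) : ℕ →* ℂ :=
  ψ.toMonoidHom.comp (Nat.castRingHom (ZMod q)).toMonoidHom


theorem norm_chM_le {q : ℕ} (ψ : DirichletCharacter ℂ q) (n : ℕ) : ‖chM ψ n‖ ≤ 1 :=
  DirichletCharacter.norm_le_one ψ n


/-- summability of the prime sum -/
theorem summable_psi {q : ℕ} (ψ : DirichletCharacter ℂ q) {s : ℝ} (hs : 0 < s) :
    Summable fun p : Nat.Primes =>
      ψ ((p : ℕ) : ZMod q) * (LDef_550.rE E p : ℂ) * ((((p : ℕ) : ℝ) ^ (-(1 + s)) : ℝ) : ℂ) :=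
  (hasSum_PE (E := E) (norm_chM_le ψ) hs).summable


theorem eul_psi_log {q : ℕ} (ψ : DirichletCharacter ℂ q) {s : ℝ} (hs : 0 < s) :
    LEpsi E ψ s ≠ 0 ∧ |Real.log ‖LEpsi E ψ s‖ - (∑' p : Nat.Primes, ψ ((p : ℕ) : ZMod q) *
      (LDef_550.rE E p : ℂ) * ((((p : ℕ) : ℝ) ^ (-(1 + s)) : ℝ) : ℂ)).re| ≤
        4 * Module.finrank ℚ E :=
  log_norm_LE (E := E) (norm_chM_le ψ) hs

/-- the trivial character of `ℕ` -/
noncomputable def one' : ℕ →* ℂ := 1

theorem norm_one'_le (n : ℕ) : ‖one' n‖ ≤ 1 := by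
  simp [one']

theorem LE_one (s : ℝ) : EulC_534.LE E one' s = ((zE E s : ℝ) : ℂ) := by
  unfold EulC_534.LE zE
  rw [Complex.ofReal_tsum]
  refine tsum_congr fun n => ?_
  rw [one', MonoidHom.one_apply, one_mul]
  push_cast
  rfl

theorem PE_one (s : ℝ) : EulC_534.PE E one' s =
    ((∑' p : Nat.Primes, (LDef_550.rE E p : ℝ) * ((p : ℕ) : ℝ) ^ (-(1 + s)) : ℝ) : ℂ) := by
  unfold EulC_534.PE
  rw [Complex.ofReal_tsum]
  refine tsum_congr fun n => ?_
  rw [one', MonoidHom.one_apply, one_mul]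
  push_cast
  rfl

/-- summability of the prime sum -/
theorem summable_zeta {s : ℝ} (hs : 0 < s) :
    Summable fun p : Nat.Primes => (LDef_550.rE E p : ℝ) * ((p : ℕ) : ℝ) ^ (-(1 + s)) := by
  have h := (hasSum_PE (E := E) norm_one'_le hs).summable.norm
  refine h.congr fun p => ?_
  rw [one', MonoidHom.one_apply, one_mul, norm_mul, Complex.norm_natCast, Complex.norm_real,
    Real.norm_of_nonneg (Real.rpow_nonneg (Nat.cast_nonneg _) _)]
  rfl

/-- summability of the zeta series -/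
theorem summable_zE {s : ℝ} (hs : 0 < s) :
    Summable fun n : ℕ => (LDef_550.rE E n : ℝ) * (n : ℝ) ^ (-(1 + s)) := by
  have h := (hasSum_LE (E := E) norm_one'_le hs).summable.norm
  refine h.congr fun p => ?_
  rw [one', MonoidHom.one_apply, one_mul, norm_mul, Complex.norm_natCast, Complex.norm_real,
    Real.norm_of_nonneg (Real.rpow_nonneg (Nat.cast_nonneg _) _)]
  rfl


theorem rE_one : LDef_550.rE E 1 = 1 := by
  unfold LDef_550.rE
  rw [Nat.card_eq_one_iff_unique]
  constructor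
  · refine ⟨fun I J => Subtype.ext ?_⟩
    rw [Ideal.absNorm_eq_one_iff.1 I.2, Ideal.absNorm_eq_one_iff.1 J.2]
  · exact ⟨⟨⊤, Ideal.absNorm_top⟩⟩

theorem one_le_zE {s : ℝ} (hs : 0 < s) : 1 ≤ zE E s := by
  unfold zE
  have h := (summable_zE (E := E) hs).le_tsum 1 fun n _ =>
    mul_nonneg (Nat.cast_nonneg _) (Real.rpow_nonneg (Nat.cast_nonneg _) _)
  rw [rE_one] at h
  simpa using h

/-- **EUL, zeta function.** -/
theorem eul_zeta {s : ℝ} (hs : 0 < s) :
    |Real.log (zE E s) - ∑' p : Nat.Primes, (LDef_550.rE E p : ℝ) * ((p : ℕ) : ℝ) ^ (-(1 + s))| ≤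
      4 * Module.finrank ℚ E := by
  have h := (log_norm_LE (E := E) norm_one'_le hs).2
  rw [LE_one, PE_one, Complex.norm_real, Complex.ofReal_re,
    Real.norm_of_nonneg (le_trans zero_le_one (one_le_zE hs))] at h
  exact h

end Crest.Agent.R014.EulD_534
end

-- ▼ part R014/N1Eu_652
section

/-!
Row 14, theorem N1: the bridge is unconditional (helper652, over helper534's Euler products).
-/

set_option autoImplicit false

namespace Crest.Agent.R014.N1Eu_652

open NumberField LDef_550 N1Br_652 N1C_479 N1D_479 N1G_202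

theorem eulE (E : Type) [Field E] [NumberField E] {C : ℝ} (hC : 4 * (Module.finrank ℚ E : ℝ) ≤ C) :
    EulE C E := by
  intro s hs
  refine ⟨⟨?_, (EulD_534.eul_zeta (E := E) hs.1).trans hC⟩, ?_⟩
  · have := EulD_534.one_le_zE (E := E) hs.1
    intro h
    rw [h] at this
    linarith
  · intro q _ ψ
    obtain ⟨h1, h2⟩ := EulD_534.eul_psi_log (E := E) ψ hs.1
    refine ⟨h1, ?_⟩
    have hs' := EulD_534.summable_psi (E := E) ψ hs.1
    have h3 : (∑' p : Nat.Primes, ψ ((p : ℕ) : ZMod q) *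
        (LDef_550.rE E p : ℂ) * ((((p : ℕ) : ℝ) ^ (-(1 + s)) : ℝ) : ℂ)).re =
        ∑' p : Nat.Primes, ((ψ ((p : ℕ) : ZMod q)).re * (LDef_550.rE E p : ℝ)) *
          ((p : ℕ) : ℝ) ^ (-(1 + s)) := by
      rw [Complex.re_tsum hs']
      refine tsum_congr fun p => ?_
      rw [mul_assoc, ← Complex.ofReal_natCast (LDef_550.rE E p), ← Complex.ofReal_mul,
        Complex.re_mul_ofReal, mul_assoc]
    rw [h3] at h2
    exact h2.trans hC

variable {M : Type} [Field M] [NumberField M] {q : ℕ} {A : Type} [CommGroup A]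

/-- **the bridge, unconditional** -/
theorem bridge_all (hq : q ≠ 0) (d : FldData M q A) :
    Bridge (7 * Module.finrank ℚ M) d := by
  have h := bridge_fld (C0 := 4 * Module.finrank ℚ M) hq d (fun H => eulE _ (by
    have := finrank_fixed_le H
    have h2 : (Module.finrank ℚ (IntermediateField.fixedField H) : ℝ) ≤ Module.finrank ℚ M := by
      exact_mod_cast this
    linarith))
  have h3 : (4 * Module.finrank ℚ M + 3 * Module.finrank ℚ M : ℝ) = 7 * Module.finrank ℚ M := by
    ring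
  rw [h3] at h
  exact h

end Crest.Agent.R014.N1Eu_652
end

-- ▼ part R014/N1M_479

/-!
N1-MAIN (row 14): one auxiliary field, all constants.  Helper479.
-/

set_option autoImplicit false

universe u

namespace Crest.Agent.R014.N1M_479

open NumberField Crest.Agent.R014 Crest.Agent.R014.LDef_550 Crest.Agent.R014.N1D_479
  Crest.Agent.R014.N1C_479 Crest.Agent.R014.N1E_479 Crest.Agent.R014.N1G_202
  Crest.NumberTheoryR.Packets

/-- (A1) zeta functions near `s = 1`, uniformly in the field -/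
def A1 (d : ℕ) (C : ℝ) : Prop :=
  ∀ (E : Type) [Field E] [NumberField E], Module.finrank ℚ E = d →
    ∀ s : ℝ, 0 < s → s ≤ 1 →
      |zE E s - dedekindZeta_residue E / s| ≤ C * (1 + Real.log |(discr E : ℝ)|) ^ C

/-- (A2) `L`-functions without pole, uniformly in the field -/
def A2 (d q : ℕ) (C : ℝ) : Prop :=
  ∀ (E : Type) [Field E] [NumberField E], Module.finrank ℚ E = d →
    ∀ ψ : DirichletCharacter ℂ q, ψ.Even →
      (∃ a : Ideal (𝓞 E), a ≠ ⊥ ∧ (Ideal.absNorm a).Coprime q ∧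
        ψ (Ideal.absNorm a : ZMod q) ≠ 1) →
      (∀ s : ℝ, 0 < s → s ≤ 1 →
        ‖LEpsi E ψ s‖ ≤ C * (1 + Real.log |(discr E : ℝ)|) ^ C) ∧
      (∀ s s' : ℝ, 0 < s → s ≤ 1 → 0 < s' → s' ≤ 1 →
        ‖LEpsi E ψ s - LEpsi E ψ s'‖ ≤ C * (1 + Real.log |(discr E : ℝ)|) ^ C * |s - s'|)

theorem one_le_disc (E : Type*) [Field E] [NumberField E] : (1 : ℝ) ≤ |(discr E : ℝ)| := by
  have : (1 : ℤ) ≤ |discr E| := Int.one_le_abs (discr_ne_zero E)
  exact_mod_cast this

theorem log_disc_nonneg (E : Type*) [Field E] [NumberField E] :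
    0 ≤ Real.log |(discr E : ℝ)| := Real.log_nonneg (one_le_disc E)

/-- monotonicity in the constants -/
theorem pow_mono {L L' C C' : ℝ} (hL : 1 ≤ L) (hLL : L ≤ L') (hC : 1 ≤ C) (hCC : C ≤ C') :
    C * L ^ C ≤ C' * L' ^ C' := by
  have h1 : L ^ C ≤ L' ^ C := Real.rpow_le_rpow (by linarith) hLL (by linarith)
  have h2 : L' ^ C ≤ L' ^ C' := Real.rpow_le_rpow_of_exponent_le (hL.trans hLL) hCC
  have h3 : 0 ≤ L ^ C := Real.rpow_nonneg (by linarith) _
  exact mul_le_mul hCC (h1.trans h2) h3 (by linarith)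

/-- sum over primes of `p^-2` -/
noncomputable def K0 : ℝ := ∑' p : Nat.Primes, ((p : ℕ) : ℝ) ^ (-(1 + (1 : ℝ)))

/-- the value at `s = 2` is bounded -/
theorem zE_one_le (E : Type) [Field E] [NumberField E] :
    zE E 1 ≤ Real.exp (Module.finrank ℚ E * K0 + 4 * Module.finrank ℚ E) := by
  have h1 := EulD_534.eul_zeta (E := E) (s := 1) one_pos
  have h2 : ∑' p : Nat.Primes, (rE E p : ℝ) * (((p : ℕ) : ℝ) ^ (-(1 + (1:ℝ))))
      ≤ Module.finrank ℚ E * K0 := by
    unfold K0
    rw [← tsum_mul_left]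
    refine Summable.tsum_le_tsum (fun p => ?_) ?_ ?_
    · refine mul_le_mul_of_nonneg_right ?_ (by positivity)
      exact_mod_cast N1Br_652.rE_prime_le E p.2
    · exact EulD_534.summable_zeta one_pos
    · exact (N1Br_652.summable_primes one_pos).mul_left _
  have h3 : 1 ≤ zE E 1 := EulD_534.one_le_zE one_pos
  rw [← Real.log_le_iff_le_exp (by linarith)]
  have := (abs_le.1 h1).2
  linarith

/-- bound for `L`-values -/
noncomputable def aa (n0 : ℕ) (C D : ℝ) : ℝ :=
  2 * (C * (1 + Real.log D) ^ C) + Real.exp (n0 * K0 + 4 * n0)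

/-- error term -/
noncomputable def ee (n0 q : ℕ) (C D : ℝ) : ℝ :=
  7 * n0 + n0 * Real.log (1 + Real.logb 2 (q * D)) + (C + (3 + Real.log (1 + Real.log D)))

theorem K0_nonneg : 0 ≤ K0 := tsum_nonneg fun p => by positivity

theorem aa_ge {n0 : ℕ} {C D : ℝ} (hC : 1 ≤ C) (hD : 1 ≤ D) :
    C * (1 + Real.log D) ^ C ≤ aa n0 C D ∧ 1 ≤ aa n0 C D := by
  have hl : 0 ≤ Real.log D := Real.log_nonneg hD
  have h1 : 1 ≤ (1 + Real.log D) ^ C := Real.one_le_rpow (by linarith) (by linarith)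
  have h2 : 1 ≤ C * (1 + Real.log D) ^ C := one_le_mul_of_one_le_of_one_le hC h1
  have h3 : 0 < Real.exp (n0 * K0 + 4 * n0) := Real.exp_pos _
  unfold aa
  constructor <;> linarith

section OneField

variable {M : Type} [Field M] [NumberField M] {q : ℕ} {A : Type} [CommGroup A]

theorem zeta_bound {n0 : ℕ} {C : ℝ} (hC : 1 ≤ C) (hA1 : ∀ d' ≤ n0, A1 d' C)
    (E : Type) [Field E] [NumberField E] [Algebra E M] (hE : Module.finrank ℚ E ≤ n0) {s : ℝ}
    (hs : s ∈ Set.Ioc (0:ℝ) 1) :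
    zE E s ≤ dedekindZeta_residue E / s + aa n0 C |(discr M : ℝ)| ∧
      zE E s ≤ aa n0 C |(discr M : ℝ)| / s := by
  set D : ℝ := |(discr M : ℝ)| with hD
  have hD1 : 1 ≤ D := one_le_disc M
  have hDE : |(discr E : ℝ)| ≤ D := N1D_693.abs_discr_le_of_algebra E M
  have hDE1 := one_le_disc E
  have hlE := log_disc_nonneg E
  have hll : Real.log |(discr E : ℝ)| ≤ Real.log D := Real.log_le_log (by linarith) hDE
  have hb : C * (1 + Real.log |(discr E : ℝ)|) ^ C ≤ C * (1 + Real.log D) ^ C :=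
    pow_mono (by linarith) (by linarith) hC le_rfl
  have h1 := (abs_le.1 (hA1 _ hE E rfl s hs.1 hs.2)).2
  have h2 := (abs_le.1 (hA1 _ hE E rfl 1 one_pos le_rfl)).1
  rw [div_one] at h2
  have h3 := zE_one_le E
  have h4 : Real.exp (Module.finrank ℚ E * K0 + 4 * Module.finrank ℚ E)
      ≤ Real.exp (n0 * K0 + 4 * n0) := by
    rw [Real.exp_le_exp]
    have h5 : (Module.finrank ℚ E : ℝ) ≤ n0 := by exact_mod_cast hE
    have := K0_nonneg
    nlinarith
  have ha := aa_ge (n0 := n0) hC hD1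
  refine ⟨by linarith [ha.1], ?_⟩
  rw [le_div_iff₀ hs.1]
  have h6 : (zE E s - dedekindZeta_residue E / s) * s ≤ C * (1 + Real.log D) ^ C * 1 := by
    have h7 : 0 ≤ C * (1 + Real.log D) ^ C := by
      have h1 : 1 ≤ (1 + Real.log D) ^ C := Real.one_le_rpow (by linarith) (by linarith)
      nlinarith
    exact mul_le_mul (h1.trans hb) hs.2 hs.1.le h7
  have h8 : (zE E s - dedekindZeta_residue E / s) * s = zE E s * s - dedekindZeta_residue E := by
    rw [sub_mul, div_mul_cancel₀ _ hs.1.ne']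
  rw [h8] at h6
  unfold aa
  linarith

/-- the data of the core -/
theorem mkDat {n0 : ℕ} {C : ℝ} (hC : 1 ≤ C) (hq : q ≠ 0) (hA1 : ∀ d' ≤ n0, A1 d' C)
    (hA2 : ∀ d' ≤ n0, A2 d' q C) (hM : Module.finrank ℚ M ≤ n0) (d : FldData M q A)
    (hneg : d.χ (-1) = 1) {τ : A} (hgen : ∀ ψ : A →* ℂˣ, ψ τ = 1 → ψ = 1) :
    Dat d.pr τ d.V d.F (aa n0 C |(discr M : ℝ)|) (ee n0 q C |(discr M : ℝ)|) := by
  set D : ℝ := |(discr M : ℝ)| with hD
  have hD1 : 1 ≤ D := one_le_disc M
  have hlD : 0 ≤ Real.log D := Real.log_nonneg hD1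
  have hbr := N1Eu_652.bridge_all hq d
  have hnt := N1Nt_652.nontriv d hbr hgen
  have hfin : ∀ H : Subgroup (M ≃ₐ[ℚ] M),
      Module.finrank ℚ (IntermediateField.fixedField H) ≤ n0 := fun H =>
    (N1Br_652.finrank_fixed_le H).trans hM
  have hq1 : (1:ℝ) ≤ q := by exact_mod_cast Nat.one_le_iff_ne_zero.2 hq
  have hqD : 1 ≤ (q:ℝ) * D := one_le_mul_of_one_le_of_one_le hq1 hD1
  have hlogb : 0 ≤ Real.logb 2 (q * D) := Real.logb_nonneg (by norm_num) hqD
  have hl1 : 0 ≤ Real.log (1 + Real.logb 2 (q * D)) := Real.log_nonneg (by linarith)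
  have hl2 : 0 ≤ Real.log (1 + Real.log D) := Real.log_nonneg (by linarith)
  have hMR : (Module.finrank ℚ M : ℝ) ≤ n0 := by exact_mod_cast hM
  have heven : ∀ ψ : A →* ℂˣ, (d.dir ψ).Even := by
    intro ψ
    have h1 : d.dir ψ ((-1 : (ZMod q)ˣ) : ZMod q) = ((ψ (d.χ (-1)) : ℂˣ) : ℂ) :=
      MulChar.ofUnitHom_coe _ _
    rw [hneg, map_one, Units.val_one, Units.val_neg, Units.val_one] at h1
    exact h1
  have hbnd : ∀ H : Subgroup (M ≃ₐ[ℚ] M),
      C * (1 + Real.log |(discr (IntermediateField.fixedField H) : ℝ)|) ^ C ≤ aa n0 C D := by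
    intro H
    have hDE : |(discr (IntermediateField.fixedField H) : ℝ)| ≤ D :=
      N1D_693.abs_discr_le_of_algebra _ M
    have hDE1 := one_le_disc (IntermediateField.fixedField H)
    have hlE := log_disc_nonneg (IntermediateField.fixedField H)
    have hll : Real.log |(discr (IntermediateField.fixedField H) : ℝ)| ≤ Real.log D :=
      Real.log_le_log (by linarith) hDE
    exact (pow_mono (by linarith) (by linarith) hC le_rfl).trans (aa_ge hC hD1).1
  refine
    { hV := fun s x => N1A_479.V_nonneg d s x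
      ha := (aa_ge hC hD1).2
      he := ?_
      hne := fun H ψ s hs => (hbr H ψ s hs).1
      hE := ?_
      hZ := ?_
      hB := ?_
      hLip := ?_ }
  · unfold ee
    positivity
  · intro H ψ s hs
    refine (hbr H ψ s hs).2.trans ?_
    unfold ee
    have h1 : (Module.finrank ℚ M : ℝ) * Real.log (1 + Real.logb 2 (q * D))
        ≤ n0 * Real.log (1 + Real.logb 2 (q * D)) := mul_le_mul_of_nonneg_right hMR hl1
    linarith
  · intro H s hs
    have h1 : ‖d.F H 1 s‖ = zE (IntermediateField.fixedField H) s := by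
      unfold FldData.F
      rw [if_pos rfl, Complex.norm_real, Real.norm_of_nonneg]
      have : 1 ≤ zE (IntermediateField.fixedField H) s := EulD_534.one_le_zE hs.1
      linarith
    rw [h1]
    exact (zeta_bound hC hA1 _ (hfin H) hs).2
  · intro g hg ψ hψ s hs
    have h1 : d.F (Subgroup.zpowers g) ψ s
        = LEpsi (IntermediateField.fixedField (Subgroup.zpowers g)) (d.dir ψ) s := by
      unfold FldData.F
      rw [if_neg hψ]
    rw [h1]
    exact ((hA2 _ (hfin _) _ rfl _ (heven ψ) (hnt g hg ψ hψ)).1 s hs.1 hs.2).trans (hbnd _)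
  · intro g hg ψ hψ s hs t ht
    have h1 : ∀ s, d.F (Subgroup.zpowers g) ψ s
        = LEpsi (IntermediateField.fixedField (Subgroup.zpowers g)) (d.dir ψ) s := by
      intro s
      unfold FldData.F
      rw [if_neg hψ]
    rw [h1, h1]
    refine ((hA2 _ (hfin _) _ rfl _ (heven ψ) (hnt g hg ψ hψ)).2 s t hs.1 hs.2 ht.1 ht.2).trans ?_
    exact mul_le_mul_of_nonneg_right (hbnd _) (abs_nonneg _)

end OneField

section AQ

theorem card_AQ {q N : ℕ} (hq : q.Prime) (hN : 2 * N ∣ q - 1) : Nat.card (AQ q N) = N := by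
  have h := N1B_693.index_powRange hq ((Dvd.intro_left 2 rfl).trans hN)
  rw [Subgroup.index_eq_card] at h
  exact h

theorem exists_gen {q N : ℕ} (hq : q.Prime) (hN : 2 * N ∣ q - 1) :
    ∃ τ : AQ q N, orderOf τ = N ∧ ∀ a : AQ q N, a ∈ Subgroup.zpowers τ := by
  have : Fact q.Prime := ⟨hq⟩
  have hcyc : IsCyclic (AQ q N) :=
    isCyclic_of_surjective (QuotientGroup.mk' _) (QuotientGroup.mk'_surjective _)
  obtain ⟨τ, hτ⟩ := hcyc.exists_generator
  refine ⟨τ, ?_, hτ⟩
  rw [orderOf_eq_card_of_forall_mem_zpowers hτ, card_AQ hq hN]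

theorem gen_char {A : Type} [CommGroup A] {τ : A} (hτ : ∀ a : A, a ∈ Subgroup.zpowers τ)
    (ψ : A →* ℂˣ) (h : ψ τ = 1) : ψ = 1 := by
  ext a
  obtain ⟨k, rfl⟩ := Subgroup.mem_zpowers_iff.1 (hτ a)
  rw [map_zpow, h, one_zpow]
  rfl

end AQ

section One

variable {K : Type u} [Field K] [NumberField K]

open scoped Classical in
/-- the residue cannot be small: one field -/
theorem one_field {n q : ℕ} (hn : 3 ≤ n) (hK : Module.finrank ℚ K = n)
    (hcase : Odd n ∨ ((n = 4 ∨ n = 6) ∧ IsPrimitiveField K))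
    (hq : q.Prime) (hqN : 2 * n.factorial ∣ q - 1)
    {M : Type} [Field M] [NumberField M] [IsGalois ℚ M] {d : FldData M q (AQ q n.factorial)}
    {C0 C : ℝ} (haux : Aux n C0 K q M d) (f : K →ₐ[ℚ] M) (hC : 1 ≤ C)
    (hA1 : ∀ d' ≤ n.factorial * n.factorial, A1 d' C)
    (hA2 : ∀ d' ≤ n.factorial * n.factorial, A2 d' q C)
    (hAP : ∀ s ∈ Set.Ioc (0:ℝ) 1, ∀ b : AQ q n.factorial,
      Real.log (1 / s) / Nat.card (AQ q n.factorial)
        - (C + (3 + Real.log (1 + Real.log |(discr M : ℝ)|)))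
        ≤ ∑ y ∈ Finset.univ.filter (fun y => d.pr y = b), d.V s y)
    {s0 : ℝ} (hs0 : 0 < s0)
    (hbig : 100 * ((n.factorial * n.factorial : ℕ) : ℝ) ^ 2 * ((n.factorial + 4) *
      (ee (n.factorial * n.factorial) q C |(discr M : ℝ)|
        + Real.log (aa (n.factorial * n.factorial) C |(discr M : ℝ)|) + 1)) ≤ Real.log (1 / s0)) :
    s0 < dedekindZeta_residue (IntermediateField.fixedField f.fieldRange.fixingSubgroup) := by
  by_contra hcon
  push Not at hcon
  set n0 := n.factorial * n.factorial with hn0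
  set a := aa n0 C |(discr M : ℝ)| with ha
  set e := ee n0 q C |(discr M : ℝ)| with he
  obtain ⟨τ, hτN, hτ⟩ := exists_gen hq hqN
  have hneg : d.χ (-1) = 1 := by
    rw [haux.hχ, QuotientGroup.eq_one_iff]
    obtain ⟨b, hb⟩ := N1B_693.neg_one_pow hq hqN
    exact ⟨b, hb⟩
  have hdat : Dat d.pr τ d.V d.F a e :=
    mkDat hC hq.ne_zero hA1 hA2 haux.hdeg d hneg (gen_char hτ)
  have hord : ∀ g, d.pr g = τ → orderOf g = orderOf τ := by
    intro g hg
    rw [hτN]
    refine Nat.dvd_antisymm (orderOf_dvd_of_pow_eq_one (haux.hexp g)) ?_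
    rw [← hτN, ← hg]
    exact orderOf_map_dvd d.pr g
  have hcardA : Nat.card (AQ q n.factorial) = n.factorial := card_AQ hq hqN
  have hcardG : (Fintype.card (M ≃ₐ[ℚ] M) : ℝ) ≤ n0 := by
    have h1 : Fintype.card (M ≃ₐ[ℚ] M) = Module.finrank ℚ M := by
      rw [← Nat.card_eq_fintype_card]; exact IsGalois.card_aut_eq_finrank _ _
    rw [h1]
    exact_mod_cast haux.hdeg
  have hG1 : (1:ℝ) ≤ Fintype.card (M ≃ₐ[ℚ] M) := by exact_mod_cast Fintype.card_pos
  have hW : W (AQ q n.factorial) a e = (n.factorial + 4) * (e + Real.log a + 1) := by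
    unfold W
    rw [hcardA]
  have hW0 : 0 ≤ W (AQ q n.factorial) a e := by
    have := W_ge (A := AQ q n.factorial) hdat.ha hdat.he
    have h2 := Real.log_nonneg hdat.ha
    have h3 := hdat.he
    linarith
  have hbig' : 100 * (Fintype.card (M ≃ₐ[ℚ] M) : ℝ) ^ 2 * W (AQ q n.factorial) a e ≤ Real.log (1 / s0) := by
    refine le_trans ?_ hbig
    rw [hW] at hW0 ⊢
    refine mul_le_mul_of_nonneg_right ?_ hW0
    have : (Fintype.card (M ≃ₐ[ℚ] M) : ℝ) ^ 2 ≤ (n0 : ℝ) ^ 2 :=
      pow_le_pow_left₀ (by linarith) hcardG 2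
    linarith
  have hW4 : 4 ≤ W (AQ q n.factorial) a e := by
    have := W_ge (A := AQ q n.factorial) hdat.ha hdat.he
    have h2 := Real.log_nonneg hdat.ha
    have h3 := hdat.he
    linarith
  have hl4 : 4 ≤ Real.log (1 / s0) := by
    refine le_trans hW4 (le_trans ?_ hbig')
    have h2 : (1:ℝ) ≤ (Fintype.card (M ≃ₐ[ℚ] M) : ℝ) ^ 2 := one_le_pow₀ hG1
    have : 1 * W (AQ q n.factorial) a e ≤ 100 * (Fintype.card (M ≃ₐ[ℚ] M) : ℝ) ^ 2 * W (AQ q n.factorial) a e :=
      mul_le_mul_of_nonneg_right (by linarith) hW0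
    linarith
  have hs1 : s0 ≤ 1 := by
    by_contra h
    push Not at h
    have h1 : 1 / s0 ≤ 1 := by rw [div_le_one hs0]; exact h.le
    have := Real.log_nonpos (by positivity) h1
    linarith
  have hs0m : s0 ∈ Set.Ioc (0:ℝ) 1 := ⟨hs0, hs1⟩
  set H := f.fieldRange.fixingSubgroup with hH
  have hfin : Module.finrank ℚ (IntermediateField.fixedField H) ≤ n0 :=
    (N1Br_652.finrank_fixed_le H).trans haux.hdeg
  set κ := dedekindZeta_residue (IntermediateField.fixedField H) with hκ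
  have hκ0 : 0 < κ := dedekindZeta_residue_pos _
  have hKsum : ∑ y, d.V s0 y * (fo ((M ≃ₐ[ℚ] M) ⧸ H) y : ℝ) ≤ Real.log (κ / s0 + a) + e := by
    have h1 : ∑ y, d.V s0 y * (fo ((M ≃ₐ[ℚ] M) ⧸ H) y : ℝ) = R d.pr (d.V s0) H 1 := by
      rw [R_one]
      rfl
    rw [h1]
    have h2 := (abs_le.1 (hdat.hE H 1 s0 hs0m)).1
    have h3 : ‖d.F H 1 s0‖ = zE (IntermediateField.fixedField H) s0 := by
      unfold FldData.F
      rw [if_pos rfl, Complex.norm_real, Real.norm_of_nonneg]
      have : 1 ≤ zE (IntermediateField.fixedField H) s0 := EulD_534.one_le_zE hs0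
      linarith
    rw [h3] at h2
    have h4 : Real.log (zE (IntermediateField.fixedField H) s0) ≤ Real.log (κ / s0 + a) := by
      apply Real.log_le_log
      · have : 1 ≤ zE (IntermediateField.fixedField H) s0 := EulD_534.one_le_zE hs0
        linarith
      · exact (zeta_bound hC hA1 _ hfin hs0m).1
    linarith
  have hAP' : ∀ b : AQ q n.factorial, Real.log (1 / s0) / Nat.card (AQ q n.factorial) - e ≤
      ∑ y ∈ Finset.univ.filter (fun y => d.pr y = b), d.V s0 y := by
    intro b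
    refine le_trans ?_ (hAP s0 hs0m b)
    have hq1 : (1:ℝ) ≤ q := by exact_mod_cast hq.one_lt.le
    have hqD : 1 ≤ (q:ℝ) * |(discr M : ℝ)| := one_le_mul_of_one_le_of_one_le hq1 (one_le_disc M)
    have hlogb : 0 ≤ Real.logb 2 (q * |(discr M : ℝ)|) := Real.logb_nonneg (by norm_num) hqD
    have hl1 : 0 ≤ Real.log (1 + Real.logb 2 (q * |(discr M : ℝ)|)) :=
      Real.log_nonneg (by linarith)
    have h5 : (0:ℝ) ≤ 7 * n0 + n0 * Real.log (1 + Real.logb 2 (q * |(discr M : ℝ)|)) := by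
      positivity
    rw [he]
    unfold ee
    linarith
  have hidx : Nat.card ((M ≃ₐ[ℚ] M) ⧸ H) = n := by
    have := TwoTr2_853.index_fixingSubgroup (L := M) f
    rw [hK] at this
    exact this
  rcases hcase with hodd | ⟨h46, hprim⟩
  · exact hdat.core_odd (Ω := (M ≃ₐ[ℚ] M) ⧸ H) (by rw [hidx]; exact hodd) d.hpr hord hs0 hbig'
      hκ0 hcon hKsum (by convert hAP')
  · have h2t := TwoTr2_853.two_trans_field hprim (by rw [hK]; exact h46) f
    rw [MulAction.is_two_pretransitive_iff] at h2t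
    -- elements with trivial action and prescribed projection
    have htr : ∀ b : AQ q n.factorial, ∃ t, d.pr t = b ∧ ∀ x : (M ≃ₐ[ℚ] M) ⧸ H, t • x = x := by
      intro b
      obtain ⟨t, ht, htt⟩ := haux.htriv b
      refine ⟨t, ht, ?_⟩
      intro x
      induction x using QuotientGroup.induction_on with
      | H g =>
        have h1 : t • (QuotientGroup.mk g : (M ≃ₐ[ℚ] M) ⧸ H) = QuotientGroup.mk (t * g) := rfl
        rw [h1, eq_comm, QuotientGroup.eq]
        rw [hH, IntermediateField.mem_fixingSubgroup_iff]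
        rintro _ ⟨x, rfl⟩
        have h3 := htt ((g : M →ₐ[ℚ] M).comp f) x
        show g⁻¹ (t (g (f x))) = f x
        have h4 : t (g (f x)) = g (f x) := h3
        rw [h4]
        exact g.symm_apply_apply (f x)
    obtain ⟨t, ht, htt⟩ := htr τ
    refine hdat.core_two (Ω := (M ≃ₐ[ℚ] M) ⧸ H) (by rw [hidx]; exact hn) d.hpr ?_ t ht htt hord
      hs0 hbig' hκ0 hcon hKsum (by convert hAP')
    intro x y z w hxy hzw
    obtain ⟨γ, h3, h4⟩ := h2t hxy hzw
    obtain ⟨t', ht', htt'⟩ := htr (d.pr γ)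
    have hinv : ∀ x : (M ≃ₐ[ℚ] M) ⧸ H, t'⁻¹ • x = x := by
      intro x
      rw [inv_smul_eq_iff]
      exact (htt' x).symm
    refine ⟨γ * t'⁻¹, ?_, ?_, ?_⟩
    · rw [map_mul, map_inv, ht', mul_inv_cancel]
    · rw [mul_smul, hinv, h3]
    · rw [mul_smul, hinv, h4]

end One

end Crest.Agent.R014.N1M_479
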