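import Crest.Prelude.Def_TorusPacket

-- ▼ part R014/Pk1_349
section

/-!
Row 14, packets, part 1 (helper349): points of `ModSpace n` as unimodular lattices.

`lat x` is the ℤ-span of the rows of any representative of `x`; `x ↦ lat x` is injective, the right
action multiplies the lattice by the matrix, and `latticePoint m σ` is the normalised lattice `σ(M)`.
-/

set_option autoImplicit false
set_option linter.unusedSectionVars false

open MeasureTheory Matrix
open Crest.NumberTheoryR.Packets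

namespace Crest.Agent.R014.Pk1_349

noncomputable section

variable {n : ℕ}

/-- The ℤ-span of the rows of a square matrix. -/
def rowLat (B : Matrix (Fin n) (Fin n) ℝ) : Submodule ℤ (Fin n → ℝ) :=
  Submodule.span ℤ (Set.range (fun i => B i))

/-- Multiply a lattice coordinatewise by a real vector. -/
def scaleLat (L : Submodule ℤ (Fin n → ℝ)) (t : Fin n → ℝ) : Submodule ℤ (Fin n → ℝ) :=
  L.map (LinearMap.mulRight ℤ t)

theorem mem_scaleLat {L : Submodule ℤ (Fin n → ℝ)} {t v : Fin n → ℝ} :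
    v ∈ scaleLat L t ↔ ∃ u ∈ L, u * t = v := by
  unfold scaleLat
  rw [Submodule.mem_map]
  rfl

theorem scaleLat_scaleLat (L : Submodule ℤ (Fin n → ℝ)) (s t : Fin n → ℝ) :
    scaleLat (scaleLat L s) t = scaleLat L (s * t) := by
  ext v
  simp only [mem_scaleLat]
  constructor
  · rintro ⟨_, ⟨u, hu, rfl⟩, rfl⟩
    exact ⟨u, hu, by rw [mul_assoc]⟩
  · rintro ⟨u, hu, rfl⟩
    exact ⟨u * s, ⟨u, hu, rfl⟩, by rw [mul_assoc]⟩

theorem scaleLat_one (L : Submodule ℤ (Fin n → ℝ)) : scaleLat L 1 = L := by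
  ext v
  simp only [mem_scaleLat, mul_one]
  exact ⟨fun ⟨u, hu, h⟩ => h ▸ hu, fun h => ⟨v, h, rfl⟩⟩

theorem scaleLat_injective {L L' : Submodule ℤ (Fin n → ℝ)} {t : Fin n → ℝ} (ht : ∀ j, t j ≠ 0)
    (h : scaleLat L t = scaleLat L' t) : L = L' := by
  have hi : t * t⁻¹ = 1 := by
    funext j
    exact mul_inv_cancel₀ (ht j)
  have := congrArg (fun N => scaleLat N t⁻¹) h
  simpa only [scaleLat_scaleLat, hi, scaleLat_one] using this

theorem mem_rowLat {B : Matrix (Fin n) (Fin n) ℝ} {v : Fin n → ℝ} :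
    v ∈ rowLat B ↔ ∃ c : Fin n → ℤ, (fun i => (c i : ℝ)) ᵥ* B = v := by
  unfold rowLat
  rw [Submodule.mem_span_range_iff_exists_fun]
  refine exists_congr fun c => ?_
  have : (∑ i, c i • B i) = (fun i => (c i : ℝ)) ᵥ* B := by
    funext j
    simp only [Finset.sum_apply, Matrix.vecMul, dotProduct]
    refine Finset.sum_congr rfl fun i _ => ?_
    show c i • B i j = _
    rw [zsmul_eq_mul]
  rw [this]

theorem row_mem_rowLat (B : Matrix (Fin n) (Fin n) ℝ) (i : Fin n) : B i ∈ rowLat B :=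
  Submodule.subset_span ⟨i, rfl⟩

/-- If the rows of `B` lie in the row lattice of `C` then `B = P * C` with `P` integral. -/
theorem exists_intMatrix {B C : Matrix (Fin n) (Fin n) ℝ} (h : ∀ i, B i ∈ rowLat C) :
    ∃ P : Matrix (Fin n) (Fin n) ℤ, B = P.map (Int.castRingHom ℝ) * C := by
  choose c hc using fun i => mem_rowLat.1 (h i)
  refine ⟨Matrix.of c, ?_⟩
  funext i j
  have := congrFun (hc i) j
  rw [← this]
  simp [Matrix.mul_apply, Matrix.vecMul, dotProduct]

theorem rowLat_mul_le (P : Matrix (Fin n) (Fin n) ℤ) (C : Matrix (Fin n) (Fin n) ℝ) :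
    rowLat (P.map (Int.castRingHom ℝ) * C) ≤ rowLat C := by
  unfold rowLat
  rw [Submodule.span_le]
  rintro _ ⟨i, rfl⟩
  refine mem_rowLat.2 ⟨P i, ?_⟩
  funext j
  simp [Matrix.mul_apply, Matrix.vecMul, dotProduct]

theorem det_map_cast (P : Matrix (Fin n) (Fin n) ℤ) :
    (P.map (Int.castRingHom ℝ)).det = (P.det : ℝ) := by
  have := (RingHom.map_det (Int.castRingHom ℝ) P)
  simpa using this.symm

/-- Two matrices with the same row lattice have the same `|det|`. -/
theorem abs_det_eq_of_rowLat_eq {B C : Matrix (Fin n) (Fin n) ℝ} (h : rowLat B = rowLat C) :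
    |B.det| = |C.det| := by
  obtain ⟨P, hP⟩ := exists_intMatrix (B := B) (C := C) (fun i => h ▸ row_mem_rowLat B i)
  obtain ⟨Q, hQ⟩ := exists_intMatrix (B := C) (C := B) (fun i => h ▸ row_mem_rowLat C i)
  have h1 : B.det = (P.det : ℝ) * C.det := by
    conv_lhs => rw [hP]
    rw [Matrix.det_mul, det_map_cast]
  have h2 : C.det = (Q.det : ℝ) * B.det := by
    conv_lhs => rw [hQ]
    rw [Matrix.det_mul, det_map_cast]
  by_cases hB : B.det = 0
  · rw [h2, hB]; simp
  · have h3 : ((P.det * Q.det : ℤ) : ℝ) = 1 := by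
      have h4 : (1 : ℝ) * B.det = ((P.det * Q.det : ℤ) : ℝ) * B.det := by
        rw [one_mul, Int.cast_mul, mul_assoc, ← h2]
        exact h1
      exact (mul_right_cancel₀ hB h4).symm
    have h4 : P.det * Q.det = 1 := by exact_mod_cast h3
    have h5 : |P.det| = 1 := Int.isUnit_iff_abs_eq.1 (IsUnit.of_mul_eq_one _ h4)
    rw [h1, abs_mul]
    have : |(P.det : ℝ)| = 1 := by exact_mod_cast h5
    rw [this, one_mul]

/-- A matrix of determinant one as an element of `SL_n(ℝ)`. -/
def toSL (B : Matrix (Fin n) (Fin n) ℝ) (h : B.det = 1) : SLR n := ⟨B, h⟩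

/-- The quotient map `SL_n(ℝ) → SL_n(ℤ)\SL_n(ℝ)`. -/
def mk (h : SLR n) : ModSpace n := Quotient.mk _ h

theorem mk_surjective (x : ModSpace n) : ∃ h : SLR n, mk h = x := by
  induction x using Quotient.inductionOn with
  | h a => exact ⟨a, rfl⟩

theorem mk_eq_mk {a b : SLR n} : mk a = mk b ↔ b * a⁻¹ ∈ intPoints n := by
  unfold mk
  rw [Quotient.eq, QuotientGroup.rightRel_apply]

theorem mk_eq_mk_iff_rowLat {a b : SLR n} : mk a = mk b ↔ rowLat a.1 = rowLat b.1 := by
  rw [mk_eq_mk]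
  constructor
  · rintro ⟨γ, hγ⟩
    have hb : b = Matrix.SpecialLinearGroup.map (Int.castRingHom ℝ) γ * a := by
      rw [hγ]; simp
    have ha : a = Matrix.SpecialLinearGroup.map (Int.castRingHom ℝ) γ⁻¹ * b := by
      rw [map_inv, hγ]; simp
    apply le_antisymm
    · have : a.1 = (γ⁻¹).1.map (Int.castRingHom ℝ) * b.1 := by
        conv_lhs => rw [ha]
        rfl
      rw [this]
      exact rowLat_mul_le _ _
    · have : b.1 = γ.1.map (Int.castRingHom ℝ) * a.1 := by
        conv_lhs => rw [hb]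
        rfl
      rw [this]
      exact rowLat_mul_le _ _
  · intro h
    obtain ⟨P, hP⟩ := exists_intMatrix (B := b.1) (C := a.1) (fun i => h ▸ row_mem_rowLat b.1 i)
    have hd : P.det = 1 := by
      have h1 : b.1.det = (P.det : ℝ) * a.1.det := by
        conv_lhs => rw [hP]
        rw [Matrix.det_mul, det_map_cast]
      rw [b.2, a.2, mul_one] at h1
      exact_mod_cast h1.symm
    refine ⟨⟨P, hd⟩, ?_⟩
    rw [eq_mul_inv_iff_mul_eq]
    apply Subtype.ext
    exact hP.symm

/-- The unimodular lattice of a point of `ModSpace n`. -/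
def lat (x : ModSpace n) : Submodule ℤ (Fin n → ℝ) :=
  Quotient.liftOn x (fun h : SLR n => rowLat h.1) (fun a b hab => by
    have : mk a = mk b := Quotient.sound hab
    exact mk_eq_mk_iff_rowLat.1 this)

theorem lat_mk (h : SLR n) : lat (mk h) = rowLat h.1 := rfl

theorem lat_injective : Function.Injective (lat : ModSpace n → Submodule ℤ (Fin n → ℝ)) := by
  intro x y h
  obtain ⟨a, rfl⟩ := mk_surjective x
  obtain ⟨b, rfl⟩ := mk_surjective y
  exact mk_eq_mk_iff_rowLat.2 h

theorem act_mk (h g : SLR n) : act (mk h) g = mk (h * g) := rfl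

theorem act_act (x : ModSpace n) (g h : SLR n) : act (act x g) h = act x (g * h) := by
  obtain ⟨a, rfl⟩ := mk_surjective x
  rw [act_mk, act_mk, act_mk, mul_assoc]

theorem act_one (x : ModSpace n) : act x 1 = x := by
  obtain ⟨a, rfl⟩ := mk_surjective x
  rw [act_mk, mul_one]

theorem mem_lat_act {x : ModSpace n} {g : SLR n} {v : Fin n → ℝ} :
    v ∈ lat (act x g) ↔ ∃ u ∈ lat x, u ᵥ* g.1 = v := by
  obtain ⟨a, rfl⟩ := mk_surjective x
  rw [act_mk, lat_mk, lat_mk]
  simp only [mem_rowLat]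
  constructor
  · rintro ⟨c, rfl⟩
    exact ⟨_, ⟨c, rfl⟩, by rw [Matrix.vecMul_vecMul]; rfl⟩
  · rintro ⟨_, ⟨c, rfl⟩, rfl⟩
    exact ⟨c, by rw [Matrix.vecMul_vecMul]; rfl⟩

/-- Acting by a diagonal matrix scales the lattice. -/
theorem lat_act_diagonal {x : ModSpace n} {g : SLR n} {t : Fin n → ℝ}
    (hg : g.1 = Matrix.diagonal t) : lat (act x g) = scaleLat (lat x) t := by
  ext v
  rw [mem_lat_act, mem_scaleLat, hg]
  refine exists_congr fun u => and_congr_right fun _ => ?_
  have : u ᵥ* Matrix.diagonal t = u * t := by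
    funext j
    rw [Matrix.vecMul_diagonal]
    rfl
  rw [this]

theorem rowLat_scale (B : Matrix (Fin n) (Fin n) ℝ) (t : Fin n → ℝ) :
    scaleLat (rowLat B) t = rowLat (B * Matrix.diagonal t) := by
  ext v
  rw [mem_scaleLat]
  simp only [mem_rowLat]
  constructor
  · rintro ⟨_, ⟨c, rfl⟩, rfl⟩
    refine ⟨c, ?_⟩
    rw [← Matrix.vecMul_vecMul]
    funext j
    rw [Matrix.vecMul_diagonal]
    rfl
  · rintro ⟨c, rfl⟩
    refine ⟨_, ⟨c, rfl⟩, ?_⟩
    rw [← Matrix.vecMul_vecMul]
    funext j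
    rw [Matrix.vecMul_diagonal]
    rfl


/-- Negating the first row when the determinant is negative does not change the row lattice. -/
theorem rowLat_normalizeDet (B : Matrix (Fin n) (Fin n) ℝ) :
    rowLat (normalizeDet B) = rowLat ((|B.det| ^ (-(1 : ℝ) / n)) • B) := by
  set c : ℝ := |B.det| ^ (-(1 : ℝ) / n) with hc
  apply le_antisymm
  · unfold rowLat
    rw [Submodule.span_le]
    rintro _ ⟨i, rfl⟩
    have hrow : (fun i => (normalizeDet B) i) i =
        if B.det < 0 ∧ i.val = 0 then -((c • B) i) else (c • B) i := by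
      funext j
      simp only [normalizeDet]
      split_ifs <;> rfl
    rw [hrow]
    split_ifs
    · exact Submodule.neg_mem _ (Submodule.subset_span ⟨i, rfl⟩)
    · exact Submodule.subset_span ⟨i, rfl⟩
  · unfold rowLat
    rw [Submodule.span_le]
    rintro _ ⟨i, rfl⟩
    have hrow : (fun i => (c • B) i) i =
        if B.det < 0 ∧ i.val = 0 then -((normalizeDet B) i) else (normalizeDet B) i := by
      funext j
      simp only [normalizeDet]
      split_ifs with h
      · show (c • B) i j = -(-(c • B) i j)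
        rw [neg_neg]
      · rfl
    rw [hrow]
    split_ifs
    · exact Submodule.neg_mem _ (Submodule.subset_span ⟨i, rfl⟩)
    · exact Submodule.subset_span ⟨i, rfl⟩

theorem det_normalizeDet {B : Matrix (Fin (n + 1)) (Fin (n + 1)) ℝ} (hB : B.det ≠ 0) :
    (normalizeDet B).det = 1 := by
  have hpos : 0 < |B.det| := abs_pos.2 hB
  have hc : (|B.det| ^ (-(1 : ℝ) / ((n + 1 : ℕ) : ℝ))) ^ (n + 1) * |B.det| = 1 := by
    rw [← Real.rpow_natCast, ← Real.rpow_mul hpos.le]
    have : (-(1 : ℝ) / ((n + 1 : ℕ) : ℝ)) * ((n + 1 : ℕ) : ℝ) = -1 := by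
      field_simp
    rw [this, Real.rpow_neg hpos.le, Real.rpow_one, inv_mul_cancel₀ hpos.ne']
  by_cases hneg : B.det < 0
  · have h1 : normalizeDet B = Matrix.updateRow
        ((|B.det| ^ (-(1 : ℝ) / ((n + 1 : ℕ) : ℝ))) • B) 0
        ((-1 : ℝ) • (((|B.det| ^ (-(1 : ℝ) / ((n + 1 : ℕ) : ℝ))) • B) 0)) := by
      funext i j
      by_cases hi : i = 0
      · subst hi
        simp [normalizeDet, hneg]
      · have hi' : i.val ≠ 0 := fun h => hi (Fin.ext h)
        rw [Matrix.updateRow_ne hi]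
        simp [normalizeDet, hi]
    rw [h1, Matrix.det_updateRow_smul, Matrix.updateRow_eq_self, Matrix.det_smul,
      Fintype.card_fin]
    have : B.det = -|B.det| := by rw [abs_of_neg hneg]; ring
    rw [this, abs_neg, abs_abs]
    linear_combination hc
  · have h1 : normalizeDet B = (|B.det| ^ (-(1 : ℝ) / ((n + 1 : ℕ) : ℝ))) • B := by
      funext i j
      simp [normalizeDet, hneg]
    rw [h1, Matrix.det_smul, Fintype.card_fin]
    have : B.det = |B.det| := (abs_of_nonneg (not_lt.1 hneg)).symm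
    conv_lhs => rw [this]
    rw [abs_abs]
    exact hc


/-! ### Lattices of a number field -/

variable {K : Type*} [Field K] [NumberField K]

/-- The embedding of `K` in `ℝ^n` given by an ordering of its real embeddings. -/
def emb (σ : Fin n ≃ (K →+* ℝ)) : K →+* (Fin n → ℝ) := RingHom.pi (fun j => σ j)

@[simp] theorem emb_apply (σ : Fin n ≃ (K →+* ℝ)) (x : K) (j : Fin n) : emb σ x j = σ j x := rfl

/-- The image lattice `σ(M)`. -/
def embLat (σ : Fin n ≃ (K →+* ℝ)) (M : Submodule ℤ K) : Submodule ℤ (Fin n → ℝ) :=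
  M.map (emb σ).toAddMonoidHom.toIntLinearMap

theorem mem_embLat {σ : Fin n ≃ (K →+* ℝ)} {M : Submodule ℤ K} {v : Fin n → ℝ} :
    v ∈ embLat σ M ↔ ∃ x ∈ M, emb σ x = v := by
  unfold embLat
  rw [Submodule.mem_map]
  rfl

theorem emb_injective (σ : Fin (n + 1) ≃ (K →+* ℝ)) : Function.Injective (emb σ) := by
  intro x y h
  exact (σ 0).injective (congrFun h 0)

theorem embLat_injective (σ : Fin (n + 1) ≃ (K →+* ℝ)) :
    Function.Injective (embLat σ : Submodule ℤ K → _) := by
  intro M N h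
  ext x
  constructor
  · intro hx
    have : emb σ x ∈ embLat σ N := h ▸ mem_embLat.2 ⟨x, hx, rfl⟩
    obtain ⟨y, hy, hyx⟩ := mem_embLat.1 this
    rwa [← emb_injective σ hyx]
  · intro hx
    have : emb σ x ∈ embLat σ M := h ▸ mem_embLat.2 ⟨x, hx, rfl⟩
    obtain ⟨y, hy, hyx⟩ := mem_embLat.1 this
    rwa [← emb_injective σ hyx]

theorem embLat_lattice (m : LatticeBasis n K) (σ : Fin n ≃ (K →+* ℝ)) :
    embLat σ m.lattice = rowLat (embMatrix m σ) := by
  unfold embLat LatticeBasis.lattice rowLat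
  rw [Submodule.map_span, ← Set.range_comp]
  rfl

/-- The determinant of a lattice basis is nonzero (independence of characters). -/
theorem det_embMatrix_ne_zero (m : LatticeBasis n K) (σ : Fin n ≃ (K →+* ℝ)) :
    (embMatrix m σ).det ≠ 0 := by
  intro h0
  obtain ⟨v, hv, hmul⟩ := Matrix.exists_mulVec_eq_zero_iff.2 h0
  apply hv
  have hq : ∀ x : K, ∑ j, v j * σ j x = 0 := by
    intro x
    have hx : x ∈ Submodule.span ℚ (Set.range m.vec) := by rw [m.spans]; trivial
    induction hx using Submodule.span_induction with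
    | mem x hx =>
      obtain ⟨i, rfl⟩ := hx
      have := congrFun hmul i
      simp only [Matrix.mulVec, dotProduct, embMatrix, Pi.zero_apply] at this
      rw [← this]
      exact Finset.sum_congr rfl fun j _ => mul_comm _ _
    | zero => simp
    | add x y _ _ hx hy =>
      simp only [map_add, mul_add, Finset.sum_add_distrib, hx, hy, add_zero]
    | smul a x _ hx =>
      have : ∀ j, v j * σ j (a • x) = (a : ℝ) * (v j * σ j x) := by
        intro j
        rw [Algebra.smul_def, map_mul, eq_ratCast, map_ratCast]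
        ring
      simp only [this, ← Finset.mul_sum, hx, mul_zero]
  have hinj : Function.Injective (fun j : Fin n => ((σ j : K →+* ℝ) : K →* ℝ)) := by
    intro i j hij
    apply σ.injective
    ext x
    exact DFunLike.congr_fun hij x
  have hli := (linearIndependent_monoidHom K ℝ).comp _ hinj
  rw [Fintype.linearIndependent_iff] at hli
  funext j
  refine hli v ?_ j
  funext x
  simpa using hq x

/-- The covolume of `σ(M)`. -/
def covol (m : LatticeBasis n K) (σ : Fin n ≃ (K →+* ℝ)) : ℝ := |(embMatrix m σ).det|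

theorem covol_pos (m : LatticeBasis n K) (σ : Fin n ≃ (K →+* ℝ)) : 0 < covol m σ :=
  abs_pos.2 (det_embMatrix_ne_zero m σ)


/-- The normalising factor of `σ(M)`. -/
def nrm (m : LatticeBasis n K) (σ : Fin n ≃ (K →+* ℝ)) : ℝ := covol m σ ^ (-(1 : ℝ) / n)

theorem nrm_pos (m : LatticeBasis n K) (σ : Fin n ≃ (K →+* ℝ)) : 0 < nrm m σ :=
  Real.rpow_pos_of_pos (covol_pos m σ) _

/-- The point of a lattice is its normalised image under the embeddings. -/
theorem lat_latticePoint (m : LatticeBasis (n + 1) K) (σ : Fin (n + 1) ≃ (K →+* ℝ)) :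
    lat (latticePoint m σ) = scaleLat (embLat σ m.lattice) (fun _ => nrm m σ) := by
  have hdet := det_normalizeDet (det_embMatrix_ne_zero m σ)
  have h1 : latticePoint m σ = mk (toSL (normalizeDet (embMatrix m σ)) hdet) := by
    unfold latticePoint
    rw [dif_pos hdet]
    rfl
  rw [h1, lat_mk]
  show rowLat (normalizeDet (embMatrix m σ)) = _
  rw [rowLat_normalizeDet, embLat_lattice, rowLat_scale]
  have h2 : (|(embMatrix m σ).det| ^ (-(1 : ℝ) / ((n + 1 : ℕ) : ℝ))) • embMatrix m σ =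
      embMatrix m σ * Matrix.diagonal (fun _ => nrm m σ) := by
    ext i j
    rw [Matrix.mul_diagonal, Matrix.smul_apply, smul_eq_mul, mul_comm]
    rfl
  rw [h2]

/-- The covolume as a constraint on scalings of `σ(M)` which are unimodular. -/
theorem abs_prod_mul_covol {m : LatticeBasis (n + 1) K} {σ : Fin (n + 1) ≃ (K →+* ℝ)}
    {x : ModSpace (n + 1)} {t : Fin (n + 1) → ℝ} (h : lat x = scaleLat (embLat σ m.lattice) t) :
    |∏ j, t j| * covol m σ = 1 := by
  obtain ⟨a, rfl⟩ := mk_surjective x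
  rw [lat_mk, embLat_lattice, rowLat_scale] at h
  have := abs_det_eq_of_rowLat_eq h
  rw [a.2, Matrix.det_mul, Matrix.det_diagonal, abs_one, abs_mul] at this
  rw [this, mul_comm]
  rfl


/-! ### The diagonal flow -/

variable {d : ℕ}

/-- The diagonal entries of `diagFlow u`. -/
def aVec (u : Fin d → ℝ) : Fin (d + 1) → ℝ :=
  Fin.snoc (fun i => Real.exp (u i)) (Real.exp (-∑ i, u i))

theorem aVec_castSucc (u : Fin d → ℝ) (i : Fin d) : aVec u i.castSucc = Real.exp (u i) := by
  simp [aVec]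

theorem aVec_last (u : Fin d → ℝ) : aVec u (Fin.last d) = Real.exp (-∑ i, u i) := by
  simp [aVec]

theorem aVec_pos (u : Fin d → ℝ) (j : Fin (d + 1)) : 0 < aVec u j := by
  refine Fin.lastCases ?_ (fun i => ?_) j
  · rw [aVec_last]; exact Real.exp_pos _
  · rw [aVec_castSucc]; exact Real.exp_pos _

theorem aVec_add (u v : Fin d → ℝ) : aVec (u + v) = aVec u * aVec v := by
  funext j
  refine Fin.lastCases ?_ (fun i => ?_) j
  · rw [Pi.mul_apply, aVec_last, aVec_last, aVec_last, ← Real.exp_add]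
    congr 1
    simp only [Pi.add_apply, Finset.sum_add_distrib]
    ring
  · rw [Pi.mul_apply, aVec_castSucc, aVec_castSucc, aVec_castSucc, ← Real.exp_add]
    rfl

theorem aVec_zero : aVec (0 : Fin d → ℝ) = 1 := by
  funext j
  refine Fin.lastCases ?_ (fun i => ?_) j
  · rw [aVec_last]; simp
  · rw [aVec_castSucc]; simp


/-- A positive vector with product one is `aVec` of its logarithms. -/
theorem eq_aVec {t : Fin (d + 1) → ℝ} (ht : ∀ j, 0 < t j) (hp : ∏ j, t j = 1) :
    t = aVec (fun i => Real.log (t i.castSucc)) := by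
  funext j
  refine Fin.lastCases ?_ (fun i => ?_) j
  · rw [aVec_last]
    have h1 : t (Fin.last d) = (∏ i : Fin d, t i.castSucc)⁻¹ := by
      rw [Fin.prod_univ_castSucc] at hp
      exact eq_inv_of_mul_eq_one_right hp
    rw [Real.exp_neg, Real.exp_sum, h1]
    congr 1
    exact Finset.prod_congr rfl fun i _ => (Real.exp_log (ht _)).symm
  · rw [aVec_castSucc, Real.exp_log (ht _)]


theorem diagFlow_val (u : Fin d → ℝ) : (diagFlow u).1 = Matrix.diagonal (aVec u) := rfl

theorem diagFlow_add (u v : Fin d → ℝ) : diagFlow (u + v) = diagFlow u * diagFlow v := by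
  apply Subtype.ext
  show Matrix.diagonal (aVec (u + v)) = Matrix.diagonal (aVec u) * Matrix.diagonal (aVec v)
  rw [Matrix.diagonal_mul_diagonal, aVec_add]
  rfl

theorem diagFlow_zero : diagFlow (0 : Fin d → ℝ) = 1 := by
  apply Subtype.ext
  show Matrix.diagonal (aVec 0) = 1
  rw [aVec_zero]
  exact Matrix.diagonal_one

theorem orbitMap_zero (x : ModSpace (d + 1)) : orbitMap x 0 = x := by
  unfold orbitMap
  rw [diagFlow_zero, act_one]

theorem orbitMap_orbitMap (x : ModSpace (d + 1)) (u v : Fin d → ℝ) :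
    orbitMap (orbitMap x u) v = orbitMap x (u + v) := by
  unfold orbitMap
  rw [act_act, diagFlow_add]

theorem lat_orbitMap (x : ModSpace (d + 1)) (u : Fin d → ℝ) :
    lat (orbitMap x u) = scaleLat (lat x) (aVec u) :=
  lat_act_diagonal (diagFlow_val u)

/-- The diagonal of a sign matrix. -/
def signVec (w : SLR (d + 1)) : Fin (d + 1) → ℝ := fun j => w.1 j j

theorem sign_eq_diagonal {w : SLR (d + 1)} (hw : IsSignMatrix w) :
    w.1 = Matrix.diagonal (signVec w) := by
  ext i j
  by_cases h : i = j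
  · subst h
    rw [Matrix.diagonal_apply_eq]
    rfl
  · rw [Matrix.diagonal_apply_ne _ h, hw.1 i j h]

theorem lat_act_sign (x : ModSpace (d + 1)) {w : SLR (d + 1)} (hw : IsSignMatrix w) :
    lat (act x w) = scaleLat (lat x) (signVec w) :=
  lat_act_diagonal (sign_eq_diagonal hw)


theorem signVec_ne_zero {w : SLR (d + 1)} (hw : IsSignMatrix w) (j : Fin (d + 1)) :
    signVec w j ≠ 0 := by
  rcases hw.2 j with h | h
  · show w.1 j j ≠ 0
    rw [h]; exact one_ne_zero
  · show w.1 j j ≠ 0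
    rw [h]; exact neg_ne_zero.2 one_ne_zero

theorem isSignMatrix_one : IsSignMatrix (1 : SLR (d + 1)) := by
  refine ⟨fun i j hij => ?_, fun i => Or.inl ?_⟩
  · rw [Matrix.SpecialLinearGroup.coe_one, Matrix.one_apply_ne hij]
  · rw [Matrix.SpecialLinearGroup.coe_one, Matrix.one_apply_eq]

end

end Crest.Agent.R014.Pk1_349
end

-- ▼ part R014/Pk2_349

/-!
Row 14, packets, part 2 (helper349): diagonal orbits and their periods for number field lattices;
local homothety is an equivalence relation and preserves the multiplier order.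
-/

set_option autoImplicit false
set_option linter.unusedSectionVars false

open MeasureTheory Matrix
open Crest.NumberTheoryR.Packets

namespace Crest.Agent.R014.Pk2_349

open Crest.Agent.R014.Pk1_349

noncomputable section

variable {n d : ℕ} {K : Type*} [Field K] [NumberField K]

/-- The homothetic lattice `c·M`. -/
def cM (c : K) (M : Submodule ℤ K) : Submodule ℤ K := M.map (LinearMap.mulLeft ℤ c)

theorem mem_cM {c x : K} {M : Submodule ℤ K} : x ∈ cM c M ↔ ∃ y ∈ M, c * y = x := by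
  unfold cM
  rw [Submodule.mem_map]
  rfl

theorem mem_cM' {c x : K} (hc : c ≠ 0) {M : Submodule ℤ K} : x ∈ cM c M ↔ c⁻¹ * x ∈ M := by
  rw [mem_cM]
  constructor
  · rintro ⟨y, hy, rfl⟩
    rwa [inv_mul_cancel_left₀ hc]
  · intro h
    exact ⟨_, h, by rw [mul_inv_cancel_left₀ hc]⟩

theorem cM_one (M : Submodule ℤ K) : cM 1 M = M := by
  ext x
  rw [mem_cM]
  constructor
  · rintro ⟨y, hy, rfl⟩; rwa [one_mul]
  · intro h; exact ⟨x, h, one_mul x⟩

theorem cM_cM (c c' : K) (M : Submodule ℤ K) : cM c (cM c' M) = cM (c * c') M := by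
  ext x
  simp only [mem_cM]
  constructor
  · rintro ⟨_, ⟨y, hy, rfl⟩, rfl⟩
    exact ⟨y, hy, by rw [mul_assoc]⟩
  · rintro ⟨y, hy, rfl⟩
    exact ⟨_, ⟨y, hy, rfl⟩, by rw [mul_assoc]⟩

theorem cM_inv {c : K} (hc : c ≠ 0) {M M' : Submodule ℤ K} (h : cM c M = M') :
    cM c⁻¹ M' = M := by
  rw [← h, cM_cM, inv_mul_cancel₀ hc, cM_one]

theorem embLat_cM (σ : Fin n ≃ (K →+* ℝ)) (c : K) (M : Submodule ℤ K) :
    embLat σ (cM c M) = scaleLat (embLat σ M) (emb σ c) := by
  ext v
  rw [mem_embLat, mem_scaleLat]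
  constructor
  · rintro ⟨x, hx, rfl⟩
    obtain ⟨y, hy, rfl⟩ := mem_cM.1 hx
    exact ⟨emb σ y, mem_embLat.2 ⟨y, hy, rfl⟩, by rw [← map_mul, mul_comm]⟩
  · rintro ⟨_, hu, rfl⟩
    obtain ⟨y, hy, rfl⟩ := mem_embLat.1 hu
    exact ⟨c * y, mem_cM.2 ⟨y, hy, rfl⟩, by rw [map_mul, mul_comm]⟩

/-- The lattice basis `c·m`. -/
def smulBasis (c : K) (hc : c ≠ 0) (m : LatticeBasis n K) : LatticeBasis n K where
  vec := fun i => c * m.vec i
  linIndep := by
    have := m.linIndep.map' (LinearMap.mulLeft ℤ c)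
      (LinearMap.ker_eq_bot.2 (mul_right_injective₀ hc))
    exact this
  spans := by
    have h : (Set.range fun i => c * m.vec i) = (LinearMap.mulLeft ℚ c) '' Set.range m.vec := by
      rw [← Set.range_comp]
      rfl
    rw [h, Submodule.span_image, m.spans, Submodule.map_top, LinearMap.range_eq_top]
    intro y
    exact ⟨c⁻¹ * y, by simp [mul_inv_cancel_left₀ hc]⟩

theorem smulBasis_lattice (c : K) (hc : c ≠ 0) (m : LatticeBasis n K) :
    (smulBasis c hc m).lattice = cM c m.lattice := by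
  unfold cM LatticeBasis.lattice
  rw [Submodule.map_span, ← Set.range_comp]
  rfl

theorem vec_ne_zero (m : LatticeBasis n K) (i : Fin n) : m.vec i ≠ 0 := m.linIndep.ne_zero i

theorem vec_mem (m : LatticeBasis n K) (i : Fin n) : m.vec i ∈ m.lattice :=
  Submodule.subset_span ⟨i, rfl⟩

/-- Fundamental rigidity: equal scalings of number field lattices are homothetic in the field. -/
theorem exists_scalar {σ : Fin (d + 1) ≃ (K →+* ℝ)} {M M' : Submodule ℤ K}
    {s t : Fin (d + 1) → ℝ} (hs : ∀ j, s j ≠ 0) (ht : ∀ j, t j ≠ 0) (hM : M ≠ ⊥)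
    (h : scaleLat (embLat σ M) s = scaleLat (embLat σ M') t) :
    ∃ c : K, c ≠ 0 ∧ (∀ j, σ j c * t j = s j) ∧ cM c M = M' := by
  obtain ⟨z, hz, hz0⟩ := Submodule.exists_mem_ne_zero_of_ne_bot hM
  have hσ : ∀ (j : Fin (d + 1)) (x : K), x ≠ 0 → σ j x ≠ 0 := fun j x hx =>
    (map_ne_zero (σ j)).2 hx
  have h1 : emb σ z * s ∈ scaleLat (embLat σ M') t := h ▸
    mem_scaleLat.2 ⟨_, mem_embLat.2 ⟨z, hz, rfl⟩, rfl⟩
  obtain ⟨_, hu, hyz⟩ := mem_scaleLat.1 h1
  obtain ⟨y, hy, rfl⟩ := mem_embLat.1 hu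
  have hj : ∀ j, σ j y * t j = σ j z * s j := fun j => congrFun hyz j
  have hy0 : y ≠ 0 := by
    intro h0
    have := hj 0
    rw [h0, map_zero, zero_mul] at this
    exact mul_ne_zero (hσ 0 z hz0) (hs 0) this.symm
  refine ⟨y / z, div_ne_zero hy0 hz0, ?_, ?_⟩
  · intro j
    rw [map_div₀, div_mul_eq_mul_div, hj j, mul_div_cancel_left₀ _ (hσ j z hz0)]
  · have hc : ∀ j, σ j (y / z) * t j = s j := by
      intro j
      rw [map_div₀, div_mul_eq_mul_div, hj j, mul_div_cancel_left₀ _ (hσ j z hz0)]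
    have hc' : emb σ (y / z) * t = s := funext hc
    have h2 : scaleLat (embLat σ (cM (y / z) M)) t = scaleLat (embLat σ M') t := by
      rw [embLat_cM, scaleLat_scaleLat, hc', h]
    exact embLat_injective σ (scaleLat_injective ht h2)

/-- Points whose lattice is a scaling of `σ(M)` with prescribed signs. -/
def orbSet (σ : Fin (d + 1) ≃ (K →+* ℝ)) (M : Submodule ℤ K) (s : Fin (d + 1) → ℝ) :
    Set (ModSpace (d + 1)) :=
  {y | ∃ t : Fin (d + 1) → ℝ, (∀ j, 0 < s j * t j) ∧ lat y = scaleLat (embLat σ M) t}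

theorem orbSet_congr {σ : Fin (d + 1) ≃ (K →+* ℝ)} {M : Submodule ℤ K}
    {s s' : Fin (d + 1) → ℝ} (h : ∀ j, 0 < s j * s' j) : orbSet σ M s = orbSet σ M s' := by
  have key : ∀ {a b c : ℝ}, 0 < a * b → 0 < a * c → 0 < b * c := by
    intro a b c h1 h2
    have h3 : 0 < (a * b) * (a * c) := mul_pos h1 h2
    have h4 : (a * b) * (a * c) = (a * a) * (b * c) := by ring
    rw [h4] at h3
    have h5 : 0 < a * a := by
      have ha : a ≠ 0 := by
        intro h0
        rw [h0, zero_mul] at h1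
        exact lt_irrefl _ h1
      exact mul_self_pos.2 ha
    exact (pos_iff_pos_of_mul_pos h3).1 h5
  ext y
  constructor
  · rintro ⟨t, ht, hy⟩
    exact ⟨t, fun j => key (h j) (ht j), hy⟩
  · rintro ⟨t, ht, hy⟩
    exact ⟨t, fun j => key (by rw [mul_comm]; exact h j) (ht j), hy⟩

theorem orbSet_cM {σ : Fin (d + 1) ≃ (K →+* ℝ)} {M : Submodule ℤ K} {s : Fin (d + 1) → ℝ}
    {c : K} (hc : c ≠ 0) : orbSet σ (cM c M) s = orbSet σ M (s * emb σ c) := by
  have hσ : ∀ j, 0 < σ j c * σ j c := fun j => mul_self_pos.2 ((map_ne_zero (σ j)).2 hc)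
  have hinv : emb σ c * (emb σ c)⁻¹ = 1 := by
    funext j
    exact mul_inv_cancel₀ ((map_ne_zero (σ j)).2 hc)
  ext y
  constructor
  · rintro ⟨t, ht, hy⟩
    refine ⟨emb σ c * t, fun j => ?_, ?_⟩
    · have : (s * emb σ c) j * (emb σ c * t) j = (s j * t j) * (σ j c * σ j c) := by
        simp only [Pi.mul_apply, emb_apply]; ring
      rw [this]
      exact mul_pos (ht j) (hσ j)
    · rw [hy, embLat_cM, scaleLat_scaleLat]
  · rintro ⟨t, ht, hy⟩
    refine ⟨(emb σ c)⁻¹ * t, fun j => ?_, ?_⟩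
    · have h1 : (s * emb σ c) j * t j = (s j * ((emb σ c)⁻¹ * t) j) * (σ j c * σ j c) := by
        simp only [Pi.mul_apply, emb_apply, Pi.inv_apply]
        have := (map_ne_zero (σ j)).2 hc
        field_simp
      have h2 := ht j
      rw [h1] at h2
      exact (pos_iff_pos_of_mul_pos h2).2 (hσ j)
    · rw [hy, embLat_cM, scaleLat_scaleLat, ← mul_assoc, hinv, one_mul]

/-- The diagonal orbit of a point over `σ(M)` is the set of all points over `σ(M)` with the same
signs. -/
theorem range_orbitMap {σ : Fin (d + 1) ≃ (K →+* ℝ)} {m : LatticeBasis (d + 1) K}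
    {x : ModSpace (d + 1)} {t : Fin (d + 1) → ℝ} (ht : ∀ j, t j ≠ 0)
    (hx : lat x = scaleLat (embLat σ m.lattice) t) :
    Set.range (orbitMap x) = orbSet σ m.lattice t := by
  ext y
  constructor
  · rintro ⟨u, rfl⟩
    refine ⟨t * aVec u, fun j => ?_, ?_⟩
    · rw [Pi.mul_apply, ← mul_assoc]
      exact mul_pos (mul_self_pos.2 (ht j)) (aVec_pos u j)
    · rw [lat_orbitMap, hx, scaleLat_scaleLat]
  · rintro ⟨t', ht', hy⟩
    have hq : ∀ j, 0 < (t' / t) j := by
      intro j
      rw [Pi.div_apply]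
      have h1 := ht' j
      have h2 : t j * t' j = (t' j / t j) * (t j * t j) := by
        have := ht j
        field_simp
      rw [h2] at h1
      exact (pos_iff_pos_of_mul_pos h1).2 (mul_self_pos.2 (ht j))
    have hprod : ∏ j, (t' / t) j = 1 := by
      have e1 := abs_prod_mul_covol hx
      have e2 := abs_prod_mul_covol hy
      have e3 : |∏ j, t' j| = |∏ j, t j| :=
        mul_right_cancel₀ (covol_pos m σ).ne' (e2.trans e1.symm)
      have e4 : |∏ j, (t' / t) j| = 1 := by
        simp only [Pi.div_apply]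
        rw [Finset.prod_div_distrib, abs_div, e3, div_self]
        rw [abs_ne_zero]
        exact Finset.prod_ne_zero_iff.2 fun j _ => ht j
      rwa [abs_of_pos (Finset.prod_pos fun j _ => hq j)] at e4
    have ha := eq_aVec hq hprod
    refine ⟨fun i => Real.log ((t' / t) i.castSucc), ?_⟩
    apply lat_injective
    rw [lat_orbitMap, ← ha, hx, hy, scaleLat_scaleLat]
    congr 1
    funext j
    rw [Pi.mul_apply, Pi.div_apply, mul_div_cancel₀ _ (ht j)]

theorem lat_ne_bot_of (m : LatticeBasis (d + 1) K) : m.lattice ≠ ⊥ := by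
  intro h
  have h1 := vec_mem m 0
  rw [h] at h1
  exact vec_ne_zero m 0 ((Submodule.mem_bot ℤ).1 h1)

theorem cM_eq_iff {m : LatticeBasis n K} {e : K} (he : e ≠ 0) :
    cM e m.lattice = m.lattice ↔ e ∈ multiplierOrder m ∧ e⁻¹ ∈ multiplierOrder m := by
  constructor
  · intro h
    constructor
    · intro x hx
      have : e * x ∈ cM e m.lattice := mem_cM.2 ⟨x, hx, rfl⟩
      rwa [h] at this
    · intro x hx
      rw [← h] at hx
      exact (mem_cM' he).1 hx
  · rintro ⟨h1, h2⟩
    ext x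
    rw [mem_cM' he]
    constructor
    · intro hx
      have := h1 _ hx
      rwa [mul_inv_cancel_left₀ he] at this
    · intro hx
      exact h2 x hx

/-- Multiplication by a unit of the multiplier order has norm `±1`. -/
theorem abs_prod_unit {σ : Fin (d + 1) ≃ (K →+* ℝ)} {m : LatticeBasis (d + 1) K} {e : K}
    (h : cM e m.lattice = m.lattice) : |∏ j, σ j e| = 1 := by
  have h1 : scaleLat (rowLat (embMatrix m σ)) (emb σ e) = rowLat (embMatrix m σ) := by
    rw [← embLat_lattice, ← embLat_cM, h]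
  rw [rowLat_scale] at h1
  have h2 := abs_det_eq_of_rowLat_eq h1
  rw [Matrix.det_mul, Matrix.det_diagonal, abs_mul] at h2
  have h3 := abs_pos.2 (det_embMatrix_ne_zero m σ)
  have h4 := mul_left_cancel₀ h3.ne' (h2.trans (mul_one _).symm)
  exact h4

/-- The periods of the diagonal orbit of a point over `σ(M)`. -/
theorem mem_periods {σ : Fin (d + 1) ≃ (K →+* ℝ)} {m : LatticeBasis (d + 1) K}
    {x : ModSpace (d + 1)} {t : Fin (d + 1) → ℝ} (ht : ∀ j, t j ≠ 0)
    (hx : lat x = scaleLat (embLat σ m.lattice) t) {u : Fin d → ℝ} :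
    u ∈ periods x ↔ ∃ e : K, cM e m.lattice = m.lattice ∧ ∀ j, σ j e = aVec u j := by
  constructor
  · intro hu
    have h1 : orbitMap x u = x := hu
    have h2 : scaleLat (embLat σ m.lattice) (t * aVec u) = scaleLat (embLat σ m.lattice) t := by
      rw [← scaleLat_scaleLat, ← hx, ← lat_orbitMap, h1]
    obtain ⟨e, he0, he, hM⟩ := exists_scalar
      (fun j => mul_ne_zero (ht j) (aVec_pos u j).ne') ht (lat_ne_bot_of m) h2
    refine ⟨e, hM, fun j => ?_⟩
    have h3 : σ j e * t j = t j * aVec u j := he j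
    rw [mul_comm] at h3
    exact mul_left_cancel₀ (ht j) h3
  · rintro ⟨e, hM, he⟩
    show orbitMap x u = x
    apply lat_injective
    have h1 : emb σ e = aVec u := funext he
    rw [lat_orbitMap, hx, scaleLat_scaleLat, mul_comm, ← scaleLat_scaleLat, ← h1, ← embLat_cM, hM]

/-- The periods in terms of totally positive units of the multiplier order. -/
theorem mem_periods_iff {σ : Fin (d + 1) ≃ (K →+* ℝ)} {m : LatticeBasis (d + 1) K}
    {x : ModSpace (d + 1)} {t : Fin (d + 1) → ℝ} (ht : ∀ j, t j ≠ 0)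
    (hx : lat x = scaleLat (embLat σ m.lattice) t) {u : Fin d → ℝ} :
    u ∈ periods x ↔ ∃ e : K, e ∈ multiplierOrder m ∧ e⁻¹ ∈ multiplierOrder m ∧
      (∀ j, 0 < σ j e) ∧ ∀ i : Fin d, u i = Real.log (σ i.castSucc e) := by
  rw [mem_periods ht hx]
  constructor
  · rintro ⟨e, hM, he⟩
    have hpos : ∀ j, 0 < σ j e := fun j => by rw [he j]; exact aVec_pos u j
    have he0 : e ≠ 0 := by
      intro h
      have := hpos 0
      rw [h, map_zero] at this
      exact lt_irrefl _ this
    obtain ⟨h1, h2⟩ := (cM_eq_iff he0).1 hM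
    refine ⟨e, h1, h2, hpos, fun i => ?_⟩
    rw [he, aVec_castSucc, Real.log_exp]
  · rintro ⟨e, h1, h2, hpos, hu⟩
    have he0 : e ≠ 0 := by
      intro h
      have := hpos 0
      rw [h, map_zero] at this
      exact lt_irrefl _ this
    have hM := (cM_eq_iff he0).2 ⟨h1, h2⟩
    have hprod : ∏ j, emb σ e j = 1 := by
      have := abs_prod_unit (σ := σ) hM
      rwa [abs_of_pos (Finset.prod_pos fun j _ => hpos j)] at this
    have h3 := eq_aVec (t := emb σ e) hpos hprod
    have h4 : u = fun i => Real.log (emb σ e i.castSucc) := funext hu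
    rw [← h4] at h3
    exact ⟨e, hM, fun j => congrFun h3 j⟩

/-- Same diagonal orbit iff homothetic by a scalar with the right signs. -/
theorem mem_orbit_iff {σ : Fin (d + 1) ≃ (K →+* ℝ)} {m m' : LatticeBasis (d + 1) K}
    {x x' : ModSpace (d + 1)} {t t' : Fin (d + 1) → ℝ} (ht : ∀ j, t j ≠ 0)
    (ht' : ∀ j, t' j ≠ 0) (hx : lat x = scaleLat (embLat σ m.lattice) t)
    (hx' : lat x' = scaleLat (embLat σ m'.lattice) t') :
    x' ∈ Set.range (orbitMap x) ↔
      ∃ c : K, cM c m.lattice = m'.lattice ∧ ∀ j, 0 < t j * (σ j c * t' j) := by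
  rw [range_orbitMap ht hx]
  constructor
  · rintro ⟨s, hs, hx2⟩
    have hs0 : ∀ j, s j ≠ 0 := fun j h => by
      have := hs j
      rw [h, mul_zero] at this
      exact lt_irrefl _ this
    obtain ⟨c, hc0, hc, hM⟩ := exists_scalar hs0 ht' (lat_ne_bot_of m) (hx2.symm.trans hx')
    exact ⟨c, hM, fun j => by rw [hc j]; exact hs j⟩
  · rintro ⟨c, hM, hc⟩
    refine ⟨emb σ c * t', hc, ?_⟩
    rw [hx', ← hM, embLat_cM, scaleLat_scaleLat]

/-! ### Local homothety -/

theorem lh_refl (m : LatticeBasis n K) : LocallyHomothetic m m := by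
  intro ℓ hℓ
  refine ⟨1, one_ne_zero, 1, fun h => hℓ.one_lt.ne' (Nat.dvd_one.1 h), fun x hx => ⟨x, hx, ?_⟩,
    fun x hx => ?_⟩
  · simp
  · simpa using hx

theorem lh_symm {m m' : LatticeBasis n K} (h : LocallyHomothetic m m') :
    LocallyHomothetic m' m := by
  intro ℓ hℓ
  obtain ⟨c, hc, N, hN, h1, h2⟩ := h ℓ hℓ
  refine ⟨c⁻¹, inv_ne_zero hc, N, hN, fun x hx => ⟨_, h2 x hx, ?_⟩, fun x hx => ?_⟩
  · field_simp
  · obtain ⟨y, hy, hxy⟩ := h1 x hx
    have : (N : K) * (c⁻¹ * x) = y := by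
      rw [mul_left_comm, hxy, inv_mul_cancel_left₀ hc]
    rw [this]
    exact hy

theorem lh_trans {m m' m'' : LatticeBasis n K} (h : LocallyHomothetic m m')
    (h' : LocallyHomothetic m' m'') : LocallyHomothetic m m'' := by
  intro ℓ hℓ
  obtain ⟨c, hc, N, hN, h1, h2⟩ := h ℓ hℓ
  obtain ⟨c', hc', N', hN', h1', h2'⟩ := h' ℓ hℓ
  refine ⟨c' * c, mul_ne_zero hc' hc, N' * N, ?_, fun x hx => ?_, fun x hx => ?_⟩
  · intro h
    rcases (Nat.Prime.dvd_mul hℓ).1 h with h | h
    · exact hN' h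
    · exact hN h
  · obtain ⟨y, hy, hxy⟩ := h1' x hx
    obtain ⟨z, hz, hyz⟩ := h1 y hy
    refine ⟨z, hz, ?_⟩
    push_cast
    calc ((N' : K) * N) * x = N * ((N' : K) * x) := by ring
      _ = c' * ((N : K) * y) := by rw [hxy]; ring
      _ = c' * c * z := by rw [hyz]; ring
  · have := h2' _ (h2 x hx)
    push_cast
    have e : (N' : K) * N * (c' * c * x) = (N' : K) * (c' * ((N : K) * (c * x))) := by ring
    rw [e]
    exact this

theorem lh_of_cM {m m' : LatticeBasis n K} {c : K} (hc : c ≠ 0)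
    (h : cM c m.lattice = m'.lattice) : LocallyHomothetic m m' := by
  intro ℓ hℓ
  refine ⟨c, hc, 1, fun h => hℓ.one_lt.ne' (Nat.dvd_one.1 h), fun x hx => ?_, fun x hx => ?_⟩
  · rw [← h] at hx
    obtain ⟨y, hy, hyx⟩ := mem_cM.1 hx
    exact ⟨y, hy, by simp [hyx]⟩
  · rw [← h, Nat.cast_one, one_mul]
    exact mem_cM.2 ⟨x, hx, rfl⟩


/-- An element which is a multiple-prime-to-every-prime away from a submodule is in it. -/
theorem mem_of_forall_prime {M : Submodule ℤ K} {x : K}
    (h : ∀ ℓ : ℕ, ℓ.Prime → ∃ N : ℕ, ¬ ℓ ∣ N ∧ (N : K) * x ∈ M) : x ∈ M := by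
  by_contra hx
  let I : Ideal ℤ := M.comap (LinearMap.toSpanSingleton ℤ K x)
  have hI : ∀ k : ℤ, k ∈ I ↔ (k : K) * x ∈ M := by
    intro k
    show k • x ∈ M ↔ _
    rw [zsmul_eq_mul]
  have hne : I ≠ ⊤ := by
    intro ht
    apply hx
    have h1 : (1 : ℤ) ∈ I := by rw [ht]; trivial
    rw [hI] at h1
    simpa using h1
  obtain ⟨g, hg⟩ : ∃ g : ℤ, I = Ideal.span {g} := (IsPrincipalIdealRing.principal I).principal
  have hg1 : ¬ IsUnit g := fun hu => hne (by rw [hg]; exact Ideal.span_singleton_eq_top.2 hu)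
  have hg2 : g.natAbs ≠ 1 := fun h => hg1 (Int.isUnit_iff_natAbs_eq.2 h)
  obtain ⟨ℓ, hℓ, hdvd⟩ := Nat.exists_prime_and_dvd hg2
  obtain ⟨N, hN, hNx⟩ := h ℓ hℓ
  have h2 : (N : ℤ) ∈ I := by rw [hI]; exact_mod_cast hNx
  rw [hg, Ideal.mem_span_singleton] at h2
  apply hN
  have h3 : g.natAbs ∣ N := by
    have := Int.natAbs_dvd_natAbs.2 h2
    simpa using this
  exact hdvd.trans h3

theorem mult_le_of_lh {m m' : LatticeBasis n K} (h : LocallyHomothetic m m') :
    multiplierOrder m ≤ multiplierOrder m' := by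
  intro a ha x hx
  apply mem_of_forall_prime
  intro ℓ hℓ
  obtain ⟨c, hc, N, hN, h1, h2⟩ := h ℓ hℓ
  obtain ⟨y, hy, hxy⟩ := h1 x hx
  refine ⟨N * N, fun h => ?_, ?_⟩
  · rcases (Nat.Prime.dvd_mul hℓ).1 h with h | h <;> exact hN h
  · have h3 := h2 _ (ha y hy)
    have e : ((N * N : ℕ) : K) * (a * x) = (N : K) * (c * (a * y)) := by
      push_cast
      calc (N : K) * N * (a * x) = N * (a * ((N : K) * x)) := by ring
        _ = N * (c * (a * y)) := by rw [hxy]; ring
    rw [e]
    exact h3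

theorem mult_eq_of_lh {m m' : LatticeBasis n K} (h : LocallyHomothetic m m') :
    multiplierOrder m = multiplierOrder m' :=
  le_antisymm (mult_le_of_lh h) (mult_le_of_lh (lh_symm h))

/-! ### Sign-twisted points -/

/-- The scaling vector of a sign-twisted lattice point. -/
def twist (m : LatticeBasis (d + 1) K) (σ : Fin (d + 1) ≃ (K →+* ℝ)) (w : SLR (d + 1)) :
    Fin (d + 1) → ℝ := fun j => nrm m σ * signVec w j

/-- The lattice of a sign-twisted lattice point. -/
theorem lat_act_latticePoint (m : LatticeBasis (d + 1) K) (σ : Fin (d + 1) ≃ (K →+* ℝ))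
    {w : SLR (d + 1)} (hw : IsSignMatrix w) :
    lat (act (latticePoint m σ) w) = scaleLat (embLat σ m.lattice) (twist m σ w) := by
  rw [lat_act_sign _ hw, lat_latticePoint, scaleLat_scaleLat]
  rfl

theorem twist_ne_zero (m : LatticeBasis (d + 1) K) (σ : Fin (d + 1) ≃ (K →+* ℝ))
    {w : SLR (d + 1)} (hw : IsSignMatrix w) (j : Fin (d + 1)) : twist m σ w j ≠ 0 :=
  mul_ne_zero (nrm_pos m σ).ne' (signVec_ne_zero hw j)

theorem range_orbitMap_twist (m : LatticeBasis (d + 1) K) (σ : Fin (d + 1) ≃ (K →+* ℝ))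
    {w : SLR (d + 1)} (hw : IsSignMatrix w) :
    Set.range (orbitMap (act (latticePoint m σ) w)) = orbSet σ m.lattice (signVec w) := by
  rw [range_orbitMap (twist_ne_zero m σ hw) (lat_act_latticePoint m σ hw)]
  apply orbSet_congr
  intro j
  have h1 : twist m σ w j * signVec w j = nrm m σ * (signVec w j * signVec w j) := by
    unfold twist
    ring
  rw [h1]
  exact mul_pos (nrm_pos m σ) (mul_self_pos.2 (signVec_ne_zero hw j))

/-- (P1) the periods of the orbits of a packet. -/
theorem mem_periods_twist (m : LatticeBasis (d + 1) K) (σ : Fin (d + 1) ≃ (K →+* ℝ))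
    {w : SLR (d + 1)} (hw : IsSignMatrix w) {u : Fin d → ℝ} :
    u ∈ periods (act (latticePoint m σ) w) ↔
      ∃ e : K, e ∈ multiplierOrder m ∧ e⁻¹ ∈ multiplierOrder m ∧
        (∀ j, 0 < σ j e) ∧ ∀ i : Fin d, u i = Real.log (σ i.castSucc e) :=
  mem_periods_iff (twist_ne_zero m σ hw) (lat_act_latticePoint m σ hw)

end

end Crest.Agent.R014.Pk2_349
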