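import Crest.Agent.R014.Pk3_349
import Crest.Agent.R014.BoxV_71

-- ▼ part R014/Pk4_349
section

/-!
Row 14, packets, part 4 (helper349): the packet has finitely many orbits (class group), every orbit
is the orbit of an untwisted lattice point (weak approximation of signs), the period group is common
to all orbits of the packet.
-/

set_option autoImplicit false
set_option linter.unusedSectionVars false

open MeasureTheory Matrix Module NumberField
open Crest.NumberTheoryR.Packets

namespace Crest.Agent.R014.Pk4_349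

open Crest.Agent.R014.Pk1_349 Crest.Agent.R014.Pk2_349 Crest.Agent.R014.Pk3_349

noncomputable section

variable {n d : ℕ} {K : Type*} [Field K] [NumberField K]

/-! ### Signs -/

/-- Weak approximation of signs. -/
theorem exists_sign (m : LatticeBasis n K) (σ : Fin n ≃ (K →+* ℝ)) {s : Fin n → ℝ}
    (hs : ∀ j, s j ≠ 0) : ∃ c : K, ∀ j, 0 < s j * σ j c := by
  have hdet := det_embMatrix_ne_zero m σ
  have hU : IsUnit (embMatrix m σ).det := isUnit_iff_ne_zero.2 hdet
  let F : (Fin n → ℝ) → (Fin n → ℝ) := fun r => r ᵥ* embMatrix m σ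
  have hF : Continuous F := by
    apply continuous_pi
    intro j
    show Continuous fun r : Fin n → ℝ => ∑ i, r i * embMatrix m σ i j
    fun_prop
  let U : Set (Fin n → ℝ) := {v | ∀ j, 0 < s j * v j}
  have hUo : IsOpen U := by
    have : U = ⋂ j, {v : Fin n → ℝ | 0 < s j * v j} := by
      ext v; simp [U]
    rw [this]
    apply isOpen_iInter_of_finite
    intro j
    exact isOpen_lt continuous_const (continuous_const.mul (continuous_apply j))
  have hne : (F ⁻¹' U).Nonempty := by
    refine ⟨s ᵥ* (embMatrix m σ)⁻¹, fun j => ?_⟩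
    show 0 < s j * ((s ᵥ* (embMatrix m σ)⁻¹) ᵥ* embMatrix m σ) j
    rw [Matrix.vecMul_vecMul, Matrix.nonsing_inv_mul _ hU, Matrix.vecMul_one]
    exact mul_self_pos.2 (hs j)
  have hdense : DenseRange (Pi.map (fun (_ : Fin n) (q : ℚ) => (q : ℝ))) :=
    DenseRange.piMap (fun _ => Rat.denseRange_cast)
  obtain ⟨q, hq⟩ := hdense.exists_mem_open (hUo.preimage hF) hne
  refine ⟨∑ i, (q i : K) * m.vec i, fun j => ?_⟩
  have h1 := hq j
  have h2 : σ j (∑ i, (q i : K) * m.vec i) = F (Pi.map (fun (_ : Fin n) (q : ℚ) => (q : ℝ)) q) j := by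
    rw [map_sum]
    show _ = ∑ i, (q i : ℝ) * embMatrix m σ i j
    refine Finset.sum_congr rfl fun i _ => ?_
    rw [map_mul, map_ratCast]
    rfl
  rw [h2]
  exact h1

/-! ### Orbits of the packet -/

theorem range_orbitMap_point (m : LatticeBasis (d + 1) K) (σ : Fin (d + 1) ≃ (K →+* ℝ)) :
    Set.range (orbitMap (latticePoint m σ)) = orbSet σ m.lattice 1 := by
  rw [range_orbitMap (fun _ => (nrm_pos m σ).ne') (lat_latticePoint m σ)]
  apply orbSet_congr
  intro j
  rw [Pi.one_apply, mul_one]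
  exact nrm_pos m σ

/-- Every sign pattern over every lattice of the genus is an orbit `orbSet σ M' 1`. -/
theorem orbSet_eq_one (m : LatticeBasis (d + 1) K) (σ : Fin (d + 1) ≃ (K →+* ℝ))
    {s : Fin (d + 1) → ℝ} (hs : ∀ j, s j ≠ 0) :
    ∃ m' : LatticeBasis (d + 1) K, LocallyHomothetic m m' ∧
      orbSet σ m.lattice s = orbSet σ m'.lattice 1 := by
  obtain ⟨c, hc⟩ := exists_sign m σ hs
  have hc0 : c ≠ 0 := by
    intro h
    have := hc 0
    rw [h, map_zero, mul_zero] at this
    exact lt_irrefl _ this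
  refine ⟨smulBasis c hc0 m, lh_of_cM hc0 (smulBasis_lattice c hc0 m).symm, ?_⟩
  rw [smulBasis_lattice, orbSet_cM hc0, one_mul]
  exact orbSet_congr hc

/-- (P3) the packet orbits are the orbits of the untwisted lattice points of the genus. -/
theorem packetOrbits_eq (m : LatticeBasis (d + 1) K) (σ : Fin (d + 1) ≃ (K →+* ℝ)) :
    packetOrbits m σ = {O | ∃ m' : LatticeBasis (d + 1) K, LocallyHomothetic m m' ∧
      O = Set.range (orbitMap (latticePoint m' σ))} := by
  ext O
  constructor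
  · rintro ⟨m', hm', w, hw, rfl⟩
    obtain ⟨m'', hm'', h⟩ := orbSet_eq_one m' σ (signVec_ne_zero hw)
    refine ⟨m'', lh_trans hm' hm'', ?_⟩
    rw [range_orbitMap_twist m' σ hw, range_orbitMap_point, h]
  · rintro ⟨m', hm', rfl⟩
    refine ⟨m', hm', 1, isSignMatrix_one, ?_⟩
    rw [act_one]


/-- Orbits of the diagonal flow are equal as soon as one contains the other's base point. -/
theorem range_eq_of_mem {x x' : ModSpace (d + 1)} (h : x' ∈ Set.range (orbitMap x)) :
    Set.range (orbitMap x) = Set.range (orbitMap x') := by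
  obtain ⟨u, rfl⟩ := h
  ext y
  constructor
  · rintro ⟨v, rfl⟩
    exact ⟨v - u, by rw [orbitMap_orbitMap, add_sub_cancel]⟩
  · rintro ⟨v, rfl⟩
    exact ⟨u + v, by rw [orbitMap_orbitMap]⟩

theorem mem_range_self (x : ModSpace (d + 1)) : x ∈ Set.range (orbitMap x) :=
  ⟨0, orbitMap_zero x⟩

theorem range_eq_iff_mem {x x' : ModSpace (d + 1)} :
    Set.range (orbitMap x) = Set.range (orbitMap x') ↔ x' ∈ Set.range (orbitMap x) :=
  ⟨fun h => h ▸ mem_range_self x', range_eq_of_mem⟩

/-- (P3) two lattice points are on the same orbit iff the lattices differ by a totally positive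
scalar. -/
theorem range_eq_iff (m m' : LatticeBasis (d + 1) K) (σ : Fin (d + 1) ≃ (K →+* ℝ)) :
    Set.range (orbitMap (latticePoint m σ)) = Set.range (orbitMap (latticePoint m' σ)) ↔
      ∃ c : K, (∀ j, 0 < σ j c) ∧ ∀ x, x ∈ m'.lattice ↔ ∃ y ∈ m.lattice, x = c * y := by
  rw [range_eq_iff_mem, mem_orbit_iff (fun _ => (nrm_pos m σ).ne') (fun _ => (nrm_pos m' σ).ne')
    (lat_latticePoint m σ) (lat_latticePoint m' σ)]
  refine exists_congr fun c => ?_
  have h1 : (∀ j : Fin (d + 1), 0 < nrm m σ * (σ j c * nrm m' σ)) ↔ ∀ j, 0 < σ j c := by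
    refine forall_congr' fun j => ?_
    rw [mul_pos_iff_of_pos_left (nrm_pos m σ), mul_pos_iff_of_pos_right (nrm_pos m' σ)]
  have h2 : cM c m.lattice = m'.lattice ↔ ∀ x, x ∈ m'.lattice ↔ ∃ y ∈ m.lattice, x = c * y := by
    constructor
    · intro h x
      rw [← h, mem_cM]
      exact ⟨fun ⟨y, hy, e⟩ => ⟨y, hy, e.symm⟩, fun ⟨y, hy, e⟩ => ⟨y, hy, e.symm⟩⟩
    · intro h
      ext x
      rw [h x, mem_cM]
      exact ⟨fun ⟨y, hy, e⟩ => ⟨y, hy, e.symm⟩, fun ⟨y, hy, e⟩ => ⟨y, hy, e.symm⟩⟩
  rw [and_comm]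
  exact and_congr h1 h2

/-! ### The common period group -/

/-- The period group of the packet: logarithms of the totally positive units of the multiplier
order. -/
def perLat (m : LatticeBasis (d + 1) K) (σ : Fin (d + 1) ≃ (K →+* ℝ)) : AddSubgroup (Fin d → ℝ) :=
  periods (latticePoint m σ)

theorem mem_perLat {m : LatticeBasis (d + 1) K} {σ : Fin (d + 1) ≃ (K →+* ℝ)} {u : Fin d → ℝ} :
    u ∈ perLat m σ ↔ ∃ e : K, e ∈ multiplierOrder m ∧ e⁻¹ ∈ multiplierOrder m ∧
      (∀ j, 0 < σ j e) ∧ ∀ i : Fin d, u i = Real.log (σ i.castSucc e) :=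
  mem_periods_iff (fun _ => (nrm_pos m σ).ne') (lat_latticePoint m σ)

theorem mem_perLat' {m : LatticeBasis (d + 1) K} {σ : Fin (d + 1) ≃ (K →+* ℝ)} {u : Fin d → ℝ} :
    u ∈ perLat m σ ↔ ∃ e : K, cM e m.lattice = m.lattice ∧ ∀ j, σ j e = aVec u j :=
  mem_periods (fun _ => (nrm_pos m σ).ne') (lat_latticePoint m σ)

theorem periods_eq_perLat {m m' : LatticeBasis (d + 1) K} {σ : Fin (d + 1) ≃ (K →+* ℝ)}
    (h : LocallyHomothetic m m') {x : ModSpace (d + 1)} {t : Fin (d + 1) → ℝ}
    (ht : ∀ j, t j ≠ 0) (hx : lat x = scaleLat (embLat σ m'.lattice) t) :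
    periods x = perLat m σ := by
  ext u
  rw [mem_periods_iff ht hx, mem_perLat, mult_eq_of_lh h]

theorem perLat_eq_of_lh {m m' : LatticeBasis (d + 1) K} (σ : Fin (d + 1) ≃ (K →+* ℝ))
    (h : LocallyHomothetic m m') : perLat m' σ = perLat m σ :=
  periods_eq_perLat h (fun _ => (nrm_pos m' σ).ne') (lat_latticePoint m' σ)

theorem exists_basis_perLat (m : LatticeBasis (d + 1) K) (σ : Fin (d + 1) ≃ (K →+* ℝ)) :
    ∃ b : Basis (Fin d) ℝ (Fin d → ℝ),
      perLat m σ = (Submodule.span ℤ (Set.range b)).toAddSubgroup :=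
  exists_basis_periods (fun _ => (nrm_pos m σ).ne') (lat_latticePoint m σ)

/-- A point whose orbit belongs to the packet is a scaled lattice point of the genus, with positive
scaling. -/
theorem exists_of_range_mem {m : LatticeBasis (d + 1) K} {σ : Fin (d + 1) ≃ (K →+* ℝ)}
    {x : ModSpace (d + 1)} (hx : Set.range (orbitMap x) ∈ packetOrbits m σ) :
    ∃ m' : LatticeBasis (d + 1) K, LocallyHomothetic m m' ∧ ∃ t : Fin (d + 1) → ℝ,
      (∀ j, 0 < t j) ∧ lat x = scaleLat (embLat σ m'.lattice) t := by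
  rw [packetOrbits_eq] at hx
  obtain ⟨m', hm', h⟩ := hx
  rw [range_orbitMap_point] at h
  have h1 : x ∈ orbSet σ m'.lattice 1 := h ▸ mem_range_self x
  obtain ⟨t, ht, hx'⟩ := h1
  exact ⟨m', hm', t, fun j => by simpa using ht j, hx'⟩

theorem periods_of_range_mem {m : LatticeBasis (d + 1) K} {σ : Fin (d + 1) ≃ (K →+* ℝ)}
    {x : ModSpace (d + 1)} (hx : Set.range (orbitMap x) ∈ packetOrbits m σ) :
    periods x = perLat m σ := by
  obtain ⟨m', hm', t, ht, h⟩ := exists_of_range_mem hx
  exact periods_eq_perLat hm' (fun j => (ht j).ne') h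

/-! ### Finiteness -/

/-- Finitely many lattices between `f·B` and `B`. -/
theorem finite_between {B : Submodule ℤ K} (hB : B.FG) {f : ℕ} (hf : 0 < f) :
    {L : Submodule ℤ K | cM (f : K) B ≤ L ∧ L ≤ B}.Finite := by
  have : Module.Finite ℤ B := Module.Finite.of_fg hB
  let N : Submodule ℤ B := LinearMap.range (LinearMap.lsmul ℤ B (f : ℤ))
  have hfin : _root_.Finite (B ⧸ N) := by
    apply Module.finite_of_fg_torsion
    intro q
    obtain ⟨b, rfl⟩ := Submodule.Quotient.mk_surjective N q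
    refine ⟨⟨(f : ℤ), mem_nonZeroDivisors_of_ne_zero (by exact_mod_cast hf.ne')⟩, ?_⟩
    show (f : ℤ) • (Submodule.Quotient.mk (p := N) b) = 0
    have h1 : (Submodule.Quotient.mk (p := N) ((f : ℤ) • b) : B ⧸ N) = 0 :=
      (Submodule.Quotient.mk_eq_zero N).2 (LinearMap.mem_range.2 ⟨b, rfl⟩)
    exact h1
  let φ : Submodule ℤ K → Set (B ⧸ N) := fun L =>
    {q | ∃ x : B, (x : K) ∈ L ∧ Submodule.Quotient.mk x = q}
  have hle : ∀ L L' : Submodule ℤ K, L ≤ B → cM (f : K) B ≤ L' → φ L = φ L' → L ≤ L' := by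
    intro L L' hLB hL' h x hx
    have h1 : (Submodule.Quotient.mk (⟨x, hLB hx⟩ : B) : B ⧸ N) ∈ φ L := ⟨⟨x, hLB hx⟩, hx, rfl⟩
    rw [h] at h1
    obtain ⟨y, hy, hyx⟩ := h1
    rw [Submodule.Quotient.eq] at hyx
    obtain ⟨z, hz⟩ := hyx
    have h2 : (f : K) * (z : K) = (y : K) - x := by
      have := congrArg (fun w : B => (w : K)) hz
      simpa using this
    have h3 : (y : K) - x ∈ L' := hL' (mem_cM.2 ⟨z, z.2, h2⟩)
    have h4 : x = (y : K) - ((y : K) - x) := by ring
    rw [h4]
    exact sub_mem hy h3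
  refine Set.Finite.of_finite_image (f := φ) (Set.toFinite _) ?_
  intro L hL L' hL' h
  exact le_antisymm (hle L L' hL.2 hL'.1 h) (hle L' L hL'.2 hL.1 h.symm)

/-- The lattice of an integral ideal. -/
def idealLat (I : Ideal (𝓞 K)) : Submodule ℤ K :=
  (I.restrictScalars ℤ).map (Algebra.linearMap (𝓞 K) K |>.restrictScalars ℤ)

theorem mem_idealLat {I : Ideal (𝓞 K)} {x : K} : x ∈ idealLat I ↔ ∃ y ∈ I, (y : K) = x := by
  unfold idealLat
  rw [Submodule.mem_map]
  rfl

theorem idealLat_fg (I : Ideal (𝓞 K)) : (idealLat I).FG := by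
  apply Submodule.FG.map
  have : IsNoetherian ℤ (𝓞 K) := isNoetherian_of_isNoetherianRing_of_finite ℤ (𝓞 K)
  exact IsNoetherian.noetherian _

/-- The `𝓞 K`-span of a lattice. -/
def osp (M : Submodule ℤ K) : Submodule ℤ K := intLat K * M

theorem le_osp (M : Submodule ℤ K) : M ≤ osp M := by
  intro x hx
  have := Submodule.mul_mem_mul (mem_intLat.2 (isIntegral_one : IsIntegral ℤ (1 : K))) hx
  rwa [one_mul] at this

theorem mul_mem_osp {M : Submodule ℤ K} {a x : K} (ha : IsIntegral ℤ a) (hx : x ∈ osp M) :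
    a * x ∈ osp M := by
  unfold osp at hx ⊢
  induction hx using Submodule.mul_induction_on' with
  | mem_mul_mem b hb y hy =>
    rw [← mul_assoc]
    exact Submodule.mul_mem_mul (mem_intLat.2 (ha.mul (mem_intLat.1 hb))) hy
  | add x _ y _ hx hy => rw [mul_add]; exact add_mem hx hy

theorem cM_osp_le {M : Submodule ℤ K} {f : K} (hf : ∀ a : K, IsIntegral ℤ a → ∀ x ∈ M,
    (f * a) * x ∈ M) : cM f (osp M) ≤ M := by
  intro z hz
  obtain ⟨y, hy, rfl⟩ := mem_cM.1 hz
  unfold osp at hy
  induction hy using Submodule.mul_induction_on' with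
  | mem_mul_mem b hb y hy =>
    rw [← mul_assoc]
    exact hf b (mem_intLat.1 hb) y hy
  | add x _ y _ hx hy =>
    rw [mul_add]
    exact add_mem (hx (mem_cM.2 ⟨_, ‹_›, rfl⟩)) (hy (mem_cM.2 ⟨_, ‹_›, rfl⟩))

/-- A lattice basis of the ring of integers. -/
def maxBasis (hn : finrank ℚ K = n) : LatticeBasis n K :=
  let b := (integralBasis K).reindex (Fintype.equivFinOfCardEq (by
    rw [← finrank_eq_card_basis (integralBasis K), hn]))
  { vec := fun i => b i
    linIndep := b.linearIndependent.restrict_scalars (by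
      intro a b h
      simpa using h)
    spans := b.span_eq }

theorem maxBasis_lattice (hn : finrank ℚ K = n) : (maxBasis hn).lattice = intLat K := by
  have h : Set.range (maxBasis hn).vec = Set.range (integralBasis K) := by
    show Set.range (fun i => ((integralBasis K).reindex _) i) = _
    rw [Basis.range_reindex]
  ext x
  unfold LatticeBasis.lattice
  rw [h, mem_span_integralBasis, mem_intLat]
  constructor
  · rintro ⟨y, rfl⟩
    exact y.2
  · intro hx
    exact ⟨⟨x, hx⟩, rfl⟩

theorem maxBasis_isMaximalOrder (hn : finrank ℚ K = n) : (maxBasis hn).IsMaximalOrder := by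
  intro x
  rw [maxBasis_lattice, mem_intLat]

/-- (P4) finitely many homothety classes in the genus. -/
theorem finite_classes (m : LatticeBasis (d + 1) K) :
    ∃ F : Set (Submodule ℤ K), F.Finite ∧ ∀ m' : LatticeBasis (d + 1) K, LocallyHomothetic m m' →
      ∃ c : K, c ≠ 0 ∧ cM c m'.lattice ∈ F := by
  obtain ⟨f, hf, hfO⟩ := exists_conductor m
  have hsurj := ClassGroup.mk0_surjective (R := 𝓞 K)
  choose J hJ using hsurj
  refine ⟨⋃ C : ClassGroup (𝓞 K), {L | cM (f : K) (idealLat (J C : Ideal (𝓞 K))) ≤ L ∧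
    L ≤ idealLat (J C : Ideal (𝓞 K))}, ?_, ?_⟩
  · apply Set.finite_iUnion
    intro C
    exact finite_between (idealLat_fg _) hf
  intro m' hm'
  have hO : ∀ a : K, IsIntegral ℤ a → ∀ x ∈ m'.lattice, ((f : K) * a) * x ∈ m'.lattice := by
    intro a ha x hx
    have := hfO a ha
    rw [mult_eq_of_lh hm'] at this
    exact this x hx
  have hle1 := le_osp m'.lattice
  have hle2 := cM_osp_le hO
  -- integral denominator
  obtain ⟨N, hN, hNint⟩ := exists_nat_mul_fg (maxBasis (finrank_eq m))
    (Submodule.FG.mul intLat_fg (lattice_fg m'))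
  rw [maxBasis_lattice] at hNint
  have hN0 : (N : K) ≠ 0 := by exact_mod_cast hN.ne'
  let I : Ideal (𝓞 K) :=
    { carrier := {y | (y : K) ∈ cM (N : K) (osp m'.lattice)}
      add_mem' := fun {a b} ha hb => by
        show (a : K) + (b : K) ∈ cM (N : K) (osp m'.lattice)
        exact add_mem ha hb
      zero_mem' := by
        show (0 : K) ∈ cM (N : K) (osp m'.lattice)
        exact zero_mem _
      smul_mem' := fun a y hy => by
        show (a : K) * (y : K) ∈ cM (N : K) (osp m'.lattice)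
        obtain ⟨z, hz, hzy⟩ := mem_cM.1 hy
        refine mem_cM.2 ⟨(a : K) * z, mul_mem_osp a.2 hz, ?_⟩
        rw [← hzy]
        ring }
  have hI : idealLat I = cM (N : K) (osp m'.lattice) := by
    ext x
    rw [mem_idealLat]
    constructor
    · rintro ⟨y, hy, rfl⟩
      exact hy
    · intro hx
      obtain ⟨z, hz, rfl⟩ := mem_cM.1 hx
      exact ⟨⟨(N : K) * z, hNint z hz⟩, hx, rfl⟩
  have hI0 : I ≠ ⊥ := by
    intro h
    have h1 : (N : K) * m'.vec 0 ∈ idealLat I := by
      rw [hI]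
      exact mem_cM.2 ⟨_, hle1 (vec_mem m' 0), rfl⟩
    obtain ⟨y, hy, hy2⟩ := mem_idealLat.1 h1
    rw [h] at hy
    have hy0 : y = 0 := hy
    have hy3 : (0 : K) = (N : K) * m'.vec 0 := by
      rw [← hy2, hy0]
      rfl
    exact mul_ne_zero hN0 (vec_ne_zero m' 0) hy3.symm
  let I0 : nonZeroDivisors (Ideal (𝓞 K)) := ⟨I, mem_nonZeroDivisors_of_ne_zero hI0⟩
  have hcl : ClassGroup.mk0 I0 = ClassGroup.mk0 (J (ClassGroup.mk0 I0)) := (hJ _).symm
  set C := ClassGroup.mk0 I0 with hC
  obtain ⟨a, b, ha, hb, hab⟩ := ClassGroup.mk0_eq_mk0_iff.1 hcl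
  have ha' : (a : K) ≠ 0 := by exact_mod_cast ha
  have hb' : (b : K) ≠ 0 := by exact_mod_cast hb
  have hkey : cM (a : K) (idealLat I) = cM (b : K) (idealLat (J C : Ideal (𝓞 K))) := by
    ext x
    constructor
    · intro hx
      obtain ⟨_, hy, rfl⟩ := mem_cM.1 hx
      obtain ⟨z, hz, rfl⟩ := mem_idealLat.1 hy
      have h1 : a * z ∈ Ideal.span {a} * (I0 : Ideal (𝓞 K)) :=
        Ideal.mem_span_singleton_mul.2 ⟨z, hz, rfl⟩
      rw [hab] at h1
      obtain ⟨w, hw, hw2⟩ := Ideal.mem_span_singleton_mul.1 h1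
      refine mem_cM.2 ⟨w, mem_idealLat.2 ⟨w, hw, rfl⟩, ?_⟩
      have := congrArg (fun t : 𝓞 K => (t : K)) hw2
      simpa using this
    · intro hx
      obtain ⟨_, hy, rfl⟩ := mem_cM.1 hx
      obtain ⟨z, hz, rfl⟩ := mem_idealLat.1 hy
      have h1 : b * z ∈ Ideal.span {b} * (J C : Ideal (𝓞 K)) :=
        Ideal.mem_span_singleton_mul.2 ⟨z, hz, rfl⟩
      rw [← hab] at h1
      obtain ⟨w, hw, hw2⟩ := Ideal.mem_span_singleton_mul.1 h1
      refine mem_cM.2 ⟨w, mem_idealLat.2 ⟨w, hw, rfl⟩, ?_⟩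
      have := congrArg (fun t : 𝓞 K => (t : K)) hw2
      simpa using this
  have hkey2 : cM ((b : K)⁻¹ * ((a : K) * N)) (osp m'.lattice) =
      idealLat (J C : Ideal (𝓞 K)) := by
    rw [← cM_cM, ← cM_cM (a : K), ← hI, hkey, cM_cM, inv_mul_cancel₀ hb', cM_one]
  set c : K := (b : K)⁻¹ * ((a : K) * N) with hc
  have hc0 : c ≠ 0 := mul_ne_zero (inv_ne_zero hb') (mul_ne_zero ha' hN0)
  refine ⟨c, hc0, Set.mem_iUnion.2 ⟨C, ?_, ?_⟩⟩
  · rw [← hkey2, cM_cM, mul_comm, ← cM_cM]
    exact Submodule.map_mono hle2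
  · rw [← hkey2]
    exact Submodule.map_mono hle1

/-- (P4) the packet has finitely many orbits. -/
theorem finite_packetOrbits (m : LatticeBasis (d + 1) K) (σ : Fin (d + 1) ≃ (K →+* ℝ)) :
    (packetOrbits m σ).Finite := by
  obtain ⟨F, hF, h⟩ := finite_classes m
  let S : Set (Fin (d + 1) → ℝ) := Set.pi Set.univ fun _ => ({1, -1} : Set ℝ)
  have hS : S.Finite := Set.Finite.pi fun _ => Set.toFinite _
  have hfin : ((fun p : Submodule ℤ K × (Fin (d + 1) → ℝ) => orbSet σ p.1 p.2) '' (F ×ˢ S)).Finite :=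
    (hF.prod hS).image _
  refine hfin.subset ?_
  rw [packetOrbits_eq]
  rintro _ ⟨m', hm', rfl⟩
  obtain ⟨c, hc, hcF⟩ := h m' hm'
  rw [range_orbitMap_point]
  let s : Fin (d + 1) → ℝ := fun j => if 0 < σ j c⁻¹ then 1 else -1
  have hs : ∀ j, 0 < s j * σ j c⁻¹ := by
    intro j
    have hne : σ j c⁻¹ ≠ 0 := (map_ne_zero (σ j)).2 (inv_ne_zero hc)
    show 0 < (if 0 < σ j c⁻¹ then (1 : ℝ) else -1) * σ j c⁻¹
    split_ifs with h0
    · rwa [one_mul]
    · have : σ j c⁻¹ < 0 := lt_of_le_of_ne (not_lt.1 h0) hne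
      linarith
  refine ⟨(cM c m'.lattice, s), ⟨hcF, ?_⟩, ?_⟩
  · intro j _
    show (if 0 < σ j c⁻¹ then (1 : ℝ) else -1) ∈ _
    split_ifs
    · exact Set.mem_insert _ _
    · exact Set.mem_insert_of_mem _ rfl
  · show orbSet σ (cM c m'.lattice) s = _
    have h1 : cM c⁻¹ (cM c m'.lattice) = m'.lattice := cM_inv hc rfl
    conv_rhs => rw [← h1]
    rw [orbSet_cM (inv_ne_zero hc), one_mul]
    exact orbSet_congr hs

end

end Crest.Agent.R014.Pk4_349
end

-- ▼ part R014/Pk5_349

/-!
Row 14, packets, part 5 (helper349): existence and uniqueness of the packet measure, its total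
volume, invariance under the diagonal flow.
-/

set_option autoImplicit false
set_option linter.unusedSectionVars false

open MeasureTheory Matrix Module NumberField
open scoped ENNReal Pointwise
open Crest.NumberTheoryR.Packets

namespace Crest.Agent.R014.Pk5_349

open Crest.Agent.R014.Pk1_349 Crest.Agent.R014.Pk2_349 Crest.Agent.R014.Pk3_349
open Crest.Agent.R014.Pk4_349
open Crest.Agent.R014.BoxV_71 (continuous_orbitMap measurable_orbitMap countable_periods
  orbitMap_eq_iff)

noncomputable section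

variable {d : ℕ}

/-! ### General orbits -/

theorem periods_orbitMap (x : ModSpace (d + 1)) (u : Fin d → ℝ) :
    periods (orbitMap x u) = periods x := by
  ext v
  show orbitMap (orbitMap x u) v = orbitMap x u ↔ orbitMap x v = x
  rw [orbitMap_orbitMap]
  constructor
  · intro h
    have := congrArg (fun z => orbitMap z (-u)) h
    simp only [orbitMap_orbitMap] at this
    rwa [add_neg_cancel, orbitMap_zero, add_comm u v, add_assoc, add_neg_cancel, add_zero] at this
  · intro h
    rw [add_comm u v, ← orbitMap_orbitMap, h]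

theorem orbitMap_period_add {x : ModSpace (d + 1)} (p : periods x) (u : Fin d → ℝ) :
    orbitMap x ((p : Fin d → ℝ) + u) = orbitMap x u := by
  rw [← orbitMap_orbitMap]
  have : orbitMap x (p : Fin d → ℝ) = x := p.2
  rw [this]

/-- The orbit measure does not depend on the fundamental domain nor on the base point. -/
theorem map_orbit_eq {x : ModSpace (d + 1)} (u0 : Fin d → ℝ) {D D' : Set (Fin d → ℝ)}
    (hD : IsAddFundamentalDomain (periods x) D volume)
    (hD' : IsAddFundamentalDomain (periods (orbitMap x u0)) D' volume) :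
    Measure.map (orbitMap (orbitMap x u0)) (volume.restrict D') =
      Measure.map (orbitMap x) (volume.restrict D) := by
  have hD2 : IsAddFundamentalDomain (periods x) D' volume := by
    rwa [periods_orbitMap] at hD'
  have hD3 : IsAddFundamentalDomain (periods x) (u0 +ᵥ D') volume := hD2.vadd_of_comm u0
  ext E hE
  rw [Measure.map_apply (measurable_orbitMap _) hE, Measure.map_apply (measurable_orbitMap _) hE,
    Measure.restrict_apply ((measurable_orbitMap _) hE),
    Measure.restrict_apply ((measurable_orbitMap _) hE)]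
  have hA : MeasurableSet (orbitMap x ⁻¹' E) := (measurable_orbitMap x) hE
  have hinv : ∀ g : periods x, (fun u => g +ᵥ u) ⁻¹' (orbitMap x ⁻¹' E) = orbitMap x ⁻¹' E := by
    intro g
    ext u
    show orbitMap x ((g : Fin d → ℝ) + u) ∈ E ↔ orbitMap x u ∈ E
    rw [orbitMap_period_add]
  rw [hD.measure_set_eq hD3 hA hinv]
  have h1 : orbitMap x ⁻¹' E ∩ (u0 +ᵥ D') =
      u0 +ᵥ (orbitMap (orbitMap x u0) ⁻¹' E ∩ D') := by
    ext u
    rw [Set.mem_vadd_set]
    constructor
    · rintro ⟨hu, v, hv, rfl⟩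
      refine ⟨v, ⟨?_, hv⟩, rfl⟩
      show orbitMap (orbitMap x u0) v ∈ E
      rw [orbitMap_orbitMap]
      exact hu
    · rintro ⟨v, ⟨hv, hvD⟩, rfl⟩
      refine ⟨?_, v, hvD, rfl⟩
      show orbitMap x (u0 + v) ∈ E
      rw [← orbitMap_orbitMap]
      exact hv
  rw [h1, measure_vadd]

/-- The measure of a full orbit, well defined by `map_orbit_eq`. -/
def orbM (O : Set (ModSpace (d + 1))) : Measure (ModSpace (d + 1)) := by
  classical
  exact if h : ∃ p : ModSpace (d + 1) × Set (Fin d → ℝ), O = Set.range (orbitMap p.1) ∧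
      IsAddFundamentalDomain (periods p.1) p.2 volume then
    Measure.map (orbitMap h.choose.1) (volume.restrict h.choose.2) else 0

theorem orbM_eq {x : ModSpace (d + 1)} {D : Set (Fin d → ℝ)}
    (hD : IsAddFundamentalDomain (periods x) D volume) :
    orbM (Set.range (orbitMap x)) = Measure.map (orbitMap x) (volume.restrict D) := by
  have h : ∃ p : ModSpace (d + 1) × Set (Fin d → ℝ),
      Set.range (orbitMap x) = Set.range (orbitMap p.1) ∧
      IsAddFundamentalDomain (periods p.1) p.2 volume := ⟨(x, D), rfl, hD⟩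
  unfold orbM
  rw [dif_pos h]
  obtain ⟨h1, h2⟩ := h.choose_spec
  obtain ⟨u0, hu0⟩ := range_eq_iff_mem.1 h1
  have h3 : IsAddFundamentalDomain (periods (orbitMap x u0)) h.choose.2 volume := by
    rw [hu0]; exact h2
  have h4 := map_orbit_eq u0 hD h3
  rw [hu0] at h4
  exact h4

variable {K : Type*} [Field K] [NumberField K]

/-- The common fundamental domain of the period groups of the packet. -/
def fd (m : LatticeBasis (d + 1) K) (σ : Fin (d + 1) ≃ (K →+* ℝ)) : Set (Fin d → ℝ) :=
  ZSpan.fundamentalDomain (exists_basis_perLat m σ).choose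

theorem isFD_fd (m : LatticeBasis (d + 1) K) (σ : Fin (d + 1) ≃ (K →+* ℝ)) :
    IsAddFundamentalDomain (perLat m σ) (fd m σ) volume := by
  rw [(exists_basis_perLat m σ).choose_spec]
  exact ZSpan.isAddFundamentalDomain' _ volume

theorem isFD_fd' {m : LatticeBasis (d + 1) K} {σ : Fin (d + 1) ≃ (K →+* ℝ)}
    {x : ModSpace (d + 1)} (hx : Set.range (orbitMap x) ∈ packetOrbits m σ) :
    IsAddFundamentalDomain (periods x) (fd m σ) volume := by
  rw [periods_of_range_mem hx]
  exact isFD_fd m σ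

theorem volume_fd_ne_zero (m : LatticeBasis (d + 1) K) (σ : Fin (d + 1) ≃ (K →+* ℝ)) :
    volume (fd m σ) ≠ 0 :=
  ZSpan.measure_fundamentalDomain_ne_zero _

theorem volume_fd_ne_top (m : LatticeBasis (d + 1) K) (σ : Fin (d + 1) ≃ (K →+* ℝ)) :
    volume (fd m σ) ≠ ⊤ :=
  (ZSpan.fundamentalDomain_isBounded _).measure_lt_top.ne


theorem volume_eq_fd {m : LatticeBasis (d + 1) K} {σ : Fin (d + 1) ≃ (K →+* ℝ)}
    {x : ModSpace (d + 1)} (hx : Set.range (orbitMap x) ∈ packetOrbits m σ)
    {D : Set (Fin d → ℝ)} (hD : IsAddFundamentalDomain (periods x) D volume) :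
    volume D = volume (fd m σ) :=
  hD.measure_eq (isFD_fd' hx)

/-- The total volume of the packet. -/
def packVol (m : LatticeBasis (d + 1) K) (σ : Fin (d + 1) ≃ (K →+* ℝ)) : ℝ≥0∞ :=
  (packetOrbits m σ).ncard * volume (fd m σ)

theorem packetOrbits_nonempty (m : LatticeBasis (d + 1) K) (σ : Fin (d + 1) ≃ (K →+* ℝ)) :
    (packetOrbits m σ).Nonempty := by
  rw [packetOrbits_eq]
  exact ⟨_, m, lh_refl m, rfl⟩

theorem packVol_ne_zero (m : LatticeBasis (d + 1) K) (σ : Fin (d + 1) ≃ (K →+* ℝ)) :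
    packVol m σ ≠ 0 := by
  unfold packVol
  refine mul_ne_zero ?_ (volume_fd_ne_zero m σ)
  have := (Set.ncard_pos (finite_packetOrbits m σ)).2 (packetOrbits_nonempty m σ)
  exact_mod_cast this.ne'

theorem packVol_ne_top (m : LatticeBasis (d + 1) K) (σ : Fin (d + 1) ≃ (K →+* ℝ)) :
    packVol m σ ≠ ⊤ :=
  ENNReal.mul_ne_top (ENNReal.natCast_ne_top _) (volume_fd_ne_top m σ)

/-- The packet measure. -/
def packMeas (m : LatticeBasis (d + 1) K) (σ : Fin (d + 1) ≃ (K →+* ℝ)) :
    Measure (ModSpace (d + 1)) :=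
  (packVol m σ)⁻¹ • Measure.sum (fun O : packetOrbits m σ => orbM (O : Set (ModSpace (d + 1))))

section data

variable {m : LatticeBasis (d + 1) K} {σ : Fin (d + 1) ≃ (K →+* ℝ)} {k : ℕ}
  {x : Fin k → ModSpace (d + 1)} {D : Fin k → Set (Fin d → ℝ)}

/-- The enumeration of the packet orbits by packet data. -/
def orbEquiv (hinj : Function.Injective (fun i => Set.range (orbitMap (x i))))
    (hall : ∀ O, O ∈ packetOrbits m σ ↔ ∃ i, O = Set.range (orbitMap (x i))) :
    Fin k ≃ packetOrbits m σ :=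
  Equiv.ofBijective (fun i => ⟨Set.range (orbitMap (x i)), (hall _).2 ⟨i, rfl⟩⟩)
    ⟨fun i j h => hinj (congrArg Subtype.val h), fun O => by
      obtain ⟨i, hi⟩ := (hall O.1).1 O.2
      exact ⟨i, Subtype.ext hi.symm⟩⟩

theorem card_eq (hinj : Function.Injective (fun i => Set.range (orbitMap (x i))))
    (hall : ∀ O, O ∈ packetOrbits m σ ↔ ∃ i, O = Set.range (orbitMap (x i))) :
    (packetOrbits m σ).ncard = k := by
  rw [← Nat.card_coe_set_eq, ← Nat.card_congr (orbEquiv hinj hall), Nat.card_eq_fintype_card,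
    Fintype.card_fin]

/-- The total mass in the definition of a packet measure is `packVol`. -/
theorem sum_volume_eq (hinj : Function.Injective (fun i => Set.range (orbitMap (x i))))
    (hall : ∀ O, O ∈ packetOrbits m σ ↔ ∃ i, O = Set.range (orbitMap (x i)))
    (hD : ∀ i, IsAddFundamentalDomain (periods (x i)) (D i) volume) :
    ∑ i, volume (D i) = packVol m σ := by
  have h : ∀ i ∈ Finset.univ, volume (D i) = volume (fd m σ) := fun i _ =>
    volume_eq_fd ((hall _).2 ⟨i, rfl⟩) (hD i)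
  rw [Finset.sum_congr rfl h, Finset.sum_const, Finset.card_univ, Fintype.card_fin,
    nsmul_eq_mul, ← card_eq hinj hall]
  rfl

theorem sum_map_eq (hinj : Function.Injective (fun i => Set.range (orbitMap (x i))))
    (hall : ∀ O, O ∈ packetOrbits m σ ↔ ∃ i, O = Set.range (orbitMap (x i)))
    (hD : ∀ i, IsAddFundamentalDomain (periods (x i)) (D i) volume) :
    Measure.sum (fun i => Measure.map (orbitMap (x i)) (volume.restrict (D i))) =
      Measure.sum (fun O : packetOrbits m σ => orbM (O : Set (ModSpace (d + 1)))) := by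
  ext E hE
  rw [Measure.sum_apply _ hE, Measure.sum_apply _ hE, ← (orbEquiv hinj hall).tsum_eq]
  refine tsum_congr fun i => ?_
  show _ = orbM (Set.range (orbitMap (x i))) E
  rw [orbM_eq (hD i)]

end data

/-- Uniqueness of the packet measure. -/
theorem eq_packMeas {m : LatticeBasis (d + 1) K} {σ : Fin (d + 1) ≃ (K →+* ℝ)}
    {μ : Measure (ModSpace (d + 1))} (h : IsPacketMeasure m σ μ) : μ = packMeas m σ := by
  obtain ⟨k, x, D, hinj, hall, hD, rfl⟩ := h
  rw [sum_volume_eq hinj hall (fun i => (hD i).1), sum_map_eq hinj hall (fun i => (hD i).1)]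
  rfl

/-- Existence of the packet measure. -/
theorem isPacketMeasure_packMeas (m : LatticeBasis (d + 1) K) (σ : Fin (d + 1) ≃ (K →+* ℝ)) :
    IsPacketMeasure m σ (packMeas m σ) := by
  classical
  have hfin := finite_packetOrbits m σ
  have : _root_.Finite (packetOrbits m σ) := hfin
  obtain ⟨k, ⟨e⟩⟩ := Finite.exists_equiv_fin (packetOrbits m σ)
  have hb : ∀ O : packetOrbits m σ, ∃ x : ModSpace (d + 1),
      (O : Set (ModSpace (d + 1))) = Set.range (orbitMap x) := by
    intro O
    obtain ⟨m', _, w, _, h⟩ := O.2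
    exact ⟨_, h⟩
  choose b hb using hb
  let x : Fin k → ModSpace (d + 1) := fun i => b (e.symm i)
  have hx : ∀ i, ((e.symm i : packetOrbits m σ) : Set (ModSpace (d + 1))) =
      Set.range (orbitMap (x i)) := fun i => hb (e.symm i)
  have hinj : Function.Injective (fun i => Set.range (orbitMap (x i))) := by
    intro i j h
    have h1 : ((e.symm i : packetOrbits m σ) : Set (ModSpace (d + 1))) = (e.symm j : _) := by
      rw [hx i, hx j]; exact h
    exact e.symm.injective (Subtype.ext h1)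
  have hall : ∀ O, O ∈ packetOrbits m σ ↔ ∃ i, O = Set.range (orbitMap (x i)) := by
    intro O
    constructor
    · intro hO
      refine ⟨e ⟨O, hO⟩, ?_⟩
      rw [← hx, Equiv.symm_apply_apply]
    · rintro ⟨i, rfl⟩
      rw [← hx i]
      exact (e.symm i).2
  have hD : ∀ i, IsAddFundamentalDomain (periods (x i)) (fd m σ) volume := fun i =>
    isFD_fd' ((hall _).2 ⟨i, rfl⟩)
  refine ⟨k, x, fun _ => fd m σ, hinj, hall,
    fun i => ⟨hD i, volume_fd_ne_zero m σ, volume_fd_ne_top m σ⟩, ?_⟩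
  rw [sum_volume_eq hinj hall hD, sum_map_eq hinj hall hD]
  rfl

/-- (P5) the second conjunct of the three statements. -/
theorem exists_packet (m : LatticeBasis (d + 1) K) (σ : Fin (d + 1) ≃ (K →+* ℝ)) :
    ∃ μ : Measure (ModSpace (d + 1)), IsPacketMeasure m σ μ :=
  ⟨_, isPacketMeasure_packMeas m σ⟩

theorem isPacketMeasure_iff {m : LatticeBasis (d + 1) K} {σ : Fin (d + 1) ≃ (K →+* ℝ)}
    {μ : Measure (ModSpace (d + 1))} : IsPacketMeasure m σ μ ↔ μ = packMeas m σ :=
  ⟨eq_packMeas, fun h => h ▸ isPacketMeasure_packMeas m σ⟩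


/-- Evaluation of the packet measure by any packet data. -/
theorem packMeas_apply {m : LatticeBasis (d + 1) K} {σ : Fin (d + 1) ≃ (K →+* ℝ)}
    {E : Set (ModSpace (d + 1))} (hE : MeasurableSet E) :
    packMeas m σ E = (packVol m σ)⁻¹ * ∑' O : packetOrbits m σ, orbM (O : Set (ModSpace (d + 1))) E := by
  unfold packMeas
  rw [Measure.smul_apply, smul_eq_mul, Measure.sum_apply _ hE]

theorem orbM_univ {m : LatticeBasis (d + 1) K} {σ : Fin (d + 1) ≃ (K →+* ℝ)}
    {O : Set (ModSpace (d + 1))} (hO : O ∈ packetOrbits m σ) :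
    orbM O Set.univ = volume (fd m σ) := by
  obtain ⟨m', hm', w, hw, rfl⟩ := hO
  rw [orbM_eq (isFD_fd' ⟨m', hm', w, hw, rfl⟩),
    Measure.map_apply (measurable_orbitMap _) MeasurableSet.univ, Set.preimage_univ,
    Measure.restrict_apply_univ]

theorem isProbabilityMeasure_packMeas (m : LatticeBasis (d + 1) K)
    (σ : Fin (d + 1) ≃ (K →+* ℝ)) : IsProbabilityMeasure (packMeas m σ) := by
  constructor
  rw [packMeas_apply MeasurableSet.univ]
  have hfin : _root_.Finite (packetOrbits m σ) := finite_packetOrbits m σ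
  have := Fintype.ofFinite (packetOrbits m σ)
  have h : ∀ O ∈ (Finset.univ : Finset (packetOrbits m σ)),
      orbM (O : Set (ModSpace (d + 1))) Set.univ = volume (fd m σ) := fun O _ => orbM_univ O.2
  rw [tsum_fintype, Finset.sum_congr rfl h, Finset.sum_const, Finset.card_univ, nsmul_eq_mul]
  have h2 : (Fintype.card (packetOrbits m σ) : ℝ≥0∞) * volume (fd m σ) = packVol m σ := by
    unfold packVol
    rw [← Nat.card_coe_set_eq, Nat.card_eq_fintype_card]
  rw [h2]
  exact ENNReal.inv_mul_cancel (packVol_ne_zero m σ) (packVol_ne_top m σ)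

theorem isProbabilityMeasure_of_packet {m : LatticeBasis (d + 1) K}
    {σ : Fin (d + 1) ≃ (K →+* ℝ)} {μ : Measure (ModSpace (d + 1))} (h : IsPacketMeasure m σ μ) :
    IsProbabilityMeasure μ := by
  rw [eq_packMeas h]
  exact isProbabilityMeasure_packMeas m σ

theorem continuous_act_left (g : SLR (d + 1)) :
    Continuous (fun z : ModSpace (d + 1) => act z g) := by
  unfold act
  refine Continuous.quotient_map' ?_ _
  exact continuous_id.mul continuous_const

theorem orbM_map_flow {x : ModSpace (d + 1)} {D : Set (Fin d → ℝ)}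
    (hD : IsAddFundamentalDomain (periods x) D volume) (v : Fin d → ℝ) :
    Measure.map (fun z => act z (diagFlow v)) (Measure.map (orbitMap x) (volume.restrict D)) =
      Measure.map (orbitMap x) (volume.restrict D) := by
  rw [Measure.map_map (continuous_act_left _).measurable (measurable_orbitMap x)]
  have h1 : (fun z => act z (diagFlow v)) ∘ orbitMap x = orbitMap (orbitMap x v) := by
    funext u
    show orbitMap (orbitMap x u) v = orbitMap (orbitMap x v) u
    rw [orbitMap_orbitMap, orbitMap_orbitMap, add_comm u v]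
  rw [h1]
  apply map_orbit_eq v hD
  rwa [periods_orbitMap]

/-- (P5) the packet measure is invariant under the diagonal flow. -/
theorem map_flow_packMeas (m : LatticeBasis (d + 1) K) (σ : Fin (d + 1) ≃ (K →+* ℝ))
    (v : Fin d → ℝ) :
    Measure.map (fun z => act z (diagFlow v)) (packMeas m σ) = packMeas m σ := by
  unfold packMeas
  rw [Measure.map_smul, Measure.map_sum (continuous_act_left _).measurable.aemeasurable]
  congr 2
  funext O
  obtain ⟨O, m', hm', w, hw, rfl⟩ := O
  show Measure.map _ (orbM (Set.range (orbitMap (act (latticePoint m' σ) w)))) =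
    orbM (Set.range (orbitMap (act (latticePoint m' σ) w)))
  have hD := isFD_fd' (m := m) (σ := σ) ⟨m', hm', w, hw, rfl⟩
  rw [orbM_eq hD, orbM_map_flow hD]

theorem map_flow_of_packet {m : LatticeBasis (d + 1) K} {σ : Fin (d + 1) ≃ (K →+* ℝ)}
    {μ : Measure (ModSpace (d + 1))} (h : IsPacketMeasure m σ μ) (v : Fin d → ℝ) :
    Measure.map (fun z => act z (diagFlow v)) μ = μ := by
  rw [eq_packMeas h]
  exact map_flow_packMeas m σ v

end

end Crest.Agent.R014.Pk5_349
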