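import Crest.Agent.R014.Sl1_652
import Crest.Agent.R014.DivB_684
import Crest.Agent.R014.Pk2_349
import Crest.Agent.R014.BoxV_71
import Crest.Agent.R014.Pk5_349

-- ▼ part R014/Vol1_834
section

/-!
Volume of the packet of an arbitrary lattice (row 14), part 1 (helper834).

Approximation: two nonzero fractional ideals differ, locally at a given integer, by a scalar.
-/

namespace Crest.Agent.R014.Vol1_834

open Crest.NumberTheoryR.Packets Module NumberField
open scoped nonZeroDivisors

variable {K : Type*} [Field K] [NumberField K]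

/-- If an ideal is coprime to `f`, so is its norm. -/
theorem coprime_absNorm (A : Ideal (𝓞 K)) (h0 : A ≠ ⊥) (f : ℕ) {a b : 𝓞 K} (ha : a ∈ A)
    (hab : a + (f : 𝓞 K) * b = 1) : Nat.Coprime (Ideal.absNorm A) f := by
  by_contra hcon
  obtain ⟨p, hp, hpk, hpf⟩ := Nat.Prime.not_coprime_iff_dvd.mp hcon
  have hfin : Finite (𝓞 K ⧸ A) := Ideal.finiteQuotientOfFreeOfNeBot A h0
  have hcard : Ideal.absNorm A = Nat.card (𝓞 K ⧸ A) := by
    rw [Ideal.absNorm_apply, Submodule.cardQuot_apply]
  rw [hcard] at hpk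
  have : Fact p.Prime := ⟨hp⟩
  obtain ⟨x, hx⟩ := exists_prime_addOrderOf_dvd_card' (G := 𝓞 K ⧸ A) p hpk
  obtain ⟨g, rfl⟩ := hpf
  have h1 : (1 : 𝓞 K ⧸ A) = ((p * g : ℕ) : 𝓞 K ⧸ A) * Ideal.Quotient.mk A b := by
    have h2 := congrArg (Ideal.Quotient.mk A) hab
    rw [map_add, map_mul, map_one, Ideal.Quotient.eq_zero_iff_mem.mpr ha, zero_add,
      map_natCast] at h2
    exact h2.symm
  have hpx : (p : 𝓞 K ⧸ A) * x = 0 := by
    have h3 : p • x = 0 := by rw [← hx]; exact addOrderOf_nsmul_eq_zero x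
    rwa [nsmul_eq_mul] at h3
  have hx0 : x = 0 := by
    calc x = 1 * x := (one_mul x).symm
      _ = ((p * g : ℕ) : 𝓞 K ⧸ A) * Ideal.Quotient.mk A b * x := by rw [h1]
      _ = (g : 𝓞 K ⧸ A) * Ideal.Quotient.mk A b * ((p : 𝓞 K ⧸ A) * x) := by push_cast; ring
      _ = 0 := by rw [hpx, mul_zero]
  rw [hx0, addOrderOf_zero] at hx
  exact hp.one_lt.ne hx

/-- For a nonzero ideal `B` and `f ≠ 0` there are `a ∈ B` nonzero and `k` coprime to `f` with
`k B ⊆ a 𝓞`. -/
theorem exists_generator (B : Ideal (𝓞 K)) (hB : B ≠ ⊥) (f : ℕ) (hf : f ≠ 0) :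
    ∃ a : 𝓞 K, a ≠ 0 ∧ a ∈ B ∧ ∃ k : ℕ, k ≠ 0 ∧ Nat.Coprime k f ∧
      ∀ x ∈ B, ∃ y : 𝓞 K, (k : 𝓞 K) * x = a * y := by
  classical
  have hf' : (f : 𝓞 K) ≠ 0 := by exact_mod_cast hf
  set F : Ideal (𝓞 K) := Ideal.span {(f : 𝓞 K)} with hF
  have hF0 : F ≠ ⊥ := by
    rw [hF, Ne, Ideal.span_singleton_eq_bot]; exact hf'
  have hle : F * B ≤ B := Ideal.mul_le_right
  have hFB : F * B ≠ 0 := mul_ne_zero hF0 hB
  obtain ⟨a, ha⟩ : ∃ a : 𝓞 K, a ≠ 0 ∧ F * B ⊔ Ideal.span {a} = B := by
    obtain ⟨a, ha⟩ := IsDedekindDomain.exists_sup_span_eq hle hFB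
    by_cases h0 : a = 0
    · obtain ⟨b, hb, hb0⟩ := Submodule.exists_mem_ne_zero_of_ne_bot hB
      refine ⟨b, hb0, ?_⟩
      rw [h0] at ha
      have hFBB : F * B = B := by simpa using ha
      rw [hFBB]
      exact sup_eq_left.mpr ((Ideal.span_singleton_le_iff_mem B).mpr hb)
    · exact ⟨a, h0, ha⟩
  obtain ⟨ha0, ha⟩ := ha
  have haB : a ∈ B := by
    rw [← ha]; exact Ideal.mem_sup_right (Ideal.mem_span_singleton_self a)
  obtain ⟨A, hA⟩ : B ∣ Ideal.span {a} := Ideal.dvd_span_singleton.mpr haB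
  have hA0 : A ≠ ⊥ := by
    rintro rfl
    rw [Ideal.mul_bot] at hA
    exact ha0 (Ideal.span_singleton_eq_bot.mp hA)
  have hsup : F ⊔ A = ⊤ := by
    have h1 : B * (F ⊔ A) = B * ⊤ := by
      rw [Ideal.mul_sup, ← hA, mul_comm B F, ha, Ideal.mul_top]
    exact mul_left_cancel₀ (hB : B ≠ 0) h1
  have h1 : (1 : 𝓞 K) ∈ F ⊔ A := by rw [hsup]; trivial
  obtain ⟨u, hu, v, hv, huv⟩ := Submodule.mem_sup.mp h1
  obtain ⟨b, hb⟩ := Ideal.mem_span_singleton.mp hu
  have hco : Nat.Coprime (Ideal.absNorm A) f :=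
    coprime_absNorm A hA0 f hv (b := b) (by rw [← hb, add_comm]; exact huv)
  refine ⟨a, ha0, haB, Ideal.absNorm A, ?_, hco, ?_⟩
  · intro h; exact hA0 (Ideal.absNorm_eq_zero_iff.mp h)
  · intro x hx
    have h2 : (Ideal.absNorm A : 𝓞 K) * x ∈ Ideal.span {a} := by
      rw [hA, mul_comm B A]
      exact Ideal.mul_mem_mul (Ideal.absNorm_mem A) hx
    obtain ⟨y, hy⟩ := Ideal.mem_span_singleton.mp h2
    exact ⟨y, hy⟩

/-- Two nonzero fractional ideals (given as `𝓞`-submodules of `K`) agree up to a scalar, locally at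
`f`. -/
theorem exists_scalar (I J : Submodule (𝓞 K) K) (hI : I.FG) (hJ : J.FG) (hI0 : I ≠ ⊥) (hJ0 : J ≠ ⊥)
    (f : ℕ) (hf : f ≠ 0) :
    ∃ c : K, c ≠ 0 ∧ ∃ k : ℕ, k ≠ 0 ∧ Nat.Coprime k f ∧ (∀ x ∈ I, ∃ y ∈ J, x = c * y) ∧
      ∀ y ∈ J, (k : K) * (c * y) ∈ I := by
  classical
  let I' : FractionalIdeal (𝓞 K)⁰ K := ⟨I, FractionalIdeal.isFractional_of_fg hI⟩
  let J' : FractionalIdeal (𝓞 K)⁰ K := ⟨J, FractionalIdeal.isFractional_of_fg hJ⟩
  have hI' : I' ≠ 0 := by
    intro h
    apply hI0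
    have := congrArg (fun A : FractionalIdeal (𝓞 K)⁰ K => (A : Submodule (𝓞 K) K)) h
    simpa [I'] using this
  have hJ' : J' ≠ 0 := by
    intro h
    apply hJ0
    have := congrArg (fun A : FractionalIdeal (𝓞 K)⁰ K => (A : Submodule (𝓞 K) K)) h
    simpa [J'] using this
  obtain ⟨s, B, hs, hB⟩ := FractionalIdeal.exists_eq_spanSingleton_mul (J' * I'⁻¹)
  have hB0 : B ≠ ⊥ := by
    rintro rfl
    rw [FractionalIdeal.coeIdeal_bot, mul_zero] at hB
    exact mul_ne_zero hJ' (inv_ne_zero hI') hB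
  obtain ⟨a, ha0, haB, k, hk0, hkf, hk⟩ := exists_generator B hB0 f hf
  -- J I⁻¹ = s⁻¹ B, a ∈ B, k B ⊆ a 𝓞; c = s / a.
  set s' : K := algebraMap (𝓞 K) K s with hs'
  set a' : K := algebraMap (𝓞 K) K a with ha'
  have hs0 : s' ≠ 0 := by
    rw [hs', Ne, FaithfulSMul.algebraMap_eq_zero_iff]; exact hs
  have ha0' : a' ≠ 0 := by
    rw [ha', Ne, FaithfulSMul.algebraMap_eq_zero_iff]; exact ha0
  have hJ2 : J' = FractionalIdeal.spanSingleton (𝓞 K)⁰ s'⁻¹ * (B : FractionalIdeal (𝓞 K)⁰ K) * I' := by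
    rw [← hB, mul_assoc, inv_mul_cancel₀ hI', mul_one]
  refine ⟨s' / a', div_ne_zero hs0 ha0', k, hk0, hkf, ?_, ?_⟩
  · intro x hx
    refine ⟨a' / s' * x, ?_, ?_⟩
    · have h1 : a' / s' * x ∈ J' := by
        rw [hJ2, mul_assoc, FractionalIdeal.mem_singleton_mul]
        refine ⟨a' * x, FractionalIdeal.mul_mem_mul (FractionalIdeal.mem_coeIdeal_of_mem _ haB) hx, ?_⟩
        rw [div_eq_inv_mul]; ring
      exact h1
    · field_simp
  · intro y hy
    have h1 : y ∈ J' := hy
    rw [hJ2, mul_assoc, FractionalIdeal.mem_singleton_mul] at h1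
    obtain ⟨z, hz, rfl⟩ := h1
    have h2 : (k : K) * a'⁻¹ * z ∈ I' := by
      refine FractionalIdeal.mul_induction_on hz ?_ ?_
      · rintro b' hb' w hw
        obtain ⟨b, hb, rfl⟩ := (FractionalIdeal.mem_coeIdeal _).mp hb'
        obtain ⟨t, ht⟩ := hk b hb
        have h3 : (k : K) * a'⁻¹ * (algebraMap (𝓞 K) K b * w) = algebraMap (𝓞 K) K t * w := by
          have h4 : (k : K) * algebraMap (𝓞 K) K b = a' * algebraMap (𝓞 K) K t := by
            have := congrArg (algebraMap (𝓞 K) K) ht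
            simpa using this
          calc (k : K) * a'⁻¹ * (algebraMap (𝓞 K) K b * w)
              = a'⁻¹ * ((k : K) * algebraMap (𝓞 K) K b) * w := by ring
            _ = a'⁻¹ * (a' * algebraMap (𝓞 K) K t) * w := by rw [h4]
            _ = algebraMap (𝓞 K) K t * w := by rw [inv_mul_cancel_left₀ ha0']
        rw [h3, ← Algebra.smul_def]
        exact I.smul_mem t hw
      · intro x y hx hy
        rw [mul_add]
        exact I.add_mem hx hy
    have h5 : (k : K) * (s' / a' * (s'⁻¹ * z)) = (k : K) * a'⁻¹ * z := by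
      field_simp
    rw [h5]
    exact h2

end Crest.Agent.R014.Vol1_834
end

-- ▼ part R014/Vol2_834
section

/-!
Volume of the packet of an arbitrary lattice (row 14), part 2 (helper834).

Lattices locally homothetic to `M` lying over a given fractional ideal.
-/

namespace Crest.Agent.R014.Vol2_834

open Crest.NumberTheoryR.Packets Module NumberField Vol1_834
open scoped nonZeroDivisors

set_option linter.unusedSectionVars false
set_option linter.unusedVariables false

variable {K : Type*} [Field K] [NumberField K]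

/-- Local homothety of subgroups of `K`. -/
def LocHom (A B : Submodule ℤ K) : Prop :=
  ∀ ℓ : ℕ, ℓ.Prime → ∃ c : K, c ≠ 0 ∧ ∃ N : ℕ, ¬ ℓ ∣ N ∧
    (∀ x ∈ B, ∃ y ∈ A, (N : K) * x = c * y) ∧ (∀ x ∈ A, (N : K) * (c * x) ∈ B)

theorem locHom_iff {n : ℕ} (m m' : LatticeBasis n K) :
    LocallyHomothetic m m' ↔ LocHom m.lattice m'.lattice := Iff.rfl

theorem nat_mul_mem {A : Submodule ℤ K} {x : K} (k : ℕ) (hx : x ∈ A) : (k : K) * x ∈ A := by
  have := A.smul_mem (k : ℤ) hx
  rwa [zsmul_eq_mul, Int.cast_natCast] at this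

theorem LocHom.trans {A B C : Submodule ℤ K} (h1 : LocHom A B) (h2 : LocHom B C) : LocHom A C := by
  intro ℓ hℓ
  obtain ⟨c, hc, N, hN, h3, h4⟩ := h1 ℓ hℓ
  obtain ⟨c', hc', N', hN', h5, h6⟩ := h2 ℓ hℓ
  refine ⟨c' * c, mul_ne_zero hc' hc, N * N', ?_, ?_, ?_⟩
  · intro h
    rcases hℓ.dvd_mul.mp h with h | h
    · exact hN h
    · exact hN' h
  · intro x hx
    obtain ⟨y, hy, e1⟩ := h5 x hx
    obtain ⟨z, hz, e2⟩ := h3 y hy
    refine ⟨z, hz, ?_⟩
    push_cast
    calc (N : K) * N' * x = N * (N' * x) := by ring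
      _ = N * (c' * y) := by rw [e1]
      _ = c' * (N * y) := by ring
      _ = c' * c * z := by rw [e2]; ring
  · intro x hx
    have := h6 _ (h4 x hx)
    convert this using 1
    push_cast; ring

theorem LocHom.symm {A B : Submodule ℤ K} (h : LocHom A B) : LocHom B A := by
  intro ℓ hℓ
  obtain ⟨c, hc, N, hN, h3, h4⟩ := h ℓ hℓ
  have hN0 : (N : K) ≠ 0 := by
    intro h0
    apply hN
    rw [Nat.cast_eq_zero.mp h0]
    exact dvd_zero ℓ
  refine ⟨c⁻¹, inv_ne_zero hc, N, hN, ?_, ?_⟩
  · intro x hx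
    refine ⟨(N : K) * (c * x), h4 x hx, ?_⟩
    field_simp
  · intro x hx
    obtain ⟨y, hy, e⟩ := h3 x hx
    have : (N : K) * (c⁻¹ * x) = y := by
      calc (N : K) * (c⁻¹ * x) = c⁻¹ * (N * x) := by ring
        _ = c⁻¹ * (c * y) := by rw [e]
        _ = y := inv_mul_cancel_left₀ hc y
    rw [this]; exact hy

/-- If for each prime some multiple prime to it lies in `A`, the element lies in `A`. -/
theorem mem_of_local {A : Submodule ℤ K} {z : K}
    (h : ∀ ℓ : ℕ, ℓ.Prime → ∃ N : ℕ, ¬ ℓ ∣ N ∧ (N : K) * z ∈ A) : z ∈ A := by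
  classical
  -- the least positive multiple
  have hex : ∃ N : ℕ, N ≠ 0 ∧ (N : K) * z ∈ A := by
    obtain ⟨N, hN, h1⟩ := h 2 Nat.prime_two
    exact ⟨N, fun h0 => hN (h0 ▸ dvd_zero 2), h1⟩
  set g := Nat.find hex with hg
  obtain ⟨hg0, hg1⟩ := Nat.find_spec hex
  rw [← hg] at hg0 hg1
  have hdiv : ∀ N : ℕ, (N : K) * z ∈ A → g ∣ N := by
    intro N hN
    by_contra hnd
    have hlt : N % g < g := Nat.mod_lt _ (Nat.pos_of_ne_zero hg0)
    have hne : N % g ≠ 0 := fun h0 => hnd (Nat.dvd_of_mod_eq_zero h0)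
    refine Nat.find_min hex (m := N % g) (by rw [← hg]; exact hlt) ⟨hne, ?_⟩
    have e : ((N % g : ℕ) : K) * z = (N : K) * z - ((N / g : ℕ) : K) * ((g : K) * z) := by
      have h2 : (N : K) = ((N % g : ℕ) : K) + (g : K) * ((N / g : ℕ) : K) := by
        exact_mod_cast (Nat.mod_add_div N g).symm
      rw [h2]; ring
    rw [e]
    exact A.sub_mem hN (nat_mul_mem _ hg1)
  have hg' : g = 1 := by
    by_contra hne
    obtain ⟨ℓ, hℓ, hℓg⟩ := Nat.exists_prime_and_dvd hne
    obtain ⟨N, hN, h1⟩ := h ℓ hℓ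
    exact hN (hℓg.trans (hdiv N h1))
  rw [hg', Nat.cast_one, one_mul] at hg1
  exact hg1

/-- The multiplier ring is an invariant of local homothety. -/
theorem mult_of_locHom {A B : Submodule ℤ K} (h : LocHom A B) {a : K}
    (ha : ∀ y ∈ B, a * y ∈ B) : ∀ x ∈ A, a * x ∈ A := by
  intro x hx
  refine mem_of_local fun ℓ hℓ => ?_
  obtain ⟨c, hc, N, hN, h3, h4⟩ := h ℓ hℓ
  refine ⟨N * N, fun hd => ?_, ?_⟩
  · rcases hℓ.dvd_mul.mp hd with h | h
    · exact hN h
    · exact hN h
  · obtain ⟨y, hy, e⟩ := h3 _ (ha _ (h4 x hx))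
    have : ((N * N : ℕ) : K) * (a * x) = y := by
      have h5 : c * (((N * N : ℕ) : K) * (a * x)) = c * y := by
        rw [← e]; push_cast; ring
      exact mul_left_cancel₀ hc h5
    rw [this]; exact hy

/-- The data of a lattice between `f I` and `I`. -/
structure Over (f : ℕ) (I : Submodule (𝓞 K) K) (N : Submodule ℤ K) : Prop where
  le : ∀ x ∈ N, x ∈ I
  ge : ∀ x ∈ I, (f : K) * x ∈ N
  span : Submodule.span (𝓞 K) (N : Set K) = I

/-- Base point of the fibre over `I`. -/
theorem base_point (M : Submodule ℤ K) (f : ℕ) (hf : f ≠ 0) (J : Submodule (𝓞 K) K)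
    (hMJ : Over f J M) (hJ : J.FG) (hJ0 : J ≠ ⊥) (I : Submodule (𝓞 K) K) (hI : I.FG)
    (hI0 : I ≠ ⊥) : ∃ N : Submodule ℤ K, LocHom M N ∧ Over f I N := by
  obtain ⟨c, hc, k, hk0, hkf, h1, h2⟩ := exists_scalar I J hI hJ hI0 hJ0 f hf
  -- N = c M ∩ I
  let N : Submodule ℤ K :=
    M.map (LinearMap.mulLeft ℤ c) ⊓ I.restrictScalars ℤ
  have hN : ∀ x, x ∈ N ↔ (∃ y ∈ M, c * y = x) ∧ x ∈ I := by
    intro x
    simp only [N, Submodule.mem_inf, Submodule.mem_map, LinearMap.mulLeft_apply,
      Submodule.restrictScalars_mem]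
  have hge : ∀ x ∈ I, (f : K) * x ∈ N := by
    intro x hx
    rw [hN]
    obtain ⟨y, hy, rfl⟩ := h1 x hx
    refine ⟨⟨(f : K) * y, hMJ.ge y hy, by ring⟩, ?_⟩
    have := I.smul_mem (f : 𝓞 K) hx
    rwa [Algebra.smul_def, map_natCast] at this
  have hkM : ∀ y ∈ M, (k : K) * (c * y) ∈ N := by
    intro y hy
    rw [hN]
    exact ⟨⟨(k : K) * y, nat_mul_mem k hy, by ring⟩, h2 y (hMJ.le y hy)⟩
  refine ⟨N, ?_, ⟨fun x hx => ((hN x).mp hx).2, hge, ?_⟩⟩
  · intro ℓ hℓ
    by_cases hd : ℓ ∣ f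
    · refine ⟨c, hc, k, fun hk => ?_, ?_, hkM⟩
      · have := Nat.dvd_gcd hk hd
        rw [Nat.Coprime.gcd_eq_one hkf] at this
        exact hℓ.one_lt.ne' (Nat.dvd_one.mp this)
      · intro x hx
        obtain ⟨⟨y, hy, rfl⟩, _⟩ := (hN x).mp hx
        exact ⟨(k : K) * y, nat_mul_mem k hy, by ring⟩
    · obtain ⟨c', hc', k', hk'0, hkf', h1', h2'⟩ := exists_scalar I J hI hJ hI0 hJ0 ℓ hℓ.ne_zero
      refine ⟨c', hc', f * k', fun h => ?_, ?_, ?_⟩
      · rcases hℓ.dvd_mul.mp h with h | h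
        · exact hd h
        · have := Nat.dvd_gcd h (dvd_refl ℓ)
          rw [Nat.Coprime.gcd_eq_one hkf'] at this
          exact hℓ.one_lt.ne' (Nat.dvd_one.mp this)
      · intro x hx
        obtain ⟨y, hy, rfl⟩ := h1' x ((hN x).mp hx).2
        refine ⟨(k' : K) * ((f : K) * y), nat_mul_mem k' (hMJ.ge y hy), ?_⟩
        push_cast; ring
      · intro x hx
        have := hge _ (h2' x (hMJ.le x hx))
        convert this using 1
        push_cast; ring
  · refine le_antisymm (Submodule.span_le.mpr fun x hx => ((hN x).mp hx).2) fun x hx => ?_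
    -- 1 = α f + β k
    have hbez : ∃ α β : ℤ, α * f + β * k = 1 := by
      have h3 : IsCoprime (f : ℤ) (k : ℤ) := Nat.isCoprime_iff_coprime.mpr hkf.symm
      exact h3
    obtain ⟨α, β, hab⟩ := hbez
    have e : x = (α : 𝓞 K) • ((f : K) * x) + (β : 𝓞 K) • ((k : K) * x) := by
      rw [Algebra.smul_def, Algebra.smul_def, map_intCast, map_intCast]
      have h4 : (α : K) * f + β * k = 1 := by exact_mod_cast hab
      linear_combination (-x) * h4
    rw [e]
    refine Submodule.add_mem _ (Submodule.smul_mem _ _ (Submodule.subset_span (hge x hx)))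
      (Submodule.smul_mem _ _ ?_)
    -- k x ∈ span N
    obtain ⟨y, hy, rfl⟩ := h1 x hx
    have key : ∀ y ∈ Submodule.span (𝓞 K) (M : Set K),
        (k : K) * (c * y) ∈ Submodule.span (𝓞 K) (N : Set K) := by
      intro y hy
      induction hy using Submodule.span_induction with
      | mem y hy => exact Submodule.subset_span (hkM y hy)
      | zero => simp
      | add a b _ _ ha hb =>
        have e1 : (k : K) * (c * (a + b)) = (k : K) * (c * a) + (k : K) * (c * b) := by ring
        rw [e1]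
        exact Submodule.add_mem _ ha hb
      | smul r a _ ha =>
        have e1 : (k : K) * (c * (r • a)) = r • ((k : K) * (c * a)) := by
          rw [Algebra.smul_def, Algebra.smul_def]; ring
        rw [e1]
        exact Submodule.smul_mem _ _ ha
    exact key y (by rw [hMJ.span]; exact hy)

/-- The twist of `N` by `u`. -/
def twist (f : ℕ) (I : Submodule (𝓞 K) K) (N : Submodule ℤ K) (u : 𝓞 K) : Submodule ℤ K :=
  N.map (LinearMap.mulLeft ℤ (u : K)) ⊔
    (I.restrictScalars ℤ).map (LinearMap.mulLeft ℤ (f : K))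

theorem mem_twist {f : ℕ} {I : Submodule (𝓞 K) K} {N : Submodule ℤ K} {u : 𝓞 K} {x : K} :
    x ∈ twist f I N u ↔ ∃ y ∈ N, ∃ z ∈ I, (u : K) * y + (f : K) * z = x := by
  simp only [twist, Submodule.mem_sup, Submodule.mem_map, LinearMap.mulLeft_apply,
    Submodule.restrictScalars_mem]
  constructor
  · rintro ⟨_, ⟨y, hy, rfl⟩, _, ⟨z, hz, rfl⟩, rfl⟩
    exact ⟨y, hy, z, hz, rfl⟩
  · rintro ⟨y, hy, z, hz, rfl⟩
    exact ⟨_, ⟨y, hy, rfl⟩, _, ⟨z, hz, rfl⟩, rfl⟩

theorem coe_mul_mem {I : Submodule (𝓞 K) K} (r : 𝓞 K) {x : K} (hx : x ∈ I) : (r : K) * x ∈ I := by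
  have := I.smul_mem r hx
  rwa [Algebra.smul_def] at this

theorem twist_over {f : ℕ} {I : Submodule (𝓞 K) K} {N : Submodule ℤ K} (h : Over f I N)
    {u v w : 𝓞 K} (huv : u * v + (f : 𝓞 K) * w = 1) : Over f I (twist f I N u) := by
  have hge : ∀ x ∈ I, (f : K) * x ∈ twist f I N u := fun x hx =>
    mem_twist.mpr ⟨0, N.zero_mem, x, hx, by ring⟩
  have hle : ∀ x ∈ twist f I N u, x ∈ I := by
    intro x hx
    obtain ⟨y, hy, z, hz, rfl⟩ := mem_twist.mp hx
    refine I.add_mem (coe_mul_mem u (h.le y hy)) ?_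
    have := coe_mul_mem (f : 𝓞 K) hz
    simpa using this
  refine ⟨hle, hge, le_antisymm (Submodule.span_le.mpr hle) fun x hx => ?_⟩
  have key : ∀ y ∈ Submodule.span (𝓞 K) (N : Set K),
      (u : K) * y ∈ Submodule.span (𝓞 K) (twist f I N u : Set K) := by
    intro y hy
    induction hy using Submodule.span_induction with
    | mem y hy =>
      exact Submodule.subset_span (mem_twist.mpr ⟨y, hy, 0, I.zero_mem, by ring⟩)
    | zero => simp
    | add a b _ _ ha hb => rw [mul_add]; exact Submodule.add_mem _ ha hb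
    | smul r a _ ha =>
      rw [mul_smul_comm]; exact Submodule.smul_mem _ _ ha
  have e : x = v • ((u : K) * x) + w • ((f : K) * x) := by
    rw [Algebra.smul_def, Algebra.smul_def]
    have h4 : (u : K) * v + f * w = 1 := by
      have := congrArg (algebraMap (𝓞 K) K) huv
      simpa using this
    linear_combination (-x) * h4
  rw [e]
  refine Submodule.add_mem _ (Submodule.smul_mem _ _ (key x ?_))
    (Submodule.smul_mem _ _ (Submodule.subset_span (hge x hx)))
  rw [h.span]; exact hx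

/-- The norm of an element of `𝓞 K` is a multiple of it, and is prime to `f` with it. -/
theorem exists_norm {f : ℕ} {u v w : 𝓞 K} (huv : u * v + (f : 𝓞 K) * w = 1) (hu : u ≠ 0) :
    ∃ k : ℕ, Nat.Coprime k f ∧ ∃ t : 𝓞 K, (k : 𝓞 K) = u * t := by
  refine ⟨Ideal.absNorm (Ideal.span {u}), ?_, ?_⟩
  · refine coprime_absNorm _ (by rw [Ne, Ideal.span_singleton_eq_bot]; exact hu) f
      (a := u * v) (b := w) (Ideal.mul_mem_right _ _ (Ideal.mem_span_singleton_self u)) huv
  · exact Ideal.mem_span_singleton.mp (Ideal.absNorm_mem _)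

theorem twist_locHom {f : ℕ} (hf : f ≠ 0) {I : Submodule (𝓞 K) K} {N : Submodule ℤ K}
    (h : Over f I N) {u v w : 𝓞 K} (huv : u * v + (f : 𝓞 K) * w = 1) (hu : u ≠ 0) :
    LocHom N (twist f I N u) := by
  obtain ⟨k, hkf, t, ht⟩ := exists_norm huv hu
  have hov := twist_over h huv
  intro ℓ hℓ
  by_cases hd : ℓ ∣ f
  · refine ⟨(u : K), by simpa using hu, k, fun hk => ?_, ?_, ?_⟩
    · have := Nat.dvd_gcd hk hd
      rw [Nat.Coprime.gcd_eq_one hkf] at this
      exact hℓ.one_lt.ne' (Nat.dvd_one.mp this)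
    · intro x hx
      obtain ⟨y, hy, z, hz, rfl⟩ := mem_twist.mp hx
      refine ⟨(k : K) * y + (f : K) * ((t : K) * z), N.add_mem (nat_mul_mem k hy)
        (h.ge _ (coe_mul_mem t hz)), ?_⟩
      have h5 : (k : K) = u * t := by
        have := congrArg (algebraMap (𝓞 K) K) ht
        simpa using this
      rw [mul_add, mul_add]
      have : (k : K) * ((f : K) * z) = (u : K) * ((f : K) * ((t : K) * z)) := by
        rw [h5]; ring
      rw [this]; ring
    · intro y hy
      exact nat_mul_mem k (mem_twist.mpr ⟨y, hy, 0, I.zero_mem, by ring⟩)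
  · refine ⟨1, one_ne_zero, f, hd, fun x hx => ⟨(f : K) * x, h.ge x (hov.le x hx), by ring⟩,
      fun x hx => ?_⟩
    rw [one_mul]; exact hov.ge x (h.le x hx)

/-- Twists with the same value differ by a multiplier. -/
theorem twist_inj {f : ℕ} {I : Submodule (𝓞 K) K} {N : Submodule ℤ K}
    (h : Over f I N) {u u' v w : 𝓞 K} (huv : u * v + (f : 𝓞 K) * w = 1)
    (heq : twist f I N u = twist f I N u') : ∀ y ∈ N, ((v * u' : 𝓞 K) : K) * y ∈ N := by
  intro y hy
  have h1 : (u' : K) * y ∈ twist f I N u := by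
    rw [heq]; exact mem_twist.mpr ⟨y, hy, 0, I.zero_mem, by ring⟩
  obtain ⟨y1, hy1, z, hz, e⟩ := mem_twist.mp h1
  have h4 : (u : K) * v + f * w = 1 := by
    have := congrArg (algebraMap (𝓞 K) K) huv
    simpa using this
  have e2 : ((v * u' : 𝓞 K) : K) * y = y1 - (f : K) * ((w : K) * y1) + (f : K) * ((v : K) * z) := by
    push_cast
    calc (v : K) * u' * y = v * (u' * y) := by ring
      _ = v * (u * y1 + f * z) := by rw [e]
      _ = _ := by linear_combination y1 * h4
  rw [e2]
  exact N.add_mem (N.sub_mem hy1 (h.ge _ (coe_mul_mem w (h.le y1 hy1))))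
    (h.ge _ (coe_mul_mem v hz))


end Crest.Agent.R014.Vol2_834
end

-- ▼ part R014/Vol3_834
section

/-!
Volume of the packet of an arbitrary lattice (row 14), part 3 (helper834).

Number of lattices locally homothetic to `M` over a given fractional ideal.
-/

namespace Crest.Agent.R014.Vol3_834

open Crest.NumberTheoryR.Packets Module NumberField Vol1_834 Vol2_834
open scoped nonZeroDivisors

set_option linter.unusedSectionVars false
set_option linter.unusedVariables false

variable {K : Type*} [Field K] [NumberField K] {n : ℕ}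

/-- The index of the multiplier order in the ring of integers. -/
noncomputable def fIdx (m : LatticeBasis n K) : ℕ :=
  (multiplierOrder m).relIndex (integralClosure ℤ K).toSubring.toAddSubgroup

theorem latticeDisc_eq (m : LatticeBasis n K) :
    latticeDisc m = |(NumberField.discr K : ℝ)| * (fIdx m : ℝ) ^ 2 := rfl

theorem fIdx_ne_zero (m : LatticeBasis n K) (σ : Fin n ≃ (K →+* ℝ)) : fIdx m ≠ 0 := by
  intro h
  have := Sl_652.latticeDisc_pos m σ
  rw [latticeDisc_eq, h] at this
  simp at this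

theorem fIdx_mul_mem (m : LatticeBasis n K) {x : K} (hx : IsIntegral ℤ x) :
    (fIdx m : K) * x ∈ multiplierOrder m := by
  have h : (multiplierOrder m).addSubgroupOf (integralClosure ℤ K).toSubring.toAddSubgroup
      = (multiplierOrder m).addSubgroupOf (integralClosure ℤ K).toSubring.toAddSubgroup := rfl
  have h1 := AddSubgroup.nsmul_index_mem
    ((multiplierOrder m).addSubgroupOf (integralClosure ℤ K).toSubring.toAddSubgroup)
    (⟨x, hx⟩ : (integralClosure ℤ K).toSubring.toAddSubgroup)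
  rw [AddSubgroup.mem_addSubgroupOf] at h1
  have h2 : (((multiplierOrder m).addSubgroupOf
      (integralClosure ℤ K).toSubring.toAddSubgroup).index •
      (⟨x, hx⟩ : (integralClosure ℤ K).toSubring.toAddSubgroup) : K) = (fIdx m : K) * x := by
    rw [nsmul_eq_mul]; rfl
  rw [← h2]
  exact h1

theorem fIdx_mul_mem' (m : LatticeBasis n K) (x : 𝓞 K) :
    (fIdx m : K) * (x : K) ∈ multiplierOrder m :=
  fIdx_mul_mem m (RingOfIntegers.isIntegral_coe x)

/-- The 𝓞-span of a lattice. -/
noncomputable def spanO (M : Submodule ℤ K) : Submodule (𝓞 K) K := Submodule.span (𝓞 K) (M : Set K)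

theorem spanO_fg {M : Submodule ℤ K} (h : M.FG) : (spanO M).FG := by
  obtain ⟨s, hs⟩ := h
  refine ⟨s, ?_⟩
  apply le_antisymm
  · exact Submodule.span_mono (by rw [← hs]; exact Submodule.subset_span)
  · refine Submodule.span_le.mpr ?_
    intro x hx
    rw [← hs] at hx
    have : x ∈ Submodule.span ℤ (s : Set K) := hx
    exact Submodule.span_le_restrictScalars ℤ (𝓞 K) _ this

theorem spanO_over (m : LatticeBasis n K) : Over (fIdx m) (spanO m.lattice) m.lattice := by
  refine ⟨fun x hx => Submodule.subset_span hx, fun x hx => ?_, rfl⟩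
  unfold spanO at hx
  induction hx using Submodule.span_induction with
  | mem y hy => exact nat_mul_mem _ hy
  | zero => simp
  | add a b _ _ ha hb => rw [mul_add]; exact m.lattice.add_mem ha hb
  | smul r a ha hi =>
    -- f (r a) ∈ M for a in the span: induct again
    have key : ∀ a ∈ Submodule.span (𝓞 K) (m.lattice : Set K), ∀ r : 𝓞 K,
        (fIdx m : K) * ((r : K) * a) ∈ m.lattice := by
      intro a ha
      induction ha using Submodule.span_induction with
      | mem y hy =>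
        intro r
        rw [← mul_assoc]
        exact fIdx_mul_mem' m r y hy
      | zero => intro r; simp
      | add a b _ _ ha hb => intro r; rw [mul_add, mul_add]; exact m.lattice.add_mem (ha r) (hb r)
      | smul s a _ ha =>
        intro r
        have := ha (r * s)
        rw [Algebra.smul_def]
        convert this using 1
        push_cast; ring
    rw [Algebra.smul_def]
    exact key a ha r

theorem spanO_ne_bot (m : LatticeBasis n K) : spanO m.lattice ≠ ⊥ := by
  intro h
  have h0 : m.vec ⟨0, Sl_652.n_pos m⟩ ∈ spanO m.lattice :=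
    Submodule.subset_span (Sl_652.vec_mem m _)
  rw [h, Submodule.mem_bot] at h0
  exact Sl_652.vec_ne_zero m _ h0

/-- The multiplier order inside `𝓞 K`. -/
def ordO (m : LatticeBasis n K) : AddSubgroup (𝓞 K) :=
  (multiplierOrder m).comap (algebraMap (𝓞 K) K).toAddMonoidHom

theorem mem_ordO {m : LatticeBasis n K} {x : 𝓞 K} : x ∈ ordO m ↔ (x : K) ∈ multiplierOrder m :=
  Iff.rfl

theorem index_ordO (m : LatticeBasis n K) : (ordO m).index = fIdx m := by
  unfold ordO
  rw [AddSubgroup.index_comap]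
  unfold fIdx
  congr 1
  ext x
  constructor
  · rintro ⟨y, rfl⟩
    exact RingOfIntegers.isIntegral_coe y
  · intro hx
    exact ⟨⟨x, hx⟩, rfl⟩

/-- The residue ring modulo `f`. -/
abbrev RR (K : Type*) [Field K] [NumberField K] (f : ℕ) : Type _ :=
  𝓞 K ⧸ (Ideal.span {(f : 𝓞 K)} : Ideal (𝓞 K))

theorem card_RR (hn : finrank ℚ K = n) (f : ℕ) : Nat.card (RR K f) = f ^ n := by
  have h := AddSubgroup.index_range_nsmul (𝓞 K) f
  rw [RingOfIntegers.rank, hn] at h
  rw [← h, AddSubgroup.index]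
  have : (nsmulAddMonoidHom (α := 𝓞 K) f).range =
      (Ideal.span {(f : 𝓞 K)} : Ideal (𝓞 K)).toAddSubgroup := by
    ext x
    constructor
    · rintro ⟨y, rfl⟩
      show _ ∈ Ideal.span {(f : 𝓞 K)}
      rw [Ideal.mem_span_singleton]
      exact ⟨y, by simp [nsmul_eq_mul]⟩
    · intro hx
      have hx' : x ∈ Ideal.span {(f : 𝓞 K)} := hx
      rw [Ideal.mem_span_singleton] at hx'
      obtain ⟨y, rfl⟩ := hx'
      exact ⟨y, by simp [nsmul_eq_mul]⟩
  rw [this]
  rfl

/-- The image of the order in the residue ring. -/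
def ordR (m : LatticeBasis n K) : AddSubgroup (RR K (fIdx m)) :=
  (ordO m).map (Ideal.Quotient.mk (Ideal.span {(fIdx m : 𝓞 K)})).toAddMonoidHom

theorem card_ordR (m : LatticeBasis n K) :
    Nat.card (ordR m) * fIdx m = (fIdx m) ^ n := by
  have h1 : (ordR m).index = fIdx m := by
    refine Eq.trans ?_ (index_ordO m)
    unfold ordR
    apply AddSubgroup.index_map_eq
    · exact Ideal.Quotient.mk_surjective
    · intro x hx
      have hx' : Ideal.Quotient.mk (Ideal.span {(fIdx m : 𝓞 K)}) x = 0 := hx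
      rw [Ideal.Quotient.eq_zero_iff_mem, Ideal.mem_span_singleton] at hx'
      obtain ⟨y, rfl⟩ := hx'
      rw [mem_ordO]
      push_cast
      exact fIdx_mul_mem' m y
  have h2 := (ordR m).card_mul_index
  rw [h1, card_RR (Sl_652.finrank_eq m)] at h2
  exact h2

/-- A unit of the residue ring lifts to `u ≠ 0` with `u v + f w = 1`. -/
theorem exists_lift {f : ℕ} (hf : f ≠ 0) (a : (RR K f)ˣ) :
    ∃ u v w : 𝓞 K, u ≠ 0 ∧ Ideal.Quotient.mk _ u = (a : RR K f) ∧
      Ideal.Quotient.mk _ v = ((a⁻¹ : (RR K f)ˣ) : RR K f) ∧ u * v + (f : 𝓞 K) * w = 1 := by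
  obtain ⟨u0, hu0⟩ := Ideal.Quotient.mk_surjective (a : RR K f)
  obtain ⟨v, hv⟩ := Ideal.Quotient.mk_surjective ((a⁻¹ : (RR K f)ˣ) : RR K f)
  have hf' : (f : 𝓞 K) ≠ 0 := by exact_mod_cast hf
  have hff : Ideal.Quotient.mk (Ideal.span {(f : 𝓞 K)}) (f : 𝓞 K) = 0 :=
    Ideal.Quotient.eq_zero_iff_mem.mpr (Ideal.mem_span_singleton_self _)
  obtain ⟨u, hu, hu1⟩ : ∃ u : 𝓞 K, u ≠ 0 ∧ Ideal.Quotient.mk _ u = (a : RR K f) := by
    by_cases h : u0 = 0
    · refine ⟨u0 + f, ?_, ?_⟩
      · rw [h, zero_add]; exact hf'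
      · rw [map_add, hff, add_zero, hu0]
    · exact ⟨u0, h, hu0⟩
  have h1 : Ideal.Quotient.mk (Ideal.span {(f : 𝓞 K)}) (1 - u * v) = 0 := by
    rw [map_sub, map_mul, hu1, hv, map_one, Units.mul_inv, sub_self]
  rw [Ideal.Quotient.eq_zero_iff_mem, Ideal.mem_span_singleton] at h1
  obtain ⟨w, hw⟩ := h1
  exact ⟨u, v, w, hu, hu1, hv, by rw [← hw]; ring⟩

/-- There are at least `|(𝓞/f)ˣ| f / f ^ n` lattices locally homothetic to `M` over every
fractional ideal. -/
theorem exists_fibre (m : LatticeBasis n K) (hf : fIdx m ≠ 0) (I : Submodule (𝓞 K) K) (hI : I.FG)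
    (hI0 : I ≠ ⊥) :
    ∃ S : Finset (Submodule ℤ K), (∀ N ∈ S, LocHom m.lattice N ∧ Over (fIdx m) I N) ∧
      Nat.card (RR K (fIdx m))ˣ * fIdx m ≤ S.card * (fIdx m) ^ n := by
  classical
  obtain ⟨N, hN, hov⟩ := base_point m.lattice (fIdx m) hf (spanO m.lattice) (spanO_over m)
    (spanO_fg (Sl_652.lattice_fg m)) (spanO_ne_bot m) I hI hI0
  have hfinR : Finite (RR K (fIdx m)) :=
    Ideal.finiteQuotientOfFreeOfNeBot _ (by
      rw [Ne, Ideal.span_singleton_eq_bot]; exact_mod_cast hf)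
  have : Fintype (RR K (fIdx m))ˣ := Fintype.ofFinite _
  choose u v w hu0 hu hv huvw using fun a : (RR K (fIdx m))ˣ => exists_lift hf a
  let g : (RR K (fIdx m))ˣ → Submodule ℤ K := fun a => twist (fIdx m) I N (u a)
  refine ⟨Finset.univ.image g, ?_, ?_⟩
  · intro N' hN'
    obtain ⟨a, _, rfl⟩ := Finset.mem_image.mp hN'
    exact ⟨hN.trans (twist_locHom hf hov (huvw a) (hu0 a)), twist_over hov (huvw a)⟩
  · -- each fibre of `g` injects into `ordR m`
    have hfib : ∀ N' ∈ Finset.univ.image g,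
        (Finset.univ.filter fun a => g a = N').card ≤ Nat.card (ordR m) := by
      intro N' hN'
      obtain ⟨a, _, rfl⟩ := Finset.mem_image.mp hN'
      have hmem : ∀ b ∈ Finset.univ.filter (fun b => g b = g a),
          ((a⁻¹ * b : (RR K (fIdx m))ˣ) : RR K (fIdx m)) ∈ ordR m := by
        intro b hb
        have hb' : g b = g a := (Finset.mem_filter.mp hb).2
        refine ⟨v a * u b, ?_, ?_⟩
        · show v a * u b ∈ ordO m
          rw [mem_ordO]
          exact mult_of_locHom hN (twist_inj hov (huvw a) hb'.symm)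
        · show Ideal.Quotient.mk _ (v a * u b) = _
          rw [map_mul, hv, hu, Units.val_mul]
      have hinj : Function.Injective (fun b : {b // b ∈ Finset.univ.filter (fun b => g b = g a)} =>
          (⟨((a⁻¹ * b.1 : (RR K (fIdx m))ˣ) : RR K (fIdx m)), hmem b.1 b.2⟩ : ordR m)) := by
        intro b c hbc
        have h1 := congrArg Subtype.val hbc
        have h2 : a⁻¹ * b.1 = a⁻¹ * c.1 := Units.ext h1
        exact Subtype.ext (mul_left_cancel h2)
      have h3 := Nat.card_le_card_of_injective _ hinj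
      rwa [Nat.card_eq_fintype_card, Fintype.card_coe] at h3
    have h4 : Fintype.card (RR K (fIdx m))ˣ ≤ (Finset.univ.image g).card * Nat.card (ordR m) := by
      rw [← Finset.card_univ]
      rw [mul_comm]
      exact Finset.card_le_mul_card_image Finset.univ _ hfib
    rw [Nat.card_eq_fintype_card]
    calc Fintype.card (RR K (fIdx m))ˣ * fIdx m
        ≤ (Finset.univ.image g).card * Nat.card (ordR m) * fIdx m := Nat.mul_le_mul_right _ h4
      _ = (Finset.univ.image g).card * (fIdx m) ^ n := by rw [mul_assoc, card_ordR]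

end Crest.Agent.R014.Vol3_834
end

-- ▼ part R014/Vol4_834
section

/-!
Volume of the packet of an arbitrary lattice (row 14), part 4 (helper834).

Lower bound for the number of units modulo `f`.
-/

namespace Crest.Agent.R014.Vol4_834

open Module NumberField Vol3_834 UniqueFactorizationMonoid DivB_684
open scoped nonZeroDivisors

set_option linter.unusedSectionVars false
set_option linter.unusedVariables false

universe u

variable {K : Type u} [Field K] [NumberField K]

/-- In a finite ring in which the complement of a proper additive subgroup consists of units, at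
least half of the elements are units. -/
theorem card_le_two_mul_units {A : Type*} [CommRing A] [Finite A] (S : AddSubgroup A)
    (hS : (1 : A) ∉ S) (hu : ∀ a : A, a ∉ S → IsUnit a) : Nat.card A ≤ 2 * Nat.card Aˣ := by
  classical
  have hidx : 2 ≤ S.index := by
    by_contra h
    push Not at h
    have h1 : S.index ≠ 0 := AddSubgroup.index_ne_zero_of_finite
    have h2 : S.index = 1 := by omega
    rw [AddSubgroup.index_eq_one] at h2
    rw [h2] at hS
    exact hS trivial
  have h1 : Nat.card S * 2 ≤ Nat.card A := by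
    calc Nat.card S * 2 ≤ Nat.card S * S.index := Nat.mul_le_mul_left _ hidx
      _ = Nat.card A := S.card_mul_index
  have h2 : Nat.card A ≤ Nat.card S + Nat.card Aˣ := by
    have hinj : Function.Injective (fun a : A => if h : a ∈ S then (Sum.inl ⟨a, h⟩ : S ⊕ Aˣ)
        else Sum.inr (hu a h).unit) := by
      intro a b hab
      by_cases ha : a ∈ S <;> by_cases hb : b ∈ S
      · simp only [ha, hb, dif_pos] at hab
        exact congrArg Subtype.val (Sum.inl.inj hab)
      · simp [ha, hb] at hab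
      · simp [ha, hb] at hab
      · simp only [ha, hb, dif_neg, not_false_iff] at hab
        have := congrArg Units.val (Sum.inr.inj hab)
        simpa using this
    have h3 := Nat.card_le_card_of_injective _ hinj
    rwa [Nat.card_sum] at h3
  omega

theorem card_le_two_mul_units_prime (P : Ideal (𝓞 K)) (hP : P.IsPrime) (hP0 : P ≠ ⊥) (e : ℕ)
    (he : e ≠ 0) : Nat.card (𝓞 K ⧸ P ^ e) ≤ 2 * Nat.card (𝓞 K ⧸ P ^ e)ˣ := by
  have hfin : Finite (𝓞 K ⧸ P ^ e) :=
    Ideal.finiteQuotientOfFreeOfNeBot _ (pow_ne_zero e hP0)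
  have hmax : P.IsMaximal := hP.isMaximal hP0
  refine card_le_two_mul_units ((P.map (Ideal.Quotient.mk (P ^ e))).toAddSubgroup) ?_ ?_
  · intro h
    have h1 : (1 : 𝓞 K ⧸ P ^ e) ∈ P.map (Ideal.Quotient.mk (P ^ e)) := h
    rw [← map_one (Ideal.Quotient.mk (P ^ e)), Ideal.mem_quotient_iff_mem
      (Ideal.pow_le_self he)] at h1
    exact hP.ne_top ((Ideal.eq_top_iff_one P).mpr h1)
  · intro a ha
    obtain ⟨x, rfl⟩ := Ideal.Quotient.mk_surjective a
    have hx : x ∉ P := by
      intro hx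
      exact ha (Ideal.mem_map_of_mem _ hx)
    have hco : IsCoprime (Ideal.span {x}) (P ^ e) := by
      apply IsCoprime.pow_right
      rw [Ideal.isCoprime_iff_sup_eq]
      by_contra hne
      have h2 : P ≤ Ideal.span {x} ⊔ P := le_sup_right
      have h3 := hmax.eq_of_le hne h2
      apply hx
      rw [h3]
      exact Ideal.mem_sup_left (Ideal.mem_span_singleton_self x)
    rw [Ideal.isCoprime_iff_exists] at hco
    obtain ⟨y, hy, z, hz, hyz⟩ := hco
    obtain ⟨t, rfl⟩ := Ideal.mem_span_singleton.mp hy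
    refine IsUnit.of_mul_eq_one (Ideal.Quotient.mk _ t) ?_
    rw [← map_mul, ← map_one (Ideal.Quotient.mk (P ^ e)), Ideal.Quotient.eq]
    have : x * t - 1 = -z := by rw [← hyz]; ring
    rw [this]
    exact neg_mem hz

/-- Half the elements at each prime. -/
theorem card_quot_le (I : Ideal (𝓞 K)) (hI : I ≠ ⊥) :
    Nat.card (𝓞 K ⧸ I) ≤ 2 ^ (normalizedFactors I).toFinset.card * Nat.card (𝓞 K ⧸ I)ˣ := by
  classical
  let e := IsDedekindDomain.quotientEquivPiFactors hI
  have hfac : (factors I).toFinset.card = (normalizedFactors I).toFinset.card := by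
    rw [factors_eq_normalizedFactors]
  have h1 : Nat.card (𝓞 K ⧸ I) = ∏ P : (factors I).toFinset,
      Nat.card (𝓞 K ⧸ (P : Ideal (𝓞 K)) ^ (factors I).count (P : Ideal (𝓞 K))) := by
    rw [Nat.card_congr e.toEquiv, Nat.card_pi]
  have h2 : Nat.card (𝓞 K ⧸ I)ˣ = ∏ P : (factors I).toFinset,
      Nat.card (𝓞 K ⧸ (P : Ideal (𝓞 K)) ^ (factors I).count (P : Ideal (𝓞 K)))ˣ := by
    rw [Nat.card_congr (Units.mapEquiv e.toMulEquiv).toEquiv,
      Nat.card_congr MulEquiv.piUnits.toEquiv, Nat.card_pi]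
  rw [h1, h2, ← hfac]
  have h3 : (2 : ℕ) ^ (factors I).toFinset.card = ∏ P : (factors I).toFinset, 2 := by
    rw [Finset.prod_const, Finset.card_univ, Fintype.card_coe]
  rw [h3, ← Finset.prod_mul_distrib]
  apply Finset.prod_le_prod'
  rintro ⟨P, hP⟩ _
  have hP' : P ∈ factors I := Multiset.mem_toFinset.mp hP
  have hpr : Prime P := prime_of_factor P hP'
  exact card_le_two_mul_units_prime P (Ideal.isPrime_of_prime hpr) hpr.ne_zero _
    (Multiset.count_ne_zero.mpr hP')

/-- The divisor product bound (684). -/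
theorem prod_count_le {ε : ℝ} (hε : 0 < ε) {a : Ideal (𝓞 K)} (ha : a ≠ ⊥) :
    ∏ P ∈ (normalizedFactors a).toFinset, (((normalizedFactors a).count P : ℝ) + 1) ≤
      CDiv (Module.finrank ℚ K) ε * (Ideal.absNorm a : ℝ) ^ ε := by
  classical
  set F := normalizedFactors a with hF
  set A : ℝ := 1 + 1 / (ε * Real.log 2) with hA
  have hl2 : 0 < Real.log 2 := Real.log_pos (by norm_num)
  have hA1 : 1 ≤ A := by
    have : 0 < 1 / (ε * Real.log 2) := by positivity
    rw [hA]; linarith
  have hprime : ∀ P ∈ F.toFinset, P.IsPrime ∧ P ≠ ⊥ ∧ 2 ≤ Ideal.absNorm P := by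
    intro P hP
    rw [Multiset.mem_toFinset] at hP
    have h1 : Prime P := prime_of_normalized_factor P hP
    have h2 : P.IsPrime := Ideal.isPrime_of_prime h1
    exact ⟨h2, h1.ne_zero, two_le_absNorm h2 h1.ne_zero⟩
  set Y : ℝ := (2 : ℝ) ^ (1 / ε) with hY
  have hYpos : 0 < Y := by positivity
  have h2 : ∏ P ∈ F.toFinset, ((F.count P : ℝ) + 1) ≤
      ∏ P ∈ F.toFinset, ((if (Ideal.absNorm P : ℝ) < Y then A else 1) *
        (((Ideal.absNorm P : ℝ) ^ F.count P) ^ ε)) := by
    apply Finset.prod_le_prod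
    · intro P _; positivity
    · intro P hP
      obtain ⟨_, _, hP2⟩ := hprime P hP
      by_cases hlt : (Ideal.absNorm P : ℝ) < Y
      · rw [if_pos hlt]; exact add_one_le_mul hε hP2 _
      · rw [if_neg hlt, one_mul]
        apply add_one_le_of_large
        push Not at hlt
        have h3 : Y ^ ε ≤ (Ideal.absNorm P : ℝ) ^ ε := Real.rpow_le_rpow hYpos.le hlt hε.le
        have h4 : Y ^ ε = 2 := by
          rw [hY, ← Real.rpow_mul (by norm_num)]
          rw [one_div_mul_cancel hε.ne', Real.rpow_one]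
        linarith
  have h3 : ∏ P ∈ F.toFinset, (((Ideal.absNorm P : ℝ) ^ F.count P) ^ ε) =
      (Ideal.absNorm a : ℝ) ^ ε := by
    rw [Real.finsetProd_rpow _ _ (fun P _ => by positivity)]
    congr 1
    rw [absNorm_eq_prod ha]
    push_cast
    rfl
  have h4 : ∏ P ∈ F.toFinset, (if (Ideal.absNorm P : ℝ) < Y then A else 1) ≤
      CDiv (Module.finrank ℚ K) ε := by
    rw [Finset.prod_ite, Finset.prod_const, Finset.prod_const_one, mul_one]
    rw [CDiv]
    apply pow_le_pow_right₀ hA1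
    apply card_primes_norm_le
    intro P hP
    rw [Finset.mem_filter] at hP
    obtain ⟨h5, h6, _⟩ := hprime P hP.1
    refine ⟨h5, h6, ?_⟩
    have h7 : (Ideal.absNorm P : ℝ) ≤ ⌈Y⌉₊ := hP.2.le.trans (Nat.le_ceil Y)
    exact_mod_cast h7
  calc ∏ P ∈ F.toFinset, ((F.count P : ℝ) + 1) ≤ _ := h2
    _ = (∏ P ∈ F.toFinset, (if (Ideal.absNorm P : ℝ) < Y then A else 1)) *
          ∏ P ∈ F.toFinset, (((Ideal.absNorm P : ℝ) ^ F.count P) ^ ε) := Finset.prod_mul_distrib
    _ ≤ CDiv (Module.finrank ℚ K) ε * (Ideal.absNorm a : ℝ) ^ ε := by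
        rw [h3]
        exact mul_le_mul_of_nonneg_right h4 (by positivity)

theorem two_pow_le {ε : ℝ} (hε : 0 < ε) {a : Ideal (𝓞 K)} (ha : a ≠ ⊥) :
    (2 : ℝ) ^ (normalizedFactors a).toFinset.card ≤
      CDiv (Module.finrank ℚ K) ε * (Ideal.absNorm a : ℝ) ^ ε := by
  classical
  refine le_trans ?_ (prod_count_le hε ha)
  rw [← Finset.prod_const]
  apply Finset.prod_le_prod
  · intro P _; norm_num
  · intro P hP
    have h1 : 0 < (normalizedFactors a).count P :=
      Multiset.count_pos.mpr (Multiset.mem_toFinset.mp hP)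
    have h2 : (1 : ℝ) ≤ (normalizedFactors a).count P := by exact_mod_cast h1
    linarith

/-- `|(𝓞/f)ˣ| ≥ C(n,ε)⁻¹ f ^ (n - nε)`. -/
theorem card_units_ge {n : ℕ} (hn : finrank ℚ K = n) {ε : ℝ} (hε : 0 < ε) (f : ℕ) (hf : f ≠ 0) :
    (f : ℝ) ^ n ≤ CDiv n ε * ((f : ℝ) ^ n) ^ ε * Nat.card (RR K f)ˣ := by
  have hI : (Ideal.span {(f : 𝓞 K)} : Ideal (𝓞 K)) ≠ ⊥ := by
    rw [Ne, Ideal.span_singleton_eq_bot]; exact_mod_cast hf
  have h1 := card_quot_le (Ideal.span {(f : 𝓞 K)}) hI
  have h2 := two_pow_le hε hI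
  have h3 : Nat.card (RR K f) = f ^ n := card_RR hn f
  have h4 : Ideal.absNorm (Ideal.span {(f : 𝓞 K)}) = f ^ n := by
    rw [absNorm_span_nat, hn]
  rw [h4, hn] at h2
  push_cast at h2
  have h5 : ((f ^ n : ℕ) : ℝ) ≤ (2 : ℝ) ^ (normalizedFactors (Ideal.span {(f : 𝓞 K)})).toFinset.card *
      Nat.card (RR K f)ˣ := by
    rw [← h3]; exact_mod_cast h1
  push_cast at h5
  calc (f : ℝ) ^ n ≤ _ := h5
    _ ≤ _ := mul_le_mul_of_nonneg_right h2 (by positivity)

end Crest.Agent.R014.Vol4_834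
end

-- ▼ part R014/Cnf1_652
section

/-!
Class number formula for the packet volume (row 14), helper652.

Part 1: the lattice of logarithms of units in the coordinates `log |σ_j e|`, `j < d`, has covolume
equal to the regulator, and every fundamental domain of a subgroup of it has volume at least the
regulator.
-/

namespace Crest.Agent.R014.Cnf_652

open Crest.NumberTheoryR.Packets Crest.Agent.R014.Sl_652 Module NumberField MeasureTheory
open NumberField.Units Pointwise

/-! ### Comparison of fundamental domains -/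

/-- The fundamental domain of a smaller group is larger. -/
theorem measure_le_of_le {E : Type*} [AddCommGroup E] [MeasurableSpace E] [MeasurableAdd E]
    (μ : Measure E) [μ.IsAddLeftInvariant] (Γ Γ' : AddSubgroup E) [Countable Γ] (hle : Γ' ≤ Γ)
    {F D : Set E} (hF : IsAddFundamentalDomain Γ F μ) (hD : IsAddFundamentalDomain Γ' D μ) :
    μ F ≤ μ D := by
  have : Countable Γ' := (AddSubgroup.inclusion_injective hle).countable
  rw [hD.measure_eq_tsum' F, hF.measure_eq_tsum D]
  have h1 : ∀ g : Γ', μ (F ∩ (g +ᵥ D)) = μ ((AddSubgroup.inclusion hle g +ᵥ D) ∩ F) := by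
    intro g
    rw [Set.inter_comm]
    rfl
  simp_rw [h1]
  exact ENNReal.tsum_comp_le_tsum_of_injective (AddSubgroup.inclusion_injective hle)
    (fun g : Γ => μ ((g +ᵥ D) ∩ F))

/-! ### Infinite places and real embeddings -/

variable {K : Type*} [Field K] [NumberField K] {n d : ℕ}

/-- The infinite place of a real embedding. -/
noncomputable def plc (φ : K →+* ℝ) : InfinitePlace K := InfinitePlace.mk (Complex.ofRealHom.comp φ)

omit [NumberField K] in
theorem plc_apply (φ : K →+* ℝ) (x : K) : plc φ x = |φ x| := by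
  rw [plc, InfinitePlace.apply]
  change ‖((φ x : ℝ) : ℂ)‖ = _
  rw [Complex.norm_real, Real.norm_eq_abs]

omit [NumberField K] in
theorem isReal_ofRealComp (φ : K →+* ℝ) : ComplexEmbedding.IsReal (Complex.ofRealHom.comp φ) := by
  ext x
  simp

omit [NumberField K] in
theorem plc_isReal (φ : K →+* ℝ) : (plc φ).IsReal := ⟨_, isReal_ofRealComp φ, rfl⟩

theorem plc_mult (φ : K →+* ℝ) : (plc φ).mult = 1 := by
  rw [InfinitePlace.mult, if_pos (plc_isReal φ)]

omit [NumberField K] in
theorem plc_injective : Function.Injective (plc (K := K)) := by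
  intro φ ψ h
  rw [plc, plc, InfinitePlace.mk_eq_iff] at h
  have h2 : Complex.ofRealHom.comp φ = Complex.ofRealHom.comp ψ := by
    rcases h with h | h
    · exact h
    · rwa [ComplexEmbedding.isReal_iff.mp (isReal_ofRealComp φ)] at h
  ext x
  have := DFunLike.congr_fun h2 x
  simpa using this

theorem plc_bijective (hn : finrank ℚ K = n) (σ : Fin n ≃ (K →+* ℝ)) :
    Function.Bijective (fun i => plc (σ i)) := by
  refine ⟨plc_injective.comp σ.injective, fun w => ?_⟩
  have h := (toAlgHom_bijective hn σ).2 w.embedding.toRatAlgHom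
  obtain ⟨i, hi⟩ := h
  refine ⟨i, ?_⟩
  have h2 : Complex.ofRealHom.comp (σ i) = w.embedding := by
    ext x
    exact DFunLike.congr_fun hi x
  change InfinitePlace.mk (Complex.ofRealHom.comp (σ i)) = w
  rw [h2, InfinitePlace.mk_embedding]

/-- Infinite places of a totally real field, numbered by `σ`. -/
noncomputable def plcEquiv (hn : finrank ℚ K = n) (σ : Fin n ≃ (K →+* ℝ)) :
    Fin n ≃ InfinitePlace K := Equiv.ofBijective _ (plc_bijective hn σ)

theorem plcEquiv_apply (hn : finrank ℚ K = n) (σ : Fin n ≃ (K →+* ℝ)) (i : Fin n) (x : K) :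
    plcEquiv hn σ i x = |σ i x| := plc_apply _ _

theorem rank_eq (hn : finrank ℚ K = d + 1) (σ : Fin (d + 1) ≃ (K →+* ℝ)) : rank K = d := by
  classical
  rw [rank, ← Fintype.card_congr (plcEquiv hn σ), Fintype.card_fin]
  rfl

/-! ### Logarithms of units -/

/-- The logarithmic vector of a unit, in the coordinates `j < d`. -/
noncomputable def logVec (σ : Fin (d + 1) ≃ (K →+* ℝ)) (e : (𝓞 K)ˣ) : Fin d → ℝ :=
  fun j => Real.log |σ j.castSucc (e : K)|

omit [NumberField K] in
theorem logVec_mul (σ : Fin (d + 1) ≃ (K →+* ℝ)) (e f : (𝓞 K)ˣ) :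
    logVec σ (e * f) = logVec σ e + logVec σ f := by
  ext j
  simp only [logVec, Pi.add_apply, Units.val_mul, map_mul, abs_mul]
  rw [Real.log_mul]
  · exact abs_ne_zero.mpr ((map_ne_zero _).mpr (by simp))
  · exact abs_ne_zero.mpr ((map_ne_zero _).mpr (by simp))

/-- The logarithm as a homomorphism. -/
noncomputable def logHom (σ : Fin (d + 1) ≃ (K →+* ℝ)) : Additive (𝓞 K)ˣ →+ (Fin d → ℝ) where
  toFun e := logVec σ e.toMul
  map_zero' := by
    ext j; simp [logVec]
  map_add' e f := logVec_mul σ _ _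

/-- The group of logarithms of units. -/
noncomputable def logUnits (σ : Fin (d + 1) ≃ (K →+* ℝ)) : AddSubgroup (Fin d → ℝ) :=
  (logHom σ).range

omit [NumberField K] in
theorem mem_logUnits {σ : Fin (d + 1) ≃ (K →+* ℝ)} {u : Fin d → ℝ} :
    u ∈ logUnits σ ↔ ∃ e : (𝓞 K)ˣ, logVec σ e = u := by
  constructor
  · rintro ⟨e, rfl⟩; exact ⟨e.toMul, rfl⟩
  · rintro ⟨e, rfl⟩; exact ⟨Additive.ofMul e, rfl⟩

theorem logVec_torsion (σ : Fin (d + 1) ≃ (K →+* ℝ)) {e : (𝓞 K)ˣ} (he : e ∈ torsion K) :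
    logVec σ e = 0 := by
  ext j
  have h := (mem_torsion K).mp he (plc (σ j.castSucc))
  rw [plc_apply] at h
  simp [logVec, h]

/-- The matrix of logarithms of a fundamental system. -/
noncomputable def logMat (hr : rank K = d) (σ : Fin (d + 1) ≃ (K →+* ℝ)) :
    Matrix (Fin d) (Fin d) ℝ :=
  Matrix.of fun i => logVec σ (fundSystem K (finCongr hr.symm i))

theorem abs_det_logMat (hn : finrank ℚ K = d + 1) (hr : rank K = d)
    (σ : Fin (d + 1) ≃ (K →+* ℝ)) : |(logMat hr σ).det| = regulator K := by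
  classical
  let w' : InfinitePlace K := plcEquiv hn σ (Fin.last d)
  let e0 : Fin d ≃ {w : InfinitePlace K // w ≠ w'} :=
    { toFun := fun j => ⟨plcEquiv hn σ j.castSucc, fun h => by
        have := (plcEquiv hn σ).injective h
        exact absurd this (Fin.castSucc_lt_last j).ne⟩
      invFun := fun w => ((plcEquiv hn σ).symm w.1).castPred (fun h => w.2 (by
        rw [Equiv.symm_apply_eq] at h
        exact h))
      left_inv := fun j => by simp
      right_inv := fun w => by
        apply Subtype.ext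
        simp }
  let e : {w : InfinitePlace K // w ≠ w'} ≃ Fin (rank K) := e0.symm.trans (finCongr hr.symm)
  rw [regulator_eq_det K w' e, ← Matrix.det_reindex_self e0.symm]
  congr 2
  ext i j
  have h1 : ((e0 j).1 : InfinitePlace K).mult = 1 := plc_mult _
  have h2 : (e0 j).1 = plcEquiv hn σ j.castSucc := rfl
  simp only [logMat, logVec, Matrix.of_apply, Matrix.reindex_apply, Matrix.submatrix_apply,
    Equiv.symm_symm, h1, Nat.cast_one, one_mul]
  rw [h2, plcEquiv_apply]
  congr 3
  simp [e]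

theorem logMat_linearIndependent (hn : finrank ℚ K = d + 1) (hr : rank K = d)
    (σ : Fin (d + 1) ≃ (K →+* ℝ)) :
    LinearIndependent ℝ (fun i => logVec σ (fundSystem K (finCongr hr.symm i))) := by
  have h : IsUnit (logMat hr σ) := by
    rw [Matrix.isUnit_iff_isUnit_det, isUnit_iff_ne_zero]
    intro h
    have := abs_det_logMat hn hr σ
    rw [h, abs_zero] at this
    exact regulator_ne_zero K this.symm
  exact Matrix.linearIndependent_rows_iff_isUnit.mpr h

/-- The basis of logarithms of a fundamental system. -/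
noncomputable def logBasis (hn : finrank ℚ K = d + 1) (hr : rank K = d)
    (σ : Fin (d + 1) ≃ (K →+* ℝ)) : Basis (Fin d) ℝ (Fin d → ℝ) :=
  Basis.mk (v := fun i => logVec σ (fundSystem K (finCongr hr.symm i)))
    (logMat_linearIndependent hn hr σ)
    ((logMat_linearIndependent hn hr σ).span_eq_top_of_card_eq_finrank' (by simp)).ge

theorem logBasis_apply (hn : finrank ℚ K = d + 1) (hr : rank K = d)
    (σ : Fin (d + 1) ≃ (K →+* ℝ)) (i : Fin d) :
    logBasis hn hr σ i = logVec σ (fundSystem K (finCongr hr.symm i)) := by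
  simp [logBasis]

theorem span_logBasis (hn : finrank ℚ K = d + 1) (hr : rank K = d)
    (σ : Fin (d + 1) ≃ (K →+* ℝ)) :
    (Submodule.span ℤ (Set.range (logBasis hn hr σ))).toAddSubgroup = logUnits σ := by
  apply le_antisymm
  · intro u hu
    change u ∈ Submodule.span ℤ (Set.range (logBasis hn hr σ)) at hu
    induction hu using Submodule.span_induction with
    | mem x hx =>
      obtain ⟨i, rfl⟩ := hx
      rw [logBasis_apply]
      exact mem_logUnits.mpr ⟨_, rfl⟩
    | zero => exact (logUnits σ).zero_mem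
    | add x y _ _ hx hy => exact (logUnits σ).add_mem hx hy
    | smul a x _ hx => exact (logUnits σ).zsmul_mem hx a
  · intro u hu
    obtain ⟨e, rfl⟩ := mem_logUnits.mp hu
    obtain ⟨⟨ζ, f⟩, hf, -⟩ := exist_unique_eq_mul_prod K e
    change logVec σ e ∈ Submodule.span ℤ (Set.range (logBasis hn hr σ))
    rw [hf, logVec_mul, logVec_torsion σ ζ.2, zero_add]
    have h1 : ∀ s : Finset (Fin (rank K)),
        logVec σ (∏ i ∈ s, fundSystem K i ^ f i) ∈
          Submodule.span ℤ (Set.range (logBasis hn hr σ)) := by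
      intro s
      classical
      induction s using Finset.induction_on with
      | empty =>
        have : logVec σ (1 : (𝓞 K)ˣ) = 0 := (logHom σ).map_zero
        rw [Finset.prod_empty, this]
        exact Submodule.zero_mem _
      | insert i s hi ih =>
        rw [Finset.prod_insert hi, logVec_mul]
        refine Submodule.add_mem _ ?_ ih
        have h2 : logVec σ (fundSystem K i ^ f i) = f i • logVec σ (fundSystem K i) :=
          (logHom σ).map_zsmul (f i) (Additive.ofMul (fundSystem K i))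
        rw [h2]
        refine Submodule.smul_mem _ _ (Submodule.subset_span ⟨finCongr hr i, ?_⟩)
        rw [logBasis_apply]
        simp
    exact h1 Finset.univ

/-- Every fundamental domain of a group of logarithms of units has volume at least the
regulator. -/
theorem regulator_le_volume (hn : finrank ℚ K = d + 1) (σ : Fin (d + 1) ≃ (K →+* ℝ))
    (Γ : AddSubgroup (Fin d → ℝ)) (hΓ : Γ ≤ logUnits σ) {D : Set (Fin d → ℝ)}
    (hD : IsAddFundamentalDomain Γ D volume) :
    ENNReal.ofReal (regulator K) ≤ volume D := by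
  have hr := rank_eq hn σ
  have h1 := ZSpan.isAddFundamentalDomain' (logBasis hn hr σ) (volume : Measure (Fin d → ℝ))
  have h2 : volume (ZSpan.fundamentalDomain (logBasis hn hr σ)) =
      ENNReal.ofReal (regulator K) := by
    rw [ZSpan.volume_fundamentalDomain, ← abs_det_logMat hn hr σ]
    congr 3
    ext i j
    rw [Matrix.of_apply, logBasis_apply]
    rfl
  rw [← h2]
  have hc : Countable (Submodule.span ℤ (Set.range (logBasis hn hr σ))).toAddSubgroup :=
    inferInstanceAs (Countable (Submodule.span ℤ (Set.range (logBasis hn hr σ))))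
  exact measure_le_of_le volume _ Γ (by rw [span_logBasis]; exact hΓ) h1 hD

end Crest.Agent.R014.Cnf_652
end

-- ▼ part R014/Cnf2_652
section

/-!
Class number formula for the packet volume (row 14), helper652.

Part 2: the packet of the maximal order has at least `classNumber K` orbits; its total volume is at
least `classNumber K * regulator K`.
-/

namespace Crest.Agent.R014.Cnf_652

open Crest.NumberTheoryR.Packets Crest.Agent.R014.Sl_652 Module NumberField MeasureTheory
open NumberField.Units Pointwise nonZeroDivisors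

variable {K : Type*} [Field K] [NumberField K] {n d : ℕ}

/-! ### Ideals as lattices -/

/-- An ideal of the ring of integers as a `ℤ`-submodule of `K`. -/
def idSub (I : Ideal (𝓞 K)) : Submodule ℤ K :=
  (I.restrictScalars ℤ).map ((Algebra.linearMap (𝓞 K) K).restrictScalars ℤ)

omit [NumberField K] in
theorem mem_idSub {I : Ideal (𝓞 K)} {x : K} :
    x ∈ idSub I ↔ ∃ y ∈ I, algebraMap (𝓞 K) K y = x := Iff.rfl

omit [NumberField K] in
theorem coe_mem_idSub {I : Ideal (𝓞 K)} {y : 𝓞 K} :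
    algebraMap (𝓞 K) K y ∈ idSub I ↔ y ∈ I := by
  constructor
  · intro h0
    obtain ⟨z, hz, h⟩ := mem_idSub.mp h0
    have : z = y := RingOfIntegers.coe_injective h
    rw [← this]; exact hz
  · intro h; exact ⟨y, h, rfl⟩

theorem idSub_fg (I : Ideal (𝓞 K)) : (idSub I).FG := by
  have h : IsNoetherian ℤ (𝓞 K) := inferInstance
  exact Submodule.FG.map _ (h.noetherian _)

theorem exists_mul_mem_idSub {I : Ideal (𝓞 K)} (hI : I ≠ ⊥) (x : K) :
    ∃ N : ℕ, N ≠ 0 ∧ (N : K) * x ∈ idSub I := by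
  obtain ⟨o, ho, -⟩ := maxBasis_exists (K := K) rfl
  obtain ⟨N, hN0, hN⟩ := exists_mul_mem o x
  have hint2 : IsIntegral ℤ ((N : K) * x) := (ho _).mp hN
  refine ⟨Ideal.absNorm I * N, mul_ne_zero ?_ hN0, ?_⟩
  · rwa [Ne, Ideal.absNorm_eq_zero_iff]
  · let z : 𝓞 K := ⟨(N : K) * x, hint2⟩
    refine ⟨(Ideal.absNorm I : 𝓞 K) * z, ?_, ?_⟩
    · exact I.mul_mem_right _ (Ideal.absNorm_mem I)
    · change ((Ideal.absNorm I : 𝓞 K) : K) * ((N : K) * x) = _
      push_cast
      ring

theorem exists_idBasis (hn : finrank ℚ K = n) {I : Ideal (𝓞 K)} (hI : I ≠ ⊥) :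
    ∃ m : LatticeBasis n K, m.lattice = idSub I :=
  exists_latticeBasis hn _ (idSub_fg I) (exists_mul_mem_idSub hI)

/-! ### Local principality -/

/-- Every nonzero ideal is, up to a nonzero element, equal to the unit ideal at a given prime. -/
theorem exists_local_generator {I : Ideal (𝓞 K)} (hI : I ≠ ⊥) {ℓ : ℕ} (hℓ : ℓ.Prime) :
    ∃ c : 𝓞 K, c ≠ 0 ∧ c ∈ I ∧ ∃ N : ℕ, ¬ ℓ ∣ N ∧ ∀ x ∈ I, ∃ y : 𝓞 K, (N : 𝓞 K) * x = c * y := by
  have hℓ0 : (ℓ : 𝓞 K) ≠ 0 := by exact_mod_cast hℓ.ne_zero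
  have hle : Ideal.span {(ℓ : 𝓞 K)} * I ≤ I := Ideal.mul_le_right
  have hne : Ideal.span {(ℓ : 𝓞 K)} * I ≠ 0 := by
    rw [Ne, Ideal.zero_eq_bot, Ideal.mul_eq_bot, not_or, Ideal.span_singleton_eq_bot]
    exact ⟨hℓ0, hI⟩
  obtain ⟨a, ha⟩ := IsDedekindDomain.exists_sup_span_eq hle hne
  have haI : a ∈ I := by
    rw [← ha]
    exact Ideal.mem_sup_right (Ideal.mem_span_singleton_self a)
  obtain ⟨b, hb⟩ := Ideal.dvd_iff_le.mpr ((Ideal.span_singleton_le_iff_mem (I := I)).mpr haI)
  -- `b` is coprime to `ℓ`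
  have hcop : Ideal.span {(ℓ : 𝓞 K)} ⊔ b = ⊤ := by
    rw [hb, mul_comm (Ideal.span _) I, ← Ideal.mul_sup] at ha
    have h1 : I * (Ideal.span {(ℓ : 𝓞 K)} ⊔ b) = I * ⊤ := by rw [ha, Ideal.mul_top]
    exact mul_left_cancel₀ (by rwa [Ideal.zero_eq_bot]) h1
  have hb0 : b ≠ ⊥ := by
    rintro rfl
    rw [sup_bot_eq, Ideal.span_singleton_eq_top] at hcop
    obtain ⟨z, hz⟩ := hcop.exists_right_inv
    have hzK : (ℓ : K) * algebraMap (𝓞 K) K z = 1 := by
      have := congrArg (algebraMap (𝓞 K) K) hz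
      simpa using this
    have hℓK : (ℓ : K) ≠ 0 := by exact_mod_cast hℓ.ne_zero
    have hz2 : algebraMap (𝓞 K) K z = algebraMap ℚ K (1 / (ℓ : ℚ)) := by
      rw [eq_comm, map_div₀, map_one, map_natCast, div_eq_iff hℓK, ← hzK, mul_comm]
    have hint : IsIntegral ℤ (algebraMap ℚ K (1 / (ℓ : ℚ))) := by
      rw [← hz2]; exact z.2
    have hint' : IsIntegral ℤ (1 / (ℓ : ℚ)) :=
      (isIntegral_algebraMap_iff (algebraMap ℚ K).injective).mp hint
    obtain ⟨k, hk⟩ := IsIntegrallyClosed.isIntegral_iff.mp hint'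
    have hℓQ : (ℓ : ℚ) ≠ 0 := by exact_mod_cast hℓ.ne_zero
    rw [eq_div_iff hℓQ] at hk
    have hk2 : k * (ℓ : ℤ) = 1 := by
      have : ((k * (ℓ : ℤ) : ℤ) : ℚ) = ((1 : ℤ) : ℚ) := by push_cast; simpa using hk
      exact_mod_cast this
    have hk3 : IsUnit (ℓ : ℤ) := IsUnit.of_mul_eq_one_right k hk2
    rw [Int.isUnit_iff_natAbs_eq] at hk3
    simp at hk3
    exact hℓ.one_lt.ne' hk3
  have ha0 : a ≠ 0 := by
    rintro rfl
    rw [Ideal.span_singleton_eq_bot.mpr rfl, eq_comm, Ideal.mul_eq_bot] at hb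
    rcases hb with h | h
    · exact hI h
    · exact hb0 h
  -- an integer of `b` prime to `ℓ`
  set N0 := Ideal.absNorm b with hN0
  have hN00 : N0 ≠ 0 := by rwa [hN0, Ne, Ideal.absNorm_eq_zero_iff]
  obtain ⟨k, N1, hN1, hN⟩ := Nat.exists_eq_pow_mul_and_not_dvd hN00 ℓ hℓ.ne_one
  have hcopk : IsCoprime (Ideal.span {(ℓ : 𝓞 K)} ^ k) b :=
    IsCoprime.pow_left (Ideal.isCoprime_iff_sup_eq.mpr hcop)
  have hN1b : (N1 : 𝓞 K) ∈ b := by
    rw [Ideal.isCoprime_iff_sup_eq] at hcopk
    have h1 : (1 : 𝓞 K) ∈ Ideal.span {(ℓ : 𝓞 K)} ^ k ⊔ b := by rw [hcopk]; trivial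
    obtain ⟨u, hu, v, hv, huv⟩ := Submodule.mem_sup.mp h1
    rw [Ideal.span_singleton_pow, Ideal.mem_span_singleton] at hu
    obtain ⟨z, hz⟩ := hu
    have h2 : (N1 : 𝓞 K) = (N0 : 𝓞 K) * z + v * N1 := by
      have h3 : (N0 : 𝓞 K) = (ℓ : 𝓞 K) ^ k * N1 := by rw [hN]; push_cast; rfl
      rw [h3]
      calc (N1 : 𝓞 K) = (u + v) * N1 := by rw [huv, one_mul]
        _ = _ := by rw [hz]; ring
    rw [h2]
    exact b.add_mem (b.mul_mem_right _ (Ideal.absNorm_mem b)) (b.mul_mem_right _ hv)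
  refine ⟨a, ha0, haI, N1, hN1, fun x hx => ?_⟩
  have h1 : (N1 : 𝓞 K) * x ∈ I * b := by
    rw [mul_comm (N1 : 𝓞 K) x]
    exact Ideal.mul_mem_mul hx hN1b
  rw [← hb, Ideal.mem_span_singleton] at h1
  exact h1

/-- Every ideal lattice is locally homothetic to the maximal order. -/
theorem locallyHomothetic_ideal {mO m : LatticeBasis n K} (hO : mO.IsMaximalOrder)
    {I : Ideal (𝓞 K)} (hI : I ≠ ⊥) (hm : m.lattice = idSub I) : LocallyHomothetic mO m := by
  intro ℓ hℓ
  obtain ⟨c, hc0, hcI, N, hN, h⟩ := exists_local_generator hI hℓ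
  have hcK : algebraMap (𝓞 K) K c ≠ 0 := RingOfIntegers.coe_ne_zero_iff.mpr hc0
  refine ⟨algebraMap (𝓞 K) K c, hcK, N, hN, ?_, ?_⟩
  · intro x hx
    rw [hm] at hx
    obtain ⟨y, hy, rfl⟩ := mem_idSub.mp hx
    obtain ⟨z, hz⟩ := h y hy
    refine ⟨algebraMap (𝓞 K) K z, (hO _).mpr z.2, ?_⟩
    rw [← map_mul, ← hz, map_mul, map_natCast]
  · intro x hx
    rw [hm]
    let y : 𝓞 K := ⟨x, (hO x).mp hx⟩
    have hy : algebraMap (𝓞 K) K y = x := rfl
    refine mem_idSub.mpr ⟨(N : 𝓞 K) * (c * y), I.mul_mem_left _ (I.mul_mem_right _ hcI), ?_⟩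
    rw [map_mul, map_mul, map_natCast, hy]

/-! ### Distinct classes give distinct orbits -/

theorem mk0_eq_of_cM {I J : (Ideal (𝓞 K))⁰} {c : K} (hc : c ≠ 0)
    (h : Pk2_349.cM c (idSub (I : Ideal (𝓞 K))) = idSub (J : Ideal (𝓞 K))) :
    ClassGroup.mk0 I = ClassGroup.mk0 J := by
  obtain ⟨a, b, hb, hab⟩ := IsFractionRing.div_surjective (A := 𝓞 K) c
  have hb0 : b ≠ 0 := nonZeroDivisors.ne_zero hb
  have hbK : algebraMap (𝓞 K) K b ≠ 0 := RingOfIntegers.coe_ne_zero_iff.mpr hb0
  have hc' : c * algebraMap (𝓞 K) K b = algebraMap (𝓞 K) K a := by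
    rw [← hab]
    exact div_mul_cancel₀ _ hbK
  have ha0 : a ≠ 0 := by
    rintro rfl
    rw [map_zero] at hc'
    exact mul_ne_zero hc hbK hc'
  rw [ClassGroup.mk0_eq_mk0_iff]
  refine ⟨a, b, ha0, hb0, ?_⟩
  ext x
  rw [Ideal.mem_span_singleton_mul, Ideal.mem_span_singleton_mul]
  constructor
  · rintro ⟨z, hz, rfl⟩
    have h1 : c * algebraMap (𝓞 K) K z ∈ Pk2_349.cM c (idSub (I : Ideal (𝓞 K))) :=
      Pk2_349.mem_cM.mpr ⟨_, coe_mem_idSub.mpr hz, rfl⟩
    rw [h] at h1
    obtain ⟨y, hy, hyz⟩ := mem_idSub.mp h1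
    refine ⟨y, hy, RingOfIntegers.coe_injective ?_⟩
    rw [map_mul, map_mul, hyz, ← hc']
    ring
  · rintro ⟨z, hz, rfl⟩
    have h1 : algebraMap (𝓞 K) K z ∈ idSub (J : Ideal (𝓞 K)) := coe_mem_idSub.mpr hz
    rw [← h] at h1
    obtain ⟨w, hw, hyz⟩ := Pk2_349.mem_cM.mp h1
    obtain ⟨y, hy, rfl⟩ := mem_idSub.mp hw
    refine ⟨y, hy, RingOfIntegers.coe_injective ?_⟩
    rw [map_mul, map_mul, ← hyz, ← hc']
    ring

theorem isSignMatrix_one (n : ℕ) : IsSignMatrix (1 : SLR n) := by
  refine ⟨fun i j hij => ?_, fun i => Or.inl ?_⟩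
  · exact Matrix.one_apply_ne hij
  · exact Matrix.one_apply_eq i

/-- The orbits of the packet of the maximal order: an injection of the class group. -/
theorem exists_injection {mO : LatticeBasis (d + 1) K} (hO : mO.IsMaximalOrder)
    (σ : Fin (d + 1) ≃ (K →+* ℝ)) :
    ∃ f : ClassGroup (𝓞 K) → Set (ModSpace (d + 1)), Function.Injective f ∧
      ∀ C, f C ∈ packetOrbits mO σ := by
  have hn := finrank_eq mO
  choose I hI using ClassGroup.mk0_surjective (R := 𝓞 K)
  have hI0 : ∀ C, (I C : Ideal (𝓞 K)) ≠ ⊥ := fun C => nonZeroDivisors.coe_ne_zero _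
  choose m hm using fun C => exists_idBasis hn (hI0 C)
  refine ⟨fun C => Set.range (orbitMap (act (latticePoint (m C) σ) 1)), ?_, fun C => ?_⟩
  · intro C C' h
    have hw := isSignMatrix_one (d + 1)
    have h1 : act (latticePoint (m C') σ) 1 ∈
        Set.range (orbitMap (act (latticePoint (m C) σ) 1)) := by
      change Set.range (orbitMap (act (latticePoint (m C) σ) 1)) =
        Set.range (orbitMap (act (latticePoint (m C') σ) 1)) at h
      rw [h]
      exact ⟨0, BoxV_71.orbitMap_zero _⟩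
    obtain ⟨c, hc, hpos⟩ := (Pk2_349.mem_orbit_iff (Pk2_349.twist_ne_zero (m C) σ hw)
      (Pk2_349.twist_ne_zero (m C') σ hw) (Pk2_349.lat_act_latticePoint (m C) σ hw)
      (Pk2_349.lat_act_latticePoint (m C') σ hw)).mp h1
    have hc0 : c ≠ 0 := by
      rintro rfl
      have := hpos 0
      simp at this
    rw [hm, hm] at hc
    rw [← hI C, ← hI C']
    exact mk0_eq_of_cM hc0 hc
  · exact ⟨m C, locallyHomothetic_ideal hO (hI0 C) (hm C), 1, isSignMatrix_one _, rfl⟩

/-! ### Volume -/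

theorem periods_le_logUnits {mO : LatticeBasis (d + 1) K}
    (σ : Fin (d + 1) ≃ (K →+* ℝ)) {x : ModSpace (d + 1)}
    (hx : Set.range (orbitMap x) ∈ packetOrbits mO σ) : periods x ≤ logUnits σ := by
  obtain ⟨m', hm', w, hw, h⟩ := hx
  have h1 : x ∈ Set.range (orbitMap (act (latticePoint m' σ) w)) := by
    rw [← h]; exact ⟨0, BoxV_71.orbitMap_zero _⟩
  obtain ⟨v, hv⟩ := h1
  intro u hu
  have h2 : u ∈ periods (act (latticePoint m' σ) w) := by
    have h3 : orbitMap x u = x := hu
    rw [← hv, BoxV_71.orbitMap_add, BoxV_71.orbitMap_eq_iff] at h3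
    simpa using h3
  obtain ⟨e, he1, he2, hpos, hlog⟩ := (Pk2_349.mem_periods_twist m' σ hw).mp h2
  have he0 : e ≠ 0 := by
    rintro rfl
    have := hpos 0
    simp at this
  obtain ⟨a, ha⟩ : ∃ a : 𝓞 K, algebraMap (𝓞 K) K a = e := ⟨⟨e, order_isIntegral he1⟩, rfl⟩
  obtain ⟨b, hb⟩ : ∃ b : 𝓞 K, algebraMap (𝓞 K) K b = e⁻¹ := ⟨⟨e⁻¹, order_isIntegral he2⟩, rfl⟩
  have hab : a * b = 1 := by
    apply RingOfIntegers.coe_injective
    rw [map_mul, ha, hb, map_one, mul_inv_cancel₀ he0]
  let e' : (𝓞 K)ˣ := Units.mkOfMulEqOne a b hab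
  refine mem_logUnits.mpr ⟨e', ?_⟩
  ext j
  rw [hlog j]
  change Real.log |σ j.castSucc (algebraMap (𝓞 K) K a)| = _
  rw [ha, abs_of_pos (hpos _)]

/-- **Volume of the packet of the maximal order**: at least class number times regulator. -/
theorem classNumber_mul_regulator_le {mO : LatticeBasis (d + 1) K} (hO : mO.IsMaximalOrder)
    (σ : Fin (d + 1) ≃ (K →+* ℝ)) {k : ℕ} (x : Fin k → ModSpace (d + 1))
    (D : Fin k → Set (Fin d → ℝ))
    (hall : ∀ O, O ∈ packetOrbits mO σ ↔ ∃ i, O = Set.range (orbitMap (x i)))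
    (hD : ∀ i, IsAddFundamentalDomain (periods (x i)) (D i) volume) :
    ENNReal.ofReal (classNumber K * regulator K) ≤ ∑ i, volume (D i) := by
  obtain ⟨f, hf, hfm⟩ := exists_injection hO σ
  choose g hg using fun C => (hall _).mp (hfm C)
  have hgi : Function.Injective g := by
    intro C C' h
    apply hf
    rw [hg C, hg C', h]
  have hk : classNumber K ≤ k := by
    have := Fintype.card_le_of_injective g hgi
    rwa [Fintype.card_fin] at this
  have h1 : ∀ i, ENNReal.ofReal (regulator K) ≤ volume (D i) := fun i =>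
    regulator_le_volume (finrank_eq mO) σ _
      (periods_le_logUnits σ ((hall _).mpr ⟨i, rfl⟩)) (hD i)
  calc ENNReal.ofReal (classNumber K * regulator K)
      ≤ ENNReal.ofReal (k * regulator K) := by
        refine ENNReal.ofReal_le_ofReal ?_
        have := regulator_pos K
        gcongr
    _ = ∑ _i : Fin k, ENNReal.ofReal (regulator K) := by
        rw [Finset.sum_const, Finset.card_univ, Fintype.card_fin, nsmul_eq_mul,
          ENNReal.ofReal_mul (by positivity), ENNReal.ofReal_natCast]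
    _ ≤ _ := Finset.sum_le_sum fun i _ => h1 i

/-! ### The residue of the zeta function -/

theorem nrComplexPlaces_eq_zero (hn : finrank ℚ K = n) (σ : Fin n ≃ (K →+* ℝ)) :
    InfinitePlace.nrRealPlaces K = n ∧ InfinitePlace.nrComplexPlaces K = 0 := by
  have h1 := InfinitePlace.card_add_two_mul_card_eq_rank K
  have h2 := InfinitePlace.card_eq_nrRealPlaces_add_nrComplexPlaces K
  have h3 := Fintype.card_congr (plcEquiv hn σ)
  rw [Fintype.card_fin] at h3
  omega

/-- `h R ≥ 2^{-n} κ √|D|`. -/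
theorem residue_le (hn : finrank ℚ K = n) (σ : Fin n ≃ (K →+* ℝ)) :
    dedekindZeta_residue K * Real.sqrt |(discr K : ℝ)| / 2 ^ n ≤ classNumber K * regulator K := by
  obtain ⟨h1, h2⟩ := nrComplexPlaces_eq_zero hn σ
  have h3 : (0 : ℝ) < Real.sqrt |(discr K : ℝ)| :=
    Real.sqrt_pos_of_pos (abs_pos.mpr (Int.cast_ne_zero.mpr (discr_ne_zero K)))
  have h4 : (1 : ℝ) ≤ torsionOrder K := by
    exact_mod_cast torsionOrder_pos K
  rw [dedekindZeta_residue_def, h1, h2, pow_zero, mul_one]
  have h7 := regulator_pos K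
  have h8 : (0 : ℝ) ≤ classNumber K := Nat.cast_nonneg _
  have e : 2 ^ n * regulator K * (classNumber K : ℝ) / (torsionOrder K * Real.sqrt |(discr K : ℝ)|) *
      Real.sqrt |(discr K : ℝ)| / 2 ^ n = (classNumber K * regulator K) / torsionOrder K := by
    field_simp
  rw [e]
  exact div_le_self (mul_nonneg h8 h7.le) h4

/-- **Volume of the packet of the maximal order** and the residue of the zeta function. -/
theorem residue_mul_sqrt_le {mO : LatticeBasis (d + 1) K} (hO : mO.IsMaximalOrder)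
    (σ : Fin (d + 1) ≃ (K →+* ℝ)) {k : ℕ} (x : Fin k → ModSpace (d + 1))
    (D : Fin k → Set (Fin d → ℝ))
    (hall : ∀ O, O ∈ packetOrbits mO σ ↔ ∃ i, O = Set.range (orbitMap (x i)))
    (hD : ∀ i, IsAddFundamentalDomain (periods (x i)) (D i) volume) :
    ENNReal.ofReal (dedekindZeta_residue K * Real.sqrt |(discr K : ℝ)| / 2 ^ (d + 1)) ≤
      ∑ i, volume (D i) :=
  (ENNReal.ofReal_le_ofReal (residue_le (finrank_eq mO) σ)).trans
    (classNumber_mul_regulator_le hO σ x D hall hD)

/-- The multiplier order of the maximal order is the maximal order. -/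
theorem mem_multiplierOrder_max {mO : LatticeBasis n K} (hO : mO.IsMaximalOrder) {x : K} :
    x ∈ multiplierOrder mO ↔ IsIntegral ℤ x := by
  constructor
  · exact order_isIntegral
  · intro hx y hy
    rw [hO] at hy ⊢
    exact hx.mul hy

/-- The lattice discriminant of the maximal order. -/
theorem latticeDisc_max {mO : LatticeBasis n K} (hO : mO.IsMaximalOrder) :
    latticeDisc mO = |(discr K : ℝ)| := by
  have h : multiplierOrder mO = (integralClosure ℤ K).toSubring.toAddSubgroup := by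
    ext x
    exact mem_multiplierOrder_max hO
  rw [latticeDisc, h, AddSubgroup.relIndex_self]
  simp

end Crest.Agent.R014.Cnf_652
end

-- ▼ part R014/Vol5_834
section

/-!
Volume of the packet of an arbitrary lattice (row 14), part 5 (helper834).

Comparison of the packet of `M` with the packet of the maximal order.
-/

set_option autoImplicit false
set_option linter.unusedSectionVars false
set_option linter.unusedVariables false

open MeasureTheory Matrix Module NumberField
open scoped ENNReal Pointwise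
open Crest.NumberTheoryR.Packets

namespace Crest.Agent.R014.Vol5_834

open Crest.Agent.R014.Pk1_349 Crest.Agent.R014.Pk2_349 Crest.Agent.R014.Pk3_349
open Crest.Agent.R014.Pk4_349 Crest.Agent.R014.Pk5_349
open Crest.Agent.R014.Vol2_834 Crest.Agent.R014.Vol3_834 Crest.Agent.R014.Vol4_834

universe u

variable {d : ℕ} {K : Type u} [Field K] [NumberField K]

/-- Index of the period lattices and volumes of the fundamental domains. -/
theorem volume_fd_index {m mO : LatticeBasis (d + 1) K} {σ : Fin (d + 1) ≃ (K →+* ℝ)}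
    (hle : perLat m σ ≤ perLat mO σ) :
    (perLat m σ).relIndex (perLat mO σ) ≠ 0 ∧
      volume (fd m σ) = ((perLat m σ).relIndex (perLat mO σ) : ℝ≥0∞) * volume (fd mO σ) := by
  classical
  set b1 := (exists_basis_perLat m σ).choose with hb1
  have h1 : perLat m σ = (Submodule.span ℤ (Set.range b1)).toAddSubgroup :=
    (exists_basis_perLat m σ).choose_spec
  set b2 := (exists_basis_perLat mO σ).choose with hb2
  have h2 : perLat mO σ = (Submodule.span ℤ (Set.range b2)).toAddSubgroup :=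
    (exists_basis_perLat mO σ).choose_spec
  have hf1 : fd m σ = ZSpan.fundamentalDomain b1 := rfl
  have hf2 : fd mO σ = ZSpan.fundamentalDomain b2 := rfl
  have hle' : Submodule.span ℤ (Set.range b1) ≤ Submodule.span ℤ (Set.range b2) := by
    intro x hx
    have : x ∈ perLat m σ := by rw [h1]; exact hx
    have := hle this
    rw [h2] at this
    exact this
  have hr := ZLattice.covolume_div_covolume_eq_relIndex
    (Submodule.span ℤ (Set.range b1)) (Submodule.span ℤ (Set.range b2)) hle'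
  rw [← h1, ← h2] at hr
  have hc1 : ZLattice.covolume (Submodule.span ℤ (Set.range b1)) = volume.real (fd m σ) := by
    rw [hf1]
    exact ZLattice.covolume_eq_measure_fundamentalDomain _ _ (ZSpan.isAddFundamentalDomain b1 volume)
  have hc2 : ZLattice.covolume (Submodule.span ℤ (Set.range b2)) = volume.real (fd mO σ) := by
    rw [hf2]
    exact ZLattice.covolume_eq_measure_fundamentalDomain _ _ (ZSpan.isAddFundamentalDomain b2 volume)
  rw [hc1, hc2] at hr
  have hp1 : 0 < volume.real (fd m σ) :=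
    ENNReal.toReal_pos (volume_fd_ne_zero m σ) (volume_fd_ne_top m σ)
  have hp2 : 0 < volume.real (fd mO σ) :=
    ENNReal.toReal_pos (volume_fd_ne_zero mO σ) (volume_fd_ne_top mO σ)
  have hr' : volume.real (fd m σ) =
      ((perLat m σ).relIndex (perLat mO σ) : ℝ) * volume.real (fd mO σ) := by
    rw [← hr]; field_simp
  refine ⟨?_, ?_⟩
  · intro h0
    rw [h0, Nat.cast_zero, zero_mul] at hr'
    exact hp1.ne' hr'
  · rw [← ENNReal.toReal_eq_toReal_iff' (volume_fd_ne_top m σ)
      (ENNReal.mul_ne_top (ENNReal.natCast_ne_top _) (volume_fd_ne_top mO σ)),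
      ENNReal.toReal_mul, ENNReal.toReal_natCast]
    exact hr'

theorem ne_zero_of_pos {σ : Fin (d + 1) ≃ (K →+* ℝ)} {c : K} (hc : ∀ j, 0 < σ j c) : c ≠ 0 := by
  intro h
  have := hc 0
  rw [h, map_zero] at this
  exact lt_irrefl _ this

theorem cM_of_iff {c : K} {M M' : Submodule ℤ K} (h : ∀ x, x ∈ M' ↔ ∃ y ∈ M, x = c * y) :
    cM c M = M' := by
  ext x
  rw [h x, mem_cM]
  exact ⟨fun ⟨y, hy, e⟩ => ⟨y, hy, e.symm⟩, fun ⟨y, hy, e⟩ => ⟨y, hy, e.symm⟩⟩

/-- A totally positive unit of the multiplier order is `aVec` of its logarithms, which form a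
period. -/
theorem log_mem_perLat {m : LatticeBasis (d + 1) K} {σ : Fin (d + 1) ≃ (K →+* ℝ)} {c : K}
    (hc : ∀ j, 0 < σ j c) (h : cM c m.lattice = m.lattice) :
    (fun i : Fin d => Real.log (σ i.castSucc c)) ∈ perLat m σ ∧
      ∀ j, σ j c = aVec (fun i : Fin d => Real.log (σ i.castSucc c)) j := by
  have h1 : ∏ j, σ j c = 1 := by
    have := abs_prod_unit (σ := σ) h
    rwa [abs_of_pos (Finset.prod_pos fun j _ => hc j)] at this
  have h2 := eq_aVec (t := fun j => σ j c) hc h1
  have h3 : ∀ j, σ j c = aVec (fun i : Fin d => Real.log (σ i.castSucc c)) j := fun j =>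
    congrFun h2 j
  exact ⟨mem_perLat'.mpr ⟨c, h, h3⟩, h3⟩

theorem aVec_sub (u v : Fin d → ℝ) (j : Fin (d + 1)) : aVec (u - v) j = aVec u j / aVec v j := by
  have h := congrFun (aVec_add (u - v) v) j
  rw [sub_add_cancel, Pi.mul_apply] at h
  rw [h, mul_div_assoc, div_self (aVec_pos v j).ne', mul_one]

/-- The key counting step. -/
theorem card_mul_le {m mO : LatticeBasis (d + 1) K} (hO : mO.IsMaximalOrder)
    (σ : Fin (d + 1) ≃ (K →+* ℝ)) (hle : perLat m σ ≤ perLat mO σ) :
    (packetOrbits mO σ).ncard * (Nat.card (RR K (fIdx m))ˣ * fIdx m) ≤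
      (perLat m σ).relIndex (perLat mO σ) * (packetOrbits m σ).ncard * (fIdx m) ^ (d + 1) := by
  classical
  have hf := fIdx_ne_zero m σ
  set r := (perLat m σ).relIndex (perLat mO σ) with hr
  obtain ⟨hr0, -⟩ := volume_fd_index hle
  rw [← hr] at hr0
  have hfinO := finite_packetOrbits mO σ
  have hfinm := finite_packetOrbits m σ
  -- representatives of the orbits over the maximal order
  have hrep : ∀ O : {O // O ∈ hfinO.toFinset}, ∃ m' : LatticeBasis (d + 1) K,
      LocallyHomothetic mO m' ∧ O.1 = Set.range (orbitMap (latticePoint m' σ)) := by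
    rintro ⟨O, hOm⟩
    rw [Set.Finite.mem_toFinset, packetOrbits_eq] at hOm
    exact hOm
  choose mm hmm hOr using hrep
  -- the lattice of `mm O` is stable under `𝓞 K`
  have hstab : ∀ O, ∀ a : 𝓞 K, ∀ x ∈ (mm O).lattice, (a : K) * x ∈ (mm O).lattice := by
    intro O a x hx
    have h1 : (a : K) ∈ multiplierOrder (mm O) := by
      rw [← mult_eq_of_lh (hmm O), Cnf_652.mem_multiplierOrder_max hO]
      exact RingOfIntegers.isIntegral_coe a
    exact h1 x hx
  let I : {O // O ∈ hfinO.toFinset} → Submodule (𝓞 K) K := fun O => spanO (mm O).lattice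
  have hImem : ∀ O x, x ∈ I O ↔ x ∈ (mm O).lattice := by
    intro O x
    constructor
    · intro hx
      have hx' : x ∈ Submodule.span (𝓞 K) ((mm O).lattice : Set K) := hx
      clear hx
      induction hx' using Submodule.span_induction with
      | mem y hy => exact hy
      | zero => exact zero_mem _
      | add a b _ _ ha hb => exact add_mem ha hb
      | smul a x _ hx => rw [Algebra.smul_def]; exact hstab O a x hx
    · intro hx; exact Submodule.subset_span hx
  have hex := fun O => exists_fibre m hf (I O) (spanO_fg (Sl_652.lattice_fg (mm O)))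
    (spanO_ne_bot (mm O))
  choose S hS hScard using hex
  -- lattice bases of the members
  have hlb : ∀ O, ∀ N ∈ S O, ∃ m' : LatticeBasis (d + 1) K, m'.lattice = N := by
    intro O N hN
    obtain ⟨h1, h2⟩ := hS O N hN
    have hle1 : N ≤ (mm O).lattice := fun x hx => (hImem O x).mp (h2.le x hx)
    refine Sl_652.exists_latticeBasis (Sl_652.finrank_eq m) N ?_ ?_
    · have hnoeth : IsNoetherian ℤ (mm O).lattice := by
        have : Module.Finite ℤ (mm O).lattice := Module.Finite.iff_fg.mpr (Sl_652.lattice_fg _)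
        infer_instance
      have h3 : IsNoetherian ℤ N := isNoetherian_of_le hle1
      exact (Submodule.fg_top _).mp (h3.noetherian ⊤)
    · intro x
      obtain ⟨k, hk, hkx⟩ := Sl_652.exists_mul_mem (mm O) x
      refine ⟨fIdx m * k, mul_ne_zero hf hk, ?_⟩
      have := h2.ge _ ((hImem O _).mpr hkx)
      push_cast
      rwa [mul_assoc]
  -- the total set
  let T : Finset (Σ _ : {O // O ∈ hfinO.toFinset}, Submodule ℤ K) :=
    (Finset.univ : Finset {O // O ∈ hfinO.toFinset}).sigma S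
  have hTmem : ∀ p ∈ T, p.2 ∈ S p.1 := fun p hp => (Finset.mem_sigma.mp hp).2
  have hne : Nonempty (LatticeBasis (d + 1) K) := ⟨m⟩
  choose! lb hlb' using hlb
  let g : (Σ _ : {O // O ∈ hfinO.toFinset}, Submodule ℤ K) → Set (ModSpace (d + 1)) := fun p =>
    Set.range (orbitMap (latticePoint (lb p.1 p.2) σ))
  have hlbLH : ∀ p ∈ T, LocallyHomothetic m (lb p.1 p.2) := by
    intro p hp
    rw [locHom_iff, hlb' p.1 p.2 (hTmem p hp)]
    exact (hS p.1 p.2 (hTmem p hp)).1
  have hg : ∀ p ∈ T, g p ∈ hfinm.toFinset := by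
    intro p hp
    rw [Set.Finite.mem_toFinset, packetOrbits_eq]
    exact ⟨_, hlbLH p hp, rfl⟩
  -- fibres of g
  have hfib : ∀ O' ∈ hfinm.toFinset, (T.filter fun p => g p = O').card ≤ r := by
    intro O' _
    by_cases hne : (T.filter fun p => g p = O').Nonempty
    · obtain ⟨p0, hp0⟩ := hne
      obtain ⟨hp0T, hp0g⟩ := Finset.mem_filter.mp hp0
      -- every element of the fibre is `(O, c N₀)`
      have hkey : ∀ p ∈ T.filter (fun p => g p = O'), ∃ c : K, (∀ j, 0 < σ j c) ∧
          p.1 = p0.1 ∧ p.2 = cM c p0.2 ∧ cM c (mm p0.1).lattice = (mm p0.1).lattice := by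
        intro p hp
        obtain ⟨hpT, hpg⟩ := Finset.mem_filter.mp hp
        have h1 : g p0 = g p := by rw [hp0g, hpg]
        obtain ⟨c, hc, hcx⟩ := (range_eq_iff (lb p0.1 p0.2) (lb p.1 p.2) σ).mp h1
        have h2 : cM c p0.2 = p.2 := by
          have := cM_of_iff hcx
          rwa [hlb' p0.1 p0.2 (hTmem p0 hp0T), hlb' p.1 p.2 (hTmem p hpT)] at this
        have hc0 := ne_zero_of_pos hc
        -- c I₀ = I
        have h3 : cM c (mm p0.1).lattice = (mm p.1).lattice := by
          have hov0 := (hS p0.1 p0.2 (hTmem p0 hp0T)).2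
          have hov := (hS p.1 p.2 (hTmem p hpT)).2
          apply le_antisymm
          · intro z hz
            obtain ⟨y, hy0, rfl⟩ := mem_cM.mp hz
            have hy := (hImem p0.1 y).mpr hy0
            refine (hImem p.1 _).mp ?_
            rw [← hov0.span] at hy
            clear hz hy0
            induction hy using Submodule.span_induction with
            | mem y hy =>
              apply hov.le
              rw [← h2]
              exact mem_cM.mpr ⟨y, hy, rfl⟩
            | zero => rw [mul_zero]; exact zero_mem _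
            | add a b _ _ ha hb => rw [mul_add]; exact add_mem ha hb
            | smul a x _ hx => rw [mul_smul_comm]; exact Submodule.smul_mem _ _ hx
          · intro y hy0
            rw [mem_cM' hc0]
            have hy := (hImem p.1 y).mpr hy0
            refine (hImem p0.1 _).mp ?_
            rw [← hov.span] at hy
            clear hy0
            induction hy using Submodule.span_induction with
            | mem y hy =>
              apply hov0.le
              have hy' : y ∈ p.2 := hy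
              rw [← h2, mem_cM' hc0] at hy'
              exact hy'
            | zero => rw [mul_zero]; exact zero_mem _
            | add a b _ _ ha hb => rw [mul_add]; exact add_mem ha hb
            | smul a x _ hx => rw [mul_smul_comm]; exact Submodule.smul_mem _ _ hx
        have h4 : p0.1 = p.1 := by
          apply Subtype.ext
          rw [hOr p0.1, hOr p.1, range_eq_iff]
          refine ⟨c, hc, fun x => ?_⟩
          rw [← h3, mem_cM]
          exact ⟨fun ⟨y, hy, e⟩ => ⟨y, hy, e.symm⟩, fun ⟨y, hy, e⟩ => ⟨y, hy, e.symm⟩⟩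
        exact ⟨c, hc, h4.symm, h2.symm, by rw [h3, h4]⟩
      choose! c hc hc1 hc2 hc3 using hkey
      -- the map to the quotient
      have hper : perLat (mm p0.1) σ = perLat mO σ := perLat_eq_of_lh σ (hmm p0.1)
      let u : (Σ _ : {O // O ∈ hfinO.toFinset}, Submodule ℤ K) → (Fin d → ℝ) := fun p i =>
        Real.log (σ i.castSucc (c p))
      have hu : ∀ p ∈ T.filter (fun p => g p = O'), u p ∈ perLat mO σ ∧
          ∀ j, σ j (c p) = aVec (u p) j := by
        intro p hp
        have := log_mem_perLat (hc p hp) (hc3 p hp)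
        rw [hper] at this
        exact this
      let φ : {p // p ∈ T.filter (fun p => g p = O')} →
          (perLat mO σ ⧸ (perLat m σ).addSubgroupOf (perLat mO σ)) := fun p =>
        QuotientAddGroup.mk ⟨u p.1, (hu p.1 p.2).1⟩
      have hφ : Function.Injective φ := by
        rintro ⟨p, hp⟩ ⟨p', hp'⟩ h
        have h1 : (⟨u p, (hu p hp).1⟩ : perLat mO σ) - ⟨u p', (hu p' hp').1⟩ ∈
            (perLat m σ).addSubgroupOf (perLat mO σ) := by
          have h' := QuotientAddGroup.eq.mp h.symm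
          have e : (⟨u p, (hu p hp).1⟩ : perLat mO σ) - ⟨u p', (hu p' hp').1⟩ =
              -⟨u p', (hu p' hp').1⟩ + ⟨u p, (hu p hp).1⟩ := by abel
          rw [e]; exact h'
        rw [AddSubgroup.mem_addSubgroupOf] at h1
        have h2 : u p - u p' ∈ perLat m σ := h1
        obtain ⟨e, he, he'⟩ := mem_perLat'.mp h2
        have h3 : σ 0 e = σ 0 (c p / c p') := by
          rw [he' 0, aVec_sub, map_div₀, (hu p hp).2 0, (hu p' hp').2 0]
        have h4 : e = c p / c p' := (σ 0).injective h3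
        have hcp' : c p' ≠ 0 := ne_zero_of_pos (hc p' hp')
        have he0 : e ≠ 0 := by
          rw [h4]; exact div_ne_zero (ne_zero_of_pos (hc p hp)) hcp'
        have h5 : c p = c p' * e := by rw [h4]; field_simp
        -- e N₀ = N₀
        have h6 : cM e p0.2 = p0.2 := by
          have h7 := (cM_eq_iff (m := m) he0).mp he
          rw [mult_eq_of_lh (hlbLH p0 hp0T)] at h7
          have h8 := (cM_eq_iff (m := lb p0.1 p0.2) he0).mpr h7
          rwa [hlb' p0.1 p0.2 (hTmem p0 hp0T)] at h8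
        have h9 : p.2 = p'.2 := by
          rw [hc2 p hp, hc2 p' hp', h5, ← cM_cM, h6]
        have h10 : p.1 = p'.1 := by rw [hc1 p hp, hc1 p' hp']
        apply Subtype.ext
        exact Sigma.ext h10 (heq_of_eq h9)
      have hfinq : Finite (perLat mO σ ⧸ (perLat m σ).addSubgroupOf (perLat mO σ)) := by
        have : Nat.card (perLat mO σ ⧸ (perLat m σ).addSubgroupOf (perLat mO σ)) ≠ 0 := hr0
        exact Nat.finite_of_card_ne_zero this
      have h11 := Nat.card_le_card_of_injective φ hφ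
      rw [Nat.card_eq_fintype_card, Fintype.card_coe] at h11
      exact h11
    · rw [Finset.not_nonempty_iff_eq_empty] at hne
      rw [hne, Finset.card_empty]
      exact Nat.zero_le _
  have hT : T.card ≤ r * hfinm.toFinset.card := Finset.card_le_mul_card_image_of_maps_to hg r hfib
  have hTc : T.card = ∑ O, (S O).card := Finset.card_sigma _ _
  have hsum : (packetOrbits mO σ).ncard * (Nat.card (RR K (fIdx m))ˣ * fIdx m) ≤
      T.card * (fIdx m) ^ (d + 1) := by
    rw [hTc, Finset.sum_mul, Set.ncard_eq_toFinset_card _ hfinO]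
    calc hfinO.toFinset.card * (Nat.card (RR K (fIdx m))ˣ * fIdx m)
        = ∑ _O : {O // O ∈ hfinO.toFinset}, (Nat.card (RR K (fIdx m))ˣ * fIdx m) := by
          rw [Finset.sum_const, Finset.card_univ, Fintype.card_coe, smul_eq_mul]
      _ ≤ _ := Finset.sum_le_sum fun O _ => hScard O
  rw [Set.ncard_eq_toFinset_card _ hfinm]
  exact hsum.trans (Nat.mul_le_mul_right _ hT)

/-- The comparison of volumes. -/
theorem packVol_le {m mO : LatticeBasis (d + 1) K} (hO : mO.IsMaximalOrder)
    (σ : Fin (d + 1) ≃ (K →+* ℝ)) :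
    ((Nat.card (RR K (fIdx m))ˣ * fIdx m : ℕ) : ℝ≥0∞) * packVol mO σ ≤
      ((fIdx m : ℝ≥0∞) ^ (d + 1)) * packVol m σ := by
  have hle : perLat m σ ≤ perLat mO σ := by
    intro u hu
    obtain ⟨e, he1, he2, he3, he4⟩ := mem_perLat.mp hu
    refine mem_perLat.mpr ⟨e, ?_, ?_, he3, he4⟩
    · rw [Cnf_652.mem_multiplierOrder_max hO]; exact Sl_652.order_isIntegral he1
    · rw [Cnf_652.mem_multiplierOrder_max hO]; exact Sl_652.order_isIntegral he2
  obtain ⟨hr0, hv⟩ := volume_fd_index hle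
  have h := card_mul_le hO σ hle
  unfold packVol
  rw [hv]
  have h' : (((packetOrbits mO σ).ncard * (Nat.card (RR K (fIdx m))ˣ * fIdx m) : ℕ) : ℝ≥0∞) ≤
      (((perLat m σ).relIndex (perLat mO σ) * (packetOrbits m σ).ncard *
        (fIdx m) ^ (d + 1) : ℕ) : ℝ≥0∞) := by exact_mod_cast h
  calc ((Nat.card (RR K (fIdx m))ˣ * fIdx m : ℕ) : ℝ≥0∞) *
        (((packetOrbits mO σ).ncard : ℝ≥0∞) * volume (fd mO σ))
      = (((packetOrbits mO σ).ncard * (Nat.card (RR K (fIdx m))ˣ * fIdx m) : ℕ) : ℝ≥0∞) *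
        volume (fd mO σ) := by push_cast; ring
    _ ≤ (((perLat m σ).relIndex (perLat mO σ) * (packetOrbits m σ).ncard *
        (fIdx m) ^ (d + 1) : ℕ) : ℝ≥0∞) * volume (fd mO σ) := by gcongr
    _ = _ := by push_cast; ring

end Crest.Agent.R014.Vol5_834
end

-- ▼ part R014/Vol6_834

/-!
Volume of the packet of an arbitrary lattice (row 14), part 6 (helper834).

The final lower bounds: `packVol m σ ≥ c f^(1-ε) κ_K √|disc K|` and, with a lower bound of the
residue, `packVol m σ ≥ c (latticeDisc m)^(1/2-ε)`.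
-/

set_option autoImplicit false
set_option linter.unusedSectionVars false
set_option linter.unusedVariables false

open MeasureTheory Matrix Module NumberField
open scoped ENNReal Pointwise
open Crest.NumberTheoryR.Packets

namespace Crest.Agent.R014.Vol6_834

open Crest.Agent.R014.Pk1_349 Crest.Agent.R014.Pk2_349 Crest.Agent.R014.Pk3_349
open Crest.Agent.R014.Pk4_349 Crest.Agent.R014.Pk5_349
open Crest.Agent.R014.Vol2_834 Crest.Agent.R014.Vol3_834 Crest.Agent.R014.Vol4_834
open Crest.Agent.R014.Vol5_834 Crest.Agent.R014.DivB_684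

universe u

/-- Volume of the packet of the maximal order. -/
theorem packVol_max {d : ℕ} {K : Type u} [Field K] [NumberField K]
    {mO : LatticeBasis (d + 1) K} (hO : mO.IsMaximalOrder) (σ : Fin (d + 1) ≃ (K →+* ℝ)) :
    ENNReal.ofReal (dedekindZeta_residue K * Real.sqrt |(discr K : ℝ)| / 2 ^ (d + 1)) ≤
      packVol mO σ := by
  obtain ⟨k, x, D, hinj, hall, hD, -⟩ := isPacketMeasure_packMeas mO σ
  rw [← sum_volume_eq hinj hall (fun i => (hD i).1)]
  exact Cnf_652.residue_mul_sqrt_le hO σ x D hall (fun i => (hD i).1)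

/-- The constant of `packVol_ge`. -/
noncomputable def vc (d : ℕ) (ε : ℝ) : ℝ := (CDiv (d + 1) (ε / (d + 1)))⁻¹ / 2 ^ (d + 1)

theorem CDiv_pos (n : ℕ) {ε : ℝ} (hε : 0 < ε) : 0 < CDiv n ε :=
  lt_of_lt_of_le one_pos (one_le_CDiv n hε)

theorem vc_pos (d : ℕ) {ε : ℝ} (hε : 0 < ε) : 0 < vc d ε := by
  unfold vc
  have := CDiv_pos (d + 1) (ε := ε / (d + 1)) (by positivity)
  positivity

/-- **Volume of the packet of an arbitrary lattice** and the residue of the zeta function. -/
theorem packVol_ge {d : ℕ} {K : Type u} [Field K] [NumberField K] (m : LatticeBasis (d + 1) K)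
    (σ : Fin (d + 1) ≃ (K →+* ℝ)) {ε : ℝ} (hε : 0 < ε) :
    ENNReal.ofReal (vc d ε * (fIdx m : ℝ) ^ (1 - ε) *
      (dedekindZeta_residue K * Real.sqrt |(discr K : ℝ)|)) ≤ packVol m σ := by
  have hn : finrank ℚ K = d + 1 := Sl_652.finrank_eq m
  have hO := maxBasis_isMaximalOrder hn
  have h1 := packVol_le (m := m) hO σ
  have h2 := packVol_max hO σ
  have hδ : 0 < ε / ((d : ℝ) + 1) := by positivity
  have h3 := card_units_ge hn hδ (fIdx m) (fIdx_ne_zero m σ)
  have hf0 : (0 : ℝ) < fIdx m := by exact_mod_cast Nat.pos_of_ne_zero (fIdx_ne_zero m σ)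
  set f : ℝ := (fIdx m : ℝ) with hf
  set U : ℕ := Nat.card (RR K (fIdx m))ˣ with hU
  have hC := CDiv_pos (d + 1) hδ
  set C := CDiv (d + 1) (ε / ((d : ℝ) + 1)) with hCd
  set v : ℝ := dedekindZeta_residue K * Real.sqrt |(discr K : ℝ)| with hv
  have hv0 : 0 ≤ v := mul_nonneg (dedekindZeta_residue_pos K).le (Real.sqrt_nonneg _)
  -- real versions
  have hVt := packVol_ne_top m σ
  have hVOt := packVol_ne_top (maxBasis hn) σ
  have h1' : (U : ℝ) * f * (packVol (maxBasis hn) σ).toReal ≤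
      f ^ (d + 1) * (packVol m σ).toReal := by
    have := ENNReal.toReal_mono (ENNReal.mul_ne_top (ENNReal.pow_ne_top (ENNReal.natCast_ne_top _))
      hVt) h1
    rw [ENNReal.toReal_mul, ENNReal.toReal_mul, ENNReal.toReal_pow, ENNReal.toReal_natCast,
      ENNReal.toReal_natCast] at this
    push_cast at this
    exact this
  have h2' : v / 2 ^ (d + 1) ≤ (packVol (maxBasis hn) σ).toReal :=
    (ENNReal.ofReal_le_iff_le_toReal hVOt).mp h2
  rw [ENNReal.ofReal_le_iff_le_toReal hVt]
  have hpow : (f ^ (d + 1)) ^ (ε / ((d : ℝ) + 1)) = f ^ ε := by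
    rw [← Real.rpow_natCast f (d + 1), ← Real.rpow_mul hf0.le]
    congr 1
    push_cast
    field_simp
  rw [hpow] at h3
  have hfe : 0 < f ^ ε := Real.rpow_pos_of_pos hf0 _
  have hsplit : f ^ (1 - ε) = f / f ^ ε := by
    rw [Real.rpow_sub hf0, Real.rpow_one]
  have hfn : 0 < f ^ (d + 1) := by positivity
  have hkey : f ^ (d + 1) * (C⁻¹ / 2 ^ (d + 1) * f ^ (1 - ε) * v) ≤
      f ^ (d + 1) * (packVol m σ).toReal := by
    calc f ^ (d + 1) * (C⁻¹ / 2 ^ (d + 1) * f ^ (1 - ε) * v)
        = f ^ (d + 1) * (C⁻¹ * (f / f ^ ε) * (v / 2 ^ (d + 1))) := by rw [hsplit]; ring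
      _ ≤ (C * f ^ ε * U) * (C⁻¹ * (f / f ^ ε) * (v / 2 ^ (d + 1))) := by
          gcongr
      _ = (U : ℝ) * f * (v / 2 ^ (d + 1)) := by field_simp
      _ ≤ (U : ℝ) * f * (packVol (maxBasis hn) σ).toReal := by gcongr
      _ ≤ _ := h1'
  have := le_of_mul_le_mul_left hkey hfn
  exact this

/-- With a lower bound of the residue. -/
theorem packVol_ge_disc {d : ℕ} {K : Type u} [Field K] [NumberField K]
    (m : LatticeBasis (d + 1) K) (σ : Fin (d + 1) ≃ (K →+* ℝ)) {ε c0 : ℝ} (hε : 0 < ε)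
    (hc0 : 0 ≤ c0) (hκ : c0 * |(discr K : ℝ)| ^ (-ε) ≤ dedekindZeta_residue K) :
    ENNReal.ofReal (c0 * vc d ε * latticeDisc m ^ (1 / 2 - ε)) ≤ packVol m σ := by
  refine le_trans (ENNReal.ofReal_le_ofReal ?_) (packVol_ge m σ hε)
  have hvc := vc_pos d hε
  have hf1 : (1 : ℝ) ≤ fIdx m := by
    exact_mod_cast Nat.one_le_iff_ne_zero.mpr (fIdx_ne_zero m σ)
  have hD0 : 0 < |(discr K : ℝ)| := abs_pos.mpr (Int.cast_ne_zero.mpr (discr_ne_zero K))
  rw [latticeDisc_eq]
  set f : ℝ := (fIdx m : ℝ)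
  set D : ℝ := |(discr K : ℝ)|
  have hf0 : 0 < f := lt_of_lt_of_le one_pos hf1
  rw [Real.mul_rpow hD0.le (by positivity)]
  have h1 : (f ^ 2) ^ (1 / 2 - ε) = f ^ (1 - 2 * ε) := by
    rw [← Real.rpow_natCast f 2, ← Real.rpow_mul hf0.le]
    congr 1
    push_cast
    ring
  have h2 : f ^ (1 - 2 * ε) ≤ f ^ (1 - ε) := Real.rpow_le_rpow_of_exponent_le hf1 (by linarith)
  have h3 : D ^ (1 / 2 - ε) = D ^ (-ε) * Real.sqrt D := by
    rw [Real.sqrt_eq_rpow, ← Real.rpow_add hD0]
    congr 1
    ring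
  rw [h1, h3]
  calc c0 * vc d ε * (D ^ (-ε) * Real.sqrt D * f ^ (1 - 2 * ε))
      = vc d ε * f ^ (1 - 2 * ε) * ((c0 * D ^ (-ε)) * Real.sqrt D) := by ring
    _ ≤ vc d ε * f ^ (1 - ε) * (dedekindZeta_residue K * Real.sqrt D) := by
        gcongr

/-- The conclusion of part N1: no Siegel zero for primitive totally real fields of degree `n`. -/
def ResLower (n : ℕ) : Prop :=
  ∀ ε : ℝ, 0 < ε → ∃ c : ℝ, 0 < c ∧ ∀ (K : Type u) [Field K] [NumberField K]
    [NumberField.IsTotallyReal K], finrank ℚ K = n → IsPrimitiveField K →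
      c * |(discr K : ℝ)| ^ (-ε) ≤ dedekindZeta_residue K

/-- **N2-VOL**. -/
theorem packVol_ge_latticeDisc {d : ℕ} (hN1 : ResLower.{u} (d + 1)) {ε : ℝ} (hε : 0 < ε) :
    ∃ c : ℝ, 0 < c ∧ ∀ (K : Type u) [Field K] [NumberField K] [NumberField.IsTotallyReal K],
      IsPrimitiveField K → ∀ (m : LatticeBasis (d + 1) K) (σ : Fin (d + 1) ≃ (K →+* ℝ)),
        ENNReal.ofReal (c * latticeDisc m ^ (1 / 2 - ε)) ≤ packVol m σ := by
  obtain ⟨c, hc, h⟩ := hN1 ε hε
  refine ⟨c * vc d ε, mul_pos hc (vc_pos d hε), fun K _ _ _ hK m σ => ?_⟩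
  exact packVol_ge_disc m σ hε hc.le (h K (Sl_652.finrank_eq m) hK)

end Crest.Agent.R014.Vol6_834
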