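import Crest.Agent.R014.N2ThmA_675
import Crest.Agent.R014.Loc5_524
import Crest.Agent.R014.Loc8_524
import Mathlib
import Crest.Agent.R014.Ic6_550_Mg
import Crest.Agent.R014.Cnt5_726
import Crest.Agent.R014.Ic2_550
import Crest.Agent.R014.N1M_479
import Crest.Agent.R014.Vol6_834

-- ▼ part R014/N2Br_675
section

/-!
Row 14, part N2 (helper675): Theorem A from the residue bound (N1) and the bad sum.
-/

set_option autoImplicit false

open Crest.NumberTheoryR.Packets

namespace Crest.Agent.R014.N2_675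

universe u

theorem bridge (n : ℕ) : Bridge.{u} n := fun _ _ _ _ _ h h1 => Loc5_524.isTy_fPart h h1

theorem thmA {d : ℕ} (hN1 : Vol6_834.ResLower.{u} (d + 1)) (hbad : BadSum.{u} (d + 1)) :
    Iface_792.ThmA.{u} d := thmA_of hN1 hbad (bridge _)

end Crest.Agent.R014.N2_675
end

-- ▼ part R014/N2Bad_675
section

/-!
Row 14, part N2 (helper675): Theorem A from the residue bound (N1) only.
-/

set_option autoImplicit false

open Crest.NumberTheoryR.Packets

namespace Crest.Agent.R014.N2_675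

universe u

theorem badSum {n : ℕ} (hn : 2 ≤ n) : BadSum.{u} n := by
  refine ⟨Loc8_524.dl n, Loc8_524.et n, Loc8_524.Cbad n, Loc8_524.dl_pos hn, Loc8_524.et_pos hn,
    lt_of_lt_of_le (by norm_num) (Loc8_524.Cbad_ge hn), ?_⟩
  intro K _ _ _ hprim m σ B hB
  exact Loc8_524.bad_sum_le hprim hn m σ B hB

/-- **Theorem A** from the lower bound of the residue. -/
theorem thmA' {d : ℕ} (hd : 1 ≤ d) (hN1 : Vol6_834.ResLower.{u} (d + 1)) :
    Iface_792.ThmA.{u} d := thmA hN1 (badSum (by omega))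

end Crest.Agent.R014.N2_675
end

-- ▼ part R014/Cnt2_726
section

/-!
# Volume of the simplex and of the sets `{h | h_i ≤ c_i, ∑ h_i ≥ c}`
-/

namespace Crest.Agent.R014.Cnt2_726

open MeasureTheory
open scoped ENNReal

/-- the Riesz weight as a function of the logarithm -/
noncomputable def wt (r : ℕ) (Y : ℝ) : ℝ := if 0 ≤ Y then Y ^ r / (r.factorial : ℝ) else 0

theorem wt_nonneg (r : ℕ) (Y : ℝ) : 0 ≤ wt r Y := by
  unfold wt
  split_ifs with h
  · positivity
  · exact le_rfl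

theorem wt_of_nonneg (r : ℕ) {Y : ℝ} (h : 0 ≤ Y) : wt r Y = Y ^ r / (r.factorial : ℝ) := if_pos h

theorem wt_of_neg (r : ℕ) {Y : ℝ} (h : Y < 0) : wt r Y = 0 := if_neg (not_le.2 h)

theorem wt_mono (r : ℕ) {Y Y' : ℝ} (h : Y ≤ Y') : wt r Y ≤ wt r Y' := by
  rcases lt_or_ge Y 0 with h0 | h0
  · rw [wt_of_neg r h0]; exact wt_nonneg _ _
  · rw [wt_of_nonneg r h0, wt_of_nonneg r (h0.trans h)]
    gcongr

/-- the simplex -/
def spx (ι : Type*) [Fintype ι] (Y : ℝ) : Set (ι → ℝ) := {u | (∀ i, 0 ≤ u i) ∧ ∑ i, u i ≤ Y}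

theorem measurableSet_spx (ι : Type*) [Fintype ι] (Y : ℝ) : MeasurableSet (spx ι Y) := by
  refine MeasurableSet.inter ?_ ?_
  · have : {u : ι → ℝ | ∀ i, 0 ≤ u i} = ⋂ i, {u : ι → ℝ | 0 ≤ u i} := by ext; simp
    change MeasurableSet {u : ι → ℝ | ∀ i, 0 ≤ u i}
    rw [this]
    exact MeasurableSet.iInter fun i => measurableSet_le measurable_const (measurable_pi_apply i)
  · change MeasurableSet {u : ι → ℝ | ∑ i, u i ≤ Y}
    exact measurableSet_le (by fun_prop) measurable_const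

theorem spx_eq_empty {ι : Type*} [Fintype ι] {Y : ℝ} (h : Y < 0) : spx ι Y = ∅ := by
  ext u
  simp only [spx, Set.mem_ofPred_eq, Set.mem_empty_iff_false, iff_false, not_and, not_le]
  intro h0
  exact h.trans_le (Finset.sum_nonneg fun i _ => h0 i)

theorem volume_spx_fin (n : ℕ) : ∀ Y : ℝ, volume (spx (Fin n) Y) = ENNReal.ofReal (wt n Y) := by
  induction n with
  | zero =>
    intro Y
    rcases lt_or_ge Y 0 with h | h
    · rw [spx_eq_empty h, wt_of_neg 0 h]; simp
    · have : spx (Fin 0) Y = Set.univ := by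
        ext u; simp [spx, h]
      rw [this, wt_of_nonneg 0 h]
      simp [volume_pi]
  | succ n ih =>
    intro Y
    rcases lt_or_ge Y 0 with h | h
    · rw [spx_eq_empty h, wt_of_neg _ h]; simp
    have hmp := volume_preserving_piFinSuccAbove (fun _ : Fin (n + 1) => ℝ) 0
    have hset : spx (Fin (n + 1)) Y = (MeasurableEquiv.piFinSuccAbove (fun _ => ℝ) 0) ⁻¹'
        {p : ℝ × (Fin n → ℝ) | 0 ≤ p.1 ∧ p.2 ∈ spx (Fin n) (Y - p.1)} := by
      ext u
      simp only [spx, Set.mem_ofPred_eq, Set.mem_preimage, MeasurableEquiv.piFinSuccAbove_apply,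
        Fin.insertNthEquiv_zero, Fin.consEquiv_symm_apply, Fin.forall_fin_succ, Fin.sum_univ_succ,
        Fin.tail]
      constructor
      · rintro ⟨⟨h0, h1⟩, h2⟩
        exact ⟨h0, h1, by linarith⟩
      · rintro ⟨h0, h1, h2⟩
        exact ⟨⟨h0, h1⟩, by linarith⟩
    have hmeas : MeasurableSet {p : ℝ × (Fin n → ℝ) | 0 ≤ p.1 ∧ p.2 ∈ spx (Fin n) (Y - p.1)} := by
      refine (measurableSet_le measurable_const measurable_fst).inter ?_
      refine MeasurableSet.inter ?_ ?_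
      · have : {p : ℝ × (Fin n → ℝ) | ∀ i, 0 ≤ p.2 i} = ⋂ i, {p | 0 ≤ p.2 i} := by ext; simp
        change MeasurableSet {p : ℝ × (Fin n → ℝ) | ∀ i, 0 ≤ p.2 i}
        rw [this]
        exact MeasurableSet.iInter fun i => measurableSet_le measurable_const (by fun_prop)
      · change MeasurableSet {p : ℝ × (Fin n → ℝ) | ∑ i, p.2 i ≤ Y - p.1}
        exact measurableSet_le (by fun_prop) (by fun_prop)
    rw [hset, hmp.measure_preimage_equiv]
    change (volume.prod volume) _ = _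
    rw [Measure.prod_apply hmeas]
    have h1 : ∀ s : ℝ, volume (Prod.mk s ⁻¹' {p : ℝ × (Fin n → ℝ) |
        0 ≤ p.1 ∧ p.2 ∈ spx (Fin n) (Y - p.1)}) =
        (Set.Icc 0 Y).indicator (fun s => ENNReal.ofReal ((Y - s) ^ n / (n.factorial : ℝ))) s := by
      intro s
      by_cases hs : 0 ≤ s
      · have : Prod.mk s ⁻¹' {p : ℝ × (Fin n → ℝ) | 0 ≤ p.1 ∧ p.2 ∈ spx (Fin n) (Y - p.1)} =
            spx (Fin n) (Y - s) := by
          ext u; simp [hs]
        rw [this, ih]
        by_cases hs' : s ≤ Y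
        · rw [Set.indicator_of_mem (Set.mem_Icc.2 ⟨hs, hs'⟩), wt_of_nonneg n (by linarith)]
        · rw [Set.indicator_of_notMem (fun hh => hs' hh.2), wt_of_neg n (by linarith)]
          simp
      · have : Prod.mk s ⁻¹' {p : ℝ × (Fin n → ℝ) | 0 ≤ p.1 ∧ p.2 ∈ spx (Fin n) (Y - p.1)} = ∅ := by
          ext u; simp [hs]
        rw [this, Set.indicator_of_notMem (fun hh => hs hh.1)]
        simp
    simp_rw [h1]
    rw [lintegral_indicator measurableSet_Icc, ← ofReal_integral_eq_lintegral_ofReal]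
    · rw [wt_of_nonneg _ h, integral_Icc_eq_integral_Ioc, ← intervalIntegral.integral_of_le h,
        intervalIntegral.integral_comp_sub_left (fun s => s ^ n / (n.factorial : ℝ)) Y,
        intervalIntegral.integral_div, integral_pow]
      congr 1
      rw [Nat.factorial_succ]
      push_cast
      have h2 : (n.factorial : ℝ) ≠ 0 := by positivity
      have h3 : (n : ℝ) + 1 ≠ 0 := by positivity
      field_simp
      simp
    · refine Continuous.integrableOn_Icc ?_
      fun_prop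
    · rw [Filter.EventuallyLE, ae_restrict_iff' measurableSet_Icc]
      refine Filter.Eventually.of_forall fun s hs => ?_
      have : 0 ≤ Y - s := by linarith [hs.2]
      change (0 : ℝ) ≤ _
      positivity

theorem volume_spx {ι : Type*} [Fintype ι] (Y : ℝ) :
    volume (spx ι Y) = ENNReal.ofReal (wt (Fintype.card ι) Y) := by
  classical
  let e := (Fintype.equivFin ι).symm
  have hmp := volume_measurePreserving_piCongrLeft (fun _ : ι => ℝ) e
  rw [← volume_spx_fin, ← hmp.measure_preimage_equiv]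
  congr 1
  ext u
  have hu : ∀ i, (MeasurableEquiv.piCongrLeft (fun _ : ι => ℝ) e) u i = u (e.symm i) := by
    intro i
    obtain ⟨j, rfl⟩ := e.surjective i
    simp [MeasurableEquiv.piCongrLeft]
  simp only [spx, Set.mem_ofPred_eq, Set.mem_preimage, hu]
  have h1 : (∀ i : ι, 0 ≤ u (e.symm i)) ↔ ∀ j, 0 ≤ u j :=
    ⟨fun h j => by simpa using h (e j), fun h i => h _⟩
  rw [h1, Equiv.sum_comp e.symm]

/-- `{h | h_i ≤ a_i, b ≤ ∑ h_i}` -/
theorem volume_cut {ι : Type*} [Fintype ι] (a : ι → ℝ) (b : ℝ) :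
    volume {h : ι → ℝ | (∀ i, h i ≤ a i) ∧ b ≤ ∑ i, h i} =
      ENNReal.ofReal (wt (Fintype.card ι) (∑ i, a i - b)) := by
  rw [← volume_spx (ι := ι)]
  have hmp : MeasurePreserving (fun h : ι → ℝ => a - h) volume volume :=
    Measure.measurePreserving_sub_left volume a
  rw [← hmp.measure_preimage (measurableSet_spx ι _).nullMeasurableSet]
  congr 1
  ext h
  simp only [spx, Set.mem_ofPred_eq, Set.mem_preimage, Pi.sub_apply, sub_nonneg,
    Finset.sum_sub_distrib]
  constructor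
  · rintro ⟨h1, h2⟩; exact ⟨h1, by linarith⟩
  · rintro ⟨h1, h2⟩; exact ⟨h1, by linarith⟩

theorem measurableSet_cut {ι : Type*} [Fintype ι] (a : ι → ℝ) (b : ℝ) :
    MeasurableSet {h : ι → ℝ | (∀ i, h i ≤ a i) ∧ b ≤ ∑ i, h i} := by
  refine MeasurableSet.inter ?_ ?_
  · have : {u : ι → ℝ | ∀ i, u i ≤ a i} = ⋂ i, {u : ι → ℝ | u i ≤ a i} := by ext; simp
    change MeasurableSet {u : ι → ℝ | ∀ i, u i ≤ a i}
    rw [this]
    exact MeasurableSet.iInter fun i => measurableSet_le (measurable_pi_apply i) measurable_const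
  · change MeasurableSet {u : ι → ℝ | b ≤ ∑ i, u i}
    exact measurableSet_le measurable_const (by fun_prop)

end Crest.Agent.R014.Cnt2_726
end

-- ▼ part R014/Cnt3_726
section

/-!
# Unfolding: average over the unit torus of weighted box counts = Riesz mean over an ideal class
-/

namespace Crest.Agent.R014.Cnt3_726

open MeasureTheory NumberField NumberField.Units NumberField.Units.dirichletUnitTheorem
open NumberField.InfinitePlace Module
open scoped ENNReal nonZeroDivisors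
open scoped Classical
open Crest.Agent.R014.Cnt2_726

section Group

theorem tsum_comp_eq_card_mul {G H : Type*} [AddCommGroup G] [AddCommGroup H] (f : G →+ H)
    (hf : Function.Surjective f) [Finite f.ker] (φ : H → ℝ≥0∞) :
    ∑' g, φ (f g) = (Nat.card f.ker : ℝ≥0∞) * ∑' h, φ h := by
  let s := Function.surjInv hf
  have hs : ∀ h, f (s h) = h := Function.surjInv_eq hf
  let e : H × f.ker ≃ G :=
    { toFun := fun p => s p.1 + p.2
      invFun := fun g => (f g, ⟨g - s (f g), by rw [AddMonoidHom.mem_ker, map_sub, hs, sub_self]⟩)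
      left_inv := by
        rintro ⟨h, k, hk⟩
        have : f k = 0 := hk
        simp [map_add, hs, this]
      right_inv := by
        intro g
        simp }
  have : Fintype f.ker := Fintype.ofFinite _
  rw [← e.tsum_eq]
  have h1 : ∀ p : H × f.ker, φ (f (e p)) = (fun (h : H) (_ : f.ker) => φ h) p.1 p.2 := by
    rintro ⟨h, k, hk⟩
    have : f k = 0 := hk
    simp [e, map_add, hs, this]
  rw [tsum_congr h1, ENNReal.tsum_prod (f := fun (h : H) (_ : f.ker) => φ h),
    ← ENNReal.tsum_mul_left]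
  refine tsum_congr fun h => ?_
  rw [tsum_fintype, Finset.sum_const, Finset.card_univ, Nat.card_eq_fintype_card, nsmul_eq_mul]

end Group

variable (K : Type*) [Field K] [NumberField K]

/-- the logarithm of the weight at all places -/
noncomputable def lw (h : logSpace K) (w : InfinitePlace K) : ℝ :=
  if hw : w = w₀ then - ∑ i, h i else h ⟨w, hw⟩

variable {K}

theorem lw_w0 (h : logSpace K) : lw K h w₀ = - ∑ i, h i := by simp [lw]

theorem lw_ne (h : logSpace K) {w : InfinitePlace K} (hw : w ≠ w₀) : lw K h w = h ⟨w, hw⟩ := by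
  simp [lw, hw]

theorem sum_lw (h : logSpace K) : ∑ w, lw K h w = 0 := by
  rw [Fintype.sum_eq_add_sum_subtype_ne _ (w₀ : InfinitePlace K), lw_w0]
  have : ∀ i : {w : InfinitePlace K // w ≠ w₀}, lw K h i = h i := fun i => lw_ne h i.2
  simp [this]

/-- the weight `t_w(h)`, with `∏ t_w ^ mult w = 1` -/
noncomputable def tw (h : logSpace K) (w : InfinitePlace K) : ℝ := Real.exp (lw K h w / mult w)

theorem tw_pos (h : logSpace K) (w : InfinitePlace K) : 0 < tw h w := Real.exp_pos _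

theorem prod_tw (h : logSpace K) : ∏ w, tw h w ^ (mult w) = 1 := by
  have : ∀ w : InfinitePlace K, tw h w ^ (mult w) = Real.exp (lw K h w) := by
    intro w
    rw [tw, ← Real.exp_nat_mul]
    congr 1
    have : (mult w : ℝ) ≠ 0 := mult_coe_ne_zero
    field_simp
  simp_rw [this]
  rw [← Real.exp_sum, sum_lw, Real.exp_zero]

/-- the set of `h` such that `x` times the weight is in the box of side `X` -/
def sA (X : ℝ) (x : K) : Set (logSpace K) := {h | ∀ w : InfinitePlace K, w x * tw h w ≤ X}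

theorem mem_sA_iff {X : ℝ} (hX : 0 < X) {x : K} (hx : x ≠ 0) (h : logSpace K) :
    h ∈ sA X x ↔ ∀ w, lw K h w ≤ mult w * (Real.log X - Real.log (w x)) := by
  refine forall_congr' fun w => ?_
  have h0 : 0 < w x := by
    have := w.1.nonneg x
    rcases lt_or_eq_of_le (apply_nonneg w x) with h | h
    · exact h
    · exact absurd ((map_eq_zero w).1 h.symm) hx
  have hm : (0 : ℝ) < mult w := by exact_mod_cast mult_pos
  rw [← Real.log_le_log_iff (mul_pos h0 (tw_pos h w)) hX, Real.log_mul h0.ne' (tw_pos h w).ne', tw,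
    Real.log_exp, ← le_sub_iff_add_le', div_le_iff₀ hm, mul_comm]

theorem sA_eq_cut {X : ℝ} (hX : 0 < X) {x : K} (hx : x ≠ 0) :
    sA X x = {h : logSpace K | (∀ i, h i ≤ mult i.1 * (Real.log X - Real.log (i.1 x))) ∧
      - ((mult (w₀ : InfinitePlace K) : ℝ) * (Real.log X - Real.log (w₀ x))) ≤ ∑ i, h i} := by
  ext h
  rw [mem_sA_iff hX hx, Set.mem_ofPred_eq]
  constructor
  · intro hh
    refine ⟨fun i => ?_, ?_⟩
    · have := hh i.1
      rwa [lw_ne h i.2] at this
    · have := hh w₀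
      rw [lw_w0] at this
      linarith
  · rintro ⟨h1, h2⟩ w
    by_cases hw : w = w₀
    · subst hw; rw [lw_w0]; linarith
    · rw [lw_ne h hw]; exact h1 ⟨w, hw⟩

theorem measurableSet_sA {X : ℝ} (hX : 0 < X) {x : K} (hx : x ≠ 0) : MeasurableSet (sA X x) := by
  rw [sA_eq_cut hX hx]; exact measurableSet_cut _ _

theorem sum_mult_mul_log_eq {x : K} (hx : x ≠ 0) :
    ∑ w : InfinitePlace K, (mult w : ℝ) * Real.log (w x) =
      Real.log |(Algebra.norm ℚ x : ℝ)| := by
  have h := prod_eq_abs_norm x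
  have h' : |(Algebra.norm ℚ x : ℝ)| = ∏ w : InfinitePlace K, w x ^ mult w := by
    rw [h]; push_cast; rfl
  rw [h', Real.log_prod]
  · simp_rw [Real.log_pow]
  · intro w _
    exact pow_ne_zero _ ((map_ne_zero w).2 hx)

theorem volume_sA {X : ℝ} (hX : 0 < X) {x : K} (hx : x ≠ 0) :
    volume (sA X x) = ENNReal.ofReal (wt (rank K)
      (finrank ℚ K * Real.log X - Real.log |(Algebra.norm ℚ x : ℝ)|)) := by
  rw [sA_eq_cut hX hx, volume_cut]
  have hcard : Fintype.card {w : InfinitePlace K // w ≠ w₀} = rank K := by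
    rw [Fintype.card_subtype_compl, Fintype.card_subtype_eq, rank]
  rw [hcard, ← sum_mult_mul_log_eq hx]
  congr 2
  have h1 := Fintype.sum_eq_add_sum_subtype_ne
    (fun w : InfinitePlace K => (mult w : ℝ) * (Real.log X - Real.log (w x))) w₀
  have h2 : ∑ w : InfinitePlace K, (mult w : ℝ) * (Real.log X - Real.log (w x)) =
      finrank ℚ K * Real.log X - ∑ w : InfinitePlace K, (mult w : ℝ) * Real.log (w x) := by
    simp_rw [mul_sub]
    rw [Finset.sum_sub_distrib, ← Finset.sum_mul, ← Nat.cast_sum, sum_mult_eq]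
  linarith

theorem lw_add_logEmbedding (h : logSpace K) (u : (𝓞 K)ˣ) (w : InfinitePlace K) :
    lw K (h + logEmbedding K (Additive.ofMul u)) w = lw K h w + mult w * Real.log (w (u : K)) := by
  by_cases hw : w = w₀
  · subst hw
    rw [lw_w0, lw_w0]
    have := sum_logEmbedding_component u
    simp only [Pi.add_apply, Finset.sum_add_distrib]
    rw [this]
    ring
  · rw [lw_ne _ hw, lw_ne _ hw, Pi.add_apply, logEmbedding_component]

theorem tw_add_logEmbedding (h : logSpace K) (u : (𝓞 K)ˣ) (w : InfinitePlace K) :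
    tw (h + logEmbedding K (Additive.ofMul u)) w = tw h w * w (u : K) := by
  rw [tw, lw_add_logEmbedding, add_div, Real.exp_add, tw]
  congr 1
  have : (mult w : ℝ) ≠ 0 := mult_coe_ne_zero
  rw [mul_div_assoc, mul_comm, div_mul_cancel₀ _ this, Real.exp_log (pos_at_place u w)]

theorem mem_sA_unit_mul {X : ℝ} {x : K} (u : (𝓞 K)ˣ) (h : logSpace K) :
    h ∈ sA X ((u : K) * x) ↔ logEmbedding K (Additive.ofMul u) + h ∈ sA X x := by
  refine forall_congr' fun w => ?_
  rw [add_comm, tw_add_logEmbedding, map_mul]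
  ring_nf

/-- `logEmbedding` onto the unit lattice -/
noncomputable def toLat (K : Type*) [Field K] [NumberField K] :
    Additive (𝓞 K)ˣ →+ unitLattice K :=
  ((logEmbedding K).codRestrict (unitLattice K).toAddSubgroup (fun x => ⟨x, trivial, rfl⟩))

theorem coe_toLat (u : Additive (𝓞 K)ˣ) : (toLat K u : logSpace K) = logEmbedding K u := rfl

theorem toLat_surjective : Function.Surjective (toLat K) := by
  rintro ⟨_, x, -, rfl⟩
  exact ⟨x, rfl⟩

theorem card_ker_toLat : Nat.card (toLat K).ker = torsionOrder K := by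
  have : (toLat K).ker = (logEmbedding K).ker := by
    ext x
    rw [AddMonoidHom.mem_ker, AddMonoidHom.mem_ker, ← coe_toLat, ZeroMemClass.coe_eq_zero]
  rw [this, logEmbedding_ker]
  rfl

instance finite_ker_toLat : Finite (toLat K).ker := by
  refine Nat.finite_of_card_ne_zero ?_
  rw [card_ker_toLat]
  exact torsionOrder_ne_zero K

/-- unfolding for one orbit -/
theorem tsum_unit {F : Set (logSpace K)} (hF : IsAddFundamentalDomain (unitLattice K) F volume)
    {X : ℝ} (hX : 0 < X) {x : K} (hx : x ≠ 0) :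
    ∑' u : (𝓞 K)ˣ, ∫⁻ h in F, (sA X ((u : K) * x)).indicator 1 h =
      torsionOrder K * volume (sA X x) := by
  have : MeasurableVAdd (unitLattice K) (logSpace K) :=
    (inferInstance : MeasurableVAdd (unitLattice K).toAddSubgroup (logSpace K))
  have : VAddInvariantMeasure (unitLattice K) (logSpace K) volume :=
    (inferInstance : VAddInvariantMeasure (unitLattice K).toAddSubgroup (logSpace K) volume)
  have h1 := hF.lintegral_eq_tsum'' (fun h => (sA X x).indicator (1 : logSpace K → ℝ≥0∞) h)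
  rw [lintegral_indicator_one (measurableSet_sA hX hx)] at h1
  rw [h1, ← card_ker_toLat, ← tsum_comp_eq_card_mul (toLat K) toLat_surjective
    (fun g : unitLattice K => ∫⁻ h in F, (sA X x).indicator (1 : logSpace K → ℝ≥0∞) (g +ᵥ h)),
    ← (Additive.ofMul (α := (𝓞 K)ˣ)).tsum_eq]
  refine tsum_congr fun u => ?_
  refine lintegral_congr fun h => ?_
  have h2 := mem_sA_unit_mul (X := X) (x := x) u h
  have h3 : (toLat K (Additive.ofMul u)) +ᵥ h = logEmbedding K (Additive.ofMul u) + h := rfl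
  rw [h3]
  by_cases h4 : h ∈ sA X ((u : K) * x)
  · rw [Set.indicator_of_mem h4, Set.indicator_of_mem (h2.1 h4)]; rfl
  · rw [Set.indicator_of_notMem h4, Set.indicator_of_notMem (fun h5 => h4 (h2.2 h5))]

/-! ### decomposition over ideals of a class -/

variable (K) in
/-- ideals of the class `c` -/
abbrev clsI (c : ClassGroup (𝓞 K)) := {a : (Ideal (𝓞 K))⁰ // ClassGroup.mk0 a = c}

/-- nonzero elements of the ideal `b` -/
abbrev nzI (b : (Ideal (𝓞 K))⁰) := {v : 𝓞 K // v ∈ (b : Ideal (𝓞 K)) ∧ v ≠ 0}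

theorem exists_gen {c : ClassGroup (𝓞 K)} {b : (Ideal (𝓞 K))⁰} (hb : ClassGroup.mk0 b = c⁻¹)
    (a : clsI K c) : ∃ g : 𝓞 K, Ideal.span {g} = (a.1 : Ideal (𝓞 K)) * b := by
  have h : ClassGroup.mk0 (a.1 * b) = 1 := by
    rw [map_mul, a.2, hb, mul_inv_cancel]
  have h' := (ClassGroup.mk0_eq_one_iff (a.1 * b).2).1 h
  obtain ⟨g, hg⟩ := h'
  refine ⟨g, ?_⟩
  have h2 : (((a.1 * b : (Ideal (𝓞 K))⁰)) : Ideal (𝓞 K)) = (a.1 : Ideal (𝓞 K)) * b := rfl
  rw [← h2, hg]

/-- a generator of `a * b` -/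
noncomputable def gen {c : ClassGroup (𝓞 K)} {b : (Ideal (𝓞 K))⁰}
    (hb : ClassGroup.mk0 b = c⁻¹) (a : clsI K c) : 𝓞 K := (exists_gen hb a).choose

theorem span_gen {c : ClassGroup (𝓞 K)} {b : (Ideal (𝓞 K))⁰}
    (hb : ClassGroup.mk0 b = c⁻¹) (a : clsI K c) :
    Ideal.span {gen hb a} = (a.1 : Ideal (𝓞 K)) * b := (exists_gen hb a).choose_spec

theorem gen_ne_zero {c : ClassGroup (𝓞 K)} {b : (Ideal (𝓞 K))⁰}
    (hb : ClassGroup.mk0 b = c⁻¹) (a : clsI K c) : gen hb a ≠ 0 := by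
  intro h
  have h1 := span_gen hb a
  rw [h, Ideal.span_singleton_eq_bot.2 rfl] at h1
  exact mul_ne_zero (nonZeroDivisors.coe_ne_zero a.1) (nonZeroDivisors.coe_ne_zero b) h1.symm

theorem gen_mem {c : ClassGroup (𝓞 K)} {b : (Ideal (𝓞 K))⁰}
    (hb : ClassGroup.mk0 b = c⁻¹) (a : clsI K c) : gen hb a ∈ (b : Ideal (𝓞 K)) := by
  have h3 : Ideal.span {gen hb a} ≤ (b : Ideal (𝓞 K)) := by
    rw [span_gen hb a, ← Ideal.dvd_iff_le]
    exact dvd_mul_left _ _
  exact h3 (Ideal.mem_span_singleton_self _)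

/-- the parametrisation of the nonzero elements of `b` -/
noncomputable def param {c : ClassGroup (𝓞 K)} {b : (Ideal (𝓞 K))⁰}
    (hb : ClassGroup.mk0 b = c⁻¹) (p : clsI K c × (𝓞 K)ˣ) : nzI b :=
  ⟨(p.2 : 𝓞 K) * gen hb p.1, Ideal.mul_mem_left _ _ (gen_mem hb p.1),
    mul_ne_zero p.2.ne_zero (gen_ne_zero hb p.1)⟩

theorem span_param {c : ClassGroup (𝓞 K)} {b : (Ideal (𝓞 K))⁰}
    (hb : ClassGroup.mk0 b = c⁻¹) (p : clsI K c × (𝓞 K)ˣ) :
    Ideal.span {(param hb p : 𝓞 K)} = (p.1.1 : Ideal (𝓞 K)) * b := by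
  rw [← span_gen hb p.1, Ideal.span_singleton_eq_span_singleton]
  exact ⟨p.2⁻¹, by simp [param, mul_comm]⟩

theorem param_bijective {c : ClassGroup (𝓞 K)} {b : (Ideal (𝓞 K))⁰}
    (hb : ClassGroup.mk0 b = c⁻¹) : Function.Bijective (param hb) := by
  constructor
  · intro p p' h
    have h1 := span_param hb p
    rw [h, span_param hb p'] at h1
    have h2 := mul_right_cancel₀ (nonZeroDivisors.coe_ne_zero b) h1
    have h3 : p.1 = p'.1 := Subtype.ext (Subtype.ext h2.symm)
    refine Prod.ext h3 ?_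
    have h4 : (p.2 : 𝓞 K) * gen hb p.1 = p'.2 * gen hb p'.1 := congrArg Subtype.val h
    rw [h3] at h4
    exact Units.ext (mul_right_cancel₀ (gen_ne_zero hb _) h4)
  · rintro ⟨v, hv, hv0⟩
    have h1 : (b : Ideal (𝓞 K)) ∣ Ideal.span {v} := by
      rw [Ideal.dvd_iff_le, Ideal.span_le]
      simpa using hv
    obtain ⟨a, ha⟩ := h1
    have ha0 : a ≠ 0 := by
      rintro rfl
      rw [mul_zero] at ha
      exact hv0 (Ideal.span_singleton_eq_bot.1 ha)
    let a' : (Ideal (𝓞 K))⁰ := ⟨a, mem_nonZeroDivisors_of_ne_zero ha0⟩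
    have h2 : ClassGroup.mk0 a' = c := by
      have h3 : ClassGroup.mk0 (b * a') = 1 := by
        rw [ClassGroup.mk0_eq_one_iff]
        refine ⟨v, ?_⟩
        change (b : Ideal (𝓞 K)) * a = Ideal.span {v}
        exact ha.symm
      rw [map_mul, hb] at h3
      exact (inv_mul_eq_one.1 h3).symm
    have h4 : Associated (gen hb ⟨a', h2⟩) v := by
      rw [← Ideal.span_singleton_eq_span_singleton, span_gen, ha, mul_comm]
    obtain ⟨u, hu⟩ := h4
    exact ⟨(⟨a', h2⟩, u), Subtype.ext (by simp [param, ← hu, mul_comm])⟩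

theorem natAbs_norm_param {c : ClassGroup (𝓞 K)} {b : (Ideal (𝓞 K))⁰}
    (hb : ClassGroup.mk0 b = c⁻¹) (p : clsI K c × (𝓞 K)ˣ) :
    (Algebra.norm ℤ (param hb p : 𝓞 K)).natAbs =
      Ideal.absNorm (p.1.1 : Ideal (𝓞 K)) * Ideal.absNorm (b : Ideal (𝓞 K)) := by
  rw [← Ideal.absNorm_span_singleton, span_param, map_mul]

/-- **The unfolding identity**. -/
theorem unfold_eq {c : ClassGroup (𝓞 K)} {b : (Ideal (𝓞 K))⁰}
    (hb : ClassGroup.mk0 b = c⁻¹) {F : Set (logSpace K)}
    (hF : IsAddFundamentalDomain (unitLattice K) F volume)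
    {X : ℝ} (hX : 0 < X) (f : ℕ → ℝ≥0∞) :
    ∫⁻ h in F, ∑' v : nzI b, f ((Algebra.norm ℤ (v : 𝓞 K)).natAbs / Ideal.absNorm (b : Ideal (𝓞 K))) *
        (sA X ((v : 𝓞 K) : K)).indicator 1 h =
      torsionOrder K * ∑' a : clsI K c, f (Ideal.absNorm (a.1 : Ideal (𝓞 K))) *
        ENNReal.ofReal (wt (rank K) (finrank ℚ K * Real.log X -
          Real.log (Ideal.absNorm (a.1 : Ideal (𝓞 K)) * Ideal.absNorm (b : Ideal (𝓞 K))))) := by
  have hcount' : Countable (𝓞 K) :=
    (Module.Free.chooseBasis ℤ (𝓞 K)).equivFun.toEquiv.countable_iff.2 inferInstance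
  have hcount : Countable (nzI b) := inferInstance
  rw [lintegral_tsum]
  swap
  · intro v
    refine (Measurable.const_mul ?_ _).aemeasurable
    refine measurable_one.indicator (measurableSet_sA hX ?_)
    simpa using v.2.2
  rw [← (Equiv.ofBijective _ (param_bijective hb)).tsum_eq]
  have hN : Ideal.absNorm (b : Ideal (𝓞 K)) ≠ 0 := by
    rw [Ne, Ideal.absNorm_eq_zero_iff]
    exact nonZeroDivisors.coe_ne_zero b
  have h1 : ∀ p : clsI K c × (𝓞 K)ˣ,
      ∫⁻ h in F, f ((Algebra.norm ℤ (((Equiv.ofBijective _ (param_bijective hb)) p : nzI b) : 𝓞 K)).natAbs /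
        Ideal.absNorm (b : Ideal (𝓞 K))) * (sA X (((((Equiv.ofBijective _
          (param_bijective hb)) p : nzI b) : 𝓞 K) : K))).indicator 1 h =
      (fun (a : clsI K c) (u : (𝓞 K)ˣ) => f (Ideal.absNorm (a.1 : Ideal (𝓞 K))) *
        ∫⁻ h in F, (sA X ((u : K) * (gen hb a : K))).indicator 1 h) p.1 p.2 := by
    intro p
    rw [lintegral_const_mul]
    · simp only [Equiv.ofBijective_apply]
      rw [natAbs_norm_param, Nat.mul_div_cancel _ (Nat.pos_of_ne_zero hN)]
      simp [param]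
    · refine measurable_one.indicator (measurableSet_sA hX ?_)
      simp only [Equiv.ofBijective_apply]
      simpa using (param hb p).2.2
  rw [tsum_congr h1, ENNReal.tsum_prod (f := fun (a : clsI K c) (u : (𝓞 K)ˣ) =>
    f (Ideal.absNorm (a.1 : Ideal (𝓞 K))) *
        ∫⁻ h in F, (sA X ((u : K) * (gen hb a : K))).indicator 1 h), ← ENNReal.tsum_mul_left]
  refine tsum_congr fun a => ?_
  rw [ENNReal.tsum_mul_left, tsum_unit hF hX (by simpa using gen_ne_zero hb a), volume_sA hX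
    (by simpa using gen_ne_zero hb a)]
  have h2 : |(Algebra.norm ℚ (gen hb a : K) : ℝ)| =
      Ideal.absNorm (a.1 : Ideal (𝓞 K)) * Ideal.absNorm (b : Ideal (𝓞 K)) := by
    have h3 := span_gen hb a
    have h4 : ((Algebra.norm ℤ (gen hb a)).natAbs : ℝ) =
        Ideal.absNorm (a.1 : Ideal (𝓞 K)) * Ideal.absNorm (b : Ideal (𝓞 K)) := by
      rw [← Ideal.absNorm_span_singleton, h3, map_mul]
      push_cast; rfl
    rw [← h4, ← Algebra.coe_norm_int, Nat.cast_natAbs]
    push_cast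
    rfl
  rw [h2]
  ring

end Crest.Agent.R014.Cnt3_726
end

-- ▼ part R014/Ic7_550
section

/-!
# Row 14, N1: (A1) and (A2) of 479 from 726's `riesz_class` (helper550)
-/

set_option autoImplicit false

open NumberField Ideal Filter Topology
open scoped nonZeroDivisors

noncomputable section

namespace Crest.Agent.R014.Ic7_550

open Crest.Agent.R014.Ic1_550 Crest.Agent.R014.LDef_550 Crest.Agent.R014.Ic3_550
open Crest.Agent.R014.Ic4_550 Crest.Agent.R014.Ic5_550
open Crest.Agent.R014.Ic1_550.Dat (cC lg)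
open Crest.Agent.R014.Cnt2_726 Crest.Agent.R014.Cnt3_726 Crest.Agent.R014.Cnt5_726

universe u

variable {E : Type u} [Field E] [NumberField E]

/-- Riesz mean over a class (726) -/
def rz (c : ClassGroup (𝓞 E)) {q : ℕ} (f : ZMod q → ℂ) (x : ℝ) : ℂ :=
  ∑' a : clsI E c, f (absNorm (a.1 : Ideal (𝓞 E)) : ZMod q)
    * (wt (Units.rank E) (Real.log (x / absNorm (a.1 : Ideal (𝓞 E)))) : ℂ)

/-- the equivalence of the two index types -/
def eqv (c : ClassGroup (𝓞 E)) : {a : Idl E // cls a = c} ≃ clsI E c where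
  toFun a := ⟨⟨a.1.1, mem_nonZeroDivisors_iff_ne_zero.mpr a.1.2⟩, a.2⟩
  invFun a := ⟨⟨a.1.1, nonZeroDivisors.coe_ne_zero a.1⟩, a.2⟩
  left_inv _ := rfl
  right_inv _ := rfl

theorem pw_eq (r : ℕ) (a : Idl E) (t : ℝ) :
    pw r (uu E a) t = r.factorial * wt r (Real.log (Real.exp t / absNorm a.1)) := by
  have h := one_le_absNorm a
  have h1 : Real.log (Real.exp t / absNorm a.1) = t - uu E a := by
    rw [Real.log_div (Real.exp_pos t).ne' (by positivity), Real.log_exp]
    rfl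
  rw [h1]
  unfold pw wt
  by_cases h2 : uu E a ≤ t
  · rw [if_pos h2, if_pos (by linarith)]
    field_simp
  · rw [if_neg h2, if_neg (by linarith), mul_zero]

theorem Acl_eq (c : ClassGroup (𝓞 E)) {q : ℕ} (f : ZMod q → ℂ) (t : ℝ) :
    Acl f (Units.rank E) c t = (Units.rank E).factorial * rz c f (Real.exp t) := by
  unfold Acl rz
  rw [← (eqv c).tsum_eq, ← tsum_mul_left]
  refine tsum_congr fun a => ?_
  rw [pw_eq]
  unfold cc
  push_cast
  have h1 : ((((eqv c) a).1 : (Ideal (𝓞 E))⁰) : Ideal (𝓞 E)) = a.1.1 := rfl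
  rw [h1]
  ring

theorem unique_M {z w : ℂ} {F : ℝ → ℂ} {Q δ : ℝ} (hδ : 0 < δ)
    (h1 : ∀ t, 0 ≤ t → ‖F t - z * (Real.exp t : ℝ)‖ ≤ Q * Real.exp ((1 - δ) * t))
    (h2 : ∀ t, 0 ≤ t → ‖F t - w * (Real.exp t : ℝ)‖ ≤ Q * Real.exp ((1 - δ) * t)) : z = w := by
  have h3 : ∀ t, 0 ≤ t → ‖z - w‖ ≤ 2 * Q * Real.exp (-(δ * t)) := by
    intro t ht
    have e1 : (z - w) * (Real.exp t : ℝ) = (F t - w * (Real.exp t : ℝ)) - (F t - z * (Real.exp t : ℝ)) := by
      ring
    have e2 : ‖z - w‖ * Real.exp t ≤ 2 * Q * Real.exp ((1 - δ) * t) := by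
      have : ‖(z - w) * (Real.exp t : ℝ)‖ = ‖z - w‖ * Real.exp t := by
        rw [norm_mul, Complex.norm_real, Real.norm_of_nonneg (Real.exp_pos t).le]
      rw [← this, e1]
      refine (norm_sub_le _ _).trans ?_
      have := h1 t ht
      have := h2 t ht
      linarith
    have e3 : 2 * Q * Real.exp ((1 - δ) * t) = (2 * Q * Real.exp (-(δ * t))) * Real.exp t := by
      rw [mul_assoc (2 * Q), ← Real.exp_add]; ring_nf
    rw [e3] at e2
    exact le_of_mul_le_mul_right e2 (Real.exp_pos t)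
  have h4 : Tendsto (fun t : ℝ => 2 * Q * Real.exp (-(δ * t))) atTop (𝓝 (2 * Q * 0)) := by
    refine Tendsto.const_mul _ ?_
    exact Real.tendsto_exp_neg_atTop_nhds_zero.comp (tendsto_id.const_mul_atTop hδ)
  rw [mul_zero] at h4
  have h5 : ‖z - w‖ ≤ 0 := ge_of_tendsto h4 (by
    filter_upwards [eventually_ge_atTop (0:ℝ)] with t ht
    exact h3 t ht)
  have h6 : ‖z - w‖ = 0 := le_antisymm h5 (norm_nonneg _)
  rw [norm_eq_zero] at h6
  exact sub_eq_zero.mp h6

/-- average of `f` over the norm form of `J` -/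
def av (J : (Ideal (𝓞 E))⁰) (q : ℕ) [NeZero q] (f : ZMod q → ℂ) : ℂ :=
  ((q : ℂ) ^ Module.finrank ℚ E)⁻¹ * ∑ k, f (nuq J q k)

/-- 726's asymptotics for one field (`κ₀ = kap0 E`, `Q = C (q D)^C`) -/
def ClassAsymp (E : Type u) [Field E] [NumberField E] {q : ℕ} [NeZero q] (f : ZMod q → ℂ)
    (κ₀ Q : ℝ) : Prop :=
  ∀ (c : ClassGroup (𝓞 E)) (J : (Ideal (𝓞 E))⁰), ClassGroup.mk0 J = c⁻¹ → ∀ x : ℝ, 1 ≤ x →
    ‖rz c f x - κ₀ * av J q f * x‖ ≤ Q * x ^ (1 - 1 / (Module.finrank ℚ E : ℝ))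

theorem classAsymp_exp {q : ℕ} [NeZero q] {f : ZMod q → ℂ} {κ₀ Q : ℝ}
    (h : ClassAsymp E f κ₀ Q) (c : ClassGroup (𝓞 E)) (J : (Ideal (𝓞 E))⁰)
    (hJ : ClassGroup.mk0 J = c⁻¹) (t : ℝ) (ht : 0 ≤ t) :
    ‖Acl f (Units.rank E) c t
        - ((Units.rank E).factorial * (κ₀ * av J q f)) * (Real.exp t : ℝ)‖
      ≤ ((Units.rank E).factorial * Q) * Real.exp ((1 - 1 / (Module.finrank ℚ E : ℝ)) * t) := by
  have h1 := h c J hJ (Real.exp t) (Real.one_le_exp ht)
  rw [Acl_eq]
  have e1 : ((Units.rank E).factorial : ℂ) * rz c f (Real.exp t)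
      - ((Units.rank E).factorial * (κ₀ * av J q f)) * (Real.exp t : ℝ)
      = ((Units.rank E).factorial : ℂ) * (rz c f (Real.exp t) - κ₀ * av J q f * (Real.exp t : ℝ)) := by
    ring
  rw [e1, norm_mul, Complex.norm_natCast]
  have e2 : Real.exp t ^ (1 - 1 / (Module.finrank ℚ E : ℝ))
      = Real.exp ((1 - 1 / (Module.finrank ℚ E : ℝ)) * t) := by
    rw [← Real.exp_mul, mul_comm]
  rw [e2] at h1
  exact (mul_le_mul_of_nonneg_left h1 (Nat.cast_nonneg _)).trans (le_of_eq (by ring))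

/-- a representative of the inverse class -/
def repJ (c : ClassGroup (𝓞 E)) : (Ideal (𝓞 E))⁰ := (ClassGroup.mk0_surjective c⁻¹).choose

theorem repJ_spec (c : ClassGroup (𝓞 E)) : ClassGroup.mk0 (repJ c) = c⁻¹ :=
  (ClassGroup.mk0_surjective c⁻¹).choose_spec

/-- the leading coefficient of a class -/
def Mc {q : ℕ} [NeZero q] (f : ZMod q → ℂ) (κ₀ : ℝ) (c : ClassGroup (𝓞 E)) : ℂ :=
  (Units.rank E).factorial * (κ₀ * av (repJ c) q f)

theorem riesz_total {q : ℕ} [NeZero q] {f : ZMod q → ℂ} {κ₀ Q : ℝ} (hQ : 0 ≤ Q)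
    (h : ClassAsymp E f κ₀ Q) :
    Riesz E f (Units.rank E) (∑ c : ClassGroup (𝓞 E), Mc f κ₀ c)
      ((2 ^ Module.finrank ℚ E * Real.sqrt |(discr E : ℝ)|) ^ (Module.finrank ℚ E + 1)
        * ((Units.rank E).factorial * Q)) :=
  riesz_of_classes (by positivity) fun c t ht => classAsymp_exp h c _ (repJ_spec c) t ht

theorem Mc_eq {q : ℕ} [NeZero q] {f : ZMod q → ℂ} {κ₀ Q : ℝ}
    (h : ClassAsymp E f κ₀ Q) (c : ClassGroup (𝓞 E)) (J : (Ideal (𝓞 E))⁰)
    (hJ : ClassGroup.mk0 J = c⁻¹) :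
    Mc f κ₀ c = (Units.rank E).factorial * (κ₀ * av J q f) := by
  refine unique_M (δ := 1 / (Module.finrank ℚ E : ℝ)) ?_
    (fun t ht => classAsymp_exp h c _ (repJ_spec c) t ht) (fun t ht => classAsymp_exp h c J hJ t ht)
  have := finrank_pos' (E := E)
  positivity

/-- **vanishing** of the total leading coefficient -/
theorem sum_Mc_eq_zero {q : ℕ} [NeZero q] (psi : DirichletCharacter ℂ q) (hpsi : psi.Even)
    {κ₀ Q : ℝ} (h : ClassAsymp E psi κ₀ Q) {a : Ideal (𝓞 E)} (ha : a ≠ ⊥)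
    (hq : (absNorm a).Coprime q) (h1 : psi (absNorm a : ZMod q) ≠ 1) :
    ∑ c : ClassGroup (𝓞 E), Mc psi κ₀ c = 0 := by
  have hev : ∀ z, psi (-z) = psi z := fun z => DirichletCharacter.Even.eval_neg psi z hpsi
  set A0 : (Ideal (𝓞 E))⁰ := ⟨a, mem_nonZeroDivisors_iff_ne_zero.mpr ha⟩ with hA0
  set g : ClassGroup (𝓞 E) := ClassGroup.mk0 A0 with hg
  have key : ∀ c : ClassGroup (𝓞 E), Mc psi κ₀ c = psi (absNorm a : ZMod q) * Mc psi κ₀ (c * g⁻¹) := by
    intro c
    have h2 : ClassGroup.mk0 (A0 * repJ c) = (c * g⁻¹)⁻¹ := by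
      rw [map_mul, repJ_spec, ← hg]
      group
    rw [Mc_eq h (c * g⁻¹) (A0 * repJ c) h2]
    have h3 : av (repJ c) q psi = psi (absNorm a : ZMod q) * av (A0 * repJ c) q psi := by
      unfold av
      rw [Ic6_550.sum_nuq (a := a) (J' := A0 * repJ c) (J := repJ c) (by
        rw [Submonoid.coe_mul]) q hq hev]
      simp_rw [map_mul]
      rw [← Finset.mul_sum]
      ring
    unfold Mc
    rw [h3]
    ring
  have h4 : ∑ c : ClassGroup (𝓞 E), Mc psi κ₀ c
      = psi (absNorm a : ZMod q) * ∑ c : ClassGroup (𝓞 E), Mc psi κ₀ c := by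
    have e1 : ∑ c : ClassGroup (𝓞 E), Mc psi κ₀ (c * g⁻¹) = ∑ c : ClassGroup (𝓞 E), Mc psi κ₀ c :=
      Equiv.sum_comp (Equiv.mulRight g⁻¹) (fun c => Mc (⇑psi) κ₀ c)
    have e2 : ∑ c : ClassGroup (𝓞 E), Mc psi κ₀ c
        = ∑ c : ClassGroup (𝓞 E), psi (absNorm a : ZMod q) * Mc psi κ₀ (c * g⁻¹) :=
      Finset.sum_congr rfl fun c _ => key c
    rw [← Finset.mul_sum, e1] at e2
    exact e2
  have h5 : (1 - psi (absNorm a : ZMod q)) * ∑ c : ClassGroup (𝓞 E), Mc psi κ₀ c = 0 := by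
    rw [sub_mul, one_mul, ← h4, sub_self]
  rcases mul_eq_zero.mp h5 with h6 | h6
  · exact absurd (sub_eq_zero.mp h6).symm h1
  · exact h6

end Crest.Agent.R014.Ic7_550
end
end

-- ▼ part R014/Cnt1_726
section

/-!
# Points of a lattice in a set, against the volume

`L` a full lattice in a finite dimensional real space, `B` a set with `L + B = E`; then
`vol S / covol L ≤ #((z + L) ∩ T)` if `S - B ⊆ T`, and `#((z + L) ∩ S) ≤ vol T / covol L` if
`S + B ⊆ T`.
-/

namespace Crest.Agent.R014.Cnt1_726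

open MeasureTheory
open scoped ENNReal

section Abstract

variable {E : Type*} [NormedAddCommGroup E] [NormedSpace ℝ E] [FiniteDimensional ℝ E]
variable [MeasurableSpace E] [BorelSpace E] (μ : Measure E) [Measure.IsAddHaarMeasure μ]
variable (L : Submodule ℤ E) [DiscreteTopology L] [IsZLattice ℝ L]

/-- number of points of `z + L` in `S`, as an extended nonnegative real -/
noncomputable def cnt (z : E) (S : Set E) : ℝ≥0∞ := ∑' l : L, S.indicator 1 (z + (l : E))

variable {L} in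
omit [NormedSpace ℝ E] [FiniteDimensional ℝ E] [MeasurableSpace E] [BorelSpace E]
  [DiscreteTopology L] [IsZLattice ℝ L] in
theorem cnt_add_mem (z : E) (S : Set E) (l₀ : L) : cnt L (z + (l₀ : E)) S = cnt L z S := by
  unfold cnt
  rw [← (Equiv.addLeft l₀).tsum_eq (fun l : L => S.indicator (1 : E → ℝ≥0∞) (z + (l : E)))]
  refine tsum_congr fun l => ?_
  simp [add_assoc]

omit [NormedSpace ℝ E] [FiniteDimensional ℝ E] [MeasurableSpace E] [BorelSpace E]
  [DiscreteTopology L] [IsZLattice ℝ L] in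
theorem cnt_mono {z z' : E} {S T : Set E} (h : ∀ l ∈ L, z + l ∈ S → z' + l ∈ T) :
    cnt L z S ≤ cnt L z' T := by
  classical
  refine ENNReal.tsum_le_tsum fun l => ?_
  by_cases hl : z + (l : E) ∈ S
  · have := h l l.2 hl
    simp [hl, this]
  · simp [hl]

include μ in
theorem lintegral_cnt {F : Set E} (hF : IsAddFundamentalDomain L F μ) (z : E) {S : Set E}
    (hS : MeasurableSet S) : ∫⁻ x in F, cnt L (z + x) S ∂μ = μ S := by
  have : MeasurableVAdd L E := (inferInstance : MeasurableVAdd L.toAddSubgroup E)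
  have : VAddInvariantMeasure L E μ := (inferInstance : VAddInvariantMeasure L.toAddSubgroup E μ)
  have h1 := hF.lintegral_eq_tsum'' (fun x => S.indicator (1 : E → ℝ≥0∞) (z + x))
  have h2 : ∫⁻ x, S.indicator (1 : E → ℝ≥0∞) (z + x) ∂μ = μ S := by
    rw [lintegral_add_left_eq_self (fun x => S.indicator (1 : E → ℝ≥0∞) x) z,
      lintegral_indicator_one hS]
  rw [← h2, h1]
  unfold cnt
  rw [lintegral_tsum]
  · refine tsum_congr fun l => ?_
    refine lintegral_congr fun x => ?_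
    congr 1
    change z + x + (l : E) = z + ((l : E) + x)
    abel
  · intro l
    refine Measurable.aemeasurable ?_
    exact (measurable_one.indicator hS).comp (by fun_prop)

variable {B S T : Set E}

theorem measure_le_covolume_mul_cnt (hB : ∀ x : E, ∃ l ∈ L, x - l ∈ B) (hS : MeasurableSet S)
    (hST : ∀ s ∈ S, ∀ y ∈ B, s - y ∈ T) (z : E) :
    μ S ≤ ENNReal.ofReal (ZLattice.covolume L μ) * cnt L z T := by
  have hF := ZLattice.isAddFundamentalDomain (Module.Free.chooseBasis ℤ L) μ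
  rw [← lintegral_cnt μ L hF z hS]
  have hcov := ZLattice.covolume_eq_measure_fundamentalDomain L μ hF
  have hfin : μ (ZSpan.fundamentalDomain ((Module.Free.chooseBasis ℤ L).ofZLatticeBasis ℝ)) ≠ ⊤ :=
    ((ZSpan.fundamentalDomain_isBounded _).measure_lt_top).ne
  rw [hcov, Measure.real, ENNReal.ofReal_toReal hfin]
  calc ∫⁻ x in (ZSpan.fundamentalDomain ((Module.Free.chooseBasis ℤ L).ofZLatticeBasis ℝ)),
        cnt L (z + x) S ∂μ
      ≤ ∫⁻ x in (ZSpan.fundamentalDomain ((Module.Free.chooseBasis ℤ L).ofZLatticeBasis ℝ)),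
        cnt L z T ∂μ := by
        refine lintegral_mono fun x => ?_
        obtain ⟨l₀, hl₀, hx⟩ := hB x
        rw [← cnt_add_mem (L := L) z T (-⟨l₀, hl₀⟩)]
        have h3 : cnt L (z + x) S = cnt L (z + x + ((-(⟨l₀, hl₀⟩ : L) : L) : E)) S :=
          (cnt_add_mem (L := L) (z + x) S (-⟨l₀, hl₀⟩)).symm
        rw [← cnt_add_mem (L := L) (z + ((-(⟨l₀, hl₀⟩ : L) : L) : E)) T ⟨l₀, hl₀⟩, h3]
        refine cnt_mono (L := L) fun l hl h => ?_
        have h4 := hST _ h _ hx
        convert h4 using 1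
        simp
        abel
    _ = _ := by rw [lintegral_const, Measure.restrict_apply_univ, mul_comm]

theorem covolume_mul_cnt_le (hB : ∀ x : E, ∃ l ∈ L, x - l ∈ B) (hT : MeasurableSet T)
    (hST : ∀ s ∈ S, ∀ y ∈ B, s + y ∈ T) (z : E) :
    ENNReal.ofReal (ZLattice.covolume L μ) * cnt L z S ≤ μ T := by
  have hF := ZLattice.isAddFundamentalDomain (Module.Free.chooseBasis ℤ L) μ
  rw [← lintegral_cnt μ L hF z hT]
  have hcov := ZLattice.covolume_eq_measure_fundamentalDomain L μ hF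
  have hfin : μ (ZSpan.fundamentalDomain ((Module.Free.chooseBasis ℤ L).ofZLatticeBasis ℝ)) ≠ ⊤ :=
    ((ZSpan.fundamentalDomain_isBounded _).measure_lt_top).ne
  rw [hcov, Measure.real, ENNReal.ofReal_toReal hfin]
  calc μ (ZSpan.fundamentalDomain ((Module.Free.chooseBasis ℤ L).ofZLatticeBasis ℝ)) * cnt L z S
      = ∫⁻ x in (ZSpan.fundamentalDomain ((Module.Free.chooseBasis ℤ L).ofZLatticeBasis ℝ)),
        cnt L z S ∂μ := by rw [lintegral_const, Measure.restrict_apply_univ, mul_comm]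
    _ ≤ _ := by
        refine lintegral_mono fun x => ?_
        obtain ⟨l₀, hl₀, hx⟩ := hB x
        have h3 : cnt L (z + x) T = cnt L (z + x + ((-(⟨l₀, hl₀⟩ : L) : L) : E)) T :=
          (cnt_add_mem (L := L) (z + x) T (-⟨l₀, hl₀⟩)).symm
        change cnt L z S ≤ cnt L (z + x) T
        rw [h3]
        refine cnt_mono (L := L) fun l hl h => ?_
        have h4 := hST _ h _ hx
        convert h4 using 1
        simp
        abel

end Abstract

end Crest.Agent.R014.Cnt1_726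
end

-- ▼ part R014/Cnt4_726
section

/-!
# Lattice of an ideal in the mixed space, deformed by weights: covering and count in boxes
-/

namespace Crest.Agent.R014.Cnt4_726

open MeasureTheory NumberField NumberField.mixedEmbedding NumberField.InfinitePlace Module
open scoped ENNReal nonZeroDivisors NNReal
open scoped Classical
open scoped IntermediateField
open Crest.Agent.R014.Cnt1_726

variable (K : Type*) [Field K] [NumberField K]

/-- sqrt of the absolute discriminant -/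
noncomputable def sD : ℝ := √|(discr K : ℝ)|

theorem one_le_sD : 1 ≤ sD K := by
  rw [sD, Real.one_le_sqrt, ← Int.cast_abs]
  have : 1 ≤ |discr K| := Int.one_le_abs (discr_ne_zero K)
  exact_mod_cast this

theorem sD_pos : 0 < sD K := one_pos.trans_le (one_le_sD K)

/-- the constant `2^r₁ π^r₂` -/
noncomputable def C0 : ℝ := 2 ^ nrRealPlaces K * Real.pi ^ nrComplexPlaces K

theorem C0_pos : 0 < C0 K := by unfold C0; positivity

theorem coe_factor : ((convexBodyLTFactor K : ℝ≥0) : ℝ) = C0 K := by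
  simp [convexBodyLTFactor, C0]

theorem coe_factor' : ((convexBodyLTFactor K : ℝ≥0) : ℝ≥0∞) = ENNReal.ofReal (C0 K) := by
  rw [← coe_factor, ENNReal.ofReal_coe_nnreal]

theorem minkowskiBound_eq (I : (FractionalIdeal (𝓞 K)⁰ K)ˣ) :
    minkowskiBound K I = ENNReal.ofReal (ZLattice.covolume (idealLattice K I) * 2 ^ finrank ℚ K) := by
  have h1 := ZLattice.covolume_eq_measure_fundamentalDomain (idealLattice K I) volume
    (fundamentalDomain_idealLattice K I)
  have hfin : volume (ZSpan.fundamentalDomain (fractionalIdealLatticeBasis K I)) ≠ ⊤ :=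
    ((ZSpan.fundamentalDomain_isBounded _).measure_lt_top).ne
  rw [minkowskiBound, h1, Measure.real, ENNReal.ofReal_mul ENNReal.toReal_nonneg,
    ENNReal.ofReal_toReal hfin, mixedEmbedding.finrank]
  congr 1
  rw [ENNReal.ofReal_pow (by norm_num)]
  simp

theorem covolume_eq (I : (FractionalIdeal (𝓞 K)⁰ K)ˣ) :
    ZLattice.covolume (idealLattice K I) =
      (FractionalIdeal.absNorm I.1 : ℝ) * (2⁻¹ ^ nrComplexPlaces K) * sD K := by
  rw [covolume_idealLattice, sD]

theorem absNorm_pos' (I : (FractionalIdeal (𝓞 K)⁰ K)ˣ) :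
    (0 : ℝ) < (FractionalIdeal.absNorm I.1 : ℝ) := by
  have h := FractionalIdeal.absNorm_nonneg I.1
  have h2 : FractionalIdeal.absNorm I.1 ≠ 0 := by
    intro h3
    exact I.ne_zero (FractionalIdeal.absNorm_eq_zero_iff.1 h3)
  exact_mod_cast lt_of_le_of_ne h h2.symm

/-- the Minkowski bound is `< 2^r₁ π^r₂ * δ` for `δ ≥ 2 √D N(I)` -/
theorem minkowskiBound_lt (I : (FractionalIdeal (𝓞 K)⁰ K)ˣ) {δ : ℝ}
    (hδ : 2 * sD K * (FractionalIdeal.absNorm I.1 : ℝ) ≤ δ) :
    minkowskiBound K I < ENNReal.ofReal (C0 K * δ) := by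
  have hN := absNorm_pos' K I
  have hs := sD_pos K
  have hδ0 : 0 < δ := lt_of_lt_of_le (by positivity) hδ
  rw [minkowskiBound_eq, ENNReal.ofReal_lt_ofReal_iff (mul_pos (C0_pos K) hδ0), covolume_eq, C0,
    ← card_add_two_mul_card_eq_rank]
  have h1 : (2 : ℝ) ^ (nrRealPlaces K + 2 * nrComplexPlaces K) =
      2 ^ nrRealPlaces K * (2 ^ nrComplexPlaces K * 2 ^ nrComplexPlaces K) := by
    rw [pow_add, two_mul, pow_add]
  have h2 : (2⁻¹ : ℝ) ^ nrComplexPlaces K * 2 ^ nrComplexPlaces K = 1 := by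
    rw [← mul_pow]; norm_num
  have h3 : (2 : ℝ) ^ nrComplexPlaces K ≤ Real.pi ^ nrComplexPlaces K := by
    gcongr; exact Real.two_le_pi
  have h4 : (0 : ℝ) < 2 ^ nrRealPlaces K := by positivity
  have h5 : (0 : ℝ) < 2 ^ nrComplexPlaces K := by positivity
  rw [h1]
  calc (FractionalIdeal.absNorm I.1 : ℝ) * 2⁻¹ ^ nrComplexPlaces K * sD K *
        (2 ^ nrRealPlaces K * (2 ^ nrComplexPlaces K * 2 ^ nrComplexPlaces K))
      = (2⁻¹ ^ nrComplexPlaces K * 2 ^ nrComplexPlaces K) * (2 ^ nrRealPlaces K *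
        2 ^ nrComplexPlaces K) * (sD K * (FractionalIdeal.absNorm I.1 : ℝ)) := by ring
    _ = (2 ^ nrRealPlaces K *
        2 ^ nrComplexPlaces K) * (sD K * (FractionalIdeal.absNorm I.1 : ℝ)) := by rw [h2, one_mul]
    _ < (2 ^ nrRealPlaces K *
        2 ^ nrComplexPlaces K) * δ := by
        refine mul_lt_mul_of_pos_left ?_ (by positivity)
        have : 0 < sD K * (FractionalIdeal.absNorm I.1 : ℝ) := by positivity
        linarith
    _ ≤ 2 ^ nrRealPlaces K * Real.pi ^ nrComplexPlaces K * δ := by gcongr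

theorem mk0_one_norm : (FractionalIdeal.absNorm
    ((1 : (FractionalIdeal (𝓞 K)⁰ K)ˣ) : FractionalIdeal (𝓞 K)⁰ K) : ℝ) = 1 := by
  simp

/-- a primitive integer with small conjugates -/
theorem exists_theta : ∃ θ : 𝓞 K, ℚ⟮(θ : K)⟯ = ⊤ ∧ ∀ w : InfinitePlace K, w θ ≤ 3 * sD K := by
  have hs := one_le_sD K
  have hs0 := sD_pos K
  let B : ℝ≥0 := ⟨2 * sD K, by positivity⟩
  have hB : (B : ℝ) = 2 * sD K := rfl
  obtain ⟨w₀⟩ := (inferInstance : Nonempty (InfinitePlace K))
  by_cases hw : IsReal w₀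
  · have h1 : minkowskiBound K ↑1 < convexBodyLTFactor K * B := by
      have h2 := minkowskiBound_lt K 1 (δ := 2 * sD K) (by rw [mk0_one_norm]; simp)
      rw [ENNReal.ofReal_mul (C0_pos K).le, ← coe_factor', ← hB, ENNReal.ofReal_coe_nnreal] at h2
      exact h2
    obtain ⟨a, ha, ha2⟩ := exists_primitive_element_lt_of_isReal K hw h1
    refine ⟨a, ha, fun w => (ha2 w).le.trans ?_⟩
    rw [NNReal.coe_max, hB, NNReal.coe_one]
    exact max_le (by linarith) (by linarith)
  · rw [not_isReal_iff_isComplex] at hw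
    have hr2 : 1 ≤ nrComplexPlaces K := by
      rw [nrComplexPlaces]
      exact Fintype.card_pos_iff.2 ⟨⟨w₀, hw⟩⟩
    have h1 : minkowskiBound K ↑1 < convexBodyLT'Factor K * B := by
      have hpi : (convexBodyLT'Factor K : ℝ) = 4 / Real.pi * C0 K := by
        obtain ⟨m, hm⟩ := Nat.exists_eq_add_of_le hr2
        have hpi0 := Real.pi_ne_zero
        simp only [convexBodyLT'Factor, C0, hm, NNReal.coe_mul, NNReal.coe_pow, NNReal.coe_ofNat,
          NNReal.coe_real_pi]
        rw [show 1 + m - 1 = m by omega, pow_add Real.pi 1 m, pow_one, pow_add]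
        field_simp
        norm_num
      have h3 : minkowskiBound K ↑1 < ENNReal.ofReal (4 / Real.pi * C0 K * (2 * sD K)) := by
        rw [minkowskiBound_eq, ENNReal.ofReal_lt_ofReal_iff (by positivity [C0_pos K]), covolume_eq,
          mk0_one_norm, one_mul, C0, ← card_add_two_mul_card_eq_rank]
        obtain ⟨m, hm⟩ := Nat.exists_eq_add_of_le hr2
        have hpi0 := Real.pi_pos
        rw [hm]
        have h4 : (2 : ℝ) ^ m ≤ Real.pi ^ m := by gcongr; exact Real.two_le_pi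
        have h5 : (2⁻¹ : ℝ) ^ m * 2 ^ m = 1 := by
          rw [← mul_pow]; norm_num
        have h6 : (2 : ℝ) ^ (nrRealPlaces K + 2 * (1 + m)) = 4 * 2 ^ nrRealPlaces K * (2 ^ m * 2 ^ m) := by
          rw [pow_add, mul_add, two_mul m, pow_add, pow_add]; norm_num; ring
        rw [h6, pow_add, pow_one, pow_add Real.pi, pow_one]
        calc (2⁻¹ : ℝ) * 2⁻¹ ^ m * sD K * (4 * 2 ^ nrRealPlaces K * (2 ^ m * 2 ^ m))
            = (2⁻¹ ^ m * 2 ^ m) * (2 * 2 ^ nrRealPlaces K * 2 ^ m * sD K) := by ring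
          _ = 2 * 2 ^ nrRealPlaces K * 2 ^ m * sD K := by rw [h5, one_mul]
          _ ≤ 2 * 2 ^ nrRealPlaces K * Real.pi ^ m * sD K := by gcongr
          _ < 8 * 2 ^ nrRealPlaces K * Real.pi ^ m * sD K := by
              have : 0 < 2 ^ nrRealPlaces K * Real.pi ^ m * sD K := by positivity
              nlinarith
          _ = 4 / Real.pi * (2 ^ nrRealPlaces K * (Real.pi * Real.pi ^ m)) * (2 * sD K) := by
              field_simp
              ring
      rw [ENNReal.ofReal_mul (by positivity [C0_pos K]), ← hpi, ← hB, ENNReal.ofReal_coe_nnreal,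
        ENNReal.ofReal_coe_nnreal] at h3
      exact h3
    obtain ⟨a, ha, ha2⟩ := exists_primitive_element_lt_of_isComplex K hw h1
    refine ⟨a, ha, fun w => (ha2 w).le.trans ?_⟩
    rw [hB, Real.sqrt_le_left (by positivity)]
    nlinarith

variable {K}

/-- weights -/
structure IsWeight (t : InfinitePlace K → ℝ) : Prop where
  pos : ∀ w, 0 < t w
  prod : ∏ w, t w ^ mult w = 1

/-- Minkowski's theorem for weighted boxes -/
theorem exists_small (J : (Ideal (𝓞 K))⁰) {t : InfinitePlace K → ℝ} (ht : IsWeight t) :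
    ∃ v : 𝓞 K, v ∈ (J : Ideal (𝓞 K)) ∧ v ≠ 0 ∧ ∀ w : InfinitePlace K, w v * t w ≤
      (2 * sD K * Ideal.absNorm (J : Ideal (𝓞 K))) ^ ((1 : ℝ) / finrank ℚ K) := by
  have hs := sD_pos K
  have hN : (0 : ℝ) < Ideal.absNorm (J : Ideal (𝓞 K)) := by
    have : Ideal.absNorm (J : Ideal (𝓞 K)) ≠ 0 := by
      rw [Ne, Ideal.absNorm_eq_zero_iff]; exact nonZeroDivisors.coe_ne_zero J
    exact_mod_cast Nat.pos_of_ne_zero this
  have hd : (0 : ℝ) < finrank ℚ K := by exact_mod_cast finrank_pos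
  set δ : ℝ := (2 * sD K * Ideal.absNorm (J : Ideal (𝓞 K))) ^ ((1 : ℝ) / finrank ℚ K) with hδ
  have hδ0 : 0 < δ := by positivity
  let f : InfinitePlace K → ℝ≥0 := fun w => ⟨δ / t w, (div_pos hδ0 (ht.pos w)).le⟩
  have hf : ∀ w, (f w : ℝ) = δ / t w := fun w => rfl
  have hpow : δ ^ (finrank ℚ K) = 2 * sD K * Ideal.absNorm (J : Ideal (𝓞 K)) := by
    rw [hδ, ← Real.rpow_natCast, ← Real.rpow_mul (by positivity), one_div_mul_cancel hd.ne',
      Real.rpow_one]
  have hprod : ((∏ w, (f w) ^ mult w : ℝ≥0) : ℝ) = δ ^ finrank ℚ K := by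
    push_cast
    simp_rw [hf, div_pow]
    rw [Finset.prod_div_distrib, ht.prod, div_one, Finset.prod_pow_eq_pow_sum, sum_mult_eq]
  have hvol : volume (convexBodyLT K f) = ENNReal.ofReal (C0 K * δ ^ finrank ℚ K) := by
    rw [convexBodyLT_volume, ← hprod, ENNReal.ofReal_mul (C0_pos K).le, ENNReal.ofReal_coe_nnreal,
      coe_factor']
  have h1 : minkowskiBound K (FractionalIdeal.mk0 K J) < volume (convexBodyLT K f) := by
    rw [hvol]
    refine minkowskiBound_lt K _ ?_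
    rw [hpow, FractionalIdeal.coe_mk0, FractionalIdeal.coeIdeal_absNorm]
    exact le_of_eq (by simp)
  obtain ⟨a, ha, ha0, ha1⟩ := exists_ne_zero_mem_ideal_lt K (FractionalIdeal.mk0 K J) h1
  rw [FractionalIdeal.coe_mk0, FractionalIdeal.mem_coeIdeal] at ha
  obtain ⟨v, hv, rfl⟩ := ha
  refine ⟨v, hv, ?_, fun w => ?_⟩
  · rintro rfl; simp at ha0
  · have := (ha1 w).le
    rw [hf, le_div_iff₀ (ht.pos w)] at this
    exact this

theorem span_theta {θ : 𝓞 K} (hθ : ℚ⟮(θ : K)⟯ = ⊤) {v : K} (hv : v ≠ 0) (x : mixedSpace K) :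
    ∃ c : Fin (finrank ℚ K) → ℝ, ∑ i, c i • mixedEmbedding K (v * (θ : K) ^ (i : ℕ)) = x := by
  have hdeg : (minpoly ℚ (θ : K)).natDegree = finrank ℚ K := by
    rw [← IntermediateField.adjoin.finrank (Algebra.IsIntegral.isIntegral _), hθ,
      IntermediateField.finrank_top']
  have hli : LinearIndependent ℚ (fun i : Fin (finrank ℚ K) => (θ : K) ^ (i : ℕ)) := by
    have := linearIndependent_pow (K := ℚ) (θ : K)
    rw [hdeg] at this
    exact this
  have hspan : Submodule.span ℚ (Set.range fun i : Fin (finrank ℚ K) => (θ : K) ^ (i : ℕ)) = ⊤ :=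
    hli.span_eq_top_of_card_eq_finrank' (by simp)
  have key : ∀ z : K, mixedEmbedding K z ∈ Submodule.span ℝ
      (Set.range fun i : Fin (finrank ℚ K) => mixedEmbedding K (v * (θ : K) ^ (i : ℕ))) := by
    intro z
    have hz : z / v ∈ Submodule.span ℚ
        (Set.range fun i : Fin (finrank ℚ K) => (θ : K) ^ (i : ℕ)) := by
      rw [hspan]; trivial
    rw [Submodule.mem_span_range_iff_exists_fun] at hz
    obtain ⟨c, hc⟩ := hz
    have h1 : z = ∑ i, c i • (v * (θ : K) ^ (i : ℕ)) := by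
      calc z = v * (z / v) := by field_simp
        _ = _ := by
          rw [← hc, Finset.mul_sum]
          refine Finset.sum_congr rfl fun i _ => ?_
          rw [mul_smul_comm]
    rw [h1, map_sum]
    refine Submodule.sum_mem _ fun i _ => ?_
    have h2 : mixedEmbedding K (c i • (v * (θ : K) ^ (i : ℕ))) =
        ((c i : ℚ) : ℝ) • mixedEmbedding K (v * (θ : K) ^ (i : ℕ)) := by
      rw [map_rat_smul (mixedEmbedding K)]
      exact (algebraMap_smul ℝ (c i) (mixedEmbedding K (v * (θ : K) ^ (i : ℕ)))).symm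
    rw [h2]
    exact Submodule.smul_mem _ _ (Submodule.subset_span ⟨i, rfl⟩)
  have htop : Submodule.span ℝ
      (Set.range fun i : Fin (finrank ℚ K) => mixedEmbedding K (v * (θ : K) ^ (i : ℕ))) = ⊤ := by
    rw [eq_top_iff, ← (latticeBasis K).span_eq, Submodule.span_le]
    rintro _ ⟨i, rfl⟩
    rw [latticeBasis_apply]
    exact key _
  have hx : x ∈ Submodule.span ℝ
      (Set.range fun i : Fin (finrank ℚ K) => mixedEmbedding K (v * (θ : K) ^ (i : ℕ))) := by
    rw [htop]; trivial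
  rwa [Submodule.mem_span_range_iff_exists_fun] at hx

/-- the covering radius -/
noncomputable def rho (J : (Ideal (𝓞 K))⁰) : ℝ :=
  finrank ℚ K * (3 * sD K) ^ (finrank ℚ K - 1) *
    (2 * sD K * Ideal.absNorm (J : Ideal (𝓞 K))) ^ ((1 : ℝ) / finrank ℚ K)

omit [NumberField K] in
theorem normAtPlace_sum_le {ι : Type*} (s : Finset ι) (f : ι → mixedSpace K)
    (w : InfinitePlace K) : normAtPlace w (∑ i ∈ s, f i) ≤ ∑ i ∈ s, normAtPlace w (f i) := by
  induction s using Finset.induction_on with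
  | empty => simp
  | insert a s ha ih =>
    rw [Finset.sum_insert ha, Finset.sum_insert ha]
    exact (normAtPlace_add_le w _ _).trans (by gcongr)

theorem mem_idealLattice_of_mem {J : (Ideal (𝓞 K))⁰} {v : 𝓞 K} (hv : v ∈ (J : Ideal (𝓞 K))) :
    mixedEmbedding K v ∈ idealLattice K (FractionalIdeal.mk0 K J) := by
  rw [mem_idealLattice]
  exact ⟨v, by
    rw [FractionalIdeal.coe_mk0]
    exact FractionalIdeal.mem_coeIdeal_of_mem _ hv, rfl⟩

/-- **covering**: every point is near a lattice point in the weighted norm -/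
theorem covering (J : (Ideal (𝓞 K))⁰) {t : InfinitePlace K → ℝ} (ht : IsWeight t)
    (x : mixedSpace K) : ∃ l ∈ idealLattice K (FractionalIdeal.mk0 K J),
      x - l ∈ {y : mixedSpace K | ∀ w, normAtPlace w y * t w ≤ rho J} := by
  obtain ⟨θ, hθ, hθ'⟩ := exists_theta K
  obtain ⟨v, hv, hv0, hvt⟩ := exists_small J ht
  obtain ⟨c, hc⟩ := span_theta hθ (v := (v : K)) (by simpa using hv0) x
  set δ : ℝ := (2 * sD K * Ideal.absNorm (J : Ideal (𝓞 K))) ^ ((1 : ℝ) / finrank ℚ K) with hδ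
  refine ⟨∑ i, (round (c i)) • mixedEmbedding K ((v : K) * (θ : K) ^ (i : ℕ)), ?_, ?_⟩
  · refine Submodule.sum_mem _ fun i _ => Submodule.smul_mem _ _ ?_
    have h1 : v * θ ^ (i : ℕ) ∈ (J : Ideal (𝓞 K)) := Ideal.mul_mem_right _ _ hv
    have := mem_idealLattice_of_mem h1
    simpa using this
  · intro w
    have h2 : x - ∑ i, (round (c i)) • mixedEmbedding K ((v : K) * (θ : K) ^ (i : ℕ)) =
        ∑ i, (c i - round (c i)) • mixedEmbedding K ((v : K) * (θ : K) ^ (i : ℕ)) := by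
      rw [← hc, ← Finset.sum_sub_distrib]
      refine Finset.sum_congr rfl fun i _ => ?_
      rw [sub_smul, Int.cast_smul_eq_zsmul]
    rw [h2]
    have h3 : ∀ i : Fin (finrank ℚ K), normAtPlace w ((c i - round (c i)) •
        mixedEmbedding K ((v : K) * (θ : K) ^ (i : ℕ))) * t w ≤
        (3 * sD K) ^ (finrank ℚ K - 1) * δ := by
      intro i
      rw [normAtPlace_smul, normAtPlace_apply, map_mul, map_pow]
      have h4 : |c i - round (c i)| ≤ 1 := (abs_sub_round (c i)).trans (by norm_num)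
      have h5 : (w (θ : K)) ^ (i : ℕ) ≤ (3 * sD K) ^ (finrank ℚ K - 1) := by
        have hi : (i : ℕ) ≤ finrank ℚ K - 1 := by have := i.2; omega
        calc (w (θ : K)) ^ (i : ℕ) ≤ (3 * sD K) ^ (i : ℕ) :=
              pow_le_pow_left₀ (apply_nonneg w _) (hθ' w) _
          _ ≤ _ := pow_le_pow_right₀ (by linarith [one_le_sD K]) hi
      have h6 : 0 ≤ w (v : K) * t w := mul_nonneg (apply_nonneg w _) (ht.pos w).le
      calc |c i - round (c i)| * (w (v : K) * (w (θ : K)) ^ (i : ℕ)) * t w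
          = |c i - round (c i)| * ((w (θ : K)) ^ (i : ℕ) * (w (v : K) * t w)) := by ring
        _ ≤ 1 * ((3 * sD K) ^ (finrank ℚ K - 1) * δ) := by
            have h7 : 0 ≤ (w (θ : K)) ^ (i : ℕ) := pow_nonneg (apply_nonneg w _) _
            gcongr
            · exact pow_nonneg (by linarith [one_le_sD K]) _
            · exact hvt w
        _ = _ := one_mul _
    calc normAtPlace w (∑ i, (c i - round (c i)) •
          mixedEmbedding K ((v : K) * (θ : K) ^ (i : ℕ))) * t w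
        ≤ (∑ i, normAtPlace w ((c i - round (c i)) •
          mixedEmbedding K ((v : K) * (θ : K) ^ (i : ℕ)))) * t w :=
          mul_le_mul_of_nonneg_right (normAtPlace_sum_le _ _ w) (ht.pos w).le
      _ = ∑ i, normAtPlace w ((c i - round (c i)) •
          mixedEmbedding K ((v : K) * (θ : K) ^ (i : ℕ))) * t w := by rw [Finset.sum_mul]
      _ ≤ ∑ _i : Fin (finrank ℚ K), (3 * sD K) ^ (finrank ℚ K - 1) * δ :=
          Finset.sum_le_sum fun i _ => h3 i
      _ = rho J := by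
          rw [Finset.sum_const, Finset.card_univ, Fintype.card_fin, nsmul_eq_mul, rho]
          ring

/-- the weighted box -/
def bx (X : ℝ) (t : InfinitePlace K → ℝ) : Set (mixedSpace K) :=
  {x | ∀ w, normAtPlace w x * t w ≤ X}

/-- the open weighted box -/
def obx (X : ℝ) (t : InfinitePlace K → ℝ) : Set (mixedSpace K) :=
  {x | ∀ w, normAtPlace w x * t w < X}


theorem measurableSet_obx (X : ℝ) (t : InfinitePlace K → ℝ) : MeasurableSet (obx X t) := by
  have : obx X t = ⋂ w, {x : mixedSpace K | normAtPlace w x * t w < X} := by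
    ext; simp [obx]
  rw [this]
  refine MeasurableSet.iInter fun w => ?_
  exact (isOpen_lt (by fun_prop) continuous_const).measurableSet

theorem volume_obx {X : ℝ} (hX : 0 ≤ X) {t : InfinitePlace K → ℝ} (ht : IsWeight t) :
    volume (obx X t) = ENNReal.ofReal (C0 K * X ^ finrank ℚ K) := by
  let f : InfinitePlace K → ℝ≥0 := fun w => ⟨X / t w, div_nonneg hX (ht.pos w).le⟩
  have hf : ∀ w, (f w : ℝ) = X / t w := fun w => rfl
  have hset : obx X t = convexBodyLT K f := by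
    ext x
    simp only [obx, Set.mem_ofPred_eq, convexBodyLT, Set.mem_prod, Set.mem_pi, Set.mem_univ,
      forall_true_left, mem_ball_zero_iff]
    constructor
    · intro h
      refine ⟨fun w => ?_, fun w => ?_⟩
      · have := h w.1
        rw [normAtPlace_apply_of_isReal w.2, ← lt_div_iff₀ (ht.pos _)] at this
        exact this
      · have := h w.1
        rw [normAtPlace_apply_of_isComplex w.2, ← lt_div_iff₀ (ht.pos _)] at this
        exact this
    · rintro ⟨h1, h2⟩ w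
      rw [← lt_div_iff₀ (ht.pos _)]
      rcases isReal_or_isComplex w with hw | hw
      · rw [normAtPlace_apply_of_isReal hw]; exact h1 ⟨w, hw⟩
      · rw [normAtPlace_apply_of_isComplex hw]; exact h2 ⟨w, hw⟩
  have hprod : ((∏ w, (f w) ^ mult w : ℝ≥0) : ℝ) = X ^ finrank ℚ K := by
    push_cast
    simp_rw [hf, div_pow]
    rw [Finset.prod_div_distrib, ht.prod, div_one, Finset.prod_pow_eq_pow_sum, sum_mult_eq]
  rw [hset, convexBodyLT_volume, ← hprod, ENNReal.ofReal_mul (C0_pos K).le,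
    ENNReal.ofReal_coe_nnreal, coe_factor']

theorem rho_pos (J : (Ideal (𝓞 K))⁰) : 0 < rho J := by
  have hN : (0 : ℝ) < Ideal.absNorm (J : Ideal (𝓞 K)) := by
    have : Ideal.absNorm (J : Ideal (𝓞 K)) ≠ 0 := by
      rw [Ne, Ideal.absNorm_eq_zero_iff]; exact nonZeroDivisors.coe_ne_zero J
    exact_mod_cast Nat.pos_of_ne_zero this
  have hd : (0 : ℝ) < finrank ℚ K := by exact_mod_cast finrank_pos
  have := sD_pos K
  unfold rho
  positivity

/-- covolume of an integral ideal -/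
noncomputable def V (J : (Ideal (𝓞 K))⁰) : ℝ :=
  ZLattice.covolume (idealLattice K (FractionalIdeal.mk0 K J))

theorem V_eq (J : (Ideal (𝓞 K))⁰) :
    V J = Ideal.absNorm (J : Ideal (𝓞 K)) * (2⁻¹ ^ nrComplexPlaces K) * sD K := by
  rw [V, covolume_eq, FractionalIdeal.coe_mk0, FractionalIdeal.coeIdeal_absNorm]
  simp

/-- **upper bound** for the number of points of a translate of the ideal in a weighted box -/
theorem cnt_le (J : (Ideal (𝓞 K))⁰) {t : InfinitePlace K → ℝ} (ht : IsWeight t) {X : ℝ}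
    (hX : 0 ≤ X) (z : mixedSpace K) :
    ENNReal.ofReal (V J) * cnt (idealLattice K (FractionalIdeal.mk0 K J)) z (bx X t) ≤
      ENNReal.ofReal (C0 K * (X + 2 * rho J) ^ finrank ℚ K) := by
  have hr := rho_pos J
  rw [← volume_obx (by linarith) ht]
  refine covolume_mul_cnt_le volume (idealLattice K (FractionalIdeal.mk0 K J))
    (fun x => covering J ht x) (measurableSet_obx _ _) ?_ z
  intro s hs y hy w
  have h1 := hs w
  have h2 := hy w
  calc normAtPlace w (s + y) * t w ≤ (normAtPlace w s + normAtPlace w y) * t w :=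
        mul_le_mul_of_nonneg_right (normAtPlace_add_le w s y) (ht.pos w).le
    _ ≤ X + rho J := by rw [add_mul]; linarith
    _ < _ := by linarith

/-- **lower bound** for the number of points of a translate of the ideal in a weighted box -/
theorem le_cnt (J : (Ideal (𝓞 K))⁰) {t : InfinitePlace K → ℝ} (ht : IsWeight t) {X : ℝ}
    (hX : rho J ≤ X) (z : mixedSpace K) :
    ENNReal.ofReal (C0 K * (X - rho J) ^ finrank ℚ K) ≤
    ENNReal.ofReal (V J) * cnt (idealLattice K (FractionalIdeal.mk0 K J)) z (bx X t) := by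
  rw [← volume_obx (by linarith) ht]
  refine measure_le_covolume_mul_cnt volume (idealLattice K (FractionalIdeal.mk0 K J))
    (fun x => covering J ht x) (measurableSet_obx _ _) ?_ z
  intro s hs y hy w
  have h1 := hs w
  have h2 := hy w
  calc normAtPlace w (s - y) * t w ≤ (normAtPlace w s + normAtPlace w y) * t w := by
        refine mul_le_mul_of_nonneg_right ?_ (ht.pos w).le
        rw [sub_eq_add_neg, ← normAtPlace_neg w y]
        exact normAtPlace_add_le w s (-y)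
    _ ≤ X := by rw [add_mul]; linarith

end Crest.Agent.R014.Cnt4_726
end

-- ▼ part R014/Cnt6_726
section

/-!
# Two sided bounds for the Riesz mean over one ideal class, extended nonnegative reals
-/

namespace Crest.Agent.R014.Cnt6_726

open MeasureTheory NumberField NumberField.Units NumberField.Units.dirichletUnitTheorem
open NumberField.mixedEmbedding NumberField.InfinitePlace Module
open scoped ENNReal nonZeroDivisors NNReal
open scoped Classical
open Crest.Agent.R014.Cnt1_726 Crest.Agent.R014.Cnt2_726 Crest.Agent.R014.Cnt3_726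
open Crest.Agent.R014.Cnt4_726 Crest.Agent.R014.Cnt5_726

variable {K : Type*} [Field K] [NumberField K]

theorem isWeight_tw (h : logSpace K) : IsWeight (tw h) := ⟨tw_pos h, prod_tw h⟩

/-- elements of `J` as lattice points -/
noncomputable def embL (J : (Ideal (𝓞 K))⁰) :
    (J : Ideal (𝓞 K)) ≃ idealLattice K (FractionalIdeal.mk0 K J) :=
  Equiv.ofBijective (fun m => ⟨mixedEmbedding K ((m : 𝓞 K) : K), mem_idealLattice_of_mem m.2⟩) <| by
    constructor
    · intro m m' h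
      have h1 := congrArg Subtype.val h
      have h2 := (mixedEmbedding_injective K) h1
      exact Subtype.ext (RingOfIntegers.ext h2)
    · rintro ⟨x, hx⟩
      rw [mem_idealLattice] at hx
      obtain ⟨y, hy, rfl⟩ := hx
      rw [FractionalIdeal.coe_mk0] at hy
      obtain ⟨v, hv, rfl⟩ := (FractionalIdeal.mem_coeIdeal _).1 hy
      exact ⟨⟨v, hv⟩, rfl⟩

theorem coe_embL (J : (Ideal (𝓞 K))⁰) (m : (J : Ideal (𝓞 K))) :
    (embL J m : mixedSpace K) = mixedEmbedding K ((m : 𝓞 K) : K) := rfl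

section Fix

variable (J : (Ideal (𝓞 K))⁰) (q : ℕ) [NeZero q]

/-- the base point of a coset -/
noncomputable def zk (k : Ix K → ZMod q) : mixedSpace K :=
  (q : ℝ)⁻¹ • mixedEmbedding K ((rep J q k : 𝓞 K) : K)

theorem mem_bx_iff (k : Ix K → ZMod q) (m : (J : Ideal (𝓞 K))) (X : ℝ) (t : InfinitePlace K → ℝ) :
    mixedEmbedding K (((rep J q k + (q : ℤ) • m : (J : Ideal (𝓞 K))) : 𝓞 K) : K) ∈ bx X t ↔
      zk J q k + (embL J m : mixedSpace K) ∈ bx (X / q) t := by
  have hq : (0 : ℝ) < q := by exact_mod_cast Nat.pos_of_ne_zero (NeZero.ne q)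
  have h1 : mixedEmbedding K (((rep J q k + (q : ℤ) • m : (J : Ideal (𝓞 K))) : 𝓞 K) : K) =
      (q : ℝ) • (zk J q k + (embL J m : mixedSpace K)) := by
    rw [zk, coe_embL, smul_add, smul_smul, mul_inv_cancel₀ hq.ne', one_smul]
    have h2 : (((rep J q k + (q : ℤ) • m : (J : Ideal (𝓞 K))) : 𝓞 K) : K) =
        ((rep J q k : 𝓞 K) : K) + (q : K) * ((m : 𝓞 K) : K) := by
      push_cast
      rw [zsmul_eq_mul]
      push_cast
      rfl
    rw [h2, map_add, map_mul, map_natCast]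
    congr 1
  rw [h1]
  refine forall_congr' fun w => ?_
  rw [normAtPlace_smul, abs_of_pos hq, mul_assoc, le_div_iff₀ hq, mul_comm]

/-- sum over all elements of `J` in a weighted box -/
noncomputable def tot (f : ZMod q → ℝ≥0∞) (X : ℝ) (t : InfinitePlace K → ℝ) : ℝ≥0∞ :=
  ∑' v : (J : Ideal (𝓞 K)), f (nuq J q (cq J q v)) *
    (bx X t).indicator 1 (mixedEmbedding K ((v : 𝓞 K) : K))

theorem tot_eq (f : ZMod q → ℝ≥0∞) (X : ℝ) (t : InfinitePlace K → ℝ) :
    tot J q f X t = ∑ k : Ix K → ZMod q, f (nuq J q k) *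
      cnt (idealLattice K (FractionalIdeal.mk0 K J)) (zk J q k) (bx (X / q) t) := by
  rw [tot, ← (split J q).tsum_eq]
  have h1 : ∀ p : (Ix K → ZMod q) × (J : Ideal (𝓞 K)),
      f (nuq J q (cq J q (split J q p))) *
        (bx X t).indicator 1 (mixedEmbedding K ((split J q p : 𝓞 K) : K)) =
      (fun (k : Ix K → ZMod q) (m : (J : Ideal (𝓞 K))) => f (nuq J q k) *
        (bx (X / q) t).indicator 1 (zk J q k + (embL J m : mixedSpace K))) p.1 p.2 := by
    rintro ⟨k, m⟩
    simp only [split_apply]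
    rw [cq_rep_add]
    congr 1
    by_cases h : mixedEmbedding K (((rep J q k + (q : ℤ) • m : (J : Ideal (𝓞 K))) : 𝓞 K) : K) ∈ bx X t
    · rw [Set.indicator_of_mem h, Set.indicator_of_mem ((mem_bx_iff J q k m X t).1 h)]; rfl
    · rw [Set.indicator_of_notMem h,
        Set.indicator_of_notMem (fun h' => h ((mem_bx_iff J q k m X t).2 h'))]
  rw [tsum_congr h1, ENNReal.tsum_prod (f := fun (k : Ix K → ZMod q) (m : (J : Ideal (𝓞 K))) =>
    f (nuq J q k) * (bx (X / q) t).indicator 1 (zk J q k + (embL J m : mixedSpace K))),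
    tsum_fintype]
  refine Finset.sum_congr rfl fun k _ => ?_
  rw [ENNReal.tsum_mul_left, cnt, ← (embL J).tsum_eq]

/-- the sum of the values of `f` at the norm form over all residues -/
noncomputable def sumf (f : ZMod q → ℝ≥0∞) : ℝ≥0∞ := ∑ k : Ix K → ZMod q, f (nuq J q k)

theorem tot_le (f : ZMod q → ℝ≥0∞) {X : ℝ} (hX : 0 ≤ X) {t : InfinitePlace K → ℝ}
    (ht : IsWeight t) :
    ENNReal.ofReal (V J) * tot J q f X t ≤
      sumf J q f * ENNReal.ofReal (C0 K * (X / q + 2 * rho J) ^ finrank ℚ K) := by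
  rw [tot_eq, Finset.mul_sum, sumf, Finset.sum_mul]
  refine Finset.sum_le_sum fun k _ => ?_
  calc ENNReal.ofReal (V J) * (f (nuq J q k) *
        cnt (idealLattice K (FractionalIdeal.mk0 K J)) (zk J q k) (bx (X / q) t))
      = f (nuq J q k) * (ENNReal.ofReal (V J) *
        cnt (idealLattice K (FractionalIdeal.mk0 K J)) (zk J q k) (bx (X / q) t)) := by ring
    _ ≤ _ := by gcongr; exact cnt_le J ht (by positivity) _

theorem le_tot (f : ZMod q → ℝ≥0∞) {X : ℝ} (hX : rho J ≤ X / q) {t : InfinitePlace K → ℝ}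
    (ht : IsWeight t) :
    sumf J q f * ENNReal.ofReal (C0 K * (X / q - rho J) ^ finrank ℚ K) ≤
    ENNReal.ofReal (V J) * tot J q f X t := by
  rw [tot_eq, Finset.mul_sum, sumf, Finset.sum_mul]
  refine Finset.sum_le_sum fun k _ => ?_
  calc f (nuq J q k) * ENNReal.ofReal (C0 K * (X / q - rho J) ^ finrank ℚ K)
      ≤ f (nuq J q k) * (ENNReal.ofReal (V J) *
        cnt (idealLattice K (FractionalIdeal.mk0 K J)) (zk J q k) (bx (X / q) t)) := by
        gcongr; exact le_cnt J ht hX _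
    _ = _ := by ring

/-- the integrand of the unfolding -/
noncomputable def Sh (f : ZMod q → ℝ≥0∞) (X : ℝ) (h : logSpace K) : ℝ≥0∞ :=
  ∑' v : nzI J, f (((Algebra.norm ℤ (v : 𝓞 K)).natAbs / Ideal.absNorm (J : Ideal (𝓞 K)) : ℕ) :
    ZMod q) * (sA X ((v : 𝓞 K) : K)).indicator 1 h

omit [NeZero q] in
theorem tot_eq_add {f : ZMod q → ℝ≥0∞} (hf : ∀ z, f (-z) = f z) {X : ℝ} (hX : 0 ≤ X)
    (h : logSpace K) : tot J q f X (tw h) = f (nuq J q (cq J q 0)) + Sh J q f X h := by
  rw [tot, ENNReal.tsum_eq_add_tsum_ite (0 : (J : Ideal (𝓞 K)))]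
  congr 1
  · have : mixedEmbedding K ((((0 : (J : Ideal (𝓞 K))) : 𝓞 K)) : K) ∈ bx X (tw h) := by
      intro w
      simpa using hX
    rw [Set.indicator_of_mem this]
    simp
  · let e : nzI J → (J : Ideal (𝓞 K)) := fun v => ⟨v.1, v.2.1⟩
    have he : Function.Injective e := by
      intro v v' hv
      exact Subtype.ext (congrArg (fun z : (J : Ideal (𝓞 K)) => (z : 𝓞 K)) hv)
    have hsup : Function.support (fun v : (J : Ideal (𝓞 K)) => if v = 0 then (0 : ℝ≥0∞) else
        f (nuq J q (cq J q v)) *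
          (bx X (tw h)).indicator 1 (mixedEmbedding K ((v : 𝓞 K) : K))) ⊆ Set.range e := by
      intro v hv
      have hv0 : v ≠ 0 := by
        rintro rfl
        simp at hv
      exact ⟨⟨v.1, v.2, fun h0 => hv0 (Subtype.ext h0)⟩, rfl⟩
    have h5 := he.tsum_eq hsup
    refine Eq.trans (tsum_congr fun v => ?_) (h5.symm.trans ?_)
    · split_ifs <;> rfl
    rw [Sh]
    refine tsum_congr fun v => ?_
    have hv0 : e v ≠ 0 := fun h0 => v.2.2 (congrArg Subtype.val h0)
    rw [if_neg hv0, ← even_apply J hf (e v)]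
    congr 1
    have hiff : mixedEmbedding K (((e v : (J : Ideal (𝓞 K))) : 𝓞 K) : K) ∈ bx X (tw h) ↔
        h ∈ sA X ((v : 𝓞 K) : K) := by
      refine forall_congr' fun w => ?_
      rw [normAtPlace_apply]
    by_cases h1 : h ∈ sA X ((v : 𝓞 K) : K)
    · rw [Set.indicator_of_mem h1, Set.indicator_of_mem (hiff.2 h1)]; rfl
    · rw [Set.indicator_of_notMem h1, Set.indicator_of_notMem (fun h2 => h1 (hiff.1 h2))]

end Fix

/-! ### integration over the unit torus -/

theorem exists_fd (K : Type*) [Field K] [NumberField K] : ∃ F : Set (logSpace K),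
    IsAddFundamentalDomain (unitLattice K) F volume ∧
      volume F = ENNReal.ofReal (regulator K) := by
  let b := basisUnitLattice K
  refine ⟨ZSpan.fundamentalDomain (b.ofZLatticeBasis ℝ), ZLattice.isAddFundamentalDomain b volume,
    ?_⟩
  have h1 := ZLattice.covolume_eq_measure_fundamentalDomain (unitLattice K) volume
    (ZLattice.isAddFundamentalDomain b volume)
  have hfin : volume (ZSpan.fundamentalDomain (b.ofZLatticeBasis ℝ)) ≠ ⊤ :=
    ((ZSpan.fundamentalDomain_isBounded _).measure_lt_top).ne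
  rw [regulator, h1, Measure.real, ENNReal.ofReal_toReal hfin]

/-- the Riesz mean over a class in extended nonnegative reals; `Y` is `log x` -/
noncomputable def rzE (c : ClassGroup (𝓞 K)) {q : ℕ} (f : ZMod q → ℝ≥0∞) (x : ℝ) : ℝ≥0∞ :=
  ∑' a : clsI K c, f (Ideal.absNorm (a.1 : Ideal (𝓞 K)) : ZMod q) *
    ENNReal.ofReal (wt (rank K) (Real.log (x / Ideal.absNorm (a.1 : Ideal (𝓞 K)))))

/-- the side of the box -/
noncomputable def side (J : (Ideal (𝓞 K))⁰) (x : ℝ) : ℝ :=
  (x * Ideal.absNorm (J : Ideal (𝓞 K))) ^ ((1 : ℝ) / finrank ℚ K)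

theorem side_pow (J : (Ideal (𝓞 K))⁰) {x : ℝ} (hx : 0 < x) :
    side J x ^ finrank ℚ K = x * Ideal.absNorm (J : Ideal (𝓞 K)) := by
  have hN : (0 : ℝ) < Ideal.absNorm (J : Ideal (𝓞 K)) := by exact_mod_cast absNorm_pos J
  have hd : (0 : ℝ) < finrank ℚ K := by exact_mod_cast finrank_pos
  rw [side, ← Real.rpow_natCast, ← Real.rpow_mul (by positivity), one_div_mul_cancel hd.ne',
    Real.rpow_one]

theorem side_pos (J : (Ideal (𝓞 K))⁰) {x : ℝ} (hx : 0 < x) : 0 < side J x := by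
  have hN : (0 : ℝ) < Ideal.absNorm (J : Ideal (𝓞 K)) := by exact_mod_cast absNorm_pos J
  unfold side; positivity

theorem lintegral_Sh {c : ClassGroup (𝓞 K)} {J : (Ideal (𝓞 K))⁰} (hJ : ClassGroup.mk0 J = c⁻¹)
    {F : Set (logSpace K)} (hF : IsAddFundamentalDomain (unitLattice K) F volume) (q : ℕ)
    (f : ZMod q → ℝ≥0∞) {x : ℝ} (hx : 0 < x) :
    ∫⁻ h in F, Sh J q f (side J x) h = torsionOrder K * rzE c f x := by
  have hN : (0 : ℝ) < Ideal.absNorm (J : Ideal (𝓞 K)) := by exact_mod_cast absNorm_pos J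
  have := unfold_eq hJ hF (side_pos J hx) (fun n => f (n : ZMod q))
  unfold Sh
  rw [this, rzE]
  congr 1
  refine tsum_congr fun a => ?_
  congr 3
  have hNa : (0 : ℝ) < Ideal.absNorm (a.1 : Ideal (𝓞 K)) := by exact_mod_cast absNorm_pos a.1
  rw [← Real.log_pow, side_pow J hx, ← Real.log_div (by positivity) (by positivity)]
  congr 1
  field_simp

/-- **upper bound**, extended form -/
theorem rzE_le {c : ClassGroup (𝓞 K)} {J : (Ideal (𝓞 K))⁰} (hJ : ClassGroup.mk0 J = c⁻¹)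
    (q : ℕ) [NeZero q] {f : ZMod q → ℝ≥0∞} (hf : ∀ z, f (-z) = f z) {x : ℝ} (hx : 0 < x) :
    ENNReal.ofReal (V J) * (torsionOrder K * rzE c f x) ≤
      ENNReal.ofReal (regulator K) * (sumf J q f *
        ENNReal.ofReal (C0 K * (side J x / q + 2 * rho J) ^ finrank ℚ K)) := by
  obtain ⟨F, hF, hF2⟩ := exists_fd K
  rw [← lintegral_Sh hJ hF q f hx]
  calc ENNReal.ofReal (V J) * ∫⁻ h in F, Sh J q f (side J x) h
      ≤ ∫⁻ h in F, ENNReal.ofReal (V J) * Sh J q f (side J x) h := lintegral_const_mul_le _ _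
    _ ≤ ∫⁻ _h in F, sumf J q f *
        ENNReal.ofReal (C0 K * (side J x / q + 2 * rho J) ^ finrank ℚ K) := by
        refine lintegral_mono fun h => ?_
        refine le_trans ?_ (tot_le J q f (side_pos J hx).le (isWeight_tw h))
        rw [tot_eq_add J q hf (side_pos J hx).le]
        gcongr
        exact le_add_self
    _ = _ := by rw [lintegral_const, Measure.restrict_apply_univ, hF2, mul_comm]

/-- **lower bound**, extended form -/
theorem le_rzE {c : ClassGroup (𝓞 K)} {J : (Ideal (𝓞 K))⁰} (hJ : ClassGroup.mk0 J = c⁻¹)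
    (q : ℕ) [NeZero q] {f : ZMod q → ℝ≥0∞} (hf : ∀ z, f (-z) = f z) (hf1 : ∀ z, f z ≤ 1) {x : ℝ}
    (hx : 0 < x) (hx2 : rho J ≤ side J x / q) :
    ENNReal.ofReal (regulator K) * (sumf J q f *
        ENNReal.ofReal (C0 K * (side J x / q - rho J) ^ finrank ℚ K)) ≤
    ENNReal.ofReal (V J) * (ENNReal.ofReal (regulator K) + torsionOrder K * rzE c f x) := by
  obtain ⟨F, hF, hF2⟩ := exists_fd K
  rw [← lintegral_Sh hJ hF q f hx]
  calc ENNReal.ofReal (regulator K) * (sumf J q f *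
        ENNReal.ofReal (C0 K * (side J x / q - rho J) ^ finrank ℚ K))
      = ∫⁻ _h in F, sumf J q f *
        ENNReal.ofReal (C0 K * (side J x / q - rho J) ^ finrank ℚ K) := by
        rw [lintegral_const, Measure.restrict_apply_univ, hF2, mul_comm]
    _ ≤ ∫⁻ h in F, ENNReal.ofReal (V J) * (1 + Sh J q f (side J x) h) := by
        refine lintegral_mono fun h => ?_
        refine (le_tot J q f hx2 (isWeight_tw h)).trans ?_
        rw [tot_eq_add J q hf (side_pos J hx).le]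
        gcongr
        exact hf1 _
    _ = ENNReal.ofReal (V J) * ∫⁻ h in F, (1 + Sh J q f (side J x) h) :=
        lintegral_const_mul' _ _ ENNReal.ofReal_ne_top
    _ = _ := by
        rw [lintegral_add_left measurable_const, lintegral_const, Measure.restrict_apply_univ, hF2,
          one_mul]

/-- Minkowski: the regulator is bounded by a short Riesz mean -/
theorem regulator_le_rzE (c : ClassGroup (𝓞 K)) :
    ENNReal.ofReal (regulator K) ≤
      torsionOrder K * rzE c (fun _ : ZMod 1 => 1) (2 * sD K) := by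
  obtain ⟨F, hF, hF2⟩ := exists_fd K
  obtain ⟨J, hJ⟩ := ClassGroup.mk0_surjective c⁻¹
  have hs := sD_pos K
  rw [← lintegral_Sh hJ hF 1 (fun _ : ZMod 1 => 1) (by positivity), ← hF2]
  calc volume F = ∫⁻ _h in F, 1 := by simp
    _ ≤ _ := by
      refine lintegral_mono fun h => ?_
      obtain ⟨v, hv, hv0, hvt⟩ := exists_small J (isWeight_tw h)
      refine le_trans ?_ (ENNReal.le_tsum (⟨v, hv, hv0⟩ : nzI J))
      have : h ∈ sA (side J (2 * sD K)) (v : K) := fun w => hvt w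
      simp [this]

end Crest.Agent.R014.Cnt6_726
end

-- ▼ part R014/Cnt7_726
section

/-!
# Riesz means over one ideal class: asymptotics with a uniform error term
-/

namespace Crest.Agent.R014.Cnt7_726

open MeasureTheory NumberField NumberField.Units NumberField.Units.dirichletUnitTheorem
open NumberField.mixedEmbedding NumberField.InfinitePlace Module
open scoped ENNReal nonZeroDivisors NNReal
open Crest.Agent.R014.Cnt1_726 Crest.Agent.R014.Cnt2_726 Crest.Agent.R014.Cnt3_726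
open Crest.Agent.R014.Cnt4_726 Crest.Agent.R014.Cnt5_726 Crest.Agent.R014.Cnt6_726

variable {K : Type*} [Field K] [NumberField K]

/-- finitely many ideals of the class have norm at most `x` -/
theorem finite_cls (c : ClassGroup (𝓞 K)) (x : ℝ) :
    {a : clsI K c | (Ideal.absNorm (a.1 : Ideal (𝓞 K)) : ℝ) ≤ x}.Finite := by
  have h := Ideal.finite_setOfPred_absNorm_le (S := 𝓞 K) ⌊x⌋₊
  refine Set.Finite.of_finite_image (f := fun a : clsI K c => (a.1 : Ideal (𝓞 K)))
    (h.subset ?_) ?_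
  · rintro _ ⟨a, ha, rfl⟩
    exact Nat.le_floor ha
  · intro a _ b _ hab
    exact Subtype.ext (Subtype.ext hab)

/-- the weight of an ideal -/
noncomputable def wi (c : ClassGroup (𝓞 K)) (x : ℝ) (a : clsI K c) : ℝ :=
  wt (rank K) (Real.log (x / Ideal.absNorm (a.1 : Ideal (𝓞 K))))

theorem wi_nonneg (c : ClassGroup (𝓞 K)) (x : ℝ) (a : clsI K c) : 0 ≤ wi c x a := wt_nonneg _ _

theorem wi_eq_zero {c : ClassGroup (𝓞 K)} {x : ℝ} (hx : 0 < x) {a : clsI K c}
    (ha : ¬ ((Ideal.absNorm (a.1 : Ideal (𝓞 K)) : ℝ) ≤ x)) : wi c x a = 0 := by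
  have hN : (0 : ℝ) < Ideal.absNorm (a.1 : Ideal (𝓞 K)) := by exact_mod_cast absNorm_pos a.1
  rw [wi, wt_of_neg]
  refine Real.log_neg (by positivity) ?_
  rw [div_lt_one hN]
  exact not_le.1 ha

/-- the finite set of the relevant ideals -/
noncomputable def Sx (c : ClassGroup (𝓞 K)) (x : ℝ) : Finset (clsI K c) := (finite_cls c x).toFinset

theorem wi_eq_zero' {c : ClassGroup (𝓞 K)} {x : ℝ} (hx : 0 < x) {a : clsI K c}
    (ha : a ∉ Sx c x) : wi c x a = 0 := by
  refine wi_eq_zero hx fun h => ha ?_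
  rw [Sx, Set.Finite.mem_toFinset]
  exact h

/-- **the Riesz mean** over the ideal class `c`, with coefficients `f (N a)` -/
noncomputable def riesz (c : ClassGroup (𝓞 K)) {q : ℕ} (f : ZMod q → ℂ) (x : ℝ) : ℂ :=
  ∑' a : clsI K c, f (Ideal.absNorm (a.1 : Ideal (𝓞 K)) : ZMod q) * (wi c x a : ℂ)

/-- the Riesz mean with real coefficients -/
noncomputable def rieszR (c : ClassGroup (𝓞 K)) {q : ℕ} (g : ZMod q → ℝ) (x : ℝ) : ℝ :=
  ∑' a : clsI K c, g (Ideal.absNorm (a.1 : Ideal (𝓞 K)) : ZMod q) * wi c x a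

theorem riesz_eq_sum (c : ClassGroup (𝓞 K)) {q : ℕ} (f : ZMod q → ℂ) {x : ℝ} (hx : 0 < x) :
    riesz c f x = ∑ a ∈ Sx c x, f (Ideal.absNorm (a.1 : Ideal (𝓞 K)) : ZMod q) * (wi c x a : ℂ) :=
  tsum_eq_sum fun a ha => by rw [wi_eq_zero' hx ha]; simp

theorem rieszR_eq_sum (c : ClassGroup (𝓞 K)) {q : ℕ} (g : ZMod q → ℝ) {x : ℝ} (hx : 0 < x) :
    rieszR c g x = ∑ a ∈ Sx c x, g (Ideal.absNorm (a.1 : Ideal (𝓞 K)) : ZMod q) * wi c x a :=
  tsum_eq_sum fun a ha => by rw [wi_eq_zero' hx ha]; simp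

theorem rzE_eq (c : ClassGroup (𝓞 K)) {q : ℕ} {g : ZMod q → ℝ} (hg : ∀ z, 0 ≤ g z) {x : ℝ}
    (hx : 0 < x) : rzE c (fun z => ENNReal.ofReal (g z)) x = ENNReal.ofReal (rieszR c g x) := by
  rw [rieszR_eq_sum c g hx, ENNReal.ofReal_sum_of_nonneg, rzE]
  · rw [tsum_eq_sum (s := Sx c x)]
    · refine Finset.sum_congr rfl fun a _ => ?_
      rw [ENNReal.ofReal_mul (hg _)]
      rfl
    · intro a ha
      have := wi_eq_zero' hx ha
      rw [wi] at this
      rw [this]; simp
  · intro a _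
    exact mul_nonneg (hg _) (wi_nonneg _ _ _)

theorem rieszR_nonneg (c : ClassGroup (𝓞 K)) {q : ℕ} {g : ZMod q → ℝ} (hg : ∀ z, 0 ≤ g z)
    (x : ℝ) : 0 ≤ rieszR c g x := tsum_nonneg fun _ => mul_nonneg (hg _) (wi_nonneg _ _ _)

/-! ### constants -/

variable (K) in
/-- normalised covering radius -/
noncomputable def rho1 : ℝ :=
  finrank ℚ K * (3 * sD K) ^ (finrank ℚ K - 1) * (2 * sD K) ^ ((1 : ℝ) / finrank ℚ K)

variable (K) in
theorem rho1_pos : 0 < rho1 K := by
  have hd : (0 : ℝ) < finrank ℚ K := by exact_mod_cast finrank_pos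
  have := sD_pos K
  unfold rho1; positivity

theorem rho_eq (J : (Ideal (𝓞 K))⁰) :
    rho J = rho1 K * (Ideal.absNorm (J : Ideal (𝓞 K)) : ℝ) ^ ((1 : ℝ) / finrank ℚ K) := by
  have hN : (0 : ℝ) < Ideal.absNorm (J : Ideal (𝓞 K)) := by exact_mod_cast absNorm_pos J
  have := sD_pos K
  rw [rho, rho1, Real.mul_rpow (by positivity) hN.le, mul_assoc, mul_assoc, mul_assoc]

theorem side_eq (J : (Ideal (𝓞 K))⁰) {x : ℝ} (hx : 0 < x) :
    side J x = x ^ ((1 : ℝ) / finrank ℚ K) *
      (Ideal.absNorm (J : Ideal (𝓞 K)) : ℝ) ^ ((1 : ℝ) / finrank ℚ K) := by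
  have hN : (0 : ℝ) < Ideal.absNorm (J : Ideal (𝓞 K)) := by exact_mod_cast absNorm_pos J
  rw [side, Real.mul_rpow hx.le hN.le]

theorem rpow_inv_pow {y : ℝ} (hy : 0 ≤ y) :
    (y ^ ((1 : ℝ) / finrank ℚ K)) ^ finrank ℚ K = y := by
  have hd : (0 : ℝ) < finrank ℚ K := by exact_mod_cast finrank_pos
  rw [← Real.rpow_natCast, ← Real.rpow_mul hy, one_div_mul_cancel hd.ne', Real.rpow_one]

variable (K) in
/-- regulator over number of roots of unity -/
noncomputable def rgw : ℝ := regulator K / torsionOrder K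

variable (K) in
theorem torsionOrder_pos' : (0 : ℝ) < torsionOrder K := by
  exact_mod_cast Nat.pos_of_ne_zero (torsionOrder_ne_zero K)

variable (K) in
theorem rgw_pos : 0 < rgw K := div_pos (regulator_pos K) (torsionOrder_pos' K)

variable (K) in
/-- the residue of one class: `2^r₁ (2π)^r₂ R / (w √D)` -/
noncomputable def kap0 : ℝ :=
  rgw K * (2 ^ nrRealPlaces K * (2 * Real.pi) ^ nrComplexPlaces K) / sD K

variable (K) in
theorem kap0_pos : 0 < kap0 K := by
  have := sD_pos K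
  have := rgw_pos K
  unfold kap0; positivity


theorem C0_eq : kap0 K = rgw K * (C0 K * 2 ^ nrComplexPlaces K) / sD K := by
  rw [kap0, C0, mul_pow]; ring

/-- average of `g` over the norm form -/
noncomputable def avgR (J : (Ideal (𝓞 K))⁰) (q : ℕ) [NeZero q] (g : ZMod q → ℝ) : ℝ :=
  ((q : ℝ) ^ finrank ℚ K)⁻¹ * ∑ k : Ix K → ZMod q, g (nuq J q k)

theorem card_coord (q : ℕ) [NeZero q] :
    (Fintype.card (Ix K → ZMod q) : ℝ) = (q : ℝ) ^ finrank ℚ K := by
  rw [Fintype.card_fun, ZMod.card, card_Ix]; push_cast; rfl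

theorem avgR_nonneg (J : (Ideal (𝓞 K))⁰) (q : ℕ) [NeZero q] {g : ZMod q → ℝ}
    (hg : ∀ z, 0 ≤ g z) : 0 ≤ avgR J q g := by
  unfold avgR
  have : 0 ≤ ∑ k : Ix K → ZMod q, g (nuq J q k) := Finset.sum_nonneg fun k _ => hg _
  positivity

theorem avgR_le_one (J : (Ideal (𝓞 K))⁰) (q : ℕ) [NeZero q] {g : ZMod q → ℝ}
    (hg : ∀ z, g z ≤ 1) : avgR J q g ≤ 1 := by
  have hq : (0 : ℝ) < q := by exact_mod_cast Nat.pos_of_ne_zero (NeZero.ne q)
  unfold avgR
  rw [inv_mul_le_one₀ (by positivity), ← card_coord]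
  calc ∑ k : Ix K → ZMod q, g (nuq J q k) ≤ ∑ _k : Ix K → ZMod q, (1 : ℝ) :=
        Finset.sum_le_sum fun k _ => hg _
    _ = _ := by simp

section Main

variable {c : ClassGroup (𝓞 K)} {J : (Ideal (𝓞 K))⁰} (hJ : ClassGroup.mk0 J = c⁻¹)
  (q : ℕ) [NeZero q] {g : ZMod q → ℝ} (hg : ∀ z, g (-z) = g z) (hg0 : ∀ z, 0 ≤ g z)
  (hg1 : ∀ z, g z ≤ 1) {x : ℝ}

include hJ hg hg0 in
theorem rieszR_le (hx : 0 < x) : rieszR c g x ≤ kap0 K * avgR J q g *
    (x ^ ((1 : ℝ) / finrank ℚ K) + 2 * (q * rho1 K)) ^ finrank ℚ K := by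
  have hq : (0 : ℝ) < q := by exact_mod_cast Nat.pos_of_ne_zero (NeZero.ne q)
  have hN : (0 : ℝ) < Ideal.absNorm (J : Ideal (𝓞 K)) := by exact_mod_cast absNorm_pos J
  have hs := sD_pos K
  have hw := torsionOrder_pos' K
  have hr := rho1_pos K
  have h := rzE_le hJ q (f := fun z => ENNReal.ofReal (g z)) (fun z => by rw [hg]) hx
  have hsum0 : 0 ≤ ∑ k : Ix K → ZMod q, g (nuq J q k) := Finset.sum_nonneg fun k _ => hg0 _
  rw [rzE_eq c hg0 hx, sumf, ← ENNReal.ofReal_sum_of_nonneg (fun k _ => hg0 _),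
    ← ENNReal.ofReal_natCast, ← ENNReal.ofReal_mul (by positivity),
    ← ENNReal.ofReal_mul (by rw [V_eq]; positivity), ← ENNReal.ofReal_mul hsum0,
    ← ENNReal.ofReal_mul (regulator_pos K).le, ENNReal.ofReal_le_ofReal_iff] at h
  swap
  · have := C0_pos K
    have := regulator_pos K
    have h1 : 0 < side J x := side_pos J hx
    have h2 := rho_pos J
    positivity
  have h3 : (side J x / q + 2 * rho J) ^ finrank ℚ K = Ideal.absNorm (J : Ideal (𝓞 K)) *
      ((q : ℝ) ^ finrank ℚ K)⁻¹ *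
      (x ^ ((1 : ℝ) / finrank ℚ K) + 2 * (q * rho1 K)) ^ finrank ℚ K := by
    rw [side_eq J hx, rho_eq]
    set n := (Ideal.absNorm (J : Ideal (𝓞 K)) : ℝ) ^ ((1 : ℝ) / finrank ℚ K) with hn
    have h4 : x ^ ((1 : ℝ) / finrank ℚ K) * n / q + 2 * (rho1 K * n) =
        n * (q : ℝ)⁻¹ * (x ^ ((1 : ℝ) / finrank ℚ K) + 2 * (q * rho1 K)) := by
      field_simp
    rw [h4, mul_pow, mul_pow, hn, rpow_inv_pow hN.le, inv_pow]
  rw [h3, V_eq] at h
  have h5 : rieszR c g x ≤ ((Ideal.absNorm (J : Ideal (𝓞 K)) : ℝ) * 2⁻¹ ^ nrComplexPlaces K * sD K *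
      torsionOrder K)⁻¹ * (regulator K * ((∑ k : Ix K → ZMod q, g (nuq J q k)) * (C0 K *
        (Ideal.absNorm (J : Ideal (𝓞 K)) * ((q : ℝ) ^ finrank ℚ K)⁻¹ *
      (x ^ ((1 : ℝ) / finrank ℚ K) + 2 * (q * rho1 K)) ^ finrank ℚ K)))) := by
    rw [le_inv_mul_iff₀ (by positivity)]
    calc _ = (Ideal.absNorm (J : Ideal (𝓞 K)) : ℝ) * 2⁻¹ ^ nrComplexPlaces K * sD K *
        (torsionOrder K * rieszR c g x) := by ring
      _ ≤ _ := h
  refine h5.trans (le_of_eq ?_)
  have h6 : ((2⁻¹ : ℝ) ^ nrComplexPlaces K)⁻¹ = 2 ^ nrComplexPlaces K := by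
    rw [← inv_pow, inv_inv]
  rw [C0_eq, avgR, rgw, mul_inv, mul_inv, mul_inv, h6]
  field_simp

include hJ hg hg0 hg1 in
theorem le_rieszR (hx : 0 < x) (hx2 : q * rho1 K ≤ x ^ ((1 : ℝ) / finrank ℚ K)) :
    kap0 K * avgR J q g * (x ^ ((1 : ℝ) / finrank ℚ K) - q * rho1 K) ^ finrank ℚ K ≤
      rgw K + rieszR c g x := by
  have hq : (0 : ℝ) < q := by exact_mod_cast Nat.pos_of_ne_zero (NeZero.ne q)
  have hN : (0 : ℝ) < Ideal.absNorm (J : Ideal (𝓞 K)) := by exact_mod_cast absNorm_pos J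
  have hs := sD_pos K
  have hw := torsionOrder_pos' K
  have hr := rho1_pos K
  have hreg := regulator_pos K
  set n := (Ideal.absNorm (J : Ideal (𝓞 K)) : ℝ) ^ ((1 : ℝ) / finrank ℚ K) with hn
  have hn0 : 0 < n := by positivity
  have h4 : side J x / q - rho J =
      n * (q : ℝ)⁻¹ * (x ^ ((1 : ℝ) / finrank ℚ K) - (q * rho1 K)) := by
    rw [side_eq J hx, rho_eq, ← hn]
    field_simp
  have hx3 : rho J ≤ side J x / q := by
    rw [← sub_nonneg, h4]
    have : 0 ≤ x ^ ((1 : ℝ) / finrank ℚ K) - (q * rho1 K) := by linarith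
    positivity
  have h := le_rzE hJ q (f := fun z => ENNReal.ofReal (g z)) (fun z => by rw [hg])
    (fun z => by rw [ENNReal.ofReal_le_one]; exact hg1 z) hx hx3
  have hsum0 : 0 ≤ ∑ k : Ix K → ZMod q, g (nuq J q k) := Finset.sum_nonneg fun k _ => hg0 _
  have hrz := rieszR_nonneg c hg0 x
  rw [rzE_eq c hg0 hx, sumf, ← ENNReal.ofReal_sum_of_nonneg (fun k _ => hg0 _),
    ← ENNReal.ofReal_natCast, ← ENNReal.ofReal_mul hw.le,
    ← ENNReal.ofReal_add hreg.le (mul_nonneg hw.le hrz),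
    ← ENNReal.ofReal_mul hsum0,
    ← ENNReal.ofReal_mul hreg.le, ← ENNReal.ofReal_mul (by rw [V_eq]; positivity),
    ENNReal.ofReal_le_ofReal_iff (by rw [V_eq]; positivity)] at h
  rw [h4, V_eq, mul_pow, mul_pow, hn, rpow_inv_pow hN.le, inv_pow] at h
  have h5 : ((Ideal.absNorm (J : Ideal (𝓞 K)) : ℝ) * 2⁻¹ ^ nrComplexPlaces K * sD K *
      torsionOrder K)⁻¹ * (regulator K * ((∑ k : Ix K → ZMod q, g (nuq J q k)) * (C0 K *
        (Ideal.absNorm (J : Ideal (𝓞 K)) * ((q : ℝ) ^ finrank ℚ K)⁻¹ *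
      (x ^ ((1 : ℝ) / finrank ℚ K) - (q * rho1 K)) ^ finrank ℚ K)))) ≤ rgw K + rieszR c g x := by
    rw [inv_mul_le_iff₀ (by positivity)]
    refine h.trans (le_of_eq ?_)
    rw [rgw]
    field_simp
  refine le_trans (le_of_eq ?_) h5
  have h6 : ((2⁻¹ : ℝ) ^ nrComplexPlaces K)⁻¹ = 2 ^ nrComplexPlaces K := by
    rw [← inv_pow, inv_inv]
  rw [C0_eq, avgR, rgw, mul_inv, mul_inv, mul_inv, h6]
  field_simp

end Main

/-! ### elementary inequalities -/

theorem bern {z a : ℝ} (hz : 0 < z) (ha0 : 0 ≤ a) (ha : a ≤ z) {d : ℕ} (hd : 0 < d) :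
    z ^ d - d * a * z ^ (d - 1) ≤ (z - a) ^ d := by
  have h1 : (-2 : ℝ) ≤ -(a / z) := by
    have : a / z ≤ 1 := (div_le_one hz).2 ha
    linarith
  have h2 := one_add_mul_le_pow h1 d
  have h3 : (z - a) ^ d = z ^ d * (1 + -(a / z)) ^ d := by
    rw [← mul_pow]; congr 1; field_simp; ring
  obtain ⟨m, rfl⟩ := Nat.exists_eq_succ_of_ne_zero hd.ne'
  rw [h3]
  refine le_trans (le_of_eq ?_) (mul_le_mul_of_nonneg_left h2 (pow_pos hz _).le)
  have : (m.succ : ℕ) - 1 = m := rfl
  rw [this, pow_succ]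
  field_simp
  ring

theorem add_pow_le' {d : ℕ} (hd : 0 < d) {y a : ℝ} (hy : 1 ≤ y) (ha : 0 ≤ a) :
    (y + a) ^ d ≤ y ^ d + d * a * (1 + a) ^ (d - 1) * y ^ (d - 1) := by
  have h1 := bern (z := y + a) (a := a) (by linarith) ha (by linarith) hd
  rw [add_sub_cancel_right] at h1
  have h2 : (y + a) ^ (d - 1) ≤ (1 + a) ^ (d - 1) * y ^ (d - 1) := by
    rw [← mul_pow]
    refine pow_le_pow_left₀ (by linarith) ?_ _
    nlinarith
  have h3 : d * a * (y + a) ^ (d - 1) ≤ d * a * ((1 + a) ^ (d - 1) * y ^ (d - 1)) := by gcongr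
  linarith

/-! ### the asymptotics with explicit error -/

section Main2

variable {c : ClassGroup (𝓞 K)} {J : (Ideal (𝓞 K))⁰} (hJ : ClassGroup.mk0 J = c⁻¹)
  (q : ℕ) [NeZero q] {g : ZMod q → ℝ} (hg : ∀ z, g (-z) = g z) (hg0 : ∀ z, 0 ≤ g z)
  (hg1 : ∀ z, g z ≤ 1) {x : ℝ}

include hJ hg hg0 hg1 in
theorem rieszR_asymp (hx : 1 ≤ x) : |rieszR c g x - kap0 K * avgR J q g * x| ≤
    (kap0 K * (finrank ℚ K * (2 * (q * rho1 K)) * (1 + 2 * (q * rho1 K)) ^ (finrank ℚ K - 1)) +
      rgw K) * (x ^ ((1 : ℝ) / finrank ℚ K)) ^ (finrank ℚ K - 1) := by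
  have hx0 : 0 < x := by linarith
  have hd : 0 < finrank ℚ K := finrank_pos
  have hdR : (1 : ℝ) ≤ finrank ℚ K := by exact_mod_cast hd
  have hq : (0 : ℝ) < q := by exact_mod_cast Nat.pos_of_ne_zero (NeZero.ne q)
  have hr := rho1_pos K
  have hk := kap0_pos K
  have hA0 := avgR_nonneg J q hg0
  have hA1 := avgR_le_one J q hg1
  have hw := rgw_pos K
  set b := q * rho1 K with hb
  have hb0 : 0 < b := by positivity
  set y := x ^ ((1 : ℝ) / finrank ℚ K) with hy
  have hyd : y ^ finrank ℚ K = x := rpow_inv_pow hx0.le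
  have hy1 : 1 ≤ y := Real.one_le_rpow hx (by positivity)
  have hyp : 1 ≤ y ^ (finrank ℚ K - 1) := one_le_pow₀ hy1
  have hup := rieszR_le hJ q hg hg0 hx0
  rw [← hy, ← hb] at hup
  set A := avgR J q g with hA
  set e := finrank ℚ K * (2 * b) * (1 + 2 * b) ^ (finrank ℚ K - 1) with he
  have hee : finrank ℚ K * b ≤ e := by
    rw [he]
    have h1 : (1 : ℝ) ≤ (1 + 2 * b) ^ (finrank ℚ K - 1) := one_le_pow₀ (by linarith)
    calc (finrank ℚ K : ℝ) * b ≤ finrank ℚ K * (2 * b) * 1 := by nlinarith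
      _ ≤ _ := by gcongr
  have he0 : 0 ≤ e := le_trans (by positivity) hee
  rw [abs_le]
  constructor
  · have hlow : kap0 K * A * (x - finrank ℚ K * b * y ^ (finrank ℚ K - 1)) ≤
        rgw K + rieszR c g x := by
      rcases le_or_gt b y with hby | hby
      · have h1 := le_rieszR hJ q hg hg0 hg1 hx0 (by rw [← hy, ← hb]; exact hby)
        rw [← hy, ← hb, ← hA] at h1
        refine le_trans ?_ h1
        have h2 := bern (z := y) (a := b) (by linarith) hb0.le hby hd
        rw [hyd] at h2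
        exact mul_le_mul_of_nonneg_left h2 (by positivity)
      · have h1 := rieszR_nonneg c hg0 x
        have h2 : x - finrank ℚ K * b * y ^ (finrank ℚ K - 1) ≤ 0 := by
          have h3 : x = y * y ^ (finrank ℚ K - 1) := by
            rw [← pow_succ', Nat.sub_add_cancel hd, hyd]
          have h4 : y ≤ finrank ℚ K * b := by nlinarith
          have h5 : y * y ^ (finrank ℚ K - 1) ≤ finrank ℚ K * b * y ^ (finrank ℚ K - 1) := by
            gcongr
          linarith
        have h6 : kap0 K * A * (x - finrank ℚ K * b * y ^ (finrank ℚ K - 1)) ≤ 0 :=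
          mul_nonpos_of_nonneg_of_nonpos (by positivity) h2
        linarith
    have h7 : kap0 K * A * (finrank ℚ K * b * y ^ (finrank ℚ K - 1)) ≤
        kap0 K * e * y ^ (finrank ℚ K - 1) := by
      calc kap0 K * A * (finrank ℚ K * b * y ^ (finrank ℚ K - 1))
          = kap0 K * (A * (finrank ℚ K * b)) * y ^ (finrank ℚ K - 1) := by ring
        _ ≤ kap0 K * (1 * e) * y ^ (finrank ℚ K - 1) := by gcongr
        _ = _ := by ring
    have h8 : rgw K ≤ rgw K * y ^ (finrank ℚ K - 1) := by nlinarith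
    nlinarith
  · have h1 := add_pow_le' hd (y := y) (a := 2 * b) hy1 (by positivity)
    rw [hyd, ← he] at h1
    have h2 : kap0 K * A * (y + 2 * b) ^ finrank ℚ K ≤
        kap0 K * A * (x + e * y ^ (finrank ℚ K - 1)) :=
      mul_le_mul_of_nonneg_left h1 (by positivity)
    have h3 : kap0 K * A * (e * y ^ (finrank ℚ K - 1)) ≤
        kap0 K * e * y ^ (finrank ℚ K - 1) := by
      calc kap0 K * A * (e * y ^ (finrank ℚ K - 1))
          ≤ kap0 K * 1 * (e * y ^ (finrank ℚ K - 1)) := by gcongr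
        _ = _ := by ring
    have h4 : 0 ≤ rgw K * y ^ (finrank ℚ K - 1) := by positivity
    nlinarith

end Main2

/-! ### a priori bound for regulator / number of roots of unity -/

variable (K) in
theorem rgw_le (c : ClassGroup (𝓞 K)) :
    rgw K ≤ rieszR c (fun _ : ZMod 1 => (1 : ℝ)) (2 * sD K) := by
  have hs := sD_pos K
  have hw := torsionOrder_pos' K
  have h := regulator_le_rzE c
  have h1 := rzE_eq c (q := 1) (g := fun _ => (1 : ℝ)) (fun _ => zero_le_one)
    (x := 2 * sD K) (by positivity)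
  have h2 : (fun _ : ZMod 1 => ENNReal.ofReal 1) = fun _ : ZMod 1 => (1 : ℝ≥0∞) := by
    funext _; exact ENNReal.ofReal_one
  have h0 := rieszR_nonneg c (q := 1) (g := fun _ => (1 : ℝ)) (fun _ => zero_le_one) (2 * sD K)
  rw [← h2, h1, ← ENNReal.ofReal_natCast, ← ENNReal.ofReal_mul hw.le,
    ENNReal.ofReal_le_ofReal_iff (mul_nonneg hw.le h0)] at h
  rw [rgw, div_le_iff₀ hw, mul_comm]
  exact h

theorem rieszR_one_le (c : ClassGroup (𝓞 K)) {q : ℕ} {g : ZMod q → ℝ} (hg1 : ∀ z, g z ≤ 1)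
    {x : ℝ} (hx : 1 ≤ x) :
    rieszR c g x ≤ x * (1 + Real.log x) ^ finrank ℚ K * Real.log x ^ rank K := by
  have hx0 : 0 < x := by linarith
  have hlog : 0 ≤ Real.log x := Real.log_nonneg hx
  rw [rieszR_eq_sum c g hx0]
  have h1 : ∀ a ∈ Sx c x, g (Ideal.absNorm (a.1 : Ideal (𝓞 K)) : ZMod q) * wi c x a ≤
      Real.log x ^ rank K := by
    intro a ha
    have hN : (1 : ℝ) ≤ Ideal.absNorm (a.1 : Ideal (𝓞 K)) := by exact_mod_cast absNorm_pos a.1
    have h2 : wi c x a ≤ Real.log x ^ rank K := by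
      rw [wi]
      refine (wt_mono _ (Real.log_le_log (by positivity) (div_le_self hx0.le hN))).trans ?_
      rw [wt_of_nonneg _ hlog]
      refine div_le_self (by positivity) ?_
      exact_mod_cast Nat.factorial_pos _
    calc g (Ideal.absNorm (a.1 : Ideal (𝓞 K)) : ZMod q) * wi c x a ≤ 1 * wi c x a :=
          mul_le_mul_of_nonneg_right (hg1 _) (wi_nonneg _ _ _)
      _ ≤ _ := by rw [one_mul]; exact h2
  refine (Finset.sum_le_sum h1).trans ?_
  rw [Finset.sum_const, nsmul_eq_mul]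
  have hfin := Crest.Agent.R014.Ic2_550.finite_norm_le (E := K) x
  have hcard : ((Sx c x).card : ℝ) ≤ x * (1 + Real.log x) ^ finrank ℚ K := by
    refine le_trans ?_ (Crest.Agent.R014.Ic2_550.card_norm_le_log (E := K) hx)
    have h3 : (Sx c x).card = ((fun a : clsI K c => (a.1 : Ideal (𝓞 K))) '' (Sx c x)).ncard := by
      rw [Set.ncard_image_of_injective _ (fun a b hab => Subtype.ext (Subtype.ext hab)),
        Set.ncard_coe_finset]
    rw [h3]
    have h4 : (fun a : clsI K c => (a.1 : Ideal (𝓞 K))) '' (Sx c x) ⊆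
        {a : Ideal (𝓞 K) | a ≠ ⊥ ∧ (Ideal.absNorm a : ℝ) ≤ x} := by
      rintro _ ⟨a, ha, rfl⟩
      refine ⟨nonZeroDivisors.coe_ne_zero a.1, ?_⟩
      rw [Finset.mem_coe, Sx, Set.Finite.mem_toFinset] at ha
      exact ha
    exact_mod_cast Set.ncard_le_ncard h4 hfin
  gcongr

variable (K) in
theorem rank_le : rank K + 1 ≤ finrank ℚ K := by
  have h1 : Fintype.card (InfinitePlace K) ≤ finrank ℚ K := by
    rw [← sum_mult_eq, ← Finset.card_univ, Finset.card_eq_sum_ones]
    exact Finset.sum_le_sum fun w _ => mult_pos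
  have h2 : 0 < Fintype.card (InfinitePlace K) := Fintype.card_pos
  rw [rank]; omega

variable (K) in
theorem rgw_le_pow : rgw K ≤ (2 * sD K) ^ (2 * finrank ℚ K) := by
  have hs := one_le_sD K
  have h1 : (1 : ℝ) ≤ 2 * sD K := by linarith
  refine (rgw_le K (1 : ClassGroup (𝓞 K))).trans
    ((rieszR_one_le (1 : ClassGroup (𝓞 K)) (fun _ => le_rfl) h1).trans ?_)
  have hlog : Real.log (2 * sD K) ≤ 2 * sD K - 1 := Real.log_le_sub_one_of_pos (by linarith)
  have hlog0 : 0 ≤ Real.log (2 * sD K) := Real.log_nonneg h1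
  have hr := rank_le K
  calc 2 * sD K * (1 + Real.log (2 * sD K)) ^ finrank ℚ K * Real.log (2 * sD K) ^ rank K
      ≤ 2 * sD K * (2 * sD K) ^ finrank ℚ K * (2 * sD K) ^ rank K := by
        gcongr
        · linarith
        · linarith
    _ = (2 * sD K) ^ (1 + finrank ℚ K + rank K) := by rw [pow_add, pow_add, pow_one]
    _ ≤ _ := pow_le_pow_right₀ h1 (by omega)

end Crest.Agent.R014.Cnt7_726
end

-- ▼ part R014/Cnt8_726
section

/-!
# `riesz_class`: Riesz means over one ideal class, complex coefficients, explicit uniform error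
-/

namespace Crest.Agent.R014.Cnt8_726

open MeasureTheory NumberField NumberField.Units NumberField.Units.dirichletUnitTheorem
open NumberField.mixedEmbedding NumberField.InfinitePlace Module
open scoped ENNReal nonZeroDivisors NNReal
open Crest.Agent.R014.Cnt1_726 Crest.Agent.R014.Cnt2_726 Crest.Agent.R014.Cnt3_726
open Crest.Agent.R014.Cnt4_726 Crest.Agent.R014.Cnt5_726 Crest.Agent.R014.Cnt6_726
open Crest.Agent.R014.Cnt7_726

/-- the constant of the error term -/
noncomputable def cst (d : ℕ) : ℝ := 2 * 7 ^ d * d * (3 * d * 3 ^ d) ^ d * 2 ^ (2 * d)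

theorem cst_nonneg (d : ℕ) : 0 ≤ cst d := by unfold cst; positivity

variable {K : Type*} [Field K] [NumberField K]

variable (K) in
theorem kap0_le : kap0 K ≤ rgw K * 7 ^ finrank ℚ K := by
  have hs := one_le_sD K
  have hw := rgw_pos K
  have hpi : 2 * Real.pi ≤ 7 := by linarith [Real.pi_lt_d2]
  rw [kap0]
  have h1 : (2 : ℝ) ^ nrRealPlaces K * (2 * Real.pi) ^ nrComplexPlaces K ≤ 7 ^ finrank ℚ K := by
    calc (2 : ℝ) ^ nrRealPlaces K * (2 * Real.pi) ^ nrComplexPlaces K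
        ≤ 7 ^ nrRealPlaces K * 7 ^ nrComplexPlaces K := by gcongr; norm_num
      _ = 7 ^ (nrRealPlaces K + nrComplexPlaces K) := by rw [pow_add]
      _ ≤ _ := by
        refine pow_le_pow_right₀ (by norm_num) ?_
        rw [← card_add_two_mul_card_eq_rank]; omega
  calc rgw K * (2 ^ nrRealPlaces K * (2 * Real.pi) ^ nrComplexPlaces K) / sD K
      ≤ rgw K * (2 ^ nrRealPlaces K * (2 * Real.pi) ^ nrComplexPlaces K) :=
        div_le_self (by positivity) hs
    _ ≤ _ := by gcongr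

variable (K) in
theorem rho1_le : rho1 K ≤ finrank ℚ K * (3 * sD K) ^ finrank ℚ K := by
  have hs := one_le_sD K
  have hd : 0 < finrank ℚ K := finrank_pos
  have hdR : (1 : ℝ) ≤ finrank ℚ K := by exact_mod_cast hd
  have h1 : (2 * sD K) ^ ((1 : ℝ) / finrank ℚ K) ≤ 3 * sD K := by
    calc (2 * sD K) ^ ((1 : ℝ) / finrank ℚ K) ≤ (2 * sD K) ^ (1 : ℝ) := by
          refine Real.rpow_le_rpow_of_exponent_le (by linarith) ?_
          rw [div_le_one (by linarith)]; exact hdR
      _ ≤ _ := by rw [Real.rpow_one]; linarith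
  rw [rho1]
  calc finrank ℚ K * (3 * sD K) ^ (finrank ℚ K - 1) * (2 * sD K) ^ ((1 : ℝ) / finrank ℚ K)
      ≤ finrank ℚ K * (3 * sD K) ^ (finrank ℚ K - 1) * (3 * sD K) := by
        gcongr
    _ = _ := by rw [mul_assoc, ← pow_succ, Nat.sub_add_cancel hd]

variable (K) in
theorem one_le_rho1 : 1 ≤ rho1 K := by
  have hs := one_le_sD K
  have hd : 0 < finrank ℚ K := finrank_pos
  have hdR : (1 : ℝ) ≤ finrank ℚ K := by exact_mod_cast hd
  have h1 : (1 : ℝ) ≤ (3 * sD K) ^ (finrank ℚ K - 1) := one_le_pow₀ (by linarith)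
  have h2 : (1 : ℝ) ≤ (2 * sD K) ^ ((1 : ℝ) / finrank ℚ K) :=
    Real.one_le_rpow (by linarith) (by positivity)
  rw [rho1]
  calc (1 : ℝ) = 1 * 1 * 1 := by norm_num
    _ ≤ _ := by gcongr

variable (K) in
theorem sD_le : sD K ≤ |(discr K : ℝ)| := by
  have h1 : (1 : ℝ) ≤ |(discr K : ℝ)| := by
    rw [← Int.cast_abs]
    exact_mod_cast Int.one_le_abs (discr_ne_zero K)
  rw [sD]
  calc √|(discr K : ℝ)| ≤ √(|(discr K : ℝ)| * |(discr K : ℝ)|) := by
        apply Real.sqrt_le_sqrt; nlinarith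
    _ = _ := Real.sqrt_mul_self (by linarith)

theorem y_pow {x : ℝ} (hx : 0 < x) : (x ^ ((1 : ℝ) / finrank ℚ K)) ^ (finrank ℚ K - 1) =
    x ^ (1 - (1 : ℝ) / finrank ℚ K) := by
  have hd : 0 < finrank ℚ K := finrank_pos
  have hdR : (0 : ℝ) < finrank ℚ K := by exact_mod_cast hd
  rw [← Real.rpow_natCast, ← Real.rpow_mul hx.le, Nat.cast_sub hd]
  congr 1
  field_simp
  push_cast
  ring

/-- explicit error -/
theorem error_le (q : ℕ) [NeZero q] :
    kap0 K * (finrank ℚ K * (2 * (q * rho1 K)) * (1 + 2 * (q * rho1 K)) ^ (finrank ℚ K - 1)) +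
      rgw K ≤ cst (finrank ℚ K) * (q * |(discr K : ℝ)|) ^ ((finrank ℚ K + 1) ^ 2) := by
  have hs := one_le_sD K
  have hs0 := sD_pos K
  have hd : 0 < finrank ℚ K := finrank_pos
  have hdR : (1 : ℝ) ≤ finrank ℚ K := by exact_mod_cast hd
  have hq : (1 : ℝ) ≤ q := by exact_mod_cast Nat.pos_of_ne_zero (NeZero.ne q)
  have hr1 := one_le_rho1 K
  have hr2 := rho1_le K
  have hw := rgw_pos K
  have hk := kap0_le K
  have hk0 := kap0_pos K
  have hD := sD_le K
  set d := finrank ℚ K with hdef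
  set b := q * rho1 K with hb
  have hb1 : 1 ≤ b := by rw [hb]; nlinarith
  have hb2 : b ≤ q * (d * (3 * sD K) ^ d) := by rw [hb]; gcongr
  have h1 : 2 * b * (1 + 2 * b) ^ (d - 1) ≤ (3 * b) ^ d := by
    calc 2 * b * (1 + 2 * b) ^ (d - 1) ≤ (3 * b) * (3 * b) ^ (d - 1) := by
          gcongr
          · linarith
          · linarith
      _ = _ := by rw [← pow_succ', Nat.sub_add_cancel hd]
  have h2 : 1 ≤ 7 ^ d * d * (3 * b) ^ d := by
    have h3 : (1 : ℝ) ≤ 7 ^ d := one_le_pow₀ (by norm_num)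
    have h4 : (1 : ℝ) ≤ (3 * b) ^ d := one_le_pow₀ (by linarith)
    calc (1 : ℝ) = 1 * 1 * 1 := by norm_num
      _ ≤ _ := by gcongr
  have h5 : kap0 K * (d * (2 * b) * (1 + 2 * b) ^ (d - 1)) + rgw K ≤
      rgw K * (2 * (7 ^ d * d * (3 * b) ^ d)) := by
    calc kap0 K * (d * (2 * b) * (1 + 2 * b) ^ (d - 1)) + rgw K
        = kap0 K * (d * (2 * b * (1 + 2 * b) ^ (d - 1))) + rgw K * 1 := by ring
      _ ≤ rgw K * 7 ^ d * (d * (3 * b) ^ d) + rgw K * (7 ^ d * d * (3 * b) ^ d) := by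
          gcongr
      _ = _ := by ring
  refine h5.trans ?_
  have h6 := rgw_le_pow K
  rw [← hdef] at h6
  have h7 : (3 * b) ^ d ≤ (3 * d * 3 ^ d) ^ d * (q ^ d * (sD K ^ d) ^ d) := by
    calc (3 * b) ^ d ≤ (3 * (q * (d * (3 * sD K) ^ d))) ^ d := by gcongr
      _ = _ := by rw [mul_pow 3 (sD K)]; ring
  have h8 : (q : ℝ) ^ d * (sD K ^ d) ^ d * (sD K) ^ (2 * d) ≤ (q * |(discr K : ℝ)|) ^ ((d + 1) ^ 2) := by
    have h9 : (q : ℝ) ^ d ≤ q ^ ((d + 1) ^ 2) := pow_le_pow_right₀ hq (by nlinarith)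
    have h10 : (sD K ^ d) ^ d * (sD K) ^ (2 * d) ≤ |(discr K : ℝ)| ^ ((d + 1) ^ 2) := by
      rw [← pow_mul, ← pow_add]
      calc sD K ^ (d * d + 2 * d) ≤ sD K ^ ((d + 1) ^ 2) :=
            pow_le_pow_right₀ hs (by nlinarith)
        _ ≤ _ := by gcongr
    calc (q : ℝ) ^ d * (sD K ^ d) ^ d * (sD K) ^ (2 * d)
        = (q : ℝ) ^ d * ((sD K ^ d) ^ d * (sD K) ^ (2 * d)) := by ring
      _ ≤ q ^ ((d + 1) ^ 2) * |(discr K : ℝ)| ^ ((d + 1) ^ 2) := by gcongr
      _ = _ := by rw [mul_pow]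
  calc rgw K * (2 * (7 ^ d * d * (3 * b) ^ d))
      ≤ (2 * sD K) ^ (2 * d) * (2 * (7 ^ d * d * ((3 * d * 3 ^ d) ^ d *
        (q ^ d * (sD K ^ d) ^ d)))) := by gcongr
    _ = cst d * ((q : ℝ) ^ d * (sD K ^ d) ^ d * (sD K) ^ (2 * d)) := by
        rw [cst, mul_pow 2 (sD K)]; ring
    _ ≤ _ := mul_le_mul_of_nonneg_left h8 (cst_nonneg _)

/-- **real coefficients** -/
theorem rieszR_class {c : ClassGroup (𝓞 K)} {J : (Ideal (𝓞 K))⁰} (hJ : ClassGroup.mk0 J = c⁻¹)
    (q : ℕ) [NeZero q] {g : ZMod q → ℝ} (hg : ∀ z, g (-z) = g z) (hg0 : ∀ z, 0 ≤ g z)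
    (hg1 : ∀ z, g z ≤ 1) {x : ℝ} (hx : 1 ≤ x) :
    |rieszR c g x - kap0 K * avgR J q g * x| ≤
      cst (finrank ℚ K) * (q * |(discr K : ℝ)|) ^ ((finrank ℚ K + 1) ^ 2) *
        x ^ (1 - (1 : ℝ) / finrank ℚ K) := by
  refine (rieszR_asymp hJ q hg hg0 hg1 hx).trans ?_
  rw [y_pow (by linarith)]
  exact mul_le_mul_of_nonneg_right (error_le q) (Real.rpow_nonneg (by linarith) _)

/-- average of `f` over the norm form -/
noncomputable def avgC (J : (Ideal (𝓞 K))⁰) (q : ℕ) [NeZero q] (f : ZMod q → ℂ) : ℂ :=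
  ((q : ℂ) ^ finrank ℚ K)⁻¹ * ∑ k : Ix K → ZMod q, f (nuq J q k)

/-- **Riesz mean over one ideal class**: main theorem, complex coefficients. -/
theorem riesz_class_explicit {c : ClassGroup (𝓞 K)} {J : (Ideal (𝓞 K))⁰}
    (hJ : ClassGroup.mk0 J = c⁻¹)
    (q : ℕ) [NeZero q] {f : ZMod q → ℂ} (hf : ∀ z, f (-z) = f z) (hf1 : ∀ z, ‖f z‖ ≤ 1)
    {x : ℝ} (hx : 1 ≤ x) :
    ‖riesz c f x - kap0 K * avgC J q f * x‖ ≤
      4 * (cst (finrank ℚ K) * (q * |(discr K : ℝ)|) ^ ((finrank ℚ K + 1) ^ 2) *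
        x ^ (1 - (1 : ℝ) / finrank ℚ K)) := by
  have hx0 : 0 < x := by linarith
  let g1 : ZMod q → ℝ := fun z => max (f z).re 0
  let g2 : ZMod q → ℝ := fun z => max (-(f z).re) 0
  let g3 : ZMod q → ℝ := fun z => max (f z).im 0
  let g4 : ZMod q → ℝ := fun z => max (-(f z).im) 0
  have hre : ∀ z, |(f z).re| ≤ 1 := fun z => (Complex.abs_re_le_norm _).trans (hf1 z)
  have him : ∀ z, |(f z).im| ≤ 1 := fun z => (Complex.abs_im_le_norm _).trans (hf1 z)
  have e1 := rieszR_class hJ q (g := g1) (fun z => by simp only [g1, hf]) (fun z => le_max_right _ _)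
    (fun z => max_le (le_of_abs_le (hre z)) zero_le_one) hx
  have e2 := rieszR_class hJ q (g := g2) (fun z => by simp only [g2, hf]) (fun z => le_max_right _ _)
    (fun z => max_le (by linarith [neg_le_of_abs_le (hre z)]) zero_le_one) hx
  have e3 := rieszR_class hJ q (g := g3) (fun z => by simp only [g3, hf]) (fun z => le_max_right _ _)
    (fun z => max_le (le_of_abs_le (him z)) zero_le_one) hx
  have e4 := rieszR_class hJ q (g := g4) (fun z => by simp only [g4, hf]) (fun z => le_max_right _ _)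
    (fun z => max_le (by linarith [neg_le_of_abs_le (him z)]) zero_le_one) hx
  have hdec : ∀ z, f z = ((g1 z : ℂ) - g2 z) + ((g3 z : ℂ) - g4 z) * Complex.I := by
    intro z
    have h1 : max (f z).re 0 - max (-(f z).re) 0 = (f z).re := by
      rcases le_total 0 (f z).re with h | h
      · rw [max_eq_left h, max_eq_right (by linarith)]; ring
      · rw [max_eq_right h, max_eq_left (by linarith)]; ring
    have h2 : max (f z).im 0 - max (-(f z).im) 0 = (f z).im := by
      rcases le_total 0 (f z).im with h | h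
      · rw [max_eq_left h, max_eq_right (by linarith)]; ring
      · rw [max_eq_right h, max_eq_left (by linarith)]; ring
    conv_lhs => rw [← Complex.re_add_im (f z), ← h1, ← h2]
    push_cast
    rfl
  have hR : riesz c f x = ((rieszR c g1 x : ℂ) - rieszR c g2 x) +
      ((rieszR c g3 x : ℂ) - rieszR c g4 x) * Complex.I := by
    rw [riesz_eq_sum c f hx0, rieszR_eq_sum c g1 hx0, rieszR_eq_sum c g2 hx0,
      rieszR_eq_sum c g3 hx0, rieszR_eq_sum c g4 hx0]
    push_cast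
    rw [← Finset.sum_sub_distrib, ← Finset.sum_sub_distrib, Finset.sum_mul,
      ← Finset.sum_add_distrib]
    refine Finset.sum_congr rfl fun a _ => ?_
    rw [hdec]
    ring
  have hA : avgC J q f = ((avgR J q g1 : ℂ) - avgR J q g2) +
      ((avgR J q g3 : ℂ) - avgR J q g4) * Complex.I := by
    simp only [avgC, avgR]
    push_cast
    simp_rw [hdec]
    rw [Finset.sum_add_distrib, ← Finset.sum_mul, Finset.sum_sub_distrib, Finset.sum_sub_distrib]
    ring
  set E := cst (finrank ℚ K) * (q * |(discr K : ℝ)|) ^ ((finrank ℚ K + 1) ^ 2) *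
        x ^ (1 - (1 : ℝ) / finrank ℚ K) with hE
  have hfin : riesz c f x - kap0 K * avgC J q f * x =
      (((rieszR c g1 x - kap0 K * avgR J q g1 * x : ℝ) : ℂ) -
        ((rieszR c g2 x - kap0 K * avgR J q g2 * x : ℝ) : ℂ)) +
      (((rieszR c g3 x - kap0 K * avgR J q g3 * x : ℝ) : ℂ) -
        ((rieszR c g4 x - kap0 K * avgR J q g4 * x : ℝ) : ℂ)) * Complex.I := by
    rw [hR, hA]
    push_cast
    ring
  rw [hfin]
  refine (norm_add_le _ _).trans ?_
  rw [norm_mul, Complex.norm_I, mul_one]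
  have n1 := norm_sub_le (((rieszR c g1 x - kap0 K * avgR J q g1 * x : ℝ) : ℂ))
    ((rieszR c g2 x - kap0 K * avgR J q g2 * x : ℝ) : ℂ)
  have n2 := norm_sub_le (((rieszR c g3 x - kap0 K * avgR J q g3 * x : ℝ) : ℂ))
    ((rieszR c g4 x - kap0 K * avgR J q g4 * x : ℝ) : ℂ)
  simp only [Complex.norm_real, Real.norm_eq_abs] at n1 n2
  linarith

/-- the constant in the short form of the theorem -/
noncomputable def Cst (d : ℕ) : ℕ := max ⌈4 * cst d⌉₊ ((d + 1) ^ 2)

theorem riesz_class {c : ClassGroup (𝓞 K)} {J : (Ideal (𝓞 K))⁰}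
    (hJ : ClassGroup.mk0 J = c⁻¹)
    (q : ℕ) [NeZero q] {f : ZMod q → ℂ} (hf : ∀ z, f (-z) = f z) (hf1 : ∀ z, ‖f z‖ ≤ 1)
    {x : ℝ} (hx : 1 ≤ x) :
    ‖riesz c f x - kap0 K * avgC J q f * x‖ ≤
      Cst (finrank ℚ K) * (q * |(discr K : ℝ)|) ^ (Cst (finrank ℚ K)) *
        x ^ (1 - (1 : ℝ) / finrank ℚ K) := by
  refine (riesz_class_explicit hJ q hf hf1 hx).trans ?_
  have hq : (1 : ℝ) ≤ q := by exact_mod_cast Nat.pos_of_ne_zero (NeZero.ne q)
  have hD : (1 : ℝ) ≤ |(discr K : ℝ)| := by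
    rw [← Int.cast_abs]
    exact_mod_cast Int.one_le_abs (discr_ne_zero K)
  have hqD : (1 : ℝ) ≤ q * |(discr K : ℝ)| := by nlinarith
  have h1 : 4 * cst (finrank ℚ K) ≤ Cst (finrank ℚ K) :=
    (Nat.le_ceil _).trans (by exact_mod_cast le_max_left _ _)
  have h2 : (q * |(discr K : ℝ)|) ^ ((finrank ℚ K + 1) ^ 2) ≤
      (q * |(discr K : ℝ)|) ^ (Cst (finrank ℚ K)) := pow_le_pow_right₀ hqD (le_max_right _ _)
  have h3 : 0 ≤ x ^ (1 - (1 : ℝ) / finrank ℚ K) := Real.rpow_nonneg (by linarith) _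
  calc 4 * (cst (finrank ℚ K) * (q * |(discr K : ℝ)|) ^ ((finrank ℚ K + 1) ^ 2) *
        x ^ (1 - (1 : ℝ) / finrank ℚ K))
      = (4 * cst (finrank ℚ K)) * (q * |(discr K : ℝ)|) ^ ((finrank ℚ K + 1) ^ 2) *
        x ^ (1 - (1 : ℝ) / finrank ℚ K) := by ring
    _ ≤ _ := by gcongr

end Crest.Agent.R014.Cnt8_726
end

-- ▼ part R014/Ic8_550
section

/-!
# Row 14, N1: (A1) and (A2) (helper550)

* `A1`: `|ζ_E(1+s) - κ_E/s| ≤ C(d) (1 + log|disc E|)^(2d+2)` for `0 < s ≤ 1`, every number field;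
* `A2`, `A2_lip`: `‖L_E(1+s, ψ∘N)‖ ≤ C(d,q) (1 + log|disc E|)^(2d+2)` and the Lipschitz bound, for
  every even Dirichlet character `ψ` mod `q` such that `ψ(N a) ≠ 1` for an ideal `a` prime to `q`.
-/

set_option autoImplicit false

open NumberField Ideal Filter Topology
open scoped nonZeroDivisors

noncomputable section

namespace Crest.Agent.R014.Ic8_550

open Crest.Agent.R014.Ic1_550 Crest.Agent.R014.LDef_550 Crest.Agent.R014.Ic3_550
open Crest.Agent.R014.Ic4_550 Crest.Agent.R014.Ic5_550 Crest.Agent.R014.Ic7_550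
open Crest.Agent.R014.Ic1_550.Dat (cC lg)
open Crest.Agent.R014.Cnt2_726 Crest.Agent.R014.Cnt3_726 Crest.Agent.R014.Cnt5_726
open Crest.Agent.R014.Cnt7_726 Crest.Agent.R014.Cnt8_726

universe u

/-- field independent part of the constant -/
def B0 (d q : ℕ) : ℝ :=
  (2 ^ d) ^ (d + 1) * (d.factorial * (Cst d * (q:ℝ) ^ (Cst d)))

/-- exponent of the discriminant -/
def kk (d : ℕ) : ℕ := d + 1 + Cst d

/-- the final constant -/
def Cfin (d q : ℕ) : ℝ := CC d d * (1 + Real.log (B0 d q) + kk d) ^ (2 * d + 2)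

theorem one_le_Cst (d : ℕ) : 1 ≤ Cst d := by
  unfold Cst
  refine le_trans ?_ (le_max_right _ _)
  exact Nat.one_le_pow _ _ (by omega)

theorem one_le_B0 (d q : ℕ) (hq : 0 < q) : 1 ≤ B0 d q := by
  unfold B0
  have h1 : (1:ℝ) ≤ (2 ^ d) ^ (d + 1) := one_le_pow₀ (one_le_pow₀ (by norm_num))
  have h2 : (1:ℝ) ≤ d.factorial := by exact_mod_cast Nat.one_le_iff_ne_zero.mpr (Nat.factorial_ne_zero d)
  have h3 : (1:ℝ) ≤ Cst d := by exact_mod_cast one_le_Cst d
  have h4 : (1:ℝ) ≤ (q:ℝ) ^ (Cst d) := one_le_pow₀ (by exact_mod_cast hq)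
  exact one_le_mul_of_one_le_of_one_le h1 (one_le_mul_of_one_le_of_one_le h2
    (one_le_mul_of_one_le_of_one_le h3 h4))

theorem CC_mono {d r : ℕ} (hr : r ≤ d) : CC d r ≤ CC d d := by
  unfold CC cC
  have h1 : (1:ℝ) ≤ 1 + 1 / (1 / (d:ℝ)) := by
    have : 0 ≤ 1 / (1 / (d:ℝ)) := by positivity
    linarith
  have h2 : (2:ℝ) ^ (r + 1) ≤ 2 ^ (d + 1) := pow_le_pow_right₀ (by norm_num) (by omega)
  have h3 : (1 + 1 / (1 / (d:ℝ))) ^ (d + r + 2) ≤ (1 + 1 / (1 / (d:ℝ))) ^ (d + d + 2) :=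
    pow_le_pow_right₀ h1 (by omega)
  have h4 : (r:ℝ) ≤ d := by exact_mod_cast hr
  gcongr

variable {E : Type u} [Field E] [NumberField E]

theorem riesz_mono {q : ℕ} {f : ZMod q → ℂ} {r : ℕ} {M : ℂ} {Q Q' : ℝ} (hQ : Q ≤ Q')
    (h : Riesz E f r M Q) : Riesz E f r M Q' := by
  intro t ht
  refine (h t ht).trans ?_
  gcongr

theorem classAsymp {q : ℕ} [NeZero q] {f : ZMod q → ℂ} (hf : ∀ z, f (-z) = f z)
    (hf1 : ∀ z, ‖f z‖ ≤ 1) :
    ClassAsymp E f (kap0 E) (Cst (Module.finrank ℚ E)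
      * (q * |(discr E : ℝ)|) ^ (Cst (Module.finrank ℚ E))) := by
  intro c J hJ x hx
  exact riesz_class hJ q hf hf1 hx

theorem rank_le' : Units.rank E ≤ Module.finrank ℚ E := by
  have := rank_le E
  omega

theorem Q_le {q : ℕ} (hq : 0 < q) :
    (2 ^ Module.finrank ℚ E * Real.sqrt |(discr E : ℝ)|) ^ (Module.finrank ℚ E + 1)
        * ((Units.rank E).factorial * (Cst (Module.finrank ℚ E)
      * (q * |(discr E : ℝ)|) ^ (Cst (Module.finrank ℚ E))))
      ≤ B0 (Module.finrank ℚ E) q * |(discr E : ℝ)| ^ kk (Module.finrank ℚ E) := by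
  have hD := one_le_abs_discr (E := E)
  have hs : Real.sqrt |(discr E : ℝ)| ≤ |(discr E : ℝ)| := by
    rw [Real.sqrt_le_left (by positivity)]
    nlinarith
  have hfac : ((Units.rank E).factorial : ℝ) ≤ (Module.finrank ℚ E).factorial := by
    exact_mod_cast Nat.factorial_le rank_le'
  unfold B0 kk
  set D := |(discr E : ℝ)|
  set d := Module.finrank ℚ E
  calc (2 ^ d * Real.sqrt D) ^ (d + 1) * ((Units.rank E).factorial * (Cst d * (q * D) ^ (Cst d)))
      ≤ (2 ^ d * D) ^ (d + 1) * (d.factorial * (Cst d * (q * D) ^ (Cst d))) := by gcongr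
    _ = _ := by rw [mul_pow, mul_pow, pow_add]; ring

theorem lg_le {q : ℕ} (hq : 0 < q) :
    lg (B0 (Module.finrank ℚ E) q * |(discr E : ℝ)| ^ kk (Module.finrank ℚ E))
        (Module.finrank ℚ E) (Units.rank E)
      ≤ ((1 + Real.log (B0 (Module.finrank ℚ E) q) + kk (Module.finrank ℚ E))
        * (1 + Real.log |(discr E : ℝ)|)) ^ (2 * Module.finrank ℚ E + 2) := by
  have hD := one_le_abs_discr (E := E)
  have hB := one_le_B0 (Module.finrank ℚ E) q hq
  have h1 : 0 ≤ Real.log (B0 (Module.finrank ℚ E) q) := Real.log_nonneg hB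
  have h2 : 0 ≤ Real.log |(discr E : ℝ)| := Real.log_nonneg hD
  have h3 : Real.log (B0 (Module.finrank ℚ E) q * |(discr E : ℝ)| ^ kk (Module.finrank ℚ E))
      = Real.log (B0 (Module.finrank ℚ E) q) + kk (Module.finrank ℚ E) * Real.log |(discr E : ℝ)| := by
    rw [Real.log_mul (by positivity) (by positivity), Real.log_pow]
  unfold lg
  rw [h3]
  set b := Real.log (B0 (Module.finrank ℚ E) q)
  set l := Real.log |(discr E : ℝ)|
  have h4 : 1 + (b + kk (Module.finrank ℚ E) * l)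
      ≤ (1 + b + kk (Module.finrank ℚ E)) * (1 + l) := by
    have h5 : (0:ℝ) ≤ kk (Module.finrank ℚ E) := by positivity
    nlinarith [mul_nonneg h1 h2]
  have h6 : 1 ≤ (1 + b + kk (Module.finrank ℚ E)) * (1 + l) := by
    have h5 : (0:ℝ) ≤ kk (Module.finrank ℚ E) := by positivity
    refine le_trans ?_ h4
    nlinarith [mul_nonneg h5 h2]
  have h7 := rank_le' (E := E)
  calc (1 + (b + kk (Module.finrank ℚ E) * l)) ^ (Module.finrank ℚ E + Units.rank E + 2)
      ≤ ((1 + b + kk (Module.finrank ℚ E)) * (1 + l)) ^ (Module.finrank ℚ E + Units.rank E + 2) := by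
        gcongr
    _ ≤ _ := pow_le_pow_right₀ h6 (by omega)

theorem final_le {q : ℕ} (hq : 0 < q) :
    CC (Module.finrank ℚ E) (Units.rank E)
      * lg (B0 (Module.finrank ℚ E) q * |(discr E : ℝ)| ^ kk (Module.finrank ℚ E))
        (Module.finrank ℚ E) (Units.rank E)
      ≤ Cfin (Module.finrank ℚ E) q * (1 + Real.log |(discr E : ℝ)|) ^ (2 * Module.finrank ℚ E + 2) := by
  have h1 := lg_le (E := E) hq
  have h2 := CC_mono (rank_le' (E := E))
  have h3 := CC_nonneg (Module.finrank ℚ E) (Module.finrank ℚ E)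
  have hD := one_le_abs_discr (E := E)
  have h4 : 0 ≤ Real.log |(discr E : ℝ)| := Real.log_nonneg hD
  have hB := one_le_B0 (Module.finrank ℚ E) q hq
  have h5 : 0 ≤ Real.log (B0 (Module.finrank ℚ E) q) := Real.log_nonneg hB
  have hlog : 0 ≤ Real.log (B0 (Module.finrank ℚ E) q * |(discr E : ℝ)| ^ kk (Module.finrank ℚ E)) :=
    Real.log_nonneg (one_le_mul_of_one_le_of_one_le hB (one_le_pow₀ hD))
  have h6 : 0 ≤ lg (B0 (Module.finrank ℚ E) q * |(discr E : ℝ)| ^ kk (Module.finrank ℚ E))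
        (Module.finrank ℚ E) (Units.rank E) := by
    unfold lg
    positivity
  unfold Cfin
  rw [mul_pow] at h1
  calc _ ≤ CC (Module.finrank ℚ E) (Module.finrank ℚ E)
        * ((1 + Real.log (B0 (Module.finrank ℚ E) q) + kk (Module.finrank ℚ E)) ^ (2 * Module.finrank ℚ E + 2)
          * (1 + Real.log |(discr E : ℝ)|) ^ (2 * Module.finrank ℚ E + 2)) := by gcongr
    _ = _ := by ring

theorem one_le_Q {q : ℕ} (hq : 0 < q) :
    1 ≤ B0 (Module.finrank ℚ E) q * |(discr E : ℝ)| ^ kk (Module.finrank ℚ E) :=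
  one_le_mul_of_one_le_of_one_le (one_le_B0 _ q hq) (one_le_pow₀ one_le_abs_discr)

/-- **(A1)** -/
theorem A1 {s : ℝ} (hs : 0 < s) (hs1 : s ≤ 1) :
    |zE E s - dedekindZeta_residue E / s|
      ≤ Cfin (Module.finrank ℚ E) 1 * (1 + Real.log |(discr E : ℝ)|) ^ (2 * Module.finrank ℚ E + 2) := by
  have h1 := riesz_total (E := E) (q := 1) (f := fun _ => (1:ℂ)) (by positivity)
    (classAsymp (E := E) (q := 1) (f := fun _ => (1:ℂ)) (fun _ => rfl) (fun _ => by simp))
  have h2 := riesz_mono (Q_le (E := E) (q := 1) one_pos) h1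
  exact (A1_explicit (one_le_Q one_pos) h2 hs hs1).trans (final_le one_pos)

theorem riesz_psi {q : ℕ} [NeZero q] (psi : DirichletCharacter ℂ q) (hpsi : psi.Even)
    {a : Ideal (𝓞 E)} (ha : a ≠ ⊥) (hq : (absNorm a).Coprime q) (h1 : psi (absNorm a : ZMod q) ≠ 1) :
    Riesz E psi (Units.rank E) 0
      (B0 (Module.finrank ℚ E) q * |(discr E : ℝ)| ^ kk (Module.finrank ℚ E)) := by
  have hA := classAsymp (E := E) (q := q) (f := psi)
    (fun z => DirichletCharacter.Even.eval_neg psi z hpsi)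
    (fun z => DirichletCharacter.norm_le_one psi z)
  have h2 := riesz_total (by positivity) hA
  rw [sum_Mc_eq_zero psi hpsi hA ha hq h1] at h2
  exact riesz_mono (Q_le (Nat.pos_of_ne_zero (NeZero.ne q))) h2

/-- **(A2)**, bound -/
theorem A2 {q : ℕ} [NeZero q] (psi : DirichletCharacter ℂ q) (hpsi : psi.Even)
    {a : Ideal (𝓞 E)} (ha : a ≠ ⊥) (hq : (absNorm a).Coprime q) (h1 : psi (absNorm a : ZMod q) ≠ 1)
    {s : ℝ} (hs : 0 < s) (hs1 : s ≤ 1) :
    ‖LEpsi E psi s‖
      ≤ Cfin (Module.finrank ℚ E) q * (1 + Real.log |(discr E : ℝ)|) ^ (2 * Module.finrank ℚ E + 2) := by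
  have hq0 : 0 < q := Nat.pos_of_ne_zero (NeZero.ne q)
  exact (A2_explicit psi (one_le_Q hq0) (riesz_psi psi hpsi ha hq h1) hs hs1).trans (final_le hq0)

/-- **(A2)**, Lipschitz bound -/
theorem A2_lip {q : ℕ} [NeZero q] (psi : DirichletCharacter ℂ q) (hpsi : psi.Even)
    {a : Ideal (𝓞 E)} (ha : a ≠ ⊥) (hq : (absNorm a).Coprime q) (h1 : psi (absNorm a : ZMod q) ≠ 1)
    {s s' : ℝ} (hs : 0 < s) (hs1 : s ≤ 1) (hs' : 0 < s') (hs1' : s' ≤ 1) :
    ‖LEpsi E psi s - LEpsi E psi s'‖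
      ≤ Cfin (Module.finrank ℚ E) q * (1 + Real.log |(discr E : ℝ)|) ^ (2 * Module.finrank ℚ E + 2)
        * |s - s'| := by
  have hq0 : 0 < q := Nat.pos_of_ne_zero (NeZero.ne q)
  refine (A2_lip_explicit psi (one_le_Q hq0) (riesz_psi psi hpsi ha hq h1) hs hs1 hs' hs1').trans ?_
  have := final_le (E := E) hq0
  gcongr

end Crest.Agent.R014.Ic8_550
end
end

-- ▼ part R014/N1R_479
section

/-!
N1-MAIN (row 14): the final theorem `ResLower`.  Helper479.
-/

set_option autoImplicit false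

universe u

namespace Crest.Agent.R014.N1R_479

open NumberField Crest.Agent.R014 Crest.Agent.R014.LDef_550 Crest.Agent.R014.N1D_479
  Crest.Agent.R014.N1C_479 Crest.Agent.R014.N1E_479 Crest.Agent.R014.N1G_202
  Crest.Agent.R014.N1M_479 Crest.NumberTheoryR.Packets Filter

/-- (A1) with a uniform constant -/
theorem exists_A1 (d : ℕ) : ∃ C : ℝ, 1 ≤ C ∧ A1 d C := by
  set C : ℝ := max (max 1 (Ic8_550.Cfin d 1)) ((2 * d + 2 : ℕ) : ℝ) with hC
  have hC1 : 1 ≤ C := (le_max_left _ _).trans (le_max_left _ _)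
  refine ⟨C, hC1, ?_⟩
  intro E _ _ hE s hs hs1
  have h := Ic8_550.A1 (E := E) hs hs1
  rw [hE] at h
  refine h.trans ?_
  have hl := log_disc_nonneg E
  have h1 : (1 : ℝ) ≤ 1 + Real.log |(discr E : ℝ)| := by linarith
  have h2 : Ic8_550.Cfin d 1 ≤ C := (le_max_right _ _).trans (le_max_left _ _)
  have h3 : (1 + Real.log |(discr E : ℝ)|) ^ (2 * d + 2)
      ≤ (1 + Real.log |(discr E : ℝ)|) ^ C := by
    rw [← Real.rpow_natCast]
    exact Real.rpow_le_rpow_of_exponent_le h1 (le_max_right _ _)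
  have h4 : (0:ℝ) ≤ (1 + Real.log |(discr E : ℝ)|) ^ (2 * d + 2) := by positivity
  exact mul_le_mul h2 h3 h4 (by linarith)

/-- (A2) with a uniform constant -/
theorem exists_A2 (d q : ℕ) (hq : q ≠ 0) : ∃ C : ℝ, 1 ≤ C ∧ A2 d q C := by
  have : NeZero q := ⟨hq⟩
  set C : ℝ := max (max 1 (Ic8_550.Cfin d q)) ((2 * d + 2 : ℕ) : ℝ) with hC
  have hC1 : 1 ≤ C := (le_max_left _ _).trans (le_max_left _ _)
  refine ⟨C, hC1, ?_⟩
  intro E _ _ hE ψ hψ ⟨a, ha, haq, haψ⟩
  have hl := log_disc_nonneg E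
  have h1 : (1 : ℝ) ≤ 1 + Real.log |(discr E : ℝ)| := by linarith
  have h2 : Ic8_550.Cfin d q ≤ C := (le_max_right _ _).trans (le_max_left _ _)
  have h3 : (1 + Real.log |(discr E : ℝ)|) ^ (2 * d + 2)
      ≤ (1 + Real.log |(discr E : ℝ)|) ^ C := by
    rw [← Real.rpow_natCast]
    exact Real.rpow_le_rpow_of_exponent_le h1 (le_max_right _ _)
  have h4 : (0:ℝ) ≤ (1 + Real.log |(discr E : ℝ)|) ^ (2 * d + 2) := by positivity
  have h5 := mul_le_mul h2 h3 h4 (by linarith)
  refine ⟨fun s hs hs1 => ?_, fun s s' hs hs1 hs' hs1' => ?_⟩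
  · have h := Ic8_550.A2 (E := E) ψ hψ ha haq haψ hs hs1
    rw [hE] at h
    exact h.trans h5
  · have h := Ic8_550.A2_lip (E := E) ψ hψ ha haq haψ hs hs1 hs' hs1'
    rw [hE] at h
    exact h.trans (mul_le_mul_of_nonneg_right h5 (abs_nonneg _))

theorem A1_mono {d : ℕ} {C C' : ℝ} (hC : 1 ≤ C) (h : A1 d C) (hCC : C ≤ C') : A1 d C' := by
  intro E _ _ hE s hs hs1
  have hl := log_disc_nonneg E
  exact (h E hE s hs hs1).trans (pow_mono (by linarith) le_rfl hC hCC)

theorem A2_mono {d q : ℕ} {C C' : ℝ} (hC : 1 ≤ C) (h : A2 d q C) (hCC : C ≤ C') : A2 d q C' := by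
  intro E _ _ hE ψ hψ ha
  have hl := log_disc_nonneg E
  obtain ⟨h1, h2⟩ := h E hE ψ hψ ha
  have h3 : C * (1 + Real.log |(discr E : ℝ)|) ^ C ≤ C' * (1 + Real.log |(discr E : ℝ)|) ^ C' :=
    pow_mono (by linarith) le_rfl hC hCC
  exact ⟨fun s hs hs1 => (h1 s hs hs1).trans h3, fun s s' hs hs1 hs' hs1' =>
    (h2 s s' hs hs1 hs' hs1').trans (mul_le_mul_of_nonneg_right h3 (abs_nonneg _))⟩

/-- the total loss is `O(log log D)` -/
theorem loss_bound (n0 q : ℕ) (hq : 1 ≤ q) (C : ℝ) (hC : 1 ≤ C) : ∃ α β : ℝ, 0 ≤ α ∧ 0 ≤ β ∧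
    ∀ D : ℝ, 1 ≤ D → ee n0 q C D + Real.log (aa n0 C D) + 1
      ≤ α + β * Real.log (1 + Real.log D) := by
  set B : ℝ := Real.exp (n0 * K0 + 4 * n0) with hB
  have hB1 : 1 ≤ B := by
    rw [hB]
    apply Real.one_le_exp
    have := K0_nonneg
    positivity
  have hq1 : (1:ℝ) ≤ q := by exact_mod_cast hq
  have hlq : 0 ≤ Real.log q := Real.log_nonneg hq1
  have hl2 : 0 < Real.log 2 := Real.log_pos (by norm_num)
  set C2 : ℝ := 1 + (Real.log q + 1) / Real.log 2 with hC2
  have hC21 : 1 ≤ C2 := by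
    have : 0 ≤ (Real.log q + 1) / Real.log 2 := by positivity
    linarith
  have hlC2 : 0 ≤ Real.log C2 := Real.log_nonneg hC21
  have hlB : 0 ≤ Real.log (2 * C + B) := Real.log_nonneg (by linarith)
  refine ⟨7 * n0 + n0 * Real.log C2 + (C + 3) + Real.log (2 * C + B) + 1, n0 + 1 + C,
    by positivity, by positivity, ?_⟩
  intro D hD
  have hlD : 0 ≤ Real.log D := Real.log_nonneg hD
  set Y : ℝ := 1 + Real.log D with hY
  have hY1 : 1 ≤ Y := by linarith
  have hlY : 0 ≤ Real.log Y := Real.log_nonneg hY1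
  have hYC : 1 ≤ Y ^ C := Real.one_le_rpow hY1 (by linarith)
  have h1 : Real.log (aa n0 C D) ≤ Real.log (2 * C + B) + C * Real.log Y := by
    have h2 : aa n0 C D ≤ (2 * C + B) * Y ^ C := by
      unfold aa
      rw [← hB, ← hY]
      nlinarith
    have h3 : 0 < aa n0 C D := lt_of_lt_of_le one_pos (aa_ge hC hD).2
    have h4 := Real.log_le_log h3 h2
    rw [Real.log_mul (by positivity) (by positivity), Real.log_rpow (by linarith)] at h4
    exact h4
  have h5 : Real.log (1 + Real.logb 2 (q * D)) ≤ Real.log C2 + Real.log Y := by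
    rw [← Real.log_mul (by positivity) (by positivity)]
    apply Real.log_le_log
    · have : 0 ≤ Real.logb 2 (q * D) :=
        Real.logb_nonneg (by norm_num) (one_le_mul_of_one_le_of_one_le hq1 hD)
      linarith
    · rw [Real.logb, Real.log_mul (by positivity) (by positivity), hC2]
      have h6 : (Real.log q + Real.log D) / Real.log 2
          ≤ (Real.log q + 1) / Real.log 2 * Y := by
        rw [div_mul_eq_mul_div]
        apply div_le_div_of_nonneg_right _ hl2.le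
        nlinarith
      nlinarith
  have h7 : (n0 : ℝ) * Real.log (1 + Real.logb 2 (q * D))
      ≤ n0 * (Real.log C2 + Real.log Y) := mul_le_mul_of_nonneg_left h5 (Nat.cast_nonneg _)
  unfold ee
  rw [← hY]
  nlinarith

/-- `log` is small -/
theorem eventually_small (α β C1 ε : ℝ) (hβ : 0 ≤ β) (hC1 : 1 ≤ C1) (hε : 0 < ε) :
    ∀ᶠ X : ℝ in atTop, α + β * Real.log (C1 * (1 + X)) ≤ ε * X := by
  have h1 := Real.isLittleO_log_id_atTop.def (c := ε / (4 * (β + 1) * C1)) (by positivity)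
  have h2 : Tendsto (fun X : ℝ => C1 * (1 + X)) atTop atTop :=
    Tendsto.const_mul_atTop (by linarith) (tendsto_atTop_add_const_left _ _ tendsto_id)
  have h3 := h2.eventually h1
  filter_upwards [h3, eventually_ge_atTop (1:ℝ), eventually_ge_atTop (2 * |α| / ε)]
    with X hX hX1 hXα
  rw [id, Real.norm_eq_abs, Real.norm_eq_abs] at hX
  have h4 : |C1 * (1 + X)| = C1 * (1 + X) := abs_of_nonneg (by positivity)
  rw [h4] at hX
  have h5 : Real.log (C1 * (1 + X)) ≤ ε / (4 * (β + 1) * C1) * (C1 * (1 + X)) :=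
    (le_abs_self _).trans hX
  have h6 : ε / (4 * (β + 1) * C1) * (C1 * (1 + X)) = ε * (1 + X) / (4 * (β + 1)) := by
    field_simp
  rw [h6] at h5
  have h7 : β * Real.log (C1 * (1 + X)) ≤ β * (ε * (1 + X) / (4 * (β + 1))) :=
    mul_le_mul_of_nonneg_left h5 hβ
  have h8 : β * (ε * (1 + X) / (4 * (β + 1))) ≤ ε * (1 + X) / 4 := by
    rw [← mul_div_assoc, div_le_div_iff₀ (by positivity) (by norm_num)]
    have : 0 ≤ ε * (1 + X) := by positivity
    nlinarith
  have h9 : |α| ≤ ε * X / 2 := by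
    rw [div_le_iff₀ hε] at hXα
    linarith
  have h10 : α ≤ |α| := le_abs_self _
  nlinarith

/-- the residue is invariant under isomorphisms -/
def ResCongr : Prop :=
  ∀ (K : Type u) [Field K] [NumberField K] (K' : Type) [Field K'] [NumberField K'],
    (K ≃+* K') → dedekindZeta_residue K = dedekindZeta_residue K'

/-- the residue is bounded below for bounded discriminant -/
def Small (n : ℕ) : Prop :=
  ∀ X0 : ℝ, ∃ c : ℝ, 0 < c ∧ ∀ (K : Type u) [Field K] [NumberField K] [IsTotallyReal K],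
    Module.finrank ℚ K = n → |(discr K : ℝ)| ≤ X0 → c ≤ dedekindZeta_residue K

/-- **Theorem N1 for large discriminant** -/
theorem large (n : ℕ) (hn : 3 ≤ n) (hcase : Odd n ∨ (n = 4 ∨ n = 6)) (hres : ResCongr.{u})
    (ε : ℝ) (hε : 0 < ε) : ∃ X0 : ℝ, ∀ (K : Type u) [Field K] [NumberField K] [IsTotallyReal K],
      Module.finrank ℚ K = n → IsPrimitiveField K → X0 ≤ Real.log |(discr K : ℝ)| →
        |(discr K : ℝ)| ^ (-ε) < dedekindZeta_residue K := by
  classical
  obtain ⟨Qs, C0, hC0, hQs, hdata⟩ := exists_data.{u} n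
  set n0 := n.factorial * n.factorial with hn0
  choose CA1 hCA1 hA1 using exists_A1
  have hA2' : ∀ d' (q : Qs), ∃ C : ℝ, 1 ≤ C ∧ A2 d' q C := fun d' q =>
    exists_A2 d' q (hQs q q.2).1.ne_zero
  choose CA2 hCA2 hA2 using hA2'
  have hAP' : ∀ q : Qs, ∃ C : ℝ, 0 ≤ C ∧
      ∀ (M : Type) [Field M] [NumberField M] (d : FldData M q (AQ q n.factorial)) (s : ℝ),
        s ∈ Set.Ioc (0:ℝ) 1 → ∀ b : AQ q n.factorial,
        Real.log (1 / s) / Nat.card (AQ q n.factorial)
          - (C + (3 + Real.log (1 + Real.log |(discr M : ℝ)|)))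
          ≤ ∑ y ∈ Finset.univ.filter (fun y => d.pr y = b), d.V s y := by
    intro q
    have : NeZero (q : ℕ) := ⟨(hQs q q.2).1.ne_zero⟩
    obtain ⟨C, h0, h1⟩ := N1A_479.apBound q (AQ q n.factorial)
    exact ⟨C, h0, fun M _ _ d s hs b => by convert h1 M d s hs b⟩
  choose CAP hCAP hAP using hAP'
  set S1 : ℝ := ∑ d' ∈ Finset.range (n0 + 1), CA1 d' with hS1
  set S2 : ℝ := ∑ d' ∈ Finset.range (n0 + 1), ∑ q : Qs, CA2 d' q with hS2
  set S3 : ℝ := ∑ q : Qs, CAP q with hS3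
  have hS10 : 0 ≤ S1 := Finset.sum_nonneg fun d' _ => by linarith [hCA1 d']
  have hS20 : 0 ≤ S2 := Finset.sum_nonneg fun d' _ => Finset.sum_nonneg fun q _ => by
    linarith [hCA2 d' q]
  have hS30 : 0 ≤ S3 := Finset.sum_nonneg fun q _ => hCAP q
  set C : ℝ := 1 + S1 + S2 + S3 with hC
  have hC1 : 1 ≤ C := by linarith
  have hle1 : ∀ d' ≤ n0, CA1 d' ≤ C := by
    intro d' hd'
    have h1 : CA1 d' ≤ S1 := Finset.single_le_sum (f := fun d' => CA1 d')
      (fun d' _ => by linarith [hCA1 d']) (Finset.mem_range.2 (by omega))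
    linarith
  have hle2 : ∀ d' ≤ n0, ∀ q : Qs, CA2 d' q ≤ C := by
    intro d' hd' q
    have h1 : CA2 d' q ≤ ∑ q : Qs, CA2 d' q := Finset.single_le_sum (f := fun q => CA2 d' q)
      (fun q _ => by linarith [hCA2 d' q]) (Finset.mem_univ _)
    have h2 : ∑ q : Qs, CA2 d' q ≤ S2 :=
      Finset.single_le_sum (f := fun d' => ∑ q : Qs, CA2 d' q)
        (fun d' _ => Finset.sum_nonneg fun q _ => by linarith [hCA2 d' q])
        (Finset.mem_range.2 (by omega))
    linarith
  have hle3 : ∀ q : Qs, CAP q ≤ C := by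
    intro q
    have h1 : CAP q ≤ S3 := Finset.single_le_sum (f := fun q => CAP q)
      (fun q _ => hCAP q) (Finset.mem_univ _)
    linarith
  -- growth
  have hgrow : ∀ q : Qs, ∀ᶠ X : ℝ in atTop, ∀ D : ℝ, 1 ≤ D → D ≤ C0 * (Real.exp X) ^ C0 →
      100 * ((n0 : ℕ) : ℝ) ^ 2 * ((n.factorial + 4) * (ee n0 q C D + Real.log (aa n0 C D) + 1))
        ≤ ε * X := by
    intro q
    obtain ⟨α, β, hα, hβ, hloss⟩ := loss_bound n0 q (hQs q q.2).1.one_lt.le C hC1
    set P : ℝ := 100 * ((n0 : ℕ) : ℝ) ^ 2 * (n.factorial + 4) with hP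
    have hP0 : 0 ≤ P := by positivity
    have hlC0 : 0 ≤ Real.log C0 := Real.log_nonneg hC0
    have hev := eventually_small (P * α) (P * β) (1 + Real.log C0 + C0) ε
      (mul_nonneg hP0 hβ) (by linarith) hε
    filter_upwards [hev, eventually_ge_atTop (0:ℝ)] with X hX hX0 D hD hDX
    have hlD : 0 ≤ Real.log D := Real.log_nonneg hD
    have h1 : Real.log D ≤ Real.log C0 + C0 * X := by
      have h2 := Real.log_le_log (by linarith) hDX
      rw [Real.log_mul (by linarith) (by positivity), Real.log_rpow (Real.exp_pos _),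
        Real.log_exp] at h2
      exact h2
    have h3 : Real.log (1 + Real.log D) ≤ Real.log ((1 + Real.log C0 + C0) * (1 + X)) := by
      apply Real.log_le_log (by linarith)
      nlinarith
    have h4 := hloss D hD
    have h5 : β * Real.log (1 + Real.log D)
        ≤ β * Real.log ((1 + Real.log C0 + C0) * (1 + X)) := mul_le_mul_of_nonneg_left h3 hβ
    have h6 : P * (ee n0 q C D + Real.log (aa n0 C D) + 1)
        ≤ P * (α + β * Real.log ((1 + Real.log C0 + C0) * (1 + X))) :=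
      mul_le_mul_of_nonneg_left (by linarith) hP0
    calc 100 * ((n0 : ℕ) : ℝ) ^ 2 * ((n.factorial + 4) * (ee n0 q C D + Real.log (aa n0 C D) + 1))
        = P * (ee n0 q C D + Real.log (aa n0 C D) + 1) := by rw [hP]; ring
      _ ≤ P * (α + β * Real.log ((1 + Real.log C0 + C0) * (1 + X))) := h6
      _ = P * α + P * β * Real.log ((1 + Real.log C0 + C0) * (1 + X)) := by ring
      _ ≤ ε * X := hX
  have hgrow' := eventually_all.2 hgrow
  obtain ⟨X0, hX0⟩ := eventually_atTop.1 hgrow'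
  refine ⟨X0, ?_⟩
  intro K _ _ _ hK hprim hX
  obtain ⟨q, hq, M, i1, i2, i3, i4, d, f, haux⟩ := hdata K hK
  have hD1 := one_le_disc K
  set X := Real.log |(discr K : ℝ)| with hXdef
  have hexpX : Real.exp X = |(discr K : ℝ)| := Real.exp_log (by linarith)
  have hbig := hX0 X hX ⟨q, hq⟩ |(discr M : ℝ)| (one_le_disc M) (by
    rw [hexpX]; exact haux.hdisc)
  set s0 : ℝ := |(discr K : ℝ)| ^ (-ε) with hs0
  have hs0pos : 0 < s0 := Real.rpow_pos_of_pos (by linarith) _
  have hlogs0 : Real.log (1 / s0) = ε * X := by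
    rw [one_div, Real.log_inv, hs0, Real.log_rpow (by linarith)]
    ring
  have hcase' : Odd n ∨ ((n = 4 ∨ n = 6) ∧ IsPrimitiveField K) := by
    rcases hcase with h | h
    · exact Or.inl h
    · exact Or.inr ⟨h, hprim⟩
  have key := one_field (K := K) hn hK hcase' (hQs q hq).1 (hQs q hq).2 haux f hC1
    (fun d' hd' => A1_mono (hCA1 d') (hA1 d') (hle1 d' hd'))
    (fun d' hd' => A2_mono (hCA2 d' ⟨q, hq⟩) (hA2 d' ⟨q, hq⟩) (hle2 d' hd' ⟨q, hq⟩))
    (fun s hs b => by
      have h1 := hAP ⟨q, hq⟩ M d s hs b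
      have h2 := hle3 ⟨q, hq⟩
      have h3 : Real.log (1 / s) / Nat.card (AQ q n.factorial)
          - (C + (3 + Real.log (1 + Real.log |(discr M : ℝ)|)))
          ≤ Real.log (1 / s) / Nat.card (AQ q n.factorial)
          - (CAP ⟨q, hq⟩ + (3 + Real.log (1 + Real.log |(discr M : ℝ)|))) := by linarith
      refine h3.trans ?_
      convert h1)
    hs0pos (by rw [hlogs0]; exact hbig)
  have e : K ≃+* ↥(IntermediateField.fixedField f.fieldRange.fixingSubgroup) := by
    have h1 : IntermediateField.fixedField f.fieldRange.fixingSubgroup = f.fieldRange :=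
      IsGalois.fixedField_fixingSubgroup _
    rw [h1]
    exact (AlgEquiv.ofInjectiveField f).toRingEquiv
  rw [hres K _ e]
  exact key

/-- **Theorem N1** -/
theorem resLower_of (n : ℕ) (hn : 3 ≤ n) (hcase : Odd n ∨ (n = 4 ∨ n = 6)) (hres : ResCongr.{u})
    (hsmall : Small.{u} n) : Vol6_834.ResLower.{u} n := by
  intro ε hε
  obtain ⟨X0, hX0⟩ := large n hn hcase hres ε hε
  obtain ⟨c, hc, hcs⟩ := hsmall (Real.exp X0)
  refine ⟨min 1 c, lt_min one_pos hc, ?_⟩
  intro K _ _ _ hK hprim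
  have hD1 := one_le_disc K
  have hpos : 0 < |(discr K : ℝ)| ^ (-ε) := Real.rpow_pos_of_pos (by linarith) _
  by_cases hX : X0 ≤ Real.log |(discr K : ℝ)|
  · have h1 := hX0 K hK hprim hX
    have h2 : min 1 c * |(discr K : ℝ)| ^ (-ε) ≤ 1 * |(discr K : ℝ)| ^ (-ε) :=
      mul_le_mul_of_nonneg_right (min_le_left _ _) hpos.le
    linarith
  · push Not at hX
    have h1 : |(discr K : ℝ)| ≤ Real.exp X0 := by
      rw [← Real.log_le_iff_le_exp (by linarith)]
      exact hX.le
    have h2 := hcs K hK h1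
    have h3 : |(discr K : ℝ)| ^ (-ε) ≤ 1 := Real.rpow_le_one_of_one_le_of_nonpos hD1 (by linarith)
    have h4 : min 1 c * |(discr K : ℝ)| ^ (-ε) ≤ c * 1 :=
      mul_le_mul (min_le_right _ _) h3 hpos.le hc.le
    linarith

end Crest.Agent.R014.N1R_479
end

-- ▼ part R014/N1Z_479

/-!
N1-MAIN (row 14): the residue is invariant under isomorphisms; small discriminants.  Helper479.
-/

set_option autoImplicit false

universe u v

namespace Crest.Agent.R014.N1Z_479

open NumberField Crest.Agent.R014 Crest.Agent.R014.LDef_550 Filter Topology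

theorem absNorm_map {R S : Type*} [CommRing R] [CommRing S] [IsDedekindDomain R]
    [IsDedekindDomain S] [Module.Free ℤ R] [Module.Free ℤ S] [Module.Finite ℤ R]
    [Module.Finite ℤ S] (e : R ≃+* S) (I : Ideal R) :
    Ideal.absNorm (I.map (e : R →+* S)) = Ideal.absNorm I := by
  rw [Ideal.absNorm_apply, Ideal.absNorm_apply, Submodule.cardQuot_apply,
    Submodule.cardQuot_apply]
  exact Nat.card_congr (Ideal.quotientEquiv I _ e rfl).symm.toEquiv

theorem rE_congr {K : Type u} {K' : Type v} [Field K] [NumberField K] [Field K'] [NumberField K']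
    (e : K ≃+* K') (n : ℕ) : rE K n = rE K' n := by
  unfold rE
  let e' : 𝓞 K ≃+* 𝓞 K' := RingOfIntegers.mapRingEquiv e
  refine Nat.card_congr ((e'.idealComapOrderIso.symm.toEquiv).subtypeEquiv ?_)
  intro I
  have h1 : (e'.idealComapOrderIso.symm.toEquiv) I = I.map (e' : 𝓞 K →+* 𝓞 K') := by
    exact RingEquiv.idealComapOrderIso_symm_apply e' I
  rw [h1, absNorm_map]

theorem zE_congr {K : Type u} {K' : Type v} [Field K] [NumberField K] [Field K'] [NumberField K']
    (e : K ≃+* K') (s : ℝ) : zE K s = zE K' s := by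
  unfold zE
  refine tsum_congr fun n => ?_
  rw [rE_congr e]

theorem residue_congr {K : Type u} {K' : Type v} [Field K] [NumberField K] [Field K']
    [NumberField K'] (e : K ≃+* K') : dedekindZeta_residue K = dedekindZeta_residue K' := by
  have h1 := Ic3_550.tendsto_zE (E := K)
  have h2 := Ic3_550.tendsto_zE (E := K')
  have h3 : (fun s : ℝ => s * zE K s) = fun s => s * zE K' s := by
    funext s
    rw [zE_congr e]
  rw [h3] at h1
  exact tendsto_nhds_unique h1 h2

theorem resCongr : N1R_479.ResCongr.{u} := fun _ _ _ _ _ _ e => residue_congr e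

/-- residue of a finite extension of `ℚ` inside `A` -/
noncomputable def resF (A : Type) [Field A] [CharZero A]
    (F : { F : IntermediateField ℚ A // FiniteDimensional ℚ F}) : ℝ :=
  haveI : NumberField F := @NumberField.mk _ _ inferInstance F.prop
  dedekindZeta_residue F

theorem resF_pos (A : Type) [Field A] [CharZero A]
    (F : { F : IntermediateField ℚ A // FiniteDimensional ℚ F}) : 0 < resF A F :=
  haveI : NumberField F := @NumberField.mk _ _ inferInstance F.prop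
  dedekindZeta_residue_pos F

theorem small_all (X0 : ℝ) : ∃ c : ℝ, 0 < c ∧ ∀ (K : Type u) [Field K] [NumberField K],
    |(discr K : ℝ)| ≤ X0 → c ≤ dedekindZeta_residue K := by
  classical
  let A := AlgebraicClosure ℚ
  have hfin := finite_of_discr_bdd A (Nat.floor X0)
  have hbdd := (hfin.image (fun F => (resF A F)⁻¹)).bddAbove
  obtain ⟨B, hB⟩ := hbdd
  refine ⟨(max B 1)⁻¹, by positivity, ?_⟩
  intro K _ _ hK
  let φ : K →ₐ[ℚ] A := IsAlgClosed.lift
  have e : K ≃+* φ.fieldRange := (AlgEquiv.ofInjectiveField φ).toRingEquiv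
  have hfd : FiniteDimensional ℚ φ.fieldRange :=
    (AlgEquiv.ofInjectiveField φ).toLinearEquiv.finiteDimensional
  have hnf : NumberField φ.fieldRange := @NumberField.mk _ _ inferInstance hfd
  have hd : discr K = discr φ.fieldRange := discr_eq_discr_of_ringEquiv K e
  have hmem : (⟨φ.fieldRange, hfd⟩ : { F : IntermediateField ℚ A // FiniteDimensional ℚ F}) ∈
      {K : { F : IntermediateField ℚ A // FiniteDimensional ℚ F} |
      haveI :  NumberField K := @NumberField.mk _ _ inferInstance K.prop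
      |discr K| ≤ Nat.floor X0 } := by
    show |discr φ.fieldRange| ≤ (Nat.floor X0 : ℤ)
    rw [← hd]
    have h0 : (0:ℝ) ≤ X0 := (abs_nonneg _).trans hK
    have h1 : ((discr K).natAbs : ℝ) ≤ X0 := by
      rw [Nat.cast_natAbs, Int.cast_abs]; exact hK
    have h2 : (discr K).natAbs ≤ Nat.floor X0 := Nat.le_floor h1
    rw [Int.abs_eq_natAbs]
    exact_mod_cast h2
  have h3 : (resF A ⟨φ.fieldRange, hfd⟩)⁻¹ ≤ B := hB ⟨_, hmem, rfl⟩
  have h4 : dedekindZeta_residue K = resF A ⟨φ.fieldRange, hfd⟩ := residue_congr e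
  rw [h4]
  have h5 := resF_pos A ⟨φ.fieldRange, hfd⟩
  rw [inv_le_comm₀ (by positivity) h5]
  exact h3.trans (le_max_left _ _)

theorem small (n : ℕ) : N1R_479.Small.{u} n := by
  intro X0
  obtain ⟨c, hc, h⟩ := small_all.{u} X0
  exact ⟨c, hc, fun K _ _ _ _ hK => h K hK⟩

/-- **Theorem N1** -/
theorem resLower (n : ℕ) (hn : 3 ≤ n) (hcase : Odd n ∨ (n = 4 ∨ n = 6)) :
    Vol6_834.ResLower.{u} n :=
  N1R_479.resLower_of n hn hcase resCongr (small n)

end Crest.Agent.R014.N1Z_479
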