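import Crest.Agent.R014.Sl1_652
import Crest.Agent.R014.Pk3_349
import Crest.Agent.R014.DivB_684

-- ▼ part R014/Sl2_652
section

/-!
Number field form of the slab count (row 14), helper652.

`SlabCount n C` is the conclusion of the abstract slab count; `nf_slab_count` transports it to the
trace dual of an arbitrary lattice `P ∋ 1` of a totally real number field.
-/

namespace Crest.Agent.R014.Sl_652

open Crest.NumberTheoryR.Packets Module

/-- The abstract slab count with constant `C` (abstract lattices in `Fin n → ℝ`). -/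
def SlabCount (n : ℕ) (C : ℝ) : Prop :=
  ∀ (b : Basis (Fin n) ℝ (Fin n → ℝ)) (R : ℝ), 1 ≤ R →
    (fun _ => (1 : ℝ)) ∈ Submodule.span ℤ (Set.range b) →
    (∀ y ∈ Submodule.span ℤ (Set.range b), (∀ k : ℤ, y ≠ fun _ => (k : ℝ)) →
      ∃ i j, R ≤ |y i - y j|) →
    ∀ S : Finset (Fin n), S.Nonempty → S ≠ Finset.univ →
    ∀ t s c r : ℝ, 1 ≤ c → 1 / R ≤ r →
      {x : Fin n → ℝ | (∀ y ∈ Submodule.span ℤ (Set.range b), ∃ k : ℤ, ∑ i, x i * y i = k) ∧
        ∑ i, x i = t ∧ (∀ i, |x i| ≤ c) ∧ |∑ i ∈ S, x i - s| ≤ r}.Finite ∧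
      ({x : Fin n → ℝ | (∀ y ∈ Submodule.span ℤ (Set.range b), ∃ k : ℤ, ∑ i, x i * y i = k) ∧
        ∑ i, x i = t ∧ (∀ i, |x i| ≤ c) ∧ |∑ i ∈ S, x i - s| ≤ r}.ncard : ℝ) ≤
        C * c ^ (n - 1) * r * |(Matrix.of (⇑b : Fin n → Fin n → ℝ)).det|

variable {K : Type*} [Field K] [NumberField K] {n : ℕ}

/-- The slab count for the trace dual of a lattice `P ∋ 1` without short elements outside `ℤ`. -/
theorem nf_slab_count {C : ℝ} (hC : SlabCount n C) (p : LatticeBasis n K)
    (σ : Fin n ≃ (K →+* ℝ)) (h1 : (1 : K) ∈ p.lattice) {R : ℝ} (hR : 1 ≤ R)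
    (hdiff : ∀ y ∈ p.lattice, (∀ k : ℤ, y ≠ k) → ∃ i j, R ≤ |σ i y - σ j y|)
    (S : Finset (Fin n)) (hS : S.Nonempty) (hS' : S ≠ Finset.univ) (t s c r : ℝ) (hc : 1 ≤ c)
    (hr : 1 / R ≤ r) :
    {x : K | x ∈ TrDual p.lattice σ ∧ ∑ i, σ i x = t ∧ (∀ i, |σ i x| ≤ c) ∧
        |∑ i ∈ S, σ i x - s| ≤ r}.Finite ∧
      ({x : K | x ∈ TrDual p.lattice σ ∧ ∑ i, σ i x = t ∧ (∀ i, |σ i x| ≤ c) ∧
        |∑ i ∈ S, σ i x - s| ≤ r}.ncard : ℝ) ≤
        C * c ^ (n - 1) * r * |(embMatrix p σ).det| := by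
  obtain ⟨hf, hcard⟩ := hC (sigBasis p σ) R hR
    (mem_span_sigBasis.mpr ⟨1, h1, by ext i; simp⟩)
    (by
      intro y hy hk
      obtain ⟨x, hx, rfl⟩ := mem_span_sigBasis.mp hy
      exact hdiff x hx fun k hxk => hk k (by ext i; simp [hxk]))
    S hS hS' t s c r hc hr
  set A := {x : Fin n → ℝ | (∀ y ∈ Submodule.span ℤ (Set.range (sigBasis p σ)),
    ∃ k : ℤ, ∑ i, x i * y i = k) ∧
        ∑ i, x i = t ∧ (∀ i, |x i| ≤ c) ∧ |∑ i ∈ S, x i - s| ≤ r} with hA
  set B := {x : K | x ∈ TrDual p.lattice σ ∧ ∑ i, σ i x = t ∧ (∀ i, |σ i x| ≤ c) ∧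
        |∑ i ∈ S, σ i x - s| ≤ r} with hB
  have hinj : Function.Injective (sigVec σ) := sigVec_injective (n_pos p) σ
  have hsub : sigVec σ '' B ⊆ A := by
    rintro _ ⟨x, ⟨hx1, hx2, hx3, hx4⟩, rfl⟩
    exact ⟨mem_trDual_iff_span.mp hx1, hx2, hx3, hx4⟩
  have hfB : (sigVec σ '' B).Finite := hf.subset hsub
  refine ⟨(Set.finite_image_iff hinj.injOn).mp hfB, ?_⟩
  have h2 : B.ncard ≤ A.ncard := by
    rw [← Set.ncard_image_of_injective B hinj]
    exact Set.ncard_le_ncard hsub hf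
  calc (B.ncard : ℝ) ≤ A.ncard := by exact_mod_cast h2
    _ ≤ _ := hcard
    _ = _ := by rw [coe_sigBasis]; rfl


end Crest.Agent.R014.Sl_652
end

-- ▼ part R014/N2Alg_675
section

/-!
Row 14, part N2 (helper675): algebra of the lattices locally homothetic to `m` containing `1`.

`fIdx m` = index of the multiplier order in the ring of integers, `fPart m m1` = the part of the
lattice at the primes dividing `fIdx m`, `idl m m1` = the ideal prime to `fIdx m` describing the
lattice away from `fIdx m`.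
-/

set_option autoImplicit false

open Crest.NumberTheoryR.Packets Module NumberField
open scoped nonZeroDivisors

namespace Crest.Agent.R014.N2_675

open Crest.Agent.R014.Sl_652
open Crest.Agent.R014.Pk2_349 (lh_refl lh_symm lh_trans mem_of_forall_prime mult_eq_of_lh)
open Crest.Agent.R014.Pk3_349 (exists_nat_mul_fg)

noncomputable section

variable {K : Type*} [Field K] [NumberField K] {n : ℕ}

/-- The index of the multiplier order in the ring of integers. -/
def fIdx (m : LatticeBasis n K) : ℕ :=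
  (multiplierOrder m).relIndex (integralClosure ℤ K).toSubring.toAddSubgroup

theorem latticeDisc_eq (m : LatticeBasis n K) :
    latticeDisc m = |(NumberField.discr K : ℝ)| * (fIdx m : ℝ) ^ 2 := rfl

theorem fIdx_pos (m : LatticeBasis n K) : 0 < fIdx m := by
  obtain ⟨M, hM, hd⟩ := maxBasis_exists (finrank_eq m)
  obtain ⟨o, ho⟩ := order_basis m
  have hle : o.lattice ≤ M.lattice := by
    intro x hx
    rw [hM]
    rw [ho] at hx
    exact order_isIntegral hx
  have h := relIndex_eq M o hle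
  have e1 : M.lattice.toAddSubgroup = (integralClosure ℤ K).toSubring.toAddSubgroup := by
    ext x
    change x ∈ M.lattice ↔ x ∈ integralClosure ℤ K
    rw [hM]
    rfl
  have e2 : o.lattice.toAddSubgroup = multiplierOrder m := by
    ext x
    change x ∈ o.lattice ↔ _
    rw [ho]
    rfl
  rw [e1, e2] at h
  have h2 : (qBasis M).det o.vec ≠ 0 := by
    have := (qBasis M).isUnit_det (qBasis o)
    rw [coe_qBasis] at this
    exact this.ne_zero
  have h3 : ((fIdx m : ℕ) : ℚ) ≠ 0 := by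
    rw [fIdx, h]
    exact abs_ne_zero.mpr h2
  exact Nat.pos_of_ne_zero (by exact_mod_cast h3)

theorem fIdx_mul_mem (m : LatticeBasis n K) {x : K} (hx : IsIntegral ℤ x) :
    (fIdx m : K) * x ∈ multiplierOrder m := by
  have h := AddSubgroup.nsmul_index_mem
    ((multiplierOrder m).addSubgroupOf (integralClosure ℤ K).toSubring.toAddSubgroup) ⟨x, hx⟩
  rw [AddSubgroup.mem_addSubgroupOf] at h
  have e : (((((multiplierOrder m).addSubgroupOf
      (integralClosure ℤ K).toSubring.toAddSubgroup).index •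
      (⟨x, hx⟩ : (integralClosure ℤ K).toSubring.toAddSubgroup) :
      (integralClosure ℤ K).toSubring.toAddSubgroup)) : K) = (fIdx m : K) * x := by
    rw [AddSubgroup.coe_nsmul, nsmul_eq_mul]
    rfl
  rw [e] at h
  exact h


/-- The part of the lattice `m1` at the primes dividing `fIdx m`. -/
def fPart (m m1 : LatticeBasis n K) : AddSubgroup K where
  carrier := {x | x ∈ m1.lattice ∧ ∃ k : ℕ, (fIdx m : K) ^ k * x ∈ multiplierOrder m}
  zero_mem' := ⟨m1.lattice.zero_mem, 0, by simp⟩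
  add_mem' := by
    rintro x y ⟨hx, k, hk⟩ ⟨hy, l, hl⟩
    refine ⟨m1.lattice.add_mem hx hy, k + l, ?_⟩
    have e : (fIdx m : K) ^ (k + l) * (x + y) =
        ((fIdx m ^ l : ℕ) : ℤ) * ((fIdx m : K) ^ k * x) +
          ((fIdx m ^ k : ℕ) : ℤ) * ((fIdx m : K) ^ l * y) := by push_cast; ring
    rw [e]
    exact (multiplierOrder m).add_mem (mul_mem_order (int_mem_order m _) hk)
      (mul_mem_order (int_mem_order m _) hl)
  neg_mem' := by
    rintro x ⟨hx, k, hk⟩
    refine ⟨m1.lattice.neg_mem hx, k, ?_⟩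
    rw [mul_neg]
    exact (multiplierOrder m).neg_mem hk


/-- The ideal describing the lattice away from `fIdx m`. -/
def idl (m m1 : LatticeBasis n K) : Ideal (𝓞 K) where
  carrier := {b | ∀ x ∈ m1.lattice, ∃ k : ℕ, (fIdx m : K) ^ k * ((b : K) * x) ∈ multiplierOrder m}
  zero_mem' := fun x _ => ⟨0, by simp⟩
  add_mem' := by
    intro a b ha hb x hx
    obtain ⟨k, hk⟩ := ha x hx
    obtain ⟨l, hl⟩ := hb x hx
    refine ⟨k + l, ?_⟩
    have e : (fIdx m : K) ^ (k + l) * (((a + b : 𝓞 K) : K) * x) =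
        ((fIdx m ^ l : ℕ) : ℤ) * ((fIdx m : K) ^ k * ((a : K) * x)) +
          ((fIdx m ^ k : ℕ) : ℤ) * ((fIdx m : K) ^ l * ((b : K) * x)) := by push_cast; ring
    rw [e]
    exact (multiplierOrder m).add_mem (mul_mem_order (int_mem_order m _) hk)
      (mul_mem_order (int_mem_order m _) hl)
  smul_mem' := by
    intro c b hb x hx
    obtain ⟨k, hk⟩ := hb x hx
    refine ⟨k + 1, ?_⟩
    have e : (fIdx m : K) ^ (k + 1) * (((c • b : 𝓞 K) : K) * x) =
        ((fIdx m : K) * (c : K)) * ((fIdx m : K) ^ k * ((b : K) * x)) := by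
      rw [smul_eq_mul]; push_cast; ring
    rw [e]
    exact mul_mem_order (fIdx_mul_mem m c.2) hk

theorem mem_idl {m m1 : LatticeBasis n K} {b : 𝓞 K} :
    b ∈ idl m m1 ↔
      ∀ x ∈ m1.lattice, ∃ k : ℕ, (fIdx m : K) ^ k * ((b : K) * x) ∈ multiplierOrder m := Iff.rfl

/-! ### The class of `m` -/

theorem order_mul_mem {m m1 : LatticeBasis n K} (h : LocallyHomothetic m m1) {a x : K}
    (ha : a ∈ multiplierOrder m) (hx : x ∈ m1.lattice) : a * x ∈ m1.lattice := by
  rw [mult_eq_of_lh h] at ha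
  exact ha x hx

theorem order_le {m m1 : LatticeBasis n K} (h : LocallyHomothetic m m1)
    (h1 : (1 : K) ∈ m1.lattice) {a : K} (ha : a ∈ multiplierOrder m) : a ∈ m1.lattice := by
  simpa using order_mul_mem h ha h1

theorem order_le_fPart {m m1 : LatticeBasis n K} (h : LocallyHomothetic m m1)
    (h1 : (1 : K) ∈ m1.lattice) : multiplierOrder m ≤ fPart m m1 :=
  fun a ha => ⟨order_le h h1 ha, 0, by simpa using ha⟩

theorem fPart_le {m m1 : LatticeBasis n K} : fPart m m1 ≤ m1.lattice.toAddSubgroup :=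
  fun _ hx => hx.1

theorem order_toInt (m : LatticeBasis n K) {o : LatticeBasis n K} (ho : o.lattice = ordSub m) :
    o.lattice.toAddSubgroup = multiplierOrder m := by
  ext x
  change x ∈ o.lattice ↔ _
  rw [ho]
  rfl

theorem exists_coprime_split (f : ℕ) (N : ℕ) (hN : N ≠ 0) :
    ∃ k a b : ℕ, N = a * b ∧ a ∣ f ^ k ∧ b.Coprime f := by
  induction N using Nat.strong_induction_on with
  | _ N ih =>
    by_cases hg : N.Coprime f
    · exact ⟨0, 1, N, by simp, one_dvd _, hg⟩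
    · have hg1 : 1 < Nat.gcd N f := by
        have h0 : Nat.gcd N f ≠ 0 := Nat.gcd_ne_zero_left hN
        have : Nat.gcd N f ≠ 1 := hg
        omega
      have hlt : N / Nat.gcd N f < N := Nat.div_lt_self (Nat.pos_of_ne_zero hN) hg1
      have hne : N / Nat.gcd N f ≠ 0 := by
        rw [Nat.div_ne_zero_iff]
        exact ⟨by omega, Nat.le_of_dvd (Nat.pos_of_ne_zero hN) (Nat.gcd_dvd_left N f)⟩
      obtain ⟨k, a, b, h1, h2, h3⟩ := ih _ hlt hne
      refine ⟨k + 1, Nat.gcd N f * a, b, ?_, ?_, h3⟩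
      · rw [mul_assoc, ← h1, Nat.mul_div_cancel' (Nat.gcd_dvd_left N f)]
      · rw [pow_succ, mul_comm]
        exact mul_dvd_mul h2 (Nat.gcd_dvd_right N f)

/-- Some integer prime to `fIdx m` maps the lattice to its `fIdx m`-part. -/
theorem exists_coprime (m m1 : LatticeBasis n K) :
    ∃ N : ℕ, N ≠ 0 ∧ N.Coprime (fIdx m) ∧ ∃ k : ℕ, ∀ x ∈ m1.lattice,
      (fIdx m : K) ^ k * ((N : K) * x) ∈ multiplierOrder m := by
  obtain ⟨o, ho⟩ := order_basis m
  obtain ⟨N, hN, h⟩ := exists_nat_mul_fg o (lattice_fg m1)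
  obtain ⟨k, a, b, h1, ⟨c, h2⟩, h3⟩ := exists_coprime_split (fIdx m) N hN.ne'
  refine ⟨b, ?_, h3, k, fun x hx => ?_⟩
  · rintro rfl
    simp at h1
    exact hN.ne' h1
  have h4 := h x hx
  rw [ho, mem_ordSub] at h4
  have e : (fIdx m : K) ^ k * ((b : K) * x) = ((c : ℤ) : K) * ((N : K) * x) := by
    have : (fIdx m : K) ^ k = (a : K) * c := by exact_mod_cast congrArg (Nat.cast (R := K)) h2
    rw [this, h1]; push_cast; ring
  rw [e]
  exact mul_mem_order (int_mem_order m _) h4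

theorem exists_coprime_idl (m m1 : LatticeBasis n K) :
    ∃ N : ℕ, N ≠ 0 ∧ N.Coprime (fIdx m) ∧ (N : 𝓞 K) ∈ idl m m1 := by
  obtain ⟨N, h0, hN, k, h⟩ := exists_coprime m m1
  exact ⟨N, h0, hN, fun x hx => ⟨k, by simpa using h x hx⟩⟩

theorem idl_ne_bot (m m1 : LatticeBasis n K) : idl m m1 ≠ ⊥ := by
  obtain ⟨N, h0, -, h⟩ := exists_coprime_idl m m1
  intro hb
  rw [hb, Ideal.mem_bot] at h
  exact h0 (by exact_mod_cast h)

/-- The fractional ideal generated by the lattice. -/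
def frac (m1 : LatticeBasis n K) : FractionalIdeal (𝓞 K)⁰ K :=
  FractionalIdeal.spanFinset (𝓞 K) Finset.univ m1.vec

theorem mem_frac {m1 : LatticeBasis n K} {x : K} :
    x ∈ frac m1 ↔ x ∈ Submodule.span (𝓞 K) (Set.range m1.vec) := by
  rw [← FractionalIdeal.mem_coe, frac, FractionalIdeal.spanFinset_coe]
  simp

theorem frac_ne_zero (m1 : LatticeBasis n K) : frac m1 ≠ 0 :=
  FractionalIdeal.spanFinset_ne_zero.mpr
    ⟨⟨0, n_pos m1⟩, Finset.mem_univ _, vec_ne_zero m1 _⟩

theorem lattice_le_frac {m1 : LatticeBasis n K} {x : K} (hx : x ∈ m1.lattice) : x ∈ frac m1 := by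
  rw [mem_frac]
  exact Submodule.span_le_restrictScalars ℤ (𝓞 K) _ hx

theorem fIdx_mul_frac_aux {m m1 : LatticeBasis n K} (h : LocallyHomothetic m m1) {x : K}
    (hx : x ∈ frac m1) : ∀ c : 𝓞 K, (fIdx m : K) * c * x ∈ m1.lattice := by
  rw [mem_frac] at hx
  induction hx using Submodule.span_induction with
  | mem x hx =>
    obtain ⟨i, rfl⟩ := hx
    intro c
    exact order_mul_mem h (fIdx_mul_mem m c.2) (vec_mem m1 i)
  | zero => intro c; simp
  | add x y _ _ hx hy => intro c; rw [mul_add]; exact m1.lattice.add_mem (hx c) (hy c)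
  | smul a x _ hx =>
    intro c
    have e : (fIdx m : K) * c * (a • x) = (fIdx m : K) * ((c * a : 𝓞 K) : K) * x := by
      rw [Algebra.smul_def]; push_cast; ring
    rw [e]
    exact hx (c * a)

theorem fIdx_mul_frac {m m1 : LatticeBasis n K} (h : LocallyHomothetic m m1) {x : K}
    (hx : x ∈ frac m1) : (fIdx m : K) * x ∈ m1.lattice := by
  simpa using fIdx_mul_frac_aux h hx 1

theorem smul_frac {m1 : LatticeBasis n K} {x : K} (hx : x ∈ frac m1) (c : 𝓞 K) :
    (c : K) * x ∈ frac m1 := by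
  rw [mem_frac] at hx ⊢
  have := Submodule.smul_mem _ c hx
  rwa [Algebra.smul_def] at this

theorem add_frac {m1 : LatticeBasis n K} {x y : K} (hx : x ∈ frac m1) (hy : y ∈ frac m1) :
    x + y ∈ frac m1 := by
  rw [mem_frac] at hx hy ⊢
  exact Submodule.add_mem _ hx hy

omit [NumberField K] in
theorem exists_int {x : K} (hx : IsIntegral ℤ x) : ∃ b : 𝓞 K, (b : K) = x := ⟨⟨x, hx⟩, rfl⟩

omit [NumberField K] in
theorem isIntegral_of_mem_one {x : K} (hx : x ∈ (1 : FractionalIdeal (𝓞 K)⁰ K)) :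
    ∃ b : 𝓞 K, (b : K) = x := by
  obtain ⟨b, hb⟩ := (FractionalIdeal.mem_one_iff _).mp hx
  exact ⟨b, hb⟩

/-- Elements of the inverse of the fractional ideal of the lattice lie in `idl`. -/
theorem inv_frac_le_idl {m m1 : LatticeBasis n K} (h1 : (1 : K) ∈ m1.lattice) {j : K}
    (hj : j ∈ (frac m1)⁻¹) : ∃ b ∈ idl m m1, (b : K) = j := by
  rw [FractionalIdeal.mem_inv_iff (frac_ne_zero m1)] at hj
  obtain ⟨b, hb⟩ := isIntegral_of_mem_one (hj 1 (lattice_le_frac h1))
  rw [mul_one] at hb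
  refine ⟨b, fun x hx => ⟨1, ?_⟩, hb⟩
  obtain ⟨c, hc⟩ := isIntegral_of_mem_one (hj x (lattice_le_frac hx))
  rw [hb, ← hc, pow_one]
  exact fIdx_mul_mem m c.2

theorem one_mem_frac_mul_inv (m1 : LatticeBasis n K) : (1 : K) ∈ frac m1 * (frac m1)⁻¹ := by
  rw [mul_inv_cancel₀ (frac_ne_zero m1)]
  exact FractionalIdeal.one_mem_one _

theorem mem_frac_of_idl {m m1 : LatticeBasis n K} (h1 : (1 : K) ∈ m1.lattice) {y : K}
    (hy : ∀ b ∈ idl m m1, IsIntegral ℤ ((b : K) * y)) : y ∈ frac m1 := by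
  have h2 : (1 : K) * y ∈ frac m1 := by
    refine FractionalIdeal.mul_induction_on (C := fun r => r * y ∈ frac m1)
      (one_mem_frac_mul_inv m1) ?_ ?_
    · intro i hi j hj
      obtain ⟨b, hb, rfl⟩ := inv_frac_le_idl (m := m) h1 hj
      obtain ⟨w, hw⟩ := exists_int (hy b hb)
      have := smul_frac hi w
      have e : i * (b : K) * y = (w : K) * i := by rw [hw]; ring
      rw [e]; exact this
    · intro x z hx hz
      rw [add_mul]
      exact add_frac hx hz
  simpa using h2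

theorem pow_mem_frac_of_idl {m m1 : LatticeBasis n K} (h1 : (1 : K) ∈ m1.lattice) {y : K}
    (hy : ∀ b ∈ idl m m1, ∃ k : ℕ, IsIntegral ℤ ((fIdx m : K) ^ k * ((b : K) * y))) :
    ∃ k : ℕ, (fIdx m : K) ^ k * y ∈ frac m1 := by
  have h2 : ∃ k : ℕ, (fIdx m : K) ^ k * (1 * y) ∈ frac m1 := by
    refine FractionalIdeal.mul_induction_on
      (C := fun r => ∃ k : ℕ, (fIdx m : K) ^ k * (r * y) ∈ frac m1)
      (one_mem_frac_mul_inv m1) ?_ ?_
    · intro i hi j hj
      obtain ⟨b, hb, rfl⟩ := inv_frac_le_idl (m := m) h1 hj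
      obtain ⟨k, hk⟩ := hy b hb
      obtain ⟨w, hw⟩ := exists_int hk
      have := smul_frac hi w
      refine ⟨k, ?_⟩
      have e : (fIdx m : K) ^ k * (i * (b : K) * y) = (w : K) * i := by rw [hw]; ring
      rw [e]; exact this
    · rintro x z ⟨k, hx⟩ ⟨l, hz⟩
      refine ⟨k + l, ?_⟩
      have e : (fIdx m : K) ^ (k + l) * ((x + z) * y) =
          ((fIdx m ^ l : 𝓞 K) : K) * ((fIdx m : K) ^ k * (x * y)) +
          ((fIdx m ^ k : 𝓞 K) : K) * ((fIdx m : K) ^ l * (z * y)) := by push_cast; ring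
      rw [e]
      exact add_frac (smul_frac hx _) (smul_frac hz _)
  simpa using h2

/-- Half of the injectivity of the splitting. -/
theorem lattice_le_of {m m1 m2 : LatticeBasis n K} (h2 : LocallyHomothetic m m2)
    (h21 : (1 : K) ∈ m2.lattice) (hP : fPart m m1 ≤ fPart m m2) (hI : idl m m2 ≤ idl m m1) :
    m1.lattice ≤ m2.lattice := by
  intro x hx
  apply mem_of_forall_prime
  intro ℓ hℓ
  by_cases hf : ℓ ∣ fIdx m
  · obtain ⟨N, -, hN, k, h⟩ := exists_coprime m m1
    refine ⟨N, fun hd => ?_, ?_⟩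
    · exact hℓ.one_lt.ne' (Nat.dvd_one.mp (hN ▸ Nat.dvd_gcd hd hf))
    · refine (hP (x := (N : K) * x) ⟨?_, k, h x hx⟩).1
      have := m1.lattice.smul_mem (N : ℤ) hx
      simpa using this
  · obtain ⟨k, hk⟩ := pow_mem_frac_of_idl (m := m) h21 (y := x) (fun b hb => by
      obtain ⟨k, hk⟩ := hI hb x hx
      exact ⟨k, order_isIntegral hk⟩)
    refine ⟨fIdx m ^ (k + 1), fun hd => hf (hℓ.dvd_of_dvd_pow hd), ?_⟩
    have := fIdx_mul_frac h2 hk
    have e : ((fIdx m ^ (k + 1) : ℕ) : K) * x = (fIdx m : K) * ((fIdx m : K) ^ k * x) := by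
      push_cast; ring
    rw [e]; exact this

/-- (S1): the pair (`fPart`, `idl`) determines the lattice. -/
theorem lattice_eq_of {m m1 m2 : LatticeBasis n K} (h1 : LocallyHomothetic m m1)
    (h2 : LocallyHomothetic m m2) (h11 : (1 : K) ∈ m1.lattice) (h21 : (1 : K) ∈ m2.lattice)
    (hP : fPart m m1 = fPart m m2) (hI : idl m m1 = idl m m2) : m1.lattice = m2.lattice :=
  le_antisymm (lattice_le_of h2 h21 hP.le hI.ge) (lattice_le_of h1 h11 hP.ge hI.le)

/-! ### The index inequality -/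

theorem relIndex_ne_zero (m m' : LatticeBasis n K) (h : m'.lattice ≤ m.lattice) :
    m'.lattice.toAddSubgroup.relIndex m.lattice.toAddSubgroup ≠ 0 := by
  have h1 := relIndex_eq m m' h
  intro h0
  rw [h0] at h1
  have h2 : (qBasis m).det m'.vec ≠ 0 := by
    have := (qBasis m).isUnit_det (qBasis m')
    rw [coe_qBasis] at this
    exact this.ne_zero
  have := abs_ne_zero.mpr h2
  rw [← h1] at this
  simp at this

theorem order_relIndex_ne_zero {m m1 : LatticeBasis n K} (h : LocallyHomothetic m m1)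
    (h1 : (1 : K) ∈ m1.lattice) :
    (multiplierOrder m).relIndex m1.lattice.toAddSubgroup ≠ 0 := by
  obtain ⟨o, ho⟩ := order_basis m
  have := relIndex_ne_zero m1 o (by rw [ho]; exact fun x hx => order_le h h1 hx)
  rwa [order_toInt m ho] at this

/-- `N(idl) ≤ [m1 : fPart]`. -/
theorem absNorm_idl_le {m m1 : LatticeBasis n K} (h : LocallyHomothetic m m1)
    (h1 : (1 : K) ∈ m1.lattice) :
    Ideal.absNorm (idl m m1) ≤ (fPart m m1).relIndex m1.lattice.toAddSubgroup := by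
  obtain ⟨N, hN0, hNf, hN⟩ := exists_coprime_idl m m1
  obtain ⟨c, hc⟩ := Ideal.dvd_span_singleton.mpr hN
  have ha0 : idl m m1 ≠ 0 := idl_ne_bot m m1
  have hN0' : (N : 𝓞 K) ≠ 0 := by exact_mod_cast hN0
  have hNK : (N : K) ≠ 0 := by exact_mod_cast hN0
  have hc0 : c ≠ 0 := by
    rintro rfl
    rw [mul_zero] at hc
    exact hN0' (Ideal.span_singleton_eq_bot.mp hc)
  let φ : 𝓞 K →+ K := (AddMonoidHom.mulLeft ((fIdx m : K) / N)).comp
    (algebraMap (𝓞 K) K).toAddMonoidHom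
  have hφ : ∀ z : 𝓞 K, φ z = (fIdx m : K) * ((z : K) / N) := by
    intro z
    change (fIdx m : K) / N * (z : K) = _
    ring
  have hmem : ∀ z ∈ c, (z : K) / N ∈ frac m1 := by
    intro z hz
    refine mem_frac_of_idl (m := m) h1 fun b hb => ?_
    have h3 : b * z ∈ Ideal.span {(N : 𝓞 K)} := by
      rw [hc]; exact Ideal.mul_mem_mul hb hz
    obtain ⟨w, hw⟩ := Ideal.mem_span_singleton.mp h3
    have h4 : (b : K) * ((z : K) / N) = (w : K) := by
      have h5 := congrArg (fun t : 𝓞 K => (t : K)) hw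
      simp only [map_mul, map_natCast] at h5
      field_simp
      linear_combination h5
    rw [h4]; exact w.2
  have hmap : c.toAddSubgroup.map φ ≤ m1.lattice.toAddSubgroup := by
    rintro _ ⟨z, hz, rfl⟩
    rw [hφ]
    exact fIdx_mul_frac h (hmem z hz)
  have hinf : ((fPart m m1).comap φ) ⊓ c.toAddSubgroup =
      (Ideal.span {(N : 𝓞 K)}).toAddSubgroup := by
    ext z
    constructor
    · rintro ⟨hz1, hz2⟩
      obtain ⟨-, k, hk⟩ := hz1
      rw [hφ] at hk
      obtain ⟨w, hw⟩ := exists_int (order_isIntegral hk)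
      obtain ⟨u, v, huv⟩ : IsCoprime ((fIdx m ^ (k + 1) : ℕ) : ℤ) (N : ℤ) :=
        Nat.isCoprime_iff_coprime.mpr (Nat.Coprime.pow_left _ hNf.symm)
      change z ∈ Ideal.span {(N : 𝓞 K)}
      rw [Ideal.mem_span_singleton]
      refine ⟨(u : 𝓞 K) * w + (v : 𝓞 K) * z, ?_⟩
      apply RingOfIntegers.coe_injective
      have huv' : (u : K) * (fIdx m : K) ^ (k + 1) + (v : K) * N = 1 := by
        exact_mod_cast congrArg (Int.cast (R := K)) huv
      simp only [map_mul, map_add, map_natCast, map_intCast]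
      have hw' : (algebraMap (𝓞 K) K) w = (fIdx m : K) ^ k * ((fIdx m : K) * ((z : K) / N)) := hw
      rw [hw']
      have e2 : (N : K) * ((u : K) * ((fIdx m : K) ^ k * ((fIdx m : K) * ((z : K) / N))) +
          (v : K) * (z : K)) = (z : K) * ((u : K) * (fIdx m : K) ^ (k + 1) + (v : K) * N) := by
        field_simp
        ring
      rw [e2, huv', mul_one]
    · intro hz
      have hz' : z ∈ Ideal.span {(N : 𝓞 K)} := hz
      obtain ⟨w, hw⟩ := Ideal.mem_span_singleton.mp hz'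
      constructor
      · change φ z ∈ fPart m m1
        have e : φ z = (fIdx m : K) * w := by
          rw [hφ, hw]
          simp only [map_mul, map_natCast]
          field_simp
        rw [e]
        exact order_le_fPart h h1 (fIdx_mul_mem m w.2)
      · rw [hc] at hz'
        have h7 : z ∈ c := (Ideal.mul_le_right : idl m m1 * c ≤ c) hz'
        exact h7
  have h2 : ((fPart m m1).comap φ).relIndex c.toAddSubgroup =
      (fPart m m1).relIndex (c.toAddSubgroup.map φ) := AddSubgroup.relIndex_comap _ _ _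
  have hne : (fPart m m1).relIndex m1.lattice.toAddSubgroup ≠ 0 := by
    intro h0
    have := AddSubgroup.relIndex_mul_relIndex _ _ _ (order_le_fPart h h1) (fPart_le (m := m) (m1 := m1))
    rw [h0, mul_zero] at this
    exact order_relIndex_ne_zero h h1 this.symm
  have h3 : (fPart m m1).relIndex (c.toAddSubgroup.map φ) ≤
      (fPart m m1).relIndex m1.lattice.toAddSubgroup :=
    AddSubgroup.relIndex_le_of_le_right hmap hne
  have h4 : (Ideal.span {(N : 𝓞 K)}).toAddSubgroup.relIndex c.toAddSubgroup =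
      Ideal.absNorm (idl m m1) := by
    have h5 : (Ideal.span {(N : 𝓞 K)}).toAddSubgroup ≤ c.toAddSubgroup := by
      rw [← hinf]; exact inf_le_right
    have h6 := AddSubgroup.relIndex_mul_index h5
    rw [← Ideal.absNorm_eq_index, ← Ideal.absNorm_eq_index, hc, map_mul] at h6
    rw [← hc] at h6
    refine Nat.eq_of_mul_eq_mul_right (Nat.pos_of_ne_zero ?_) h6
    exact fun h0 => hc0 (Ideal.absNorm_eq_zero_iff.mp h0)
  rw [← h4, ← hinf, AddSubgroup.inf_relIndex_right, h2]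
  exact h3

/-- (S2) -/
theorem index_le {m m1 : LatticeBasis n K} (h : LocallyHomothetic m m1)
    (h1 : (1 : K) ∈ m1.lattice) (σ : Fin n ≃ (K →+* ℝ)) :
    (Ideal.absNorm (idl m m1) : ℝ) * ((multiplierOrder m).relIndex (fPart m m1) : ℝ) *
      |(embMatrix m1 σ).det| ≤ Real.sqrt (latticeDisc m) := by
  obtain ⟨o, ho⟩ := order_basis m
  have h2 := abs_det_embMatrix m1 o σ (by rw [ho]; exact fun x hx => order_le h h1 hx)
  rw [order_toInt m ho] at h2
  rw [← disc_of_order m o ho σ, Real.sqrt_sq_eq_abs, h2,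
    ← AddSubgroup.relIndex_mul_relIndex _ _ _ (order_le_fPart h h1) (fPart_le (m := m) (m1 := m1))]
  push_cast
  have h3 : (Ideal.absNorm (idl m m1) : ℝ) ≤
      ((fPart m m1).relIndex m1.lattice.toAddSubgroup : ℝ) := by
    exact_mod_cast absNorm_idl_le h h1
  refine mul_le_mul_of_nonneg_right ?_ (abs_nonneg _)
  rw [mul_comm]
  exact mul_le_mul_of_nonneg_left h3 (Nat.cast_nonneg _)

end

end Crest.Agent.R014.N2_675
end

-- ▼ part R014/N2Dual_675
section

/-!
Row 14, part N2 (helper675): the trace dual of a lattice and the ideal `idl`; the lattice basis of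
`fPart`; separation of conjugates.
-/

set_option autoImplicit false

open Crest.NumberTheoryR.Packets Module NumberField
open scoped nonZeroDivisors

namespace Crest.Agent.R014.N2_675

open Crest.Agent.R014.Sl_652
open Crest.Agent.R014.Pk2_349 (lh_refl lh_symm lh_trans mem_of_forall_prime mult_eq_of_lh)

noncomputable section

variable {K : Type*} [Field K] [NumberField K] {n : ℕ}

/-- The discriminant kills the codifferent. -/
theorem discr_mul_isIntegral {z : K}
    (hz : ∀ a : 𝓞 K, ∃ k : ℤ, Algebra.trace ℚ K (z * a) = k) :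
    ∃ b : 𝓞 K, (b : K) = (NumberField.discr K : K) * z := by
  have h1 : ((NumberField.discr K : ℤ) : 𝓞 K) ∈ differentIdeal ℤ (𝓞 K) :=
    NumberField.discr_mem_differentIdeal K (𝓞 K)
  have h2 : ((NumberField.discr K : ℤ) : K) ∈
      ((differentIdeal ℤ (𝓞 K) : Ideal (𝓞 K)) : FractionalIdeal (𝓞 K)⁰ K) := by
    rw [FractionalIdeal.mem_coeIdeal]
    exact ⟨_, h1, by simp⟩
  rw [coeIdeal_differentIdeal ℤ ℚ] at h2
  have h10 : (1 : FractionalIdeal (𝓞 K)⁰ K) ≠ 0 := one_ne_zero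
  have h3 : z ∈ FractionalIdeal.dual ℤ ℚ (1 : FractionalIdeal (𝓞 K)⁰ K) := by
    rw [FractionalIdeal.mem_dual h10]
    intro a ha
    obtain ⟨b, rfl⟩ := isIntegral_of_mem_one ha
    obtain ⟨k, hk⟩ := hz b
    exact ⟨k, by rw [Algebra.traceForm_apply, hk]; simp⟩
  have h4 := (FractionalIdeal.mem_inv_iff
    (FractionalIdeal.dual_ne_zero ℤ ℚ h10)).mp h2 z h3
  exact isIntegral_of_mem_one h4

/-- (S3): the trace dual of the lattice and the ideal `idl`. -/
theorem dual_mem_idl {m m1 : LatticeBasis n K} (h : LocallyHomothetic m m1)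
    (h1 : (1 : K) ∈ m1.lattice) (σ : Fin n ≃ (K →+* ℝ)) {β : K}
    (hβ : β ∈ TrDual m1.lattice σ) :
    ∃ γ ∈ idl m m1, (γ : K) = (NumberField.discr K : K) * ((fIdx m : K) * β) := by
  have key : ∀ x ∈ m1.lattice, ∃ b : 𝓞 K, (b : K) =
      (NumberField.discr K : K) * ((fIdx m : K) * β * x) := by
    intro x hx
    apply discr_mul_isIntegral
    intro a
    rw [mem_trDual_iff_trace (finrank_eq m)] at hβ
    obtain ⟨k, hk⟩ := hβ (((fIdx m : K) * a) * x) (order_mul_mem h (fIdx_mul_mem m a.2) hx)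
    refine ⟨k, ?_⟩
    rw [← hk]
    congr 1
    ring
  obtain ⟨γ, hγ⟩ := key 1 h1
  rw [mul_one] at hγ
  refine ⟨γ, fun x hx => ?_, hγ⟩
  obtain ⟨b, hb⟩ := key x hx
  refine ⟨1, ?_⟩
  have e : (fIdx m : K) ^ 1 * ((γ : K) * x) = (fIdx m : K) * b := by
    rw [hγ, hb]; ring
  rw [e]
  exact fIdx_mul_mem m b.2

/-- The norm of `γ = disc · f · β`. -/
theorem absNorm_span_le {m : LatticeBasis n K} (σ : Fin n ≃ (K →+* ℝ)) {β : K} {c : ℝ}
    (hc : ∀ i, |σ i β| ≤ c) {γ : 𝓞 K}
    (hγ : (γ : K) = (NumberField.discr K : K) * ((fIdx m : K) * β)) :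
    (Ideal.absNorm (Ideal.span {γ}) : ℝ) ≤ (latticeDisc m * c) ^ n := by
  have hn := finrank_eq m
  have hn0 := n_pos m
  have hc0 : 0 ≤ c := (abs_nonneg _).trans (hc ⟨0, hn0⟩)
  have h1 : (Ideal.absNorm (Ideal.span {γ}) : ℝ) = ∏ i, |σ i (γ : K)| := by
    rw [Ideal.absNorm_span_singleton, ← Finset.abs_prod, ← norm_eq_prod hn σ (γ : K)]
    have h2 : Algebra.norm ℚ (γ : K) = ((Algebra.norm ℤ γ : ℤ) : ℚ) :=
      (Algebra.coe_norm_int γ).symm
    rw [h2, Nat.cast_natAbs]
    push_cast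
    rfl
  rw [h1]
  have hf1 : (1 : ℝ) ≤ fIdx m := by exact_mod_cast fIdx_pos m
  have h3 : ∀ i, |σ i (γ : K)| ≤ latticeDisc m * c := by
    intro i
    rw [hγ, map_mul, map_mul, map_intCast, map_natCast, abs_mul, abs_mul, Nat.abs_cast,
      latticeDisc_eq, mul_assoc]
    have h4 : (fIdx m : ℝ) ≤ (fIdx m : ℝ) ^ 2 := by nlinarith
    have h5 : (fIdx m : ℝ) * |σ i β| ≤ (fIdx m : ℝ) ^ 2 * c :=
      mul_le_mul h4 (hc i) (abs_nonneg _) (by positivity)
    exact mul_le_mul_of_nonneg_left h5 (abs_nonneg _)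
  calc ∏ i, |σ i (γ : K)| ≤ ∏ _i : Fin n, (latticeDisc m * c) :=
        Finset.prod_le_prod (fun _ _ => abs_nonneg _) fun i _ => h3 i
    _ = _ := by rw [Finset.prod_const, Finset.card_univ, Fintype.card_fin]

/-! ### The lattice basis of `fPart` -/

theorem fPart_basis {m m1 : LatticeBasis n K} (h : LocallyHomothetic m m1)
    (h1 : (1 : K) ∈ m1.lattice) :
    ∃ p : LatticeBasis n K, p.lattice = (fPart m m1).toIntSubmodule := by
  refine exists_latticeBasis (finrank_eq m) _ ?_ ?_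
  · have : IsNoetherian ℤ m1.lattice := by
      have : Module.Finite ℤ m1.lattice := Module.Finite.iff_fg.mpr (lattice_fg m1)
      infer_instance
    have h2 : (fPart m m1).toIntSubmodule ≤ m1.lattice := fun x hx => hx.1
    have h3 : IsNoetherian ℤ (fPart m m1).toIntSubmodule := isNoetherian_of_le h2
    exact (Submodule.fg_top _).mp (h3.noetherian ⊤)
  · intro x
    obtain ⟨N, hN, h2⟩ := exists_mul_mem_order m x
    exact ⟨N, hN, order_le_fPart h h1 h2⟩

theorem fPart_det {m m1 p : LatticeBasis n K} (h : LocallyHomothetic m m1)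
    (h1 : (1 : K) ∈ m1.lattice) (hp : p.lattice = (fPart m m1).toIntSubmodule)
    (σ : Fin n ≃ (K →+* ℝ)) :
    ((multiplierOrder m).relIndex (fPart m m1) : ℝ) * |(embMatrix p σ).det| =
      Real.sqrt (latticeDisc m) := by
  obtain ⟨o, ho⟩ := order_basis m
  have h2 := abs_det_embMatrix p o σ (by
    rw [ho, hp]; exact fun x hx => order_le_fPart h h1 hx)
  have e : p.lattice.toAddSubgroup = fPart m m1 := by
    ext x
    change x ∈ p.lattice ↔ _
    rw [hp]
    rfl
  rw [order_toInt m ho, e] at h2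
  rw [← disc_of_order m o ho σ, Real.sqrt_sq_eq_abs, h2]

theorem fPart_relIndex_ne_zero {m m1 : LatticeBasis n K} (h : LocallyHomothetic m m1)
    (h1 : (1 : K) ∈ m1.lattice) :
    (multiplierOrder m).relIndex (fPart m m1) ≠ 0 := by
  have := AddSubgroup.relIndex_mul_relIndex _ _ _ (order_le_fPart h h1)
    (fPart_le (m := m) (m1 := m1))
  intro h0
  rw [h0, zero_mul] at this
  exact order_relIndex_ne_zero h h1 this.symm

/-! ### Separation of conjugates -/

/-- `fPart m m1` is bad at level `T`: it has an irrational element with all conjugates `≤ T`. -/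
def Bad (P : AddSubgroup K) (σ : Fin n ≃ (K →+* ℝ)) (T : ℝ) : Prop :=
  ∃ y ∈ P, (∀ r : ℚ, y ≠ r) ∧ ∀ i, |σ i y| ≤ T

theorem rat_mem {M : Submodule ℤ K} (h1 : (1 : K) ∈ M)
    (prim : ∀ (k : ℤ) (y : K), y ∈ M → (k : K) * y = 1 → IsUnit k) {r : ℚ}
    (hr : (r : K) ∈ M) : ∃ k : ℤ, (r : K) = k := by
  have hco : IsCoprime r.num (r.den : ℤ) := by
    rw [Int.isCoprime_iff_gcd_eq_one]
    exact r.reduced
  obtain ⟨u, v, huv⟩ := hco
  have hden : (r.den : K) ≠ 0 := by exact_mod_cast r.den_nz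
  have hr' : (r : K) = (r.num : K) / (r.den : K) := by
    exact_mod_cast congrArg (Rat.cast (K := K)) (Rat.num_div_den r).symm
  have h2 : (1 : K) / r.den ∈ M := by
    have e : (1 : K) / r.den = u • (r : K) + v • (1 : K) := by
      have huv' : (u : K) * r.num + (v : K) * r.den = 1 := by
        exact_mod_cast congrArg (Int.cast (R := K)) huv
      rw [hr', zsmul_eq_mul, zsmul_eq_mul]
      field_simp
      linear_combination -huv'
    rw [e]
    exact M.add_mem (M.smul_mem _ hr) (M.smul_mem _ h1)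
  have h3 := prim r.den _ h2 (by push_cast; field_simp)
  have h4 : r.den = 1 := by
    rcases Int.isUnit_iff.mp h3 with h | h <;> omega
  exact ⟨r.num, by rw [hr', h4]; simp⟩

/-- (S4) -/
theorem separation {m m1 : LatticeBasis n K} (h : LocallyHomothetic m m1)
    (h1 : (1 : K) ∈ m1.lattice) (σ : Fin n ≃ (K →+* ℝ))
    (prim : ∀ (k : ℤ) (y : K), y ∈ m1.lattice → (k : K) * y = 1 → IsUnit k) {T : ℝ}
    (hT : 1 ≤ T) (hb : ¬ Bad (fPart m m1) σ T) {y : K} (hy : y ∈ fPart m m1)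
    (hZ : ∀ k : ℤ, y ≠ k) : ∃ i j, T / 2 ≤ |σ i y - σ j y| := by
  have hn0 := n_pos m
  set k : ℤ := round (σ ⟨0, hn0⟩ y) with hk
  have h2 : y - k ∈ fPart m m1 := (fPart m m1).sub_mem hy
    (order_le_fPart h h1 (int_mem_order m k))
  have h3 : ∀ r : ℚ, y - k ≠ r := by
    intro r hr
    have h4 : ((r + k : ℚ) : K) ∈ m1.lattice := by
      have : ((r + k : ℚ) : K) = y := by push_cast; rw [← hr]; ring
      rw [this]; exact hy.1
    obtain ⟨l, hl⟩ := rat_mem h1 prim h4
    apply hZ l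
    rw [← hl]; push_cast; rw [← hr]; ring
  have h4 : ∃ i, T < |σ i (y - k)| := by
    by_contra hcon
    push Not at hcon
    exact hb ⟨_, h2, h3, hcon⟩
  obtain ⟨i, hi⟩ := h4
  refine ⟨i, ⟨0, hn0⟩, ?_⟩
  have h5 : |σ ⟨0, hn0⟩ y - k| ≤ 1 / 2 := abs_sub_round _
  have h6 : σ i (y - k) = (σ i y - σ ⟨0, hn0⟩ y) + (σ ⟨0, hn0⟩ y - k) := by
    rw [map_sub, map_intCast]; ring
  rw [h6] at hi
  have h7 := abs_add_le (σ i y - σ ⟨0, hn0⟩ y) (σ ⟨0, hn0⟩ y - k)
  linarith

end

end Crest.Agent.R014.N2_675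
end

-- ▼ part R014/N2Cnt_675

/-!
Row 14, part N2 (helper675): the counts of lattices and of pairs (lattice, dual vector).
-/

set_option autoImplicit false

open Crest.NumberTheoryR.Packets Module NumberField
open scoped nonZeroDivisors

namespace Crest.Agent.R014.N2_675

open Crest.Agent.R014.Sl_652 Crest.Agent.R014.DivB_684
open Crest.Agent.R014.Pk2_349 (lh_refl lh_symm lh_trans mem_of_forall_prime mult_eq_of_lh)

noncomputable section

universe u

variable {K : Type u} [Field K] [NumberField K] {n : ℕ}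

/-- The part at the primes dividing `fIdx m` of a submodule. -/
def fP (m : LatticeBasis n K) (M : Submodule ℤ K) : AddSubgroup K where
  carrier := {x | x ∈ M ∧ ∃ k : ℕ, (fIdx m : K) ^ k * x ∈ multiplierOrder m}
  zero_mem' := ⟨M.zero_mem, 0, by simp⟩
  add_mem' := by
    rintro x y ⟨hx, k, hk⟩ ⟨hy, l, hl⟩
    refine ⟨M.add_mem hx hy, k + l, ?_⟩
    have e : (fIdx m : K) ^ (k + l) * (x + y) =
        ((fIdx m ^ l : ℕ) : ℤ) * ((fIdx m : K) ^ k * x) +
          ((fIdx m ^ k : ℕ) : ℤ) * ((fIdx m : K) ^ l * y) := by push_cast; ring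
    rw [e]
    exact (multiplierOrder m).add_mem (mul_mem_order (int_mem_order m _) hk)
      (mul_mem_order (int_mem_order m _) hl)
  neg_mem' := by
    rintro x ⟨hx, k, hk⟩
    refine ⟨M.neg_mem hx, k, ?_⟩
    rw [mul_neg]
    exact (multiplierOrder m).neg_mem hk

theorem fPart_eq (m m1 : LatticeBasis n K) : fPart m m1 = fP m m1.lattice := by
  ext x; rfl

theorem idl_congr {m m1 m2 : LatticeBasis n K} (h : m1.lattice = m2.lattice) :
    idl m m1 = idl m m2 := by
  ext b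
  rw [mem_idl, mem_idl, h]

/-- Submodules which are lattices of the class of `m` containing `1`. -/
def InCls (m : LatticeBasis n K) (M : Submodule ℤ K) : Prop :=
  ∃ m1 : LatticeBasis n K, LocallyHomothetic m m1 ∧ m1.lattice = M ∧ (1 : K) ∈ M

/-- A lattice basis of a submodule of the class. -/
def rep (m : LatticeBasis n K) (M : Submodule ℤ K) : LatticeBasis n K :=
  open Classical in if h : InCls m M then h.choose else m

theorem rep_spec {m : LatticeBasis n K} {M : Submodule ℤ K} (h : InCls m M) :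
    LocallyHomothetic m (rep m M) ∧ (rep m M).lattice = M ∧ (1 : K) ∈ (rep m M).lattice := by
  have h1 : rep m M = h.choose := by rw [rep, dif_pos h]
  have h2 := h.choose_spec
  rw [h1]
  exact ⟨h2.1, h2.2.1, by rw [h2.2.1]; exact h2.2.2⟩

/-- The ideal of a submodule of the class. -/
def idS (m : LatticeBasis n K) (M : Submodule ℤ K) : Ideal (𝓞 K) := idl m (rep m M)

theorem idS_eq {m m1 : LatticeBasis n K} (h : LocallyHomothetic m m1)
    (h1 : (1 : K) ∈ m1.lattice) : idS m m1.lattice = idl m m1 :=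
  idl_congr (rep_spec ⟨m1, h, rfl, h1⟩).2.1

theorem submodule_eq {m : LatticeBasis n K} {M M' : Submodule ℤ K} (h : InCls m M)
    (h' : InCls m M') (hP : fP m M = fP m M') (hI : idS m M = idS m M') : M = M' := by
  obtain ⟨m1, a1, rfl, b1⟩ := h
  obtain ⟨m2, a2, rfl, b2⟩ := h'
  rw [idS_eq a1 b1, idS_eq a2 b2] at hI
  exact lattice_eq_of a1 a2 b1 b2 hP hI

/-- The index `[P : O]` as a real number. -/
def ix (m : LatticeBasis n K) (P : AddSubgroup K) : ℝ := ((multiplierOrder m).relIndex P : ℝ)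

theorem ix_pos {m : LatticeBasis n K} {M : Submodule ℤ K} (h : InCls m M) :
    1 ≤ ix m (fP m M) := by
  obtain ⟨m1, a1, rfl, b1⟩ := h
  have := fPart_relIndex_ne_zero a1 b1
  rw [fPart_eq] at this
  rw [ix]
  exact_mod_cast Nat.one_le_iff_ne_zero.mpr this

/-- COUNT OF LATTICES: for a finite set of lattices of the class containing `1`, of covolume at
least `√D / X`, the number is at most `C X^(1+ε) ∑ 1/[P:O]`, the sum over the occurring parts. -/
theorem card_lattices_le {ε : ℝ} (hε : 0 < ε) (m : LatticeBasis n K) (σ : Fin n ≃ (K →+* ℝ))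
    {X : ℝ} (hX : 0 ≤ X) (MM : Finset (Submodule ℤ K))
    (hMM : ∀ M ∈ MM, ∃ m1 : LatticeBasis n K, LocallyHomothetic m m1 ∧ m1.lattice = M ∧
      (1 : K) ∈ M ∧ Real.sqrt (latticeDisc m) ≤ X * |(embMatrix m1 σ).det|)
    (B : Finset (AddSubgroup K)) (hB : ∀ M ∈ MM, fP m M ∈ B)
    (hB1 : ∀ P ∈ B, 1 ≤ ix m P) :
    (MM.card : ℝ) ≤ CDiv n (ε / n) * X ^ (1 + ε) * ∑ P ∈ B, (ix m P)⁻¹ := by
  classical
  have hn : finrank ℚ K = n := finrank_eq m
  have hcls : ∀ M ∈ MM, InCls m M := fun M hM => by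
    obtain ⟨m1, a, b, c, -⟩ := hMM M hM
    exact ⟨m1, a, b, c⟩
  rw [Finset.card_eq_sum_card_fiberwise (f := fP m) (t := B) hB]
  push_cast
  rw [Finset.mul_sum]
  refine Finset.sum_le_sum fun P hP => ?_
  have hP1 := hB1 P hP
  have hP0 : 0 < ix m P := by linarith
  -- the fibre injects into the ideals of norm at most `X / [P:O]`
  have h1 : ((MM.filter fun M => fP m M = P).card : ℝ) ≤
      ({a : Ideal (𝓞 K) | a ≠ ⊥ ∧ (Ideal.absNorm a : ℝ) ≤ X / ix m P}.ncard : ℝ) := by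
    rw [← Set.ncard_coe_finset]
    have := Set.ncard_le_ncard_of_injOn (s := (↑(MM.filter fun M => fP m M = P) :
      Set (Submodule ℤ K))) (t := {a : Ideal (𝓞 K) | a ≠ ⊥ ∧
        (Ideal.absNorm a : ℝ) ≤ X / ix m P}) (idS m) ?_ ?_ (finite_norm_le _)
    · exact_mod_cast this
    · intro M hM
      rw [Finset.mem_coe, Finset.mem_filter] at hM
      obtain ⟨hM, hMP⟩ := hM
      obtain ⟨m1, a, rfl, c, d⟩ := hMM M hM
      rw [Set.mem_ofPred_eq, idS_eq a c]
      refine ⟨idl_ne_bot m m1, ?_⟩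
      have h2 := index_le a c σ
      have h3 : ((multiplierOrder m).relIndex (fPart m m1) : ℝ) = ix m P := by
        rw [← hMP]; rfl
      rw [h3] at h2
      have h4 : 0 < |(embMatrix m1 σ).det| := abs_pos.mpr (det_embMatrix_ne_zero m1 σ)
      rw [le_div_iff₀ hP0]
      exact le_of_mul_le_mul_right (h2.trans d) h4
    · intro M hM M' hM' hMM'
      rw [Finset.mem_coe, Finset.mem_filter] at hM hM'
      exact submodule_eq (hcls M hM.1) (hcls M' hM'.1) (hM.2.trans hM'.2.symm) hMM'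
  refine h1.trans ((card_norm_le_X hε (by positivity)).trans ?_)
  rw [hn, mul_assoc]
  refine mul_le_mul_of_nonneg_left ?_ (le_trans zero_le_one (one_le_CDiv n (by
    have : 0 < n := n_pos m
    positivity)))
  rw [Real.div_rpow hX hP0.le, div_eq_mul_inv]
  refine mul_le_mul_of_nonneg_left ?_ (by positivity)
  refine inv_anti₀ hP0 ?_
  calc ix m P = (ix m P) ^ (1 : ℝ) := (Real.rpow_one _).symm
    _ ≤ _ := Real.rpow_le_rpow_of_exponent_le hP1 (by linarith)

/-- The slab conditions on a dual vector. -/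
def InSlab (M : Submodule ℤ K) (σ : Fin n ≃ (K →+* ℝ)) (S : Finset (Fin n)) (t s c r : ℝ)
    (β : K) : Prop :=
  β ∈ TrDual M σ ∧ β ≠ 0 ∧ ∑ i, σ i β = t ∧ (∀ i, |σ i β| ≤ c) ∧ |∑ i ∈ S, σ i β - s| ≤ r

/-- Primitivity of `1`. -/
def Prim1 (M : Submodule ℤ K) : Prop :=
  ∀ (k : ℤ) (y : K), y ∈ M → (k : K) * y = 1 → IsUnit k

/-- COUNT OF PAIRS: for a finite set of pairs (lattice, dual vector in a slab), all lattices
containing `1` primitively with a part which is not bad. -/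
theorem card_pairs_le {C : ℝ} (hC0 : 0 ≤ C) (hC : SlabCount n C) {ε : ℝ} (hε : 0 < ε)
    (m : LatticeBasis n K) (σ : Fin n ≃ (K →+* ℝ)) (S : Finset (Fin n)) (hS : S.Nonempty)
    (hS' : S ≠ Finset.univ) (t s c r T : ℝ) (hc : 1 ≤ c) (hT : 2 ≤ T) (hr : 2 / T ≤ r)
    (Q : Finset (Submodule ℤ K × K))
    (hQ : ∀ q ∈ Q, InCls m q.1 ∧ Prim1 q.1 ∧ ¬ Bad (fP m q.1) σ T ∧
      InSlab q.1 σ S t s c r q.2)
    (B : Finset (AddSubgroup K)) (hB : ∀ q ∈ Q, fP m q.1 ∈ B)
    (hB1 : ∀ P ∈ B, 1 ≤ ix m P) :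
    (Q.card : ℝ) ≤ (CDiv n ε * ((latticeDisc m * c) ^ n) ^ ε) *
      (C * c ^ (n - 1) * r * Real.sqrt (latticeDisc m)) * ∑ P ∈ B, (ix m P)⁻¹ := by
  classical
  have hn : finrank ℚ K = n := finrank_eq m
  have hn0 : 0 < n := n_pos m
  have hD := one_le_latticeDisc m σ
  have hCD := one_le_CDiv n hε
  have hr0 : 0 ≤ r := le_trans (by positivity) hr
  set A1 : ℝ := CDiv n ε * ((latticeDisc m * c) ^ n) ^ ε with hA1
  have hA10 : 0 ≤ A1 := by positivity
  have hmaps : Set.MapsTo (fun q : Submodule ℤ K × K => fP m q.1) (↑Q) (↑B) := fun q hq => hB q hq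
  rw [Finset.card_eq_sum_card_fiberwise hmaps]
  push_cast
  rw [Finset.mul_sum]
  refine Finset.sum_le_sum fun P hP => ?_
  have hP1 := hB1 P hP
  have hP0 : 0 < ix m P := by linarith
  set F := Q.filter fun q => fP m q.1 = P with hF
  -- fibres over the dual vectors
  have hfib : ∀ β ∈ F.image Prod.snd, ((F.filter fun q => q.2 = β).card : ℝ) ≤ A1 := by
    intro β hβ
    obtain ⟨q0, hq0, rfl⟩ := Finset.mem_image.mp hβ
    rw [hF, Finset.mem_filter] at hq0
    obtain ⟨hc0, -, -, hsl⟩ := hQ q0 hq0.1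
    -- the element γ
    obtain ⟨m0, a0, e0, o0⟩ := hc0
    have hβ0 : q0.2 ≠ 0 := hsl.2.1
    have hβm : q0.2 ∈ TrDual m0.lattice σ := by rw [e0]; exact hsl.1
    obtain ⟨γ, -, hγ⟩ := dual_mem_idl a0 (by rw [e0]; exact o0) σ hβm
    have hγ0 : γ ≠ 0 := by
      rintro rfl
      have h1 : (NumberField.discr K : K) * ((fIdx m : K) * q0.2) = 0 := by
        rw [← hγ]; simp
      have h2 : (NumberField.discr K : K) ≠ 0 := by
        exact_mod_cast NumberField.discr_ne_zero K
      have h3 : (fIdx m : K) ≠ 0 := by exact_mod_cast (fIdx_pos m).ne'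
      exact (mul_ne_zero h2 (mul_ne_zero h3 hβ0)) h1
    have hne : Ideal.span {γ} ≠ ⊥ := by rwa [Ne, Ideal.span_singleton_eq_bot]
    have h1 : ((F.filter fun q => q.2 = q0.2).card : ℝ) ≤
        ({a : Ideal (𝓞 K) | a ∣ Ideal.span {γ}}.ncard : ℝ) := by
      rw [← Set.ncard_coe_finset]
      have := Set.ncard_le_ncard_of_injOn (s := (↑(F.filter fun q => q.2 = q0.2) :
        Set (Submodule ℤ K × K))) (t := {a : Ideal (𝓞 K) | a ∣ Ideal.span {γ}})
        (fun q => idS m q.1) ?_ ?_ (ncard_dvd_le hne).1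
      · exact_mod_cast this
      · intro q hq
        rw [Finset.mem_coe, Finset.mem_filter, hF, Finset.mem_filter] at hq
        obtain ⟨⟨hq, -⟩, hq2⟩ := hq
        obtain ⟨⟨m1, a1, e1, o1⟩, -, -, hsl1⟩ := hQ q hq
        have o1' : (1 : K) ∈ m1.lattice := by rw [e1]; exact o1
        have hβ1 : q0.2 ∈ TrDual m1.lattice σ := by rw [e1, ← hq2]; exact hsl1.1
        obtain ⟨γ', hγ'1, hγ'⟩ := dual_mem_idl a1 o1' σ hβ1
        have hγγ : γ' = γ := RingOfIntegers.coe_injective (hγ'.trans hγ.symm)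
        rw [Set.mem_ofPred_eq, ← e1, idS_eq a1 o1', Ideal.dvd_span_singleton]
        rw [← hγγ]; exact hγ'1
      · intro q hq q' hq' hqq
        rw [Finset.mem_coe, Finset.mem_filter, hF, Finset.mem_filter] at hq hq'
        have := submodule_eq (hQ q hq.1.1).1 (hQ q' hq'.1.1).1 (hq.1.2.trans hq'.1.2.symm) hqq
        exact Prod.ext this (hq.2.trans hq'.2.symm)
    refine h1.trans ((card_dvd_le hε hne).trans ?_)
    rw [hn, hA1]
    refine mul_le_mul_of_nonneg_left ?_ (by linarith)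
    exact Real.rpow_le_rpow (Nat.cast_nonneg _) (absNorm_span_le σ hsl.2.2.2.1 hγ) hε.le
  have h2 : (F.card : ℝ) ≤ A1 * ((F.image Prod.snd).card : ℝ) := by
    rw [Finset.card_eq_sum_card_image Prod.snd F]
    push_cast
    calc ∑ β ∈ F.image Prod.snd, ((F.filter fun q => q.2 = β).card : ℝ)
        ≤ ∑ _β ∈ F.image Prod.snd, A1 := Finset.sum_le_sum hfib
      _ = _ := by rw [Finset.sum_const, nsmul_eq_mul, mul_comm]
  -- the dual vectors
  have h3 : ((F.image Prod.snd).card : ℝ) ≤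
      C * c ^ (n - 1) * r * Real.sqrt (latticeDisc m) * (ix m P)⁻¹ := by
    rcases F.eq_empty_or_nonempty with hFe | ⟨q0, hq0⟩
    · rw [hFe]; simp only [Finset.image_empty, Finset.card_empty, Nat.cast_zero]; positivity
    rw [hF, Finset.mem_filter] at hq0
    obtain ⟨⟨m0, a0, e0, o0⟩, hpr, hbad, -⟩ := hQ q0 hq0.1
    have o0' : (1 : K) ∈ m0.lattice := by rw [e0]; exact o0
    have hP' : fPart m m0 = P := by rw [fPart_eq, e0]; exact hq0.2
    obtain ⟨p, hp⟩ := fPart_basis a0 o0'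
    have hdet := fPart_det a0 o0' hp σ
    have hsep : ∀ y ∈ p.lattice, (∀ k : ℤ, y ≠ k) → ∃ i j, T / 2 ≤ |σ i y - σ j y| := by
      intro y hy hyZ
      rw [hp] at hy
      refine separation a0 o0' σ (by rw [e0]; exact hpr) (by linarith) ?_ hy hyZ
      rw [fPart_eq, e0]; exact hbad
    have h1p : (1 : K) ∈ p.lattice := by
      rw [hp]; exact order_le_fPart a0 o0' (one_mem_order m)
    obtain ⟨hfin, hcard⟩ := nf_slab_count hC p σ h1p (R := T / 2) (by linarith) hsep S hS hS'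
      t s c r hc (by rw [one_div_div]; exact hr)
    have hsub : (↑(F.image Prod.snd) : Set K) ⊆
        {x : K | x ∈ TrDual p.lattice σ ∧ ∑ i, σ i x = t ∧ (∀ i, |σ i x| ≤ c) ∧
          |∑ i ∈ S, σ i x - s| ≤ r} := by
      intro β hβ
      rw [Finset.mem_coe, Finset.mem_image] at hβ
      obtain ⟨q, hq, rfl⟩ := hβ
      rw [hF, Finset.mem_filter] at hq
      obtain ⟨-, -, -, hsl⟩ := hQ q hq.1
      refine ⟨fun y hy => hsl.1 y ?_, hsl.2.2⟩
      rw [hp, hP', ← hq.2] at hy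
      exact hy.1
    have h4 : ((F.image Prod.snd).card : ℝ) ≤ ({x : K | x ∈ TrDual p.lattice σ ∧
        ∑ i, σ i x = t ∧ (∀ i, |σ i x| ≤ c) ∧ |∑ i ∈ S, σ i x - s| ≤ r}.ncard : ℝ) := by
      rw [← Set.ncard_coe_finset]
      exact_mod_cast Set.ncard_le_ncard hsub hfin
    refine h4.trans (hcard.trans (le_of_eq ?_))
    have h5 : |(embMatrix p σ).det| = Real.sqrt (latticeDisc m) * (ix m P)⁻¹ := by
      rw [← hdet, hP', ix]
      have : ((multiplierOrder m).relIndex P : ℝ) ≠ 0 := hP0.ne'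
      field_simp
    rw [h5]; ring
  calc (F.card : ℝ) ≤ A1 * ((F.image Prod.snd).card : ℝ) := h2
    _ ≤ A1 * (C * c ^ (n - 1) * r * Real.sqrt (latticeDisc m) * (ix m P)⁻¹) :=
        mul_le_mul_of_nonneg_left h3 hA10
    _ = _ := by ring

end

end Crest.Agent.R014.N2_675
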