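import Crest.Agent.R014.Emb_71
import Crest.Agent.R014.Sl1_652
import Crest.Agent.R014.Ms4_667
import Crest.Agent.R014.Pk2_349
import Crest.Agent.R014.Iface_792
import Mathlib
import Crest.Agent.R014.N2Cnt_675
import Crest.Agent.R014.Vol6_834
import Crest.Agent.R014.Loc4_524
import Crest.Agent.R014.Pk5_349

-- ▼ part R014/Struct_71
section

/-!
# Row 14: structure of packet points (helper71)

`exists_struct`: a point `mk H` of the packet of `(K, m, σ)`, a nonzero lattice vector `v = p H`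
and a dual vector `v* = H⁻¹ q` give `m''` locally homothetic to `m` with `1 ∈ m''`, and `β ∈ K`
with `σ_j β = v_j v*_j`, `Tr (β m'') ⊆ ℤ`, `mk H = pt (emb m'' · diag v)`, `|det emb m''| ∏|v_j| = 1`.
-/

set_option autoImplicit false
open MeasureTheory Set Matrix
open Crest Crest.NumberTheoryR Crest.NumberTheoryR.Packets

namespace Crest.Agent.R014.Struct_71

open BoxV_71 Pt_71 Emb_71

/-- diagonal entries of `diagFlow u`. -/
noncomputable def dg {d : ℕ} (u : Fin d → ℝ) (j : Fin (d + 1)) : ℝ :=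
  (Fin.snoc (fun i => Real.exp (u i)) (Real.exp (-∑ i, u i)) : Fin (d + 1) → ℝ) j

theorem diagFlow_val {d : ℕ} (u : Fin d → ℝ) : (diagFlow u).1 = Matrix.diagonal (dg u) := rfl

theorem dg_pos {d : ℕ} (u : Fin d → ℝ) (j : Fin (d + 1)) : 0 < dg u j := by
  unfold dg
  refine Fin.lastCases ?_ (fun k => ?_) j
  · rw [Fin.snoc_last]; exact Real.exp_pos _
  · rw [Fin.snoc_castSucc]; exact Real.exp_pos _

theorem sign_diag {n : ℕ} {w : SLR n} (hw : IsSignMatrix w) :
    w.1 = Matrix.diagonal fun i => w.1 i i := by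
  ext i j
  by_cases h : i = j
  · subst h; simp
  · rw [Matrix.diagonal_apply_ne _ h, hw.1 i j h]

variable {d : ℕ} {K : Type*} [Field K] [NumberField K]

/-- matrix of a packet point. -/
theorem packet_pt (m' : LatticeBasis (d + 1) K) (σ : Fin (d + 1) ≃ (K →+* ℝ))
    {w : SLR (d + 1)} (hw : IsSignMatrix w) (u : Fin d → ℝ) :
    orbitMap (act (latticePoint m' σ) w) u =
      pt (embMatrix m' σ * Matrix.diagonal fun j => w.1 j j * dg u j) := by
  have hdet := det_embMatrix_ne_zero m' σ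
  rw [latticePoint_eq, act_pt (Nat.succ_pos d) hdet, orbitMap,
    act_pt (Nat.succ_pos d) (by rw [Matrix.det_mul, w.2, mul_one]; exact hdet), diagFlow_val,
    Matrix.mul_assoc]
  congr 2
  rw [sign_diag hw, Matrix.diagonal_mul_diagonal]
  simp

theorem exists_struct (m : LatticeBasis (d + 1) K) (σ : Fin (d + 1) ≃ (K →+* ℝ))
    (m' : LatticeBasis (d + 1) K) (hm' : LocallyHomothetic m m') {w : SLR (d + 1)}
    (hw : IsSignMatrix w) (u : Fin d → ℝ) (H : SLR (d + 1))
    (hH : (Quotient.mk _ H : ModSpace (d + 1)) = orbitMap (act (latticePoint m' σ) w) u)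
    (p q : Fin (d + 1) → ℤ) (hp : p ≠ 0) :
    ∃ m'' : LatticeBasis (d + 1) K, LocallyHomothetic m m'' ∧ (1 : K) ∈ m''.lattice ∧
      (∀ j, ((fun i => (p i : ℝ)) ᵥ* H.1) j ≠ 0) ∧
      (Quotient.mk _ H : ModSpace (d + 1)) =
        pt (embMatrix m'' σ * Matrix.diagonal ((fun i => (p i : ℝ)) ᵥ* H.1)) ∧
      |(embMatrix m'' σ).det| * ∏ j, |((fun i => (p i : ℝ)) ᵥ* H.1) j| = 1 ∧
      (∃ β : K, (∀ j, σ j β = ((fun i => (p i : ℝ)) ᵥ* H.1) j * (H⁻¹.1 *ᵥ fun i => (q i : ℝ)) j) ∧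
        ∀ x ∈ m''.lattice, ∃ k : ℤ, Algebra.trace ℚ K (β * x) = k) ∧
      ∀ k : ℤ, ∀ y ∈ m''.lattice, (k : K) * y = 1 → ∀ i, k ∣ p i := by
  have hn : 0 < d + 1 := Nat.succ_pos d
  set t : Fin (d + 1) → ℝ := fun j => w.1 j j * dg u j with ht
  have ht0 : ∀ j, t j ≠ 0 := by
    intro j
    refine mul_ne_zero ?_ (dg_pos u j).ne'
    rcases hw.2 j with h | h <;> simp [h]
  set B : Matrix (Fin (d + 1)) (Fin (d + 1)) ℝ := embMatrix m' σ * Matrix.diagonal t with hB
  have hE := det_embMatrix_ne_zero m' σ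
  have hBdet : B.det ≠ 0 := by
    rw [hB, Matrix.det_mul, Matrix.det_diagonal]
    exact mul_ne_zero hE (Finset.prod_ne_zero_iff.2 fun j _ => ht0 j)
  rw [packet_pt m' σ hw u] at hH
  obtain ⟨γ, hγ, hHB⟩ := exists_gl_of_mk_eq_pt hn H hBdet hH
  set c : ℝ := |B.det| ^ (-(1 : ℝ) / (d + 1 : ℕ)) with hc
  have hc0 : 0 < c := Real.rpow_pos_of_pos (abs_pos.2 hBdet) _
  -- the new integer vectors
  set p' : Fin (d + 1) → ℤ := p ᵥ* γ with hp'
  have hγu : IsUnit γ.det := by rcases hγ with h | h <;> rw [h] <;> simp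
  have hp'0 : p' ≠ 0 := by
    intro h
    apply hp
    have h1 : p' ᵥ* γ⁻¹ = p := by
      rw [hp', Matrix.vecMul_vecMul, Matrix.mul_nonsing_inv _ hγu, Matrix.vecMul_one]
    rw [← h1, h, Matrix.zero_vecMul]
  set q' : Fin (d + 1) → ℤ := γ⁻¹ *ᵥ q with hq'
  have hq : γ *ᵥ q' = q := by
    rw [hq', Matrix.mulVec_mulVec, Matrix.mul_nonsing_inv _ hγu, Matrix.one_mulVec]
  set a : K := ∑ i, (p' i : K) * m'.vec i with ha
  have ha0 : a ≠ 0 := sum_ne_zero hp'0
  -- the vector v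
  have hv : ∀ j, ((fun i => (p i : ℝ)) ᵥ* H.1) j = c * t j * σ j a := by
    intro j
    have h1 : (fun i => (p i : ℝ)) ᵥ* (γ.map (Int.castRingHom ℝ)) = fun i => (p' i : ℝ) := by
      ext i
      simp only [hp', Matrix.vecMul, dotProduct, Matrix.map_apply, Int.coe_castRingHom]
      push_cast
      rfl
    rw [hHB, Matrix.vecMul_smul, ← Matrix.vecMul_vecMul, h1, hB, ← Matrix.vecMul_vecMul]
    rw [Pi.smul_apply, smul_eq_mul, Matrix.vecMul_diagonal]
    have h2 : ((fun i => (p' i : ℝ)) ᵥ* embMatrix m' σ) j = σ j a := by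
      simp only [Matrix.vecMul, dotProduct, embMatrix, ha, map_sum, map_mul, map_intCast]
    rw [h2]
    ring
  have hv0 : ∀ j, ((fun i => (p i : ℝ)) ᵥ* H.1) j ≠ 0 := by
    intro j
    rw [hv j]
    exact mul_ne_zero (mul_ne_zero hc0.ne' (ht0 j)) (by simpa using ha0)
  set v : Fin (d + 1) → ℝ := (fun i => (p i : ℝ)) ᵥ* H.1 with hvdef
  -- the lattice m''
  have ha' : a⁻¹ ≠ 0 := inv_ne_zero ha0
  refine ⟨scale m' a⁻¹ ha', locHom_scale hm' _ _, ?_, hv0, ?_, ?_, ?_, ?_⟩
  · refine mem_scale.2 ⟨a, mem_lattice_iff.2 ⟨p', rfl⟩, ?_⟩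
    rw [inv_mul_cancel₀ ha0]
  · -- the point
    have h1 : embMatrix (scale m' a⁻¹ ha') σ * Matrix.diagonal v = c • B := by
      ext i j
      rw [Matrix.mul_diagonal, Matrix.smul_apply, hB, Matrix.mul_diagonal, hv j]
      simp only [embMatrix, scale_vec, map_mul, map_inv₀, smul_eq_mul]
      have : σ j a ≠ 0 := by simpa using ha0
      field_simp
    rw [hH, h1, pt_smul hn hBdet hc0]
  · have h1 : embMatrix (scale m' a⁻¹ ha') σ * Matrix.diagonal v = c • B := by
      ext i j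
      rw [Matrix.mul_diagonal, Matrix.smul_apply, hB, Matrix.mul_diagonal, hv j]
      simp only [embMatrix, scale_vec, map_mul, map_inv₀, smul_eq_mul]
      have : σ j a ≠ 0 := by simpa using ha0
      field_simp
    have h2 := congrArg (fun M => |Matrix.det M|) h1
    simp only [Matrix.det_mul, Matrix.det_diagonal, Matrix.det_smul, Fintype.card_fin,
      abs_mul, Finset.abs_prod] at h2
    rw [h2]
    have h3 : |c ^ (d + 1)| = |B.det|⁻¹ := by
      rw [abs_of_pos (pow_pos hc0 _), hc, ← Real.rpow_natCast, ← Real.rpow_mul (abs_nonneg _)]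
      have hn' : ((d + 1 : ℕ) : ℝ) ≠ 0 := by positivity
      rw [show -(1 : ℝ) / ((d + 1 : ℕ) : ℝ) * ((d + 1 : ℕ) : ℝ) = -1 by field_simp,
        Real.rpow_neg_one]
    rw [h3]
    exact inv_mul_cancel₀ (abs_ne_zero.2 hBdet)
  · -- beta
    obtain ⟨b, hb⟩ := exists_dual m' (fun i => (q' i : ℚ))
    refine ⟨a * b, ?_, ?_⟩
    · -- v*_j
      have hHinv : H.1 *ᵥ (H⁻¹.1 *ᵥ fun i => (q i : ℝ)) = fun i => (q i : ℝ) := by
        rw [Matrix.mulVec_mulVec, ← Matrix.SpecialLinearGroup.coe_mul, mul_inv_cancel,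
          Matrix.SpecialLinearGroup.coe_one, Matrix.one_mulVec]
      set vs : Fin (d + 1) → ℝ := H⁻¹.1 *ᵥ fun i => (q i : ℝ) with hvs
      have hγR : IsUnit (γ.map (Int.castRingHom ℝ)).det := by
        have h1 : (γ.map (Int.castRingHom ℝ)).det = ((γ.det : ℤ) : ℝ) :=
          (RingHom.map_det (Int.castRingHom ℝ) γ).symm
        rw [h1]
        rcases hγ with h | h <;> rw [h] <;> simp
      have h2 : (γ.map (Int.castRingHom ℝ)) *ᵥ (fun i => (q' i : ℝ)) = fun i => (q i : ℝ) := by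
        ext i
        have h3 := congrFun hq i
        simp only [Matrix.mulVec, dotProduct, Matrix.map_apply, Int.coe_castRingHom] at h3 ⊢
        rw [← h3]
        push_cast
        rfl
      have h4 : B *ᵥ (c • vs) = fun i => (q' i : ℝ) := by
        have h5 : (γ.map (Int.castRingHom ℝ)) *ᵥ (B *ᵥ (c • vs)) =
            (γ.map (Int.castRingHom ℝ)) *ᵥ (fun i => (q' i : ℝ)) := by
          rw [h2, ← hHinv, hHB, Matrix.mulVec_mulVec, Matrix.smul_mulVec, Matrix.mulVec_smul]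
        have := congrArg (fun z => (γ.map (Int.castRingHom ℝ))⁻¹ *ᵥ z) h5
        simpa only [Matrix.mulVec_mulVec, ← Matrix.mul_assoc, Matrix.nonsing_inv_mul _ hγR,
          Matrix.one_mulVec, Matrix.one_mul] using this
      have h6 : (fun j => t j * (c * vs j)) = fun j => σ j b := by
        apply eq_of_mulVec m' σ
        have h7 : embMatrix m' σ *ᵥ (fun j => t j * (c * vs j)) = B *ᵥ (c • vs) := by
          rw [hB, ← Matrix.mulVec_mulVec]
          congr 1
          ext j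
          rw [Matrix.mulVec_diagonal]
          rfl
        rw [h7, h4]
        ext i
        rw [embMatrix_mulVec, hb i]
        simp
      intro j
      have h8 : t j * (c * vs j) = σ j b := congrFun h6 j
      rw [hv j, map_mul, ← h8]
      ring
    · intro x hx
      obtain ⟨y, hy, rfl⟩ := mem_scale.1 hx
      obtain ⟨r, rfl⟩ := mem_lattice_iff.1 hy
      refine ⟨∑ i, r i * q' i, ?_⟩
      have h1 : a * b * (a⁻¹ * ∑ i, (r i : K) * m'.vec i) = ∑ i, (r i : K) * (m'.vec i * b) := by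
        rw [show a * b * (a⁻¹ * ∑ i, (r i : K) * m'.vec i) =
          (a * a⁻¹) * (b * ∑ i, (r i : K) * m'.vec i) by ring, mul_inv_cancel₀ ha0, one_mul,
          Finset.mul_sum]
        refine Finset.sum_congr rfl fun i _ => by ring
      rw [h1, map_sum]
      push_cast
      refine Finset.sum_congr rfl fun i _ => ?_
      rw [← zsmul_eq_mul, map_zsmul, hb i, zsmul_eq_mul]
  · -- primitivity
    intro k y hy hky
    obtain ⟨z, hz, rfl⟩ := mem_scale.1 hy
    obtain ⟨r, rfl⟩ := mem_lattice_iff.1 hz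
    have h1 : (k : K) * ∑ i, (r i : K) * m'.vec i = a := by
      have h2 : (k : K) * (a⁻¹ * ∑ i, (r i : K) * m'.vec i) = 1 := hky
      calc (k : K) * ∑ i, (r i : K) * m'.vec i
          = a * ((k : K) * (a⁻¹ * ∑ i, (r i : K) * m'.vec i)) := by
            field_simp
        _ = a := by rw [h2, mul_one]
    have h3 : ∀ i, p' i = k * r i := by
      have h4 : ∑ i, ((p' i - k * r i : ℤ) : K) * m'.vec i = 0 := by
        rw [ha, Finset.mul_sum] at h1
        rw [← sub_eq_zero, ← Finset.sum_sub_distrib] at h1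
        rw [← neg_eq_zero, ← Finset.sum_neg_distrib]
        rw [← h1]
        refine Finset.sum_congr rfl fun i _ => ?_
        push_cast
        ring
      have h5 : (fun i => p' i - k * r i) = 0 := by
        by_contra hne
        exact sum_ne_zero hne h4
      intro i
      have := congrFun h5 i
      simp only [Pi.zero_apply] at this
      linarith
    have h6 : p' ᵥ* γ⁻¹ = p := by
      rw [hp', Matrix.vecMul_vecMul, Matrix.mul_nonsing_inv _ hγu, Matrix.vecMul_one]
    intro i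
    rw [← h6]
    refine ⟨(r ᵥ* γ⁻¹) i, ?_⟩
    simp only [Matrix.vecMul, dotProduct, Finset.mul_sum]
    refine Finset.sum_congr rfl fun j _ => ?_
    rw [h3 j]
    ring

end Crest.Agent.R014.Struct_71
end

-- ▼ part R014/Unf1_71
section

/-!
# Row 14: unfolding bounds for packet measures, arbitrary lattices (helper71), part 1

`inPk`, `Rep`, `exists_rep`, `exists_gl_of_lattice_eq`, `pt_eq_orbit`, `measure_le'` (arbitrary sets),
`box_le` (the general box bound).
-/

set_option autoImplicit false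
open MeasureTheory Set Matrix
open Crest Crest.NumberTheoryR Crest.NumberTheoryR.Packets
open scoped ENNReal

namespace Crest.Agent.R014.Unf_71

open BoxV_71 Pt_71 Emb_71 Struct_71

variable {d : ℕ} {K : Type*} [Field K] [NumberField K]

/-- `z` lies on one of the orbits of the packet. -/
def inPk (m : LatticeBasis (d + 1) K) (σ : Fin (d + 1) ≃ (K →+* ℝ)) (z : ModSpace (d + 1)) : Prop :=
  ∃ O ∈ packetOrbits m σ, z ∈ O

/-- `z` is the point of the lattice `m''` (containing `1` as a primitive vector) in which the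
vector `1` has become `v`. -/
structure Rep (m : LatticeBasis (d + 1) K) (σ : Fin (d + 1) ≃ (K →+* ℝ)) (z : ModSpace (d + 1))
    (m'' : LatticeBasis (d + 1) K) (v : Fin (d + 1) → ℝ) : Prop where
  locHom : LocallyHomothetic m m''
  one_mem : (1 : K) ∈ m''.lattice
  prim : ∀ k : ℤ, ∀ y ∈ m''.lattice, (k : K) * y = 1 → IsUnit k
  ne : ∀ j, v j ≠ 0
  vol : |(embMatrix m'' σ).det| * ∏ j, |v j| = 1
  eq : z = pt (embMatrix m'' σ * Matrix.diagonal v)

theorem inPk_iff {m : LatticeBasis (d + 1) K} {σ : Fin (d + 1) ≃ (K →+* ℝ)}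
    {z : ModSpace (d + 1)} : inPk m σ z ↔ ∃ m' : LatticeBasis (d + 1) K, LocallyHomothetic m m' ∧
      ∃ w : SLR (d + 1), IsSignMatrix w ∧ ∃ u : Fin d → ℝ,
        z = orbitMap (act (latticePoint m' σ) w) u := by
  constructor
  · rintro ⟨O, ⟨m', hm', w, hw, rfl⟩, u, hu⟩
    exact ⟨m', hm', w, hw, u, hu.symm⟩
  · rintro ⟨m', hm', w, hw, u, rfl⟩
    exact ⟨_, ⟨m', hm', w, hw, rfl⟩, u, rfl⟩

/-- representation of a packet point with respect to a primitive integer vector `p`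
and an integer vector `q`. -/
theorem exists_rep {m : LatticeBasis (d + 1) K} {σ : Fin (d + 1) ≃ (K →+* ℝ)} (H : SLR (d + 1))
    (hz : inPk m σ (Quotient.mk _ H)) (p q : Fin (d + 1) → ℤ)
    (hp : ∀ k : ℤ, (∀ i, k ∣ p i) → IsUnit k) :
    ∃ m'' : LatticeBasis (d + 1) K,
      Rep m σ (Quotient.mk _ H) m'' ((fun i => (p i : ℝ)) ᵥ* H.1) ∧
      ∃ β : K, (∀ j, σ j β = ((fun i => (p i : ℝ)) ᵥ* H.1) j * (H⁻¹.1 *ᵥ fun i => (q i : ℝ)) j) ∧
        β ∈ Sl_652.TrDual m''.lattice σ := by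
  obtain ⟨m', hm', w, hw, u, hu⟩ := inPk_iff.1 hz
  have hp0 : p ≠ 0 := by
    rintro rfl
    have := hp 0 (fun i => by simp)
    simp at this
  obtain ⟨m'', h1, h2, h3, h4, h5, ⟨β, h6, h7⟩, h8⟩ :=
    exists_struct m σ m' hm' hw u H hu p q hp0
  refine ⟨m'', ⟨h1, h2, fun k y hy hk => hp k (h8 k y hy hk), h3, h5, h4⟩, β, h6, ?_⟩
  rw [Sl_652.mem_trDual_iff_trace (Sl_652.finrank_eq m)]
  exact h7

/-- `p ᵥ* H` and `H⁻¹ *ᵥ q` pair to `p ⬝ q`. -/
theorem sum_mul_eq (H : SLR (d + 1)) (p q : Fin (d + 1) → ℤ) :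
    ∑ j, ((fun i => (p i : ℝ)) ᵥ* H.1) j * (H⁻¹.1 *ᵥ fun i => (q i : ℝ)) j
      = ((∑ i, p i * q i : ℤ) : ℝ) := by
  have h1 : ((fun i => (p i : ℝ)) ᵥ* H.1) ⬝ᵥ (H⁻¹.1 *ᵥ fun i => (q i : ℝ)) =
      (fun i => (p i : ℝ)) ⬝ᵥ (fun i => (q i : ℝ)) := by
    rw [Matrix.dotProduct_mulVec, Matrix.vecMul_vecMul, ← Matrix.SpecialLinearGroup.coe_mul,
      mul_inv_cancel, Matrix.SpecialLinearGroup.coe_one, Matrix.vecMul_one]
  have h2 := h1
  simp only [dotProduct] at h2
  rw [h2]
  push_cast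
  rfl

/-- two bases of the same lattice differ by an integral matrix of determinant `±1`. -/
theorem exists_gl_of_lattice_eq {n : ℕ} {m1 m2 : LatticeBasis n K}
    (h : m1.lattice = m2.lattice) :
    ∃ γ : Matrix (Fin n) (Fin n) ℤ, (γ.det = 1 ∨ γ.det = -1) ∧
      ∀ σ : Fin n ≃ (K →+* ℝ), embMatrix m1 σ = γ.map (Int.castRingHom ℝ) * embMatrix m2 σ := by
  have h1 : ∀ i, ∃ p : Fin n → ℤ, m1.vec i = ∑ j, (p j : K) * m2.vec j := fun i =>
    mem_lattice_iff.1 (h ▸ Sl_652.vec_mem m1 i)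
  have h2 : ∀ i, ∃ p : Fin n → ℤ, m2.vec i = ∑ j, (p j : K) * m1.vec j := fun i =>
    mem_lattice_iff.1 (h ▸ Sl_652.vec_mem m2 i)
  choose A hA using h1
  choose B hB using h2
  have hAB : (Matrix.of A) * (Matrix.of B) = 1 := by
    ext i k
    have h3 : ∑ k, ((∑ j, A i j * B j k : ℤ) : K) * m1.vec k = m1.vec i := by
      conv_rhs => rw [hA i]
      push_cast
      simp only [Finset.sum_mul]
      rw [Finset.sum_comm]
      refine Finset.sum_congr rfl fun j _ => ?_
      rw [hB j, Finset.mul_sum]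
      refine Finset.sum_congr rfl fun k _ => ?_
      ring
    have h4 : (fun k => (∑ j, A i j * B j k) - if i = k then 1 else 0) = 0 := by
      by_contra hne
      apply sum_ne_zero (m := m1) hne
      push_cast
      simp only [sub_mul, Finset.sum_sub_distrib, ite_mul, one_mul, zero_mul,
        Finset.sum_ite_eq, Finset.mem_univ, if_true]
      push_cast at h3
      rw [h3, sub_self]
    have h5 := congrFun h4 k
    simp only [Pi.zero_apply] at h5
    rw [Matrix.mul_apply, Matrix.one_apply]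
    simp only [Matrix.of_apply]
    linarith
  refine ⟨Matrix.of A, ?_, ?_⟩
  · have h3 := congrArg Matrix.det hAB
    rw [Matrix.det_mul, Matrix.det_one] at h3
    exact Int.isUnit_iff.1 (IsUnit.of_mul_eq_one _ h3)
  · intro σ
    ext i j
    rw [Matrix.mul_apply]
    simp only [embMatrix, Matrix.map_apply, Matrix.of_apply, Int.coe_castRingHom]
    rw [hA i, map_sum]
    refine Finset.sum_congr rfl fun k _ => ?_
    rw [map_mul, map_intCast]

theorem abs_det_eq_of_lattice_eq {n : ℕ} {m1 m2 : LatticeBasis n K}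
    (h : m1.lattice = m2.lattice) (σ : Fin n ≃ (K →+* ℝ)) :
    |(embMatrix m1 σ).det| = |(embMatrix m2 σ).det| := by
  obtain ⟨γ, hγ, hE⟩ := exists_gl_of_lattice_eq h
  rw [hE σ, Matrix.det_mul, abs_mul]
  have h1 : (γ.map (Int.castRingHom ℝ)).det = ((γ.det : ℤ) : ℝ) :=
    (RingHom.map_det (Int.castRingHom ℝ) γ).symm
  rw [h1]
  rcases hγ with h | h <;> rw [h] <;> simp

theorem pt_eq_of_lattice_eq {m1 m2 : LatticeBasis (d + 1) K}
    (h : m1.lattice = m2.lattice) (σ : Fin (d + 1) ≃ (K →+* ℝ)) {v : Fin (d + 1) → ℝ}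
    (hv : ∀ j, v j ≠ 0) :
    pt (embMatrix m1 σ * Matrix.diagonal v) = pt (embMatrix m2 σ * Matrix.diagonal v) := by
  obtain ⟨γ, hγ, hE⟩ := exists_gl_of_lattice_eq h
  rw [hE σ, Matrix.mul_assoc]
  refine pt_gl (Nat.succ_pos d) ?_ γ hγ
  rw [Matrix.det_mul, Matrix.det_diagonal]
  exact mul_ne_zero (Emb_71.det_embMatrix_ne_zero m2 σ) (Finset.prod_ne_zero_iff.2 fun j _ => hv j)

theorem Rep.of_lattice_eq {m : LatticeBasis (d + 1) K} {σ : Fin (d + 1) ≃ (K →+* ℝ)}
    {z : ModSpace (d + 1)} {m1 m2 : LatticeBasis (d + 1) K} {v : Fin (d + 1) → ℝ}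
    (h : Rep m σ z m1 v) (h12 : m1.lattice = m2.lattice) : Rep m σ z m2 v := by
  refine ⟨?_, h12 ▸ h.one_mem, fun k y hy hk => h.prim k y (h12 ▸ hy) hk, h.ne, ?_, ?_⟩
  · intro l hl
    obtain ⟨c, hc, N, hN, h1, h2⟩ := h.locHom l hl
    exact ⟨c, hc, N, hN, fun x hx => h1 x (h12 ▸ hx), fun x hx => h12 ▸ h2 x hx⟩
  · rw [← abs_det_eq_of_lattice_eq h12 σ]; exact h.vol
  · rw [← pt_eq_of_lattice_eq h12 σ h.ne]; exact h.eq

/-- sign vector of a set of coordinates. -/
noncomputable def sg (N : Finset (Fin (d + 1))) (j : Fin (d + 1)) : ℝ := if j ∈ N then -1 else 1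

theorem sg_ne (N : Finset (Fin (d + 1))) (j : Fin (d + 1)) : sg N j ≠ 0 := by
  unfold sg; split_ifs <;> norm_num

theorem sg_mul_abs (v : Fin (d + 1) → ℝ) (j : Fin (d + 1)) :
    sg (Finset.univ.filter fun j => v j < 0) j * |v j| = v j := by
  unfold sg
  simp only [Finset.mem_filter, Finset.mem_univ, true_and]
  split_ifs with h
  · rw [abs_of_neg h]; ring
  · rw [abs_of_nonneg (not_lt.1 h)]; ring

/-- diagonal of the flow with the parameters `log|v_j| - mean`. -/
theorem dg_log (v : Fin (d + 1) → ℝ) (hv : ∀ j, v j ≠ 0) (c : ℝ)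
    (hc : (d + 1 : ℝ) * c = ∑ j, Real.log |v j|) (j : Fin (d + 1)) :
    dg (fun i : Fin d => Real.log |v i.castSucc| - c) j = Real.exp (-c) * |v j| := by
  have key : ∀ j, Real.exp (Real.log |v j| - c) = Real.exp (-c) * |v j| := by
    intro j
    rw [sub_eq_add_neg, Real.exp_add, Real.exp_log (abs_pos.2 (hv j)), mul_comm]
  unfold dg
  refine Fin.lastCases ?_ (fun k => ?_) j
  · rw [Fin.snoc_last, ← key]
    congr 1
    rw [Fin.sum_univ_castSucc] at hc
    rw [Finset.sum_sub_distrib, Finset.sum_const, Finset.card_univ, Fintype.card_fin, nsmul_eq_mul]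
    linarith
  · rw [Fin.snoc_castSucc, key]

theorem pt_eq_orbit {E : Matrix (Fin (d + 1)) (Fin (d + 1)) ℝ} (hE : E.det ≠ 0)
    (v : Fin (d + 1) → ℝ) (hv : ∀ j, v j ≠ 0) (c : ℝ)
    (hc : (d + 1 : ℝ) * c = ∑ j, Real.log |v j|) :
    pt (E * Matrix.diagonal v) =
      orbitMap (pt (E * Matrix.diagonal (sg (Finset.univ.filter fun j => v j < 0))))
        (fun i : Fin d => Real.log |v i.castSucc| - c) := by
  have hn : 0 < d + 1 := Nat.succ_pos d
  have h1 : (E * Matrix.diagonal (sg (Finset.univ.filter fun j => v j < 0))).det ≠ 0 := by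
    rw [Matrix.det_mul, Matrix.det_diagonal]
    exact mul_ne_zero hE (Finset.prod_ne_zero_iff.2 fun j _ => sg_ne _ j)
  have h2 : (E * Matrix.diagonal v).det ≠ 0 := by
    rw [Matrix.det_mul, Matrix.det_diagonal]
    exact mul_ne_zero hE (Finset.prod_ne_zero_iff.2 fun j _ => hv j)
  rw [orbitMap, act_pt hn h1, diagFlow_val, Matrix.mul_assoc, Matrix.diagonal_mul_diagonal,
    ← pt_smul hn h2 (Real.exp_pos (-c))]
  congr 1
  rw [← Matrix.mul_smul]
  congr 1
  rw [← Matrix.diagonal_smul]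
  congr 1
  funext j
  rw [dg_log v hv c hc j, Pi.smul_apply, smul_eq_mul]
  conv_lhs => rw [← sg_mul_abs v j]
  ring

open Ms_667 in
/-- `BoxV_71.measure_le` for arbitrary sets `E`, when the boxes are compact. -/
theorem measure_le' {k : ℕ} (x : Fin k → ModSpace (d + 1)) (D : Fin k → Set (Fin d → ℝ))
    (hinj : Function.Injective (fun i => Set.range (orbitMap (x i))))
    (hD : ∀ i, IsAddFundamentalDomain (periods (x i)) (D i) volume)
    {ι : Type*} (s : Finset ι) (y : ι → ModSpace (d + 1)) (B : ι → Set (Fin d → ℝ))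
    (hB : ∀ j, IsCompact (B j)) (E : Set (ModSpace (d + 1)))
    (hcov : ∀ z ∈ E, (∃ i, z ∈ Set.range (orbitMap (x i))) → ∃ j ∈ s, z ∈ orbitMap (y j) '' B j) :
    ((∑ i, volume (D i))⁻¹ •
      Measure.sum (fun i => Measure.map (orbitMap (x i)) (volume.restrict (D i)))) E
      ≤ (∑ i, volume (D i))⁻¹ * ∑ j ∈ s, volume (B j) := by
  have hr : ∀ i, MeasurableSet (Set.range (orbitMap (x i))) := by
    intro i
    have : Set.range (orbitMap (x i)) = ⋃ r : ℕ, orbitMap (x i) '' Metric.closedBall 0 r := by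
      ext z
      simp only [mem_range, mem_iUnion, mem_image]
      constructor
      · rintro ⟨u, rfl⟩
        obtain ⟨r, hr⟩ := exists_nat_ge ‖u‖
        exact ⟨r, u, by simpa using hr, rfl⟩
      · rintro ⟨r, u, -, rfl⟩
        exact ⟨u, rfl⟩
    rw [this]
    exact MeasurableSet.iUnion fun r =>
      ((isCompact_closedBall _ _).image (continuous_orbitMap _)).measurableSet
  have hm : MeasurableSet ((⋃ j ∈ s, orbitMap (y j) '' B j) ∪
      (⋃ i, Set.range (orbitMap (x i)))ᶜ) :=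
    (Finset.measurableSet_biUnion s fun j _ =>
      ((hB j).image (continuous_orbitMap _)).measurableSet).union
      (MeasurableSet.iUnion hr).compl
  refine le_trans (measure_mono ?_) (measure_le x D hinj hD s y B _ hm ?_)
  · intro z hz
    by_cases h : ∃ i, z ∈ Set.range (orbitMap (x i))
    · obtain ⟨j, hj, hzj⟩ := hcov z hz h
      left
      rw [mem_iUnion₂]
      exact ⟨j, hj, hzj⟩
    · right
      simpa using h
  · rintro z (hz | hz) hz'
    · rw [mem_iUnion₂] at hz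
      obtain ⟨j, hj, hzj⟩ := hz
      exact ⟨j, hj, hzj⟩
    · exact absurd (by simpa using hz') hz

end Crest.Agent.R014.Unf_71
end

-- ▼ part R014/Unf2_71
section

/-!
# Row 14: unfolding bounds for packet measures, arbitrary lattices (helper71), part 2

`IsPk`, `box_le`, `unfold_le` (pairs `(M'', β)`), `unfold_le_one` (lattices only).
-/

set_option autoImplicit false
open MeasureTheory Set Matrix
open Crest Crest.NumberTheoryR Crest.NumberTheoryR.Packets
open scoped ENNReal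

namespace Crest.Agent.R014.Unf_71

open BoxV_71 Pt_71 Emb_71 Struct_71

variable {d : ℕ} {K : Type*} [Field K] [NumberField K]

/-- `μ` is the packet measure, presented by data of total mass `V`. -/
def IsPk (m : LatticeBasis (d + 1) K) (σ : Fin (d + 1) ≃ (K →+* ℝ))
    (μ : Measure (ModSpace (d + 1))) (V : ℝ≥0∞) : Prop :=
  ∃ (k : ℕ) (x : Fin k → ModSpace (d + 1)) (D : Fin k → Set (Fin d → ℝ)),
    Function.Injective (fun i => Set.range (orbitMap (x i))) ∧
    (∀ O, O ∈ packetOrbits m σ ↔ ∃ i, O = Set.range (orbitMap (x i))) ∧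
    (∀ i, IsAddFundamentalDomain (periods (x i)) (D i) volume ∧ volume (D i) ≠ 0 ∧
      volume (D i) ≠ ⊤) ∧
    μ = (∑ i, volume (D i))⁻¹ •
      Measure.sum (fun i => Measure.map (orbitMap (x i)) (volume.restrict (D i))) ∧
    V = ∑ i, volume (D i)

theorem isPacketMeasure_iff {m : LatticeBasis (d + 1) K} {σ : Fin (d + 1) ≃ (K →+* ℝ)}
    {μ : Measure (ModSpace (d + 1))} : IsPacketMeasure m σ μ ↔ ∃ V, IsPk m σ μ V := by
  constructor
  · rintro ⟨k, x, D, h1, h2, h3, h4⟩
    exact ⟨_, k, x, D, h1, h2, h3, h4, rfl⟩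
  · rintro ⟨V, k, x, D, h1, h2, h3, h4, -⟩
    exact ⟨k, x, D, h1, h2, h3, h4⟩

/-- **box bound.** -/
theorem box_le {m : LatticeBasis (d + 1) K} {σ : Fin (d + 1) ≃ (K →+* ℝ)}
    {μ : Measure (ModSpace (d + 1))} {V : ℝ≥0∞} (h : IsPk m σ μ V)
    {κ : Type*} (s : Finset κ) (b : κ → LatticeBasis (d + 1) K) (lo hi : κ → Fin (d + 1) → ℝ)
    (L : ℝ) (hlen : ∀ i ∈ s, (∀ j, lo i j ≤ hi i j) → ∀ j, hi i j - lo i j ≤ L)
    (E : Set (ModSpace (d + 1)))
    (hcov : ∀ z ∈ E, inPk m σ z → ∃ i ∈ s, ∃ v, Rep m σ z (b i) v ∧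
      ∀ j, lo i j ≤ Real.log |v j| ∧ Real.log |v j| ≤ hi i j) :
    μ E ≤ V⁻¹ * ENNReal.ofReal (2 ^ (d + 1) * s.card * L ^ d) := by
  classical
  obtain ⟨k, x, D, h1, h2, h3, rfl, rfl⟩ := h
  set c : κ → ℝ := fun i => -Real.log |(embMatrix (b i) σ).det| / (d + 1) with hc
  set s' : Finset κ := s.filter fun i => ∀ j, lo i j ≤ hi i j with hs'
  set y : κ × Finset (Fin (d + 1)) → ModSpace (d + 1) := fun iN =>
    pt (embMatrix (b iN.1) σ * Matrix.diagonal (sg iN.2)) with hy
  set B : κ × Finset (Fin (d + 1)) → Set (Fin d → ℝ) := fun iN =>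
    Set.Icc (fun j : Fin d => lo iN.1 j.castSucc - c iN.1)
      (fun j : Fin d => hi iN.1 j.castSucc - c iN.1) with hB
  refine (measure_le' x D h1 (fun i => (h3 i).1) (s' ×ˢ (Finset.univ : Finset (Finset (Fin (d + 1)))))
    y B (fun _ => isCompact_Icc) E ?_).trans ?_
  · rintro z hz ⟨i0, hi0⟩
    obtain ⟨i, hi, v, hrep, hv⟩ := hcov z hz ⟨_, (h2 _).2 ⟨i0, rfl⟩, hi0⟩
    refine ⟨(i, Finset.univ.filter fun j => v j < 0), ?_, ?_⟩
    · rw [Finset.mem_product]
      refine ⟨?_, Finset.mem_univ _⟩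
      rw [hs', Finset.mem_filter]
      exact ⟨hi, fun j => (hv j).1.trans (hv j).2⟩
    · have hsum : (d + 1 : ℝ) * c i = ∑ j, Real.log |v j| := by
        have hd : (d + 1 : ℝ) ≠ 0 := by positivity
        have h4 := congrArg Real.log hrep.vol
        rw [Real.log_mul (abs_ne_zero.2 (Emb_71.det_embMatrix_ne_zero _ σ))
          (Finset.prod_ne_zero_iff.2 fun j _ => abs_ne_zero.2 (hrep.ne j)), Real.log_one,
          Real.log_prod (fun j _ => abs_ne_zero.2 (hrep.ne j))] at h4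
        rw [hc]
        field_simp
        linarith
      refine ⟨fun j : Fin d => Real.log |v j.castSucc| - c i, ?_, ?_⟩
      · refine ⟨fun j => ?_, fun j => ?_⟩
        · exact sub_le_sub_right (hv j.castSucc).1 _
        · exact sub_le_sub_right (hv j.castSucc).2 _
      · rw [hrep.eq]
        exact (pt_eq_orbit (Emb_71.det_embMatrix_ne_zero (b i) σ) v hrep.ne (c i) hsum).symm
  · gcongr
    have hvol : ∀ iN ∈ s' ×ˢ (Finset.univ : Finset (Finset (Fin (d + 1)))),
        volume (B iN) ≤ ENNReal.ofReal (L ^ d) := by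
      rintro ⟨i, N⟩ hiN
      rw [Finset.mem_product, hs', Finset.mem_filter] at hiN
      obtain ⟨⟨his, hle⟩, -⟩ := hiN
      rw [hB, Real.volume_Icc_pi]
      have hL0 : 0 ≤ L := le_trans (sub_nonneg.2 (hle 0)) (hlen i his hle 0)
      calc ∏ j : Fin d, ENNReal.ofReal (hi i j.castSucc - c i - (lo i j.castSucc - c i))
          ≤ ∏ _j : Fin d, ENNReal.ofReal L := by
            refine Finset.prod_le_prod' fun j _ => ENNReal.ofReal_le_ofReal ?_
            have := hlen i his hle j.castSucc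
            linarith
        _ = ENNReal.ofReal (L ^ d) := by
            rw [Finset.prod_const, Finset.card_univ, Fintype.card_fin, ENNReal.ofReal_pow hL0]
    refine (Finset.sum_le_sum hvol).trans ?_
    rw [Finset.sum_const, Finset.card_product, Finset.card_univ, Fintype.card_finset,
      Fintype.card_fin, nsmul_eq_mul]
    by_cases hem : s' = ∅
    · rw [hem]; simp
    · obtain ⟨i, hi⟩ := Finset.nonempty_iff_ne_empty.2 hem
      rw [hs', Finset.mem_filter] at hi
      have hL0 : 0 ≤ L := le_trans (sub_nonneg.2 (hi.2 0)) (hlen i hi.1 hi.2 0)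
      have hcard : (s'.card : ℝ) ≤ s.card := by
        exact_mod_cast Finset.card_filter_le _ _
      rw [show (((s'.card * 2 ^ (d + 1) : ℕ)) : ℝ≥0∞) =
        ENNReal.ofReal ((s'.card : ℝ) * 2 ^ (d + 1)) by
          rw [← ENNReal.ofReal_natCast]; congr 1; push_cast; ring]
      rw [← ENNReal.ofReal_mul (by positivity)]
      refine ENNReal.ofReal_le_ofReal ?_
      have : 0 ≤ L ^ d := pow_nonneg hL0 d
      calc (s'.card : ℝ) * 2 ^ (d + 1) * L ^ d = 2 ^ (d + 1) * s'.card * L ^ d := by ring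
        _ ≤ 2 ^ (d + 1) * s.card * L ^ d := by gcongr

/-- a basis of the lattice `M` (junk `m` if there is none). -/
noncomputable def basisOf (m : LatticeBasis (d + 1) K) (M : Submodule ℤ K) :
    LatticeBasis (d + 1) K := by
  classical
  exact if h : ∃ m'' : LatticeBasis (d + 1) K, m''.lattice = M then h.choose else m

theorem basisOf_lattice (m m'' : LatticeBasis (d + 1) K) :
    (basisOf m m''.lattice).lattice = m''.lattice := by
  classical
  have h : ∃ m1 : LatticeBasis (d + 1) K, m1.lattice = m''.lattice := ⟨m'', rfl⟩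
  unfold basisOf
  rw [dif_pos h]
  exact h.choose_spec

/-- **unfolding bound with pairs `(M'', β)`.** -/
theorem unfold_le {m : LatticeBasis (d + 1) K} {σ : Fin (d + 1) ≃ (K →+* ℝ)}
    {μ : Measure (ModSpace (d + 1))} {V : ℝ≥0∞} (h : IsPk m σ μ V)
    (P : Finset (Submodule ℤ K × K)) (R W : ℝ) (hR : 1 ≤ R) (hW : 1 ≤ W)
    (hP : ∀ Mβ ∈ P, 1 ≤ W * ∏ j, |σ j Mβ.2|)
    (E : Set (ModSpace (d + 1)))
    (hcov : ∀ z ∈ E, inPk m σ z → ∃ m'' v β, Rep m σ z m'' v ∧ (m''.lattice, β) ∈ P ∧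
      (∀ j, |v j| ≤ R) ∧ ∀ j, |σ j β| ≤ R * |v j|) :
    μ E ≤ V⁻¹ * ENNReal.ofReal (2 ^ (d + 1) * P.card *
      (Real.log W + 2 * (d + 1) * Real.log R) ^ d) := by
  have hR0 : 0 < R := by linarith
  refine box_le h P (fun Mβ => basisOf m Mβ.1) (fun Mβ j => Real.log |σ j Mβ.2| - Real.log R)
    (fun _ _ => Real.log R) _ ?_ E ?_
  · rintro ⟨M, β⟩ hM hle j
    have h1 := hP _ hM
    have hβ : ∀ j, |σ j β| ≠ 0 := by
      intro j hj
      have : ∏ j, |σ j β| = 0 := Finset.prod_eq_zero (Finset.mem_univ j) hj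
      simp only [this, mul_zero] at h1
      linarith
    have h2 := Real.log_le_log one_pos h1
    rw [Real.log_one, Real.log_mul (by linarith) (Finset.prod_ne_zero_iff.2 fun j _ => hβ j),
      Real.log_prod (fun j _ => hβ j)] at h2
    have h3 : ∑ j, (2 * Real.log R - Real.log |σ j β|) =
        2 * (d + 1) * Real.log R - ∑ j, Real.log |σ j β| := by
      rw [Finset.sum_sub_distrib, Finset.sum_const, Finset.card_univ, Fintype.card_fin,
        nsmul_eq_mul]
      push_cast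
      ring
    have h4 : 2 * Real.log R - Real.log |σ j β| ≤ ∑ j, (2 * Real.log R - Real.log |σ j β|) := by
      refine Finset.single_le_sum (f := fun j => 2 * Real.log R - Real.log |σ j β|)
        (fun i _ => ?_) (Finset.mem_univ j)
      have := hle i
      simp only at this ⊢
      linarith
    show Real.log R - (Real.log |σ j β| - Real.log R) ≤ _
    linarith
  · intro z hz hpk
    obtain ⟨m'', v, β, hrep, hmem, hv, hβ⟩ := hcov z hz hpk
    refine ⟨_, hmem, v, hrep.of_lattice_eq (basisOf_lattice m m'').symm, fun j => ⟨?_, ?_⟩⟩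
    · have h1 := hP _ hmem
      have hβ0 : |σ j β| ≠ 0 := by
        intro hj
        have : ∏ j, |σ j β| = 0 := Finset.prod_eq_zero (Finset.mem_univ j) hj
        simp only [this, mul_zero] at h1
        linarith
      have h2 := Real.log_le_log (lt_of_le_of_ne (abs_nonneg _) (Ne.symm hβ0)) (hβ j)
      rw [Real.log_mul hR0.ne' (abs_ne_zero.2 (hrep.ne j))] at h2
      dsimp only
      linarith
    · exact Real.log_le_log (abs_pos.2 (hrep.ne j)) (hv j)

/-- **unfolding bound with lattices only.** -/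
theorem unfold_le_one {m : LatticeBasis (d + 1) K} {σ : Fin (d + 1) ≃ (K →+* ℝ)}
    {μ : Measure (ModSpace (d + 1))} {V : ℝ≥0∞} (h : IsPk m σ μ V)
    (P : Finset (Submodule ℤ K)) (R W : ℝ)
    (E : Set (ModSpace (d + 1)))
    (hcov : ∀ z ∈ E, inPk m σ z → ∃ m'' v, Rep m σ z m'' v ∧ m''.lattice ∈ P ∧
      |(embMatrix m'' σ).det| ≤ W ∧ (∀ j, |v j| ≤ R)) :
    μ E ≤ V⁻¹ * ENNReal.ofReal (2 ^ (d + 1) * P.card *
      (Real.log W + (d + 1) * Real.log R) ^ d) := by
  classical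
  refine box_le h P (fun M => basisOf m M)
    (fun M _ => max (-Real.log |(embMatrix (basisOf m M) σ).det|) (-Real.log W) - d * Real.log R)
    (fun _ _ => Real.log R) _ ?_ E ?_
  · intro M hM hle j
    have h1 := le_max_right (-Real.log |(embMatrix (basisOf m M) σ).det|) (-Real.log W)
    have h2 : Real.log R - (-Real.log W - d * Real.log R) =
      Real.log W + (d + 1) * Real.log R := by ring
    linarith
  · intro z hz hpk
    obtain ⟨m'', v, hrep, hmem, hW, hv⟩ := hcov z hz hpk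
    refine ⟨_, hmem, v, hrep.of_lattice_eq (basisOf_lattice m m'').symm, fun j => ⟨?_, ?_⟩⟩
    · have hdet := abs_det_eq_of_lattice_eq (basisOf_lattice m m'') σ
      have hdet0 : 0 < |(embMatrix m'' σ).det| := abs_pos.2 (Emb_71.det_embMatrix_ne_zero _ σ)
      have h4 := congrArg Real.log hrep.vol
      rw [Real.log_mul hdet0.ne'
          (Finset.prod_ne_zero_iff.2 fun j _ => abs_ne_zero.2 (hrep.ne j)), Real.log_one,
          Real.log_prod (fun j _ => abs_ne_zero.2 (hrep.ne j))] at h4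
      have h5 : ∑ i ∈ Finset.univ.erase j, Real.log |v i| ≤ d * Real.log R := by
        refine (Finset.sum_le_card_nsmul _ _ (Real.log R) fun i _ =>
          Real.log_le_log (abs_pos.2 (hrep.ne i)) (hv i)).trans ?_
        rw [Finset.card_erase_of_mem (Finset.mem_univ j), Finset.card_univ, Fintype.card_fin,
          nsmul_eq_mul]
        simp
      have h6 := Finset.add_sum_erase Finset.univ (fun i => Real.log |v i|) (Finset.mem_univ j)
      have h7 : Real.log |(embMatrix m'' σ).det| ≤ Real.log W := Real.log_le_log hdet0 hW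
      rw [hdet, max_eq_left (neg_le_neg h7)]
      linarith
    · exact Real.log_le_log (abs_pos.2 (hrep.ne j)) (hv j)

end Crest.Agent.R014.Unf_71
end

-- ▼ part R014/Unf3_71
section

/-!
# Row 14: arithmetic of the pairs `(M'', β)` (helper71)

`ordSub_le`, `det_le`, `disc_mul_mem` (`D · O^dual ⊆ O`), `norm_ge`.
-/

set_option autoImplicit false
open MeasureTheory Set Matrix
open Crest Crest.NumberTheoryR Crest.NumberTheoryR.Packets
open scoped ENNReal

namespace Crest.Agent.R014.Unf_71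

open BoxV_71 Pt_71 Emb_71 Struct_71

variable {d : ℕ} {K : Type*} [Field K] [NumberField K]

theorem mult_eq {n : ℕ} {m m'' : LatticeBasis n K} (h : LocallyHomothetic m m'') :
    Sl_652.ordSub m'' = Sl_652.ordSub m := by
  unfold Sl_652.ordSub
  rw [Pk2_349.mult_eq_of_lh h]

theorem ordSub_le {n : ℕ} {m m'' : LatticeBasis n K} (h : LocallyHomothetic m m'')
    (h1 : (1 : K) ∈ m''.lattice) : Sl_652.ordSub m ≤ m''.lattice := by
  rw [← mult_eq h]
  intro x hx
  have h2 := Sl_652.mem_ordSub.1 hx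
  have h3 := h2 1 h1
  rwa [mul_one] at h3

theorem det_le {n : ℕ} {m m'' : LatticeBasis n K} (σ : Fin n ≃ (K →+* ℝ))
    (h : LocallyHomothetic m m'') (h1 : (1 : K) ∈ m''.lattice) :
    |(embMatrix m'' σ).det| ≤ Real.sqrt (latticeDisc m) := by
  obtain ⟨o, ho⟩ := Sl_652.order_basis m
  have h2 := Sl_652.abs_det_embMatrix m'' o σ (by rw [ho]; exact ordSub_le h h1)
  have h3 := Sl_652.disc_of_order m o ho σ
  rw [← h3, Real.sqrt_sq_eq_abs, h2]
  have h4 : (0 : ℝ) < |(embMatrix o σ).det| := abs_pos.2 (Emb_71.det_embMatrix_ne_zero o σ)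
  rw [h2] at h4
  have h5 : (o.lattice.toAddSubgroup.relIndex m''.lattice.toAddSubgroup) ≠ 0 := by
    intro h0
    rw [h0] at h4
    simp at h4
  have h6 : (1 : ℝ) ≤ (o.lattice.toAddSubgroup.relIndex m''.lattice.toAddSubgroup : ℝ) := by
    exact_mod_cast Nat.one_le_iff_ne_zero.2 h5
  nlinarith [abs_nonneg (embMatrix m'' σ).det]

/-- `D · O^dual ⊆ O` for a lattice with integral trace form of discriminant `D`. -/
theorem disc_mul_mem {n : ℕ} (o : LatticeBasis n K) (σ : Fin n ≃ (K →+* ℝ))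
    (hint : ∀ i k, ∃ z : ℤ, ∑ j, σ j (o.vec i * o.vec k) = z)
    {D : ℕ} (hD : (embMatrix o σ).det ^ 2 = D) {β : K}
    (hβ : ∀ i, ∃ z : ℤ, ∑ j, σ j (β * o.vec i) = z) : (D : K) * β ∈ o.lattice := by
  choose G hG using hint
  choose t ht using hβ
  set GM : Matrix (Fin n) (Fin n) ℤ := Matrix.of G with hGM
  have hGE : embMatrix o σ * (embMatrix o σ)ᵀ = GM.map (Int.castRingHom ℝ) := by
    ext i k
    rw [Matrix.mul_apply, Matrix.map_apply, hGM, Matrix.of_apply, Int.coe_castRingHom]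
    refine Eq.trans ?_ (hG i k)
    refine Finset.sum_congr rfl fun j _ => ?_
    simp only [embMatrix, Matrix.transpose_apply, map_mul]
  have hGdet : (GM.det : ℝ) = D := by
    have h1 : (GM.map (Int.castRingHom ℝ)).det = ((GM.det : ℤ) : ℝ) :=
      (RingHom.map_det (Int.castRingHom ℝ) GM).symm
    rw [← h1, ← hGE, Matrix.det_mul, Matrix.det_transpose, ← sq, hD]
  have hGdet' : GM.det = (D : ℤ) := by exact_mod_cast hGdet
  set c : Fin n → ℤ := GM.adjugate *ᵥ t with hc
  have hGc : GM *ᵥ c = fun i => (D : ℤ) * t i := by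
    rw [hc, Matrix.mulVec_mulVec, Matrix.mul_adjugate, hGdet', Matrix.smul_mulVec,
      Matrix.one_mulVec]
    rfl
  have hEβ : embMatrix o σ *ᵥ (fun j => σ j β) = fun i => (t i : ℝ) := by
    ext i
    rw [← ht i]
    simp only [Matrix.mulVec, dotProduct, embMatrix, map_mul]
    refine Finset.sum_congr rfl fun j _ => ?_
    ring
  have hkey : (fun j => ((D : ℝ)) * σ j β) = fun j => σ j (∑ i, (c i : K) * o.vec i) := by
    apply eq_of_mulVec o σ
    have h1 : (fun j => σ j (∑ i, (c i : K) * o.vec i)) =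
        (embMatrix o σ)ᵀ *ᵥ (fun i => (c i : ℝ)) := by
      ext j
      simp only [Matrix.mulVec, dotProduct, Matrix.transpose_apply, embMatrix, map_sum, map_mul,
        map_intCast]
      refine Finset.sum_congr rfl fun i _ => ?_
      ring
    rw [h1, Matrix.mulVec_mulVec, hGE]
    have h2 : (GM.map (Int.castRingHom ℝ)) *ᵥ (fun i => (c i : ℝ)) =
        fun i => (D : ℝ) * (t i : ℝ) := by
      ext i
      have h3 := congrFun hGc i
      have h4 := congrArg (fun z : ℤ => (z : ℝ)) h3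
      simp only [Matrix.mulVec, dotProduct, Matrix.map_apply, Int.coe_castRingHom] at h4 ⊢
      push_cast at h4
      exact h4
    rw [h2]
    have h5 : (fun j => (D : ℝ) * σ j β) = (D : ℝ) • (fun j => σ j β) := rfl
    rw [h5, Matrix.mulVec_smul, hEβ]
    rfl
  by_cases hn : n = 0
  · subst hn
    have : Module.finrank ℚ K = 0 := Emb_71.finrank_eq o
    have h0 : 0 < Module.finrank ℚ K := Module.finrank_pos
    omega
  · have j : Fin n := ⟨0, Nat.pos_of_ne_zero hn⟩
    have h6 := congrFun hkey j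
    have h7 : (D : K) * β = ∑ i, (c i : K) * o.vec i := by
      apply (σ j).injective
      rw [map_mul, map_natCast]
      exact h6
    rw [h7]
    exact mem_lattice_iff.2 ⟨c, rfl⟩

/-- norms of dual elements are bounded below. -/
theorem norm_ge {n : ℕ} {m m'' : LatticeBasis n K} (σ : Fin n ≃ (K →+* ℝ))
    (h : LocallyHomothetic m m'') (h1 : (1 : K) ∈ m''.lattice) {β : K}
    (hβ : β ∈ Sl_652.TrDual m''.lattice σ) (hβ0 : β ≠ 0) :
    1 ≤ latticeDisc m ^ n * ∏ j, |σ j β| := by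
  obtain ⟨o, ho⟩ := Sl_652.order_basis m
  obtain ⟨D, hD⟩ := Sl_652.latticeDisc_eq_nat m
  have hE := Sl_652.disc_of_order m o ho σ
  have hfin := Emb_71.finrank_eq m
  have hD0 : D ≠ 0 := by
    rintro rfl
    have := Sl_652.latticeDisc_pos m σ
    rw [hD] at this
    simp at this
  have hoO : ∀ x ∈ o.lattice, x ∈ multiplierOrder m := fun x hx =>
    Sl_652.mem_ordSub.1 (ho ▸ hx)
  have hmem : (D : K) * β ∈ o.lattice := by
    refine disc_mul_mem o σ ?_ (hE.trans hD) ?_
    · intro i k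
      have h2 : IsIntegral ℤ (o.vec i * o.vec k) :=
        (Sl_652.order_isIntegral (hoO _ (Sl_652.vec_mem o i))).mul
          (Sl_652.order_isIntegral (hoO _ (Sl_652.vec_mem o k)))
      have h3 : IsIntegral ℤ (Algebra.trace ℚ K (o.vec i * o.vec k)) := Algebra.isIntegral_trace h2
      obtain ⟨z, hz⟩ := IsIntegrallyClosed.isIntegral_iff.1 h3
      refine ⟨z, ?_⟩
      rw [← Emb_71.trace_eq σ hfin, ← hz]
      simp
    · intro i
      exact hβ _ (ordSub_le h h1 (ho ▸ Sl_652.vec_mem o i))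
  have hint : IsIntegral ℤ ((D : K) * β) := Sl_652.order_isIntegral (hoO _ hmem)
  have hnorm : IsIntegral ℤ (Algebra.norm ℚ ((D : K) * β)) := Algebra.isIntegral_norm ℚ hint
  obtain ⟨z, hz⟩ := IsIntegrallyClosed.isIntegral_iff.1 hnorm
  have hne : Algebra.norm ℚ ((D : K) * β) ≠ 0 := by
    rw [Algebra.norm_ne_zero_iff]
    exact mul_ne_zero (by exact_mod_cast hD0) hβ0
  have hz0 : z ≠ 0 := by
    rintro rfl
    simp only [map_zero] at hz
    exact hne hz.symm
  have h4 : ((Algebra.norm ℚ ((D : K) * β) : ℚ) : ℝ) = ∏ j, σ j ((D : K) * β) :=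
    Emb_71.norm_eq σ hfin _
  have h5 : |((z : ℤ) : ℝ)| = latticeDisc m ^ n * ∏ j, |σ j β| := by
    have h6 : ((Algebra.norm ℚ ((D : K) * β) : ℚ) : ℝ) = ((z : ℤ) : ℝ) := by
      rw [← hz]; simp
    rw [← h6, h4, Finset.abs_prod, hD]
    simp only [map_mul, map_natCast, abs_mul, Nat.abs_cast]
    rw [Finset.prod_mul_distrib, Finset.prod_const, Finset.card_univ, Fintype.card_fin]
  rw [← h5]
  have h7 : (1 : ℤ) ≤ |z| := Int.one_le_abs hz0
  exact_mod_cast h7

end Crest.Agent.R014.Unf_71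
end

-- ▼ part R014/Unf4_71
section

/-!
# Row 14: geometry of section 7 of #3693, and the three final bounds (helper71)

`exists_prim`, `exists_dual_vec` (Minkowski), `slab_disp`;
`InCl`, `Good`, `thin_le`, `good_compl_le`, `slab_le`.
-/

set_option autoImplicit false
open MeasureTheory Set Matrix
open Crest Crest.NumberTheoryR Crest.NumberTheoryR.Packets
open scoped ENNReal

namespace Crest.Agent.R014.Unf_71

open BoxV_71 Pt_71 Emb_71 Struct_71

variable {d : ℕ} {K : Type*} [Field K] [NumberField K]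

/-- dividing an integer vector by its content. -/
theorem exists_prim_of_ne (v : Fin (d + 1) → ℤ) (hv : v ≠ 0) :
    ∃ (p : Fin (d + 1) → ℤ) (k : ℤ), k ≠ 0 ∧ (∀ i, v i = k * p i) ∧
      ∀ k : ℤ, (∀ i, k ∣ p i) → IsUnit k := by
  obtain ⟨p, hp, hg⟩ := Finset.extract_gcd (s := (Finset.univ : Finset (Fin (d + 1)))) v
    ⟨0, Finset.mem_univ _⟩
  refine ⟨p, Finset.univ.gcd v, ?_, fun i => hp i (Finset.mem_univ i), ?_⟩
  · intro h0
    apply hv
    funext i
    rw [hp i (Finset.mem_univ i), h0, zero_mul]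
    rfl
  · intro k hk
    have h1 : k ∣ Finset.univ.gcd p := Finset.dvd_gcd fun i _ => hk i
    rw [hg] at h1
    exact isUnit_of_dvd_one h1

/-- a primitive vector of small sup norm. -/
theorem exists_prim (g : SLR (d + 1)) :
    ∃ p : Fin (d + 1) → ℤ, (∀ k : ℤ, (∀ i, k ∣ p i) → IsUnit k) ∧
      ∀ j, |((fun i => (p i : ℝ)) ᵥ* g.1) j| ≤ 2 := by
  obtain ⟨v, hv, hle⟩ := Ms_667.minkowski_forms g.1 (by rw [g.2, abs_one]) (fun _ => 2)
    (fun _ => by norm_num) (by
      rw [Finset.prod_const, Finset.card_univ, Fintype.card_fin]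
      exact one_lt_pow₀ (by norm_num) (Nat.succ_ne_zero d))
  obtain ⟨p, k, hk, hvp, hp⟩ := exists_prim_of_ne v hv
  refine ⟨p, hp, fun j => ?_⟩
  have h1 : (Ms_667.rv v ᵥ* g.1) j = k * ((fun i => (p i : ℝ)) ᵥ* g.1) j := by
    have h2 : Ms_667.rv v = (k : ℝ) • (fun i => (p i : ℝ)) := by
      funext i
      simp only [Ms_667.rv, hvp i, Pi.smul_apply, smul_eq_mul]
      push_cast
      rfl
    rw [h2, Matrix.smul_vecMul]
    rfl
  have h3 := hle j
  rw [h1, abs_mul] at h3
  have h4 : (1 : ℝ) ≤ |(k : ℝ)| := by exact_mod_cast Int.one_le_abs hk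
  nlinarith [abs_nonneg (((fun i => (p i : ℝ)) ᵥ* g.1) j)]

/-- a nonzero dual vector of small sup norm. -/
theorem exists_dual_vec (g : SLR (d + 1)) :
    ∃ q : Fin (d + 1) → ℤ, q ≠ 0 ∧ ∀ j, |(g⁻¹.1 *ᵥ fun i => (q i : ℝ)) j| ≤ 2 := by
  obtain ⟨v, hv, hle⟩ := Ms_667.minkowski_forms (g⁻¹.1)ᵀ
    (by rw [Matrix.det_transpose, g⁻¹.2, abs_one]) (fun _ => 2)
    (fun _ => by norm_num) (by
      rw [Finset.prod_const, Finset.card_univ, Fintype.card_fin]
      exact one_lt_pow₀ (by norm_num) (Nat.succ_ne_zero d))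
  refine ⟨v, hv, fun j => ?_⟩
  have h1 := hle j
  rw [Matrix.vecMul_transpose] at h1
  exact h1

/-- displacement of the `S`-partial sum. -/
theorem slab_disp {n : ℕ} (h h' : Matrix (Fin n) (Fin n) ℝ) (hh : h * h' = 1)
    (S : Finset (Fin n)) {R η : ℝ} (hη : 0 ≤ η) (hR' : ∀ i j, |h' i j| ≤ R)
    (hcross : ∀ i j, (i ∈ S ↔ j ∉ S) → |h i j| ≤ η) {v w : Fin n → ℝ} {c : ℝ}
    (hv : ∀ j, |v j| ≤ c) (hw : ∀ j, |w j| ≤ c) :
    |∑ j ∈ S, (v ᵥ* h) j * (h' *ᵥ w) j - ∑ j ∈ S, v j * w j| ≤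
      n ^ 3 * c ^ 2 * R * η := by
  classical
  rcases Nat.eq_zero_or_pos n with hn | hn
  · subst hn
    have : S = ∅ := Finset.eq_empty_of_isEmpty S
    subst this
    simp
  have i0 : Fin n := ⟨0, hn⟩
  have hc : 0 ≤ c := (abs_nonneg _).trans (hv i0)
  have hR0 : 0 ≤ R := (abs_nonneg _).trans (hR' i0 i0)
  set a : Fin n → Fin n → ℝ := fun i k => ∑ j ∈ S, h i j * h' j k with ha
  have hδ : ∀ i k, ∑ j, h i j * h' j k = if i = k then 1 else 0 := by
    intro i k
    have := congrFun (congrFun hh i) k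
    rw [Matrix.mul_apply, Matrix.one_apply] at this
    exact this
  have hsum : ∀ (T : Finset (Fin n)) i k, (∀ j ∈ T, |h i j| ≤ η) →
      |∑ j ∈ T, h i j * h' j k| ≤ n * (η * R) := by
    intro T i k hT
    refine (Finset.abs_sum_le_sum_abs _ _).trans ?_
    refine (Finset.sum_le_card_nsmul T _ (η * R) fun j hj => ?_).trans ?_
    · rw [abs_mul]
      exact mul_le_mul (hT j hj) (hR' j k) (abs_nonneg _) hη
    · rw [nsmul_eq_mul]
      have : (T.card : ℝ) ≤ n := by
        have := Finset.card_le_univ T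
        rw [Fintype.card_fin] at this
        exact_mod_cast this
      have h0 : 0 ≤ η * R := mul_nonneg hη hR0
      gcongr
  have hA : ∀ i k, |a i k - (if i ∈ S then (if i = k then 1 else 0) else 0)| ≤ n * (η * R) := by
    intro i k
    by_cases hi : i ∈ S
    · rw [if_pos hi, ← hδ i k]
      have h1 : a i k - ∑ j, h i j * h' j k = -∑ j ∈ Sᶜ, h i j * h' j k := by
        rw [ha, ← Finset.sum_add_sum_compl S (fun j => h i j * h' j k)]
        ring
      rw [h1, abs_neg]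
      refine hsum _ i k fun j hj => hcross i j ?_
      rw [Finset.mem_compl] at hj
      exact ⟨fun _ => hj, fun _ => hi⟩
    · rw [if_neg hi, sub_zero]
      refine hsum _ i k fun j hj => hcross i j ?_
      exact ⟨fun h => absurd h hi, fun h => absurd hj h⟩
  have h1 : ∑ j ∈ S, (v ᵥ* h) j * (h' *ᵥ w) j = ∑ i, ∑ k, v i * a i k * w k := by
    have h2 : ∀ j, (v ᵥ* h) j * (h' *ᵥ w) j = ∑ i, ∑ k, v i * (h i j * h' j k) * w k := by
      intro j
      simp only [Matrix.vecMul, Matrix.mulVec, dotProduct]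
      rw [Finset.sum_mul_sum]
      refine Finset.sum_congr rfl fun i _ => Finset.sum_congr rfl fun k _ => ?_
      ring
    simp only [h2]
    rw [Finset.sum_comm]
    refine Finset.sum_congr rfl fun i _ => ?_
    rw [Finset.sum_comm]
    refine Finset.sum_congr rfl fun k _ => ?_
    rw [ha, ← Finset.sum_mul, ← Finset.mul_sum]
  have h3 : ∑ j ∈ S, v j * w j =
      ∑ i, ∑ k, v i * (if i ∈ S then (if i = k then 1 else 0) else 0) * w k := by
    rw [← Finset.sum_filter_add_sum_filter_not Finset.univ (fun i => i ∈ S)]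
    have h4 : ∑ x with x ∉ S, ∑ k, v x * (if x ∈ S then (if x = k then (1 : ℝ) else 0) else 0)
        * w k = 0 := by
      refine Finset.sum_eq_zero fun i hi => ?_
      rw [Finset.mem_filter] at hi
      simp [hi.2]
    rw [h4, add_zero]
    have h5 : (Finset.univ.filter fun i => i ∈ S) = S := by ext; simp
    rw [h5]
    refine Finset.sum_congr rfl fun i hi => ?_
    simp [hi]
  rw [h1, h3, ← Finset.sum_sub_distrib]
  have h6 : ∀ i, |∑ k, v i * a i k * w k -
      ∑ k, v i * (if i ∈ S then (if i = k then 1 else 0) else 0) * w k| ≤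
      n * (c * (n * (η * R)) * c) := by
    intro i
    rw [← Finset.sum_sub_distrib]
    refine (Finset.abs_sum_le_sum_abs _ _).trans ?_
    refine (Finset.sum_le_card_nsmul _ _ (c * (n * (η * R)) * c) fun k _ => ?_).trans ?_
    · rw [← sub_mul, ← mul_sub, abs_mul, abs_mul]
      have h0 : 0 ≤ (n : ℝ) * (η * R) := by positivity
      exact mul_le_mul (mul_le_mul (hv i) (hA i k) (abs_nonneg _) hc) (hw k) (abs_nonneg _)
        (by positivity)
    · rw [Finset.card_univ, Fintype.card_fin, nsmul_eq_mul]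
  refine (Finset.abs_sum_le_sum_abs _ _).trans ?_
  refine (Finset.sum_le_card_nsmul _ _ _ fun i _ => h6 i).trans ?_
  rw [Finset.card_univ, Fintype.card_fin, nsmul_eq_mul]
  apply le_of_eq
  ring

end Crest.Agent.R014.Unf_71
end

-- ▼ part R014/Unf5_71
section

/-!
# Row 14: the three final bounds of the measure side of Theorem A, arbitrary lattices (helper71)

`InCl m m''` : `m''` is locally homothetic to `m` and contains `1` as a primitive vector.
`Good m σ G R` : all representations `(m'', v)` of `z` with `|v_j| ≤ R` have `G m''.lattice`.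
`thin_le`, `good_compl_le`, `slab_le` bound the packet measure of the cusp, of the complement of
`Good`, and of `Good ∩ x Box` by `V⁻¹ 2^n N L^(n-1)`, `N` a count of lattices / of pairs
`(M'', β)`.
-/

set_option autoImplicit false
open MeasureTheory Set Matrix
open Crest Crest.NumberTheoryR Crest.NumberTheoryR.Packets
open scoped ENNReal

namespace Crest.Agent.R014.Unf_71

open BoxV_71 Pt_71 Emb_71 Struct_71

variable {d : ℕ} {K : Type*} [Field K] [NumberField K]

/-- `m''` is locally homothetic to `m` and contains `1` as a primitive vector. -/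
structure InCl (m m'' : LatticeBasis (d + 1) K) : Prop where
  locHom : LocallyHomothetic m m''
  one_mem : (1 : K) ∈ m''.lattice
  prim : ∀ k : ℤ, ∀ y ∈ m''.lattice, (k : K) * y = 1 → IsUnit k

theorem Rep.inCl {m : LatticeBasis (d + 1) K} {σ : Fin (d + 1) ≃ (K →+* ℝ)}
    {z : ModSpace (d + 1)} {m'' : LatticeBasis (d + 1) K} {v : Fin (d + 1) → ℝ}
    (h : Rep m σ z m'' v) : InCl m m'' := ⟨h.locHom, h.one_mem, h.prim⟩

theorem Rep.one_le {m : LatticeBasis (d + 1) K} {σ : Fin (d + 1) ≃ (K →+* ℝ)}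
    {z : ModSpace (d + 1)} {m'' : LatticeBasis (d + 1) K} {v : Fin (d + 1) → ℝ}
    (h : Rep m σ z m'' v) {R : ℝ} (hv : ∀ j, |v j| ≤ R) :
    1 ≤ R ^ (d + 1) * |(embMatrix m'' σ).det| := by
  rw [← h.vol, mul_comm]
  refine mul_le_mul_of_nonneg_right ?_ (abs_nonneg _)
  calc ∏ j, |v j| ≤ ∏ _j : Fin (d + 1), R :=
        Finset.prod_le_prod (fun j _ => abs_nonneg _) fun j _ => hv j
    _ = R ^ (d + 1) := by rw [Finset.prod_const, Finset.card_univ, Fintype.card_fin]

/-- good points: every representation by a short primitive vector has a good lattice. -/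
def Good (m : LatticeBasis (d + 1) K) (σ : Fin (d + 1) ≃ (K →+* ℝ)) (G : Submodule ℤ K → Prop)
    (R : ℝ) : Set (ModSpace (d + 1)) :=
  {z | ∀ m'' v, Rep m σ z m'' v → (∀ j, |v j| ≤ R) → G m''.lattice}

/-- a set all of whose finite subsets have at most `N` elements is finite. -/
theorem finite_of_card_le {α : Type*} {A : Set α} {N : ℝ}
    (h : ∀ F : Finset α, (∀ a ∈ F, a ∈ A) → (F.card : ℝ) ≤ N) : A.Finite := by
  by_contra hA
  obtain ⟨k, hk⟩ := exists_nat_gt N
  obtain ⟨F, hF, hc⟩ := Set.Infinite.exists_subset_card_eq hA k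
  have := h F (fun a ha => hF ha)
  rw [hc] at this
  linarith

/-- general form of the bounds with lattices only. -/
theorem lattice_le {m : LatticeBasis (d + 1) K} {σ : Fin (d + 1) ≃ (K →+* ℝ)}
    {μ : Measure (ModSpace (d + 1))} {V : ℝ≥0∞} (h : IsPk m σ μ V)
    (G : Submodule ℤ K → Prop) {R N L : ℝ} (hR : 0 < R) (hL0 : 0 ≤ L)
    (hL : Real.log (Real.sqrt (latticeDisc m)) + (d + 1) * Real.log R ≤ L)
    (hN : ∀ F : Finset (Submodule ℤ K), (∀ M ∈ F, ∃ m'' : LatticeBasis (d + 1) K,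
      m''.lattice = M ∧ InCl m m'' ∧ ¬ G M ∧ 1 ≤ R ^ (d + 1) * |(embMatrix m'' σ).det|) →
      (F.card : ℝ) ≤ N)
    (E : Set (ModSpace (d + 1)))
    (hE : ∀ z ∈ E, inPk m σ z → ∃ m'' v, Rep m σ z m'' v ∧ (∀ j, |v j| ≤ R) ∧ ¬ G m''.lattice) :
    μ E ≤ V⁻¹ * ENNReal.ofReal (2 ^ (d + 1) * N * L ^ d) := by
  classical
  have hfin := finite_of_card_le (A := {M : Submodule ℤ K | ∃ m'' : LatticeBasis (d + 1) K,
      m''.lattice = M ∧ InCl m m'' ∧ ¬ G M ∧ 1 ≤ R ^ (d + 1) * |(embMatrix m'' σ).det|}) hN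
  have h1 := unfold_le_one h hfin.toFinset R (Real.sqrt (latticeDisc m)) E (by
    intro z hz hpk
    obtain ⟨m'', v, hrep, hv, hG⟩ := hE z hz hpk
    refine ⟨m'', v, hrep, ?_, det_le σ hrep.locHom hrep.one_mem, hv⟩
    rw [Set.Finite.mem_toFinset]
    exact ⟨m'', rfl, hrep.inCl, hG, hrep.one_le hv⟩)
  refine h1.trans ?_
  refine mul_le_mul' le_rfl (ENNReal.ofReal_le_ofReal ?_)
  have h2 : (hfin.toFinset.card : ℝ) ≤ N := hN _ fun M hM => hfin.mem_toFinset.1 hM
  rcases Finset.eq_empty_or_nonempty hfin.toFinset with he | ⟨M, hM⟩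
  · rw [he] at h2 ⊢
    simp only [Finset.card_empty, Nat.cast_zero] at h2 ⊢
    simp only [mul_zero, zero_mul]
    have : 0 ≤ L ^ d := pow_nonneg hL0 d
    positivity
  · obtain ⟨m'', -, hcl, -, h3⟩ := hfin.mem_toFinset.1 hM
    have h4 := det_le σ hcl.locHom hcl.one_mem
    have h5 : 1 ≤ R ^ (d + 1) * Real.sqrt (latticeDisc m) := h3.trans (by gcongr)
    have h6 : 0 < Real.sqrt (latticeDisc m) := Real.sqrt_pos.2 (Sl_652.latticeDisc_pos m σ)
    have h7 := Real.log_le_log one_pos h5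
    rw [Real.log_one, Real.log_mul (pow_pos hR _).ne' h6.ne', Real.log_pow] at h7
    push_cast at h7
    have h8 : 0 ≤ Real.log (Real.sqrt (latticeDisc m)) + (d + 1) * Real.log R := by linarith
    have h9 : (0 : ℝ) ≤ N := le_trans (Nat.cast_nonneg _) h2
    gcongr

/-- **cusp bound.** -/
theorem thin_le {m : LatticeBasis (d + 1) K} {σ : Fin (d + 1) ≃ (K →+* ℝ)}
    {μ : Measure (ModSpace (d + 1))} {V : ℝ≥0∞} (h : IsPk m σ μ V)
    {r N L : ℝ} (hr : 0 < r) (hL0 : 0 ≤ L)
    (hL : Real.log (Real.sqrt (latticeDisc m)) + (d + 1) * Real.log r ≤ L)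
    (hN : ∀ F : Finset (Submodule ℤ K), (∀ M ∈ F, ∃ m'' : LatticeBasis (d + 1) K,
      m''.lattice = M ∧ InCl m m'' ∧ 1 ≤ r ^ (d + 1) * |(embMatrix m'' σ).det|) →
      (F.card : ℝ) ≤ N) :
    μ {x | ¬ Iface_792.Thick x r} ≤ V⁻¹ * ENNReal.ofReal (2 ^ (d + 1) * N * L ^ d) := by
  refine lattice_le h (fun _ => False) hr hL0 hL ?_ _ ?_
  · intro F hF
    refine hN F fun M hM => ?_
    obtain ⟨m'', h1, h2, -, h3⟩ := hF M hM
    exact ⟨m'', h1, h2, h3⟩
  · intro x hx hpk
    simp only [mem_ofPred_eq, Iface_792.Thick, not_forall, not_le] at hx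
    obtain ⟨v, ⟨g, rfl, z, rfl⟩, hv0, hvr⟩ := hx
    have hz : z ≠ 0 := by
      rintro rfl
      apply hv0
      have : (fun i => (((0 : Fin (d + 1) → ℤ) i : ℤ) : ℝ)) = 0 := by
        funext i; simp
      rw [this, Matrix.zero_vecMul]
    obtain ⟨p, k, hk, hzp, hp⟩ := exists_prim_of_ne z hz
    obtain ⟨m'', hrep, -⟩ := exists_rep g hpk p 0 hp
    refine ⟨m'', _, hrep, fun j => ?_, not_false⟩
    have h1 : ((fun i => (z i : ℝ)) ᵥ* g.1) j = k * ((fun i => (p i : ℝ)) ᵥ* g.1) j := by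
      have h2 : (fun i => (z i : ℝ)) = (k : ℝ) • (fun i => (p i : ℝ)) := by
        funext i
        simp only [hzp i, Pi.smul_apply, smul_eq_mul]
        push_cast
        rfl
      rw [h2, Matrix.smul_vecMul]
      rfl
    have h3 : |((fun i => (z i : ℝ)) ᵥ* g.1) j| ≤ r :=
      ((norm_le_pi_norm ((fun i => (z i : ℝ)) ᵥ* g.1) j).trans hvr.le)
    rw [h1, abs_mul] at h3
    have h4 : (1 : ℝ) ≤ |(k : ℝ)| := by exact_mod_cast Int.one_le_abs hk
    nlinarith [abs_nonneg (((fun i => (p i : ℝ)) ᵥ* g.1) j)]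

/-- **complement of the good set.** -/
theorem good_compl_le {m : LatticeBasis (d + 1) K} {σ : Fin (d + 1) ≃ (K →+* ℝ)}
    {μ : Measure (ModSpace (d + 1))} {V : ℝ≥0∞} (h : IsPk m σ μ V)
    (G : Submodule ℤ K → Prop) {R N L : ℝ} (hR : 0 < R) (hL0 : 0 ≤ L)
    (hL : Real.log (Real.sqrt (latticeDisc m)) + (d + 1) * Real.log R ≤ L)
    (hN : ∀ F : Finset (Submodule ℤ K), (∀ M ∈ F, ∃ m'' : LatticeBasis (d + 1) K,
      m''.lattice = M ∧ InCl m m'' ∧ ¬ G M ∧ 1 ≤ R ^ (d + 1) * |(embMatrix m'' σ).det|) →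
      (F.card : ℝ) ≤ N) :
    μ (Good m σ G R)ᶜ ≤ V⁻¹ * ENNReal.ofReal (2 ^ (d + 1) * N * L ^ d) := by
  refine lattice_le h G hR hL0 hL hN _ ?_
  intro z hz _
  simp only [Good, mem_compl_iff, mem_ofPred_eq, not_forall] at hz
  obtain ⟨m'', v, hrep, hv, hG⟩ := hz
  exact ⟨m'', v, hrep, hv, hG⟩

/-- **slab bound.** -/
theorem slab_le {m : LatticeBasis (d + 1) K} {σ : Fin (d + 1) ≃ (K →+* ℝ)}
    {μ : Measure (ModSpace (d + 1))} {V : ℝ≥0∞} (h : IsPk m σ μ V)
    (G : Submodule ℤ K → Prop) (x : ModSpace (d + 1)) (S : Finset (Fin (d + 1)))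
    {R η N L : ℝ} (hR : 1 ≤ R) (hη : 0 ≤ η)
    (hL : (d + 1) * Real.log (latticeDisc m) + 2 * (d + 1) * Real.log (2 * (d + 1) * R) ≤ L)
    (hN : ∀ (t : ℤ) (s : ℝ) (F : Finset (Submodule ℤ K × K)),
      (∀ Mβ ∈ F, ∃ m'' : LatticeBasis (d + 1) K, m''.lattice = Mβ.1 ∧ InCl m m'' ∧ G Mβ.1 ∧
        Mβ.2 ∈ Sl_652.TrDual Mβ.1 σ ∧ Mβ.2 ≠ 0 ∧ ∑ j, σ j Mβ.2 = t ∧
        (∀ j, |σ j Mβ.2| ≤ (2 * (d + 1) * R) ^ 2) ∧
        |∑ j ∈ S, σ j Mβ.2 - s| ≤ 4 * (d + 1) ^ 3 * R * η) → (F.card : ℝ) ≤ N) :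
    μ (Good m σ G (2 * (d + 1) * R) ∩ (act x) '' Iface_792.Box S R η) ≤
      V⁻¹ * ENNReal.ofReal (2 ^ (d + 1) * N * L ^ d) := by
  classical
  obtain ⟨g, rfl⟩ := Quotient.exists_rep x
  obtain ⟨p, hp, hpg⟩ := exists_prim g
  obtain ⟨q, hq, hqg⟩ := exists_dual_vec g
  set t : ℤ := ∑ i, p i * q i with ht
  set s : ℝ := ∑ j ∈ S, ((fun i => (p i : ℝ)) ᵥ* g.1) j * (g⁻¹.1 *ᵥ fun i => (q i : ℝ)) j with hs
  set c : ℝ := 2 * (d + 1) * R with hc
  have hc1 : 1 ≤ c := by
    rw [hc]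
    have : (0 : ℝ) ≤ d := Nat.cast_nonneg d
    nlinarith
  set A : Set (Submodule ℤ K × K) := {Mβ | ∃ m'' : LatticeBasis (d + 1) K, m''.lattice = Mβ.1 ∧
      InCl m m'' ∧ G Mβ.1 ∧
        Mβ.2 ∈ Sl_652.TrDual Mβ.1 σ ∧ Mβ.2 ≠ 0 ∧ ∑ j, σ j Mβ.2 = t ∧
        (∀ j, |σ j Mβ.2| ≤ c ^ 2) ∧
        |∑ j ∈ S, σ j Mβ.2 - s| ≤ 4 * (d + 1) ^ 3 * R * η} with hA
  have hfin : A.Finite := finite_of_card_le (hN t s)
  have hD1 := Sl_652.one_le_latticeDisc m σ
  have hcard : (hfin.toFinset.card : ℝ) ≤ N := hN t s _ fun M hM => hfin.mem_toFinset.1 hM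
  refine (unfold_le h hfin.toFinset c (latticeDisc m ^ (d + 1)) hc1 (one_le_pow₀ hD1) ?_ _
    ?_).trans ?_
  · intro Mβ hM
    obtain ⟨m'', h1, h2, -, h3, h4, -⟩ := hfin.mem_toFinset.1 hM
    exact norm_ge σ h2.locHom h2.one_mem (by rw [h1]; exact h3) h4
  · rintro z ⟨hzG, h0, ⟨hbox, hcross⟩, rfl⟩ hpk
    have hz : act (Quotient.mk _ g : ModSpace (d + 1)) h0 = Quotient.mk _ (g * h0) := rfl
    rw [hz] at hpk hzG ⊢
    obtain ⟨m'', hrep, β, hβ, hβT⟩ := exists_rep (g * h0) hpk p q hp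
    set v := (fun i => (p i : ℝ)) ᵥ* (g * h0).1 with hv
    set w := (g * h0)⁻¹.1 *ᵥ (fun i => (q i : ℝ)) with hw
    set v0 := (fun i => (p i : ℝ)) ᵥ* g.1 with hv0
    set w0 := g⁻¹.1 *ᵥ (fun i => (q i : ℝ)) with hw0
    have hvv : v = v0 ᵥ* h0.1 := by
      rw [hv, hv0, Matrix.vecMul_vecMul]
      rfl
    have hww : w = h0⁻¹.1 *ᵥ w0 := by
      rw [hw, hw0, Matrix.mulVec_mulVec, _root_.mul_inv_rev]
      rfl
    have hvb : ∀ j, |v j| ≤ c := by
      intro j
      rw [hvv]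
      simp only [Matrix.vecMul, dotProduct]
      refine (Finset.abs_sum_le_sum_abs _ _).trans ?_
      refine (Finset.sum_le_card_nsmul _ _ (2 * R) fun i _ => ?_).trans ?_
      · rw [abs_mul]
        exact mul_le_mul (hpg i) (hbox i j).1 (abs_nonneg _) (by norm_num)
      · rw [Finset.card_univ, Fintype.card_fin, nsmul_eq_mul, hc]
        push_cast
        linarith
    have hwb : ∀ j, |w j| ≤ c := by
      intro j
      rw [hww]
      simp only [Matrix.mulVec, dotProduct]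
      refine (Finset.abs_sum_le_sum_abs _ _).trans ?_
      refine (Finset.sum_le_card_nsmul _ _ (R * 2) fun i _ => ?_).trans ?_
      · rw [abs_mul]
        exact mul_le_mul (hbox j i).2 (hqg i) (abs_nonneg _) (by linarith)
      · rw [Finset.card_univ, Fintype.card_fin, nsmul_eq_mul, hc]
        push_cast
        linarith
    have hσβ : ∀ j, |σ j β| ≤ c * |v j| := by
      intro j
      rw [hβ j, abs_mul, mul_comm]
      exact mul_le_mul_of_nonneg_right (hwb j) (abs_nonneg _)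
    refine ⟨m'', v, β, hrep, ?_, hvb, hσβ⟩
    rw [hfin.mem_toFinset]
    refine ⟨m'', rfl, hrep.inCl, hzG m'' v hrep hvb, hβT, ?_, ?_, ?_, ?_⟩
    · -- β ≠ 0
      rintro rfl
      have h1 : w = 0 := by
        funext j
        have h2 := hβ j
        rw [map_zero] at h2
        rcases mul_eq_zero.1 h2.symm with h3 | h3
        · exact absurd h3 (hrep.ne j)
        · exact h3
      apply hq
      have h2 : (g * h0).1 *ᵥ w = fun i => (q i : ℝ) := by
        rw [hw, Matrix.mulVec_mulVec, ← Matrix.SpecialLinearGroup.coe_mul, mul_inv_cancel,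
          Matrix.SpecialLinearGroup.coe_one, Matrix.one_mulVec]
      rw [h1, Matrix.mulVec_zero] at h2
      funext i
      have h3 := congrFun h2 i
      simp only [Pi.zero_apply] at h3
      exact_mod_cast h3.symm
    · have h1 := sum_mul_eq (g * h0) p q
      rw [← h1]
      exact Finset.sum_congr rfl fun j _ => hβ j
    · intro j
      refine (hσβ j).trans ?_
      rw [sq]
      exact mul_le_mul_of_nonneg_left (hvb j) (by linarith)
    · have h1 := slab_disp h0.1 h0⁻¹.1 (by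
        rw [← Matrix.SpecialLinearGroup.coe_mul, mul_inv_cancel,
          Matrix.SpecialLinearGroup.coe_one]) S hη (fun i j => (hbox i j).2)
        (fun i j hij => (hcross i j hij).1) hpg hqg
      rw [← hvv, ← hww] at h1
      have h2 : ∑ j ∈ S, σ j β = ∑ j ∈ S, v j * w j := Finset.sum_congr rfl fun j _ => hβ j
      rw [h2]
      refine h1.trans (le_of_eq ?_)
      push_cast
      ring
  · have hlog : Real.log (latticeDisc m ^ (d + 1)) + 2 * (d + 1) * Real.log c ≤ L := by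
      rw [Real.log_pow]
      push_cast
      exact hL
    have hlog0 : 0 ≤ Real.log (latticeDisc m ^ (d + 1)) + 2 * (d + 1) * Real.log c := by
      have h1 := Real.log_nonneg (one_le_pow₀ (n := d + 1) hD1)
      have h2 := Real.log_nonneg hc1
      positivity
    have hN0 : (0 : ℝ) ≤ N := le_trans (Nat.cast_nonneg _) hcard
    gcongr

end Crest.Agent.R014.Unf_71
end

-- ▼ part R014/TS1_837
section

set_option autoImplicit false

/-!
Transference by induction: if every nonzero vector of the lattice `P` has norm `≥ R`, the dual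
lattice `{l | ∀ y ∈ P, ⟪y, l⟫ ∈ ℤ}` has covering radius `≤ 2 ^ m / R`.
-/

open Module Submodule

universe u

namespace Crest.Agent.R014.TS1_837

set_option linter.unusedSectionVars false

section Basics

variable {E : Type u} [NormedAddCommGroup E] [InnerProductSpace ℝ E] [FiniteDimensional ℝ E]

/-- A subgroup all of whose non-zero vectors are long is discrete. -/
theorem discrete_of_norm {E : Type u} [NormedAddCommGroup E] (P : Submodule ℤ E) {r : ℝ} (hr : 0 < r)
    (h : ∀ y ∈ P, y ≠ 0 → r ≤ ‖y‖) : DiscreteTopology P := by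
  refine discreteTopology_of_isOpen_singleton_zero ?_
  have : ({0} : Set P) = Subtype.val ⁻¹' Metric.ball (0 : E) r := by
    ext y
    simp only [Set.mem_singleton_iff, Set.mem_preimage, Metric.mem_ball, dist_zero_right]
    constructor
    · rintro rfl
      simpa using hr
    · intro hy
      by_contra hne
      exact absurd (h y y.2 (fun h0 => hne (Subtype.ext h0))) (not_le.mpr hy)
  rw [this]
  exact Metric.isOpen_ball.preimage continuous_subtype_val

/-- An element of a lattice which is only divisible by `±1` takes the value `1` on some element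
of the dual lattice. -/
theorem exists_dual (P : Submodule ℤ E) [DiscreteTopology P] [IsZLattice ℝ P] {u : E}
    (hu : u ∈ P) (hprim : ∀ (g : ℤ) (v : E), v ∈ P → g • v = u → g = 1 ∨ g = -1) :
    ∃ w : E, (∀ y ∈ P, ∃ k : ℤ, inner ℝ y w = k) ∧ inner ℝ u w = 1 := by
  classical
  let b := Module.Free.chooseBasis ℤ P
  let bE := b.ofZLatticeBasis ℝ P
  let a : Module.Free.ChooseBasisIndex ℤ P → ℤ := fun i => b.repr ⟨u, hu⟩ i
  obtain ⟨g, hg⟩ := (IsPrincipalIdealRing.principal (Ideal.span (Set.range a))).principal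
  rw [Ideal.submodule_span_eq] at hg
  have hdiv : ∀ i, ∃ a' : ℤ, a i = g * a' := by
    intro i
    have : a i ∈ Ideal.span {g} := by
      rw [← hg]
      exact Ideal.subset_span ⟨i, rfl⟩
    exact Ideal.mem_span_singleton.mp this
  choose a' ha' using hdiv
  have hgmem : g ∈ Ideal.span (Set.range a) := by
    rw [hg]
    exact Ideal.mem_span_singleton_self g
  obtain ⟨c, hc⟩ := Ideal.mem_span_range_iff_exists_fun.mp hgmem
  have hgu : g • ((∑ i, a' i • b i : P) : E) = u := by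
    have h1 : (⟨u, hu⟩ : P) = ∑ i, a i • b i := (b.sum_repr ⟨u, hu⟩).symm
    have h2 : (∑ i, a i • b i : P) = g • ∑ i, a' i • b i := by
      rw [Finset.smul_sum]
      refine Finset.sum_congr rfl fun i _ => ?_
      rw [ha' i, mul_smul]
    have h3 := congrArg (Subtype.val) (h1.trans h2)
    simpa using h3.symm
  have hgpm := hprim g _ (Subtype.mem _) hgu
  have hgg : (g : ℝ) * g = 1 := by
    rcases hgpm with h | h <;> simp [h]
  let ψ : E →ₗ[ℝ] ℝ := ∑ i, (c i : ℝ) • bE.coord i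
  have hψ : ∀ y (hy : y ∈ P), ψ y = ((∑ i, c i * b.repr ⟨y, hy⟩ i : ℤ) : ℝ) := by
    intro y hy
    simp only [ψ, LinearMap.sum_apply, LinearMap.smul_apply, Basis.coord_apply, smul_eq_mul]
    push_cast
    refine Finset.sum_congr rfl fun i _ => ?_
    congr 1
    exact b.ofZLatticeBasis_repr_apply ℝ P ⟨y, hy⟩ i
  refine ⟨(InnerProductSpace.toDual ℝ E).symm ((g : ℝ) • LinearMap.toContinuousLinearMap ψ), ?_, ?_⟩
  · intro y hy
    refine ⟨g * ∑ i, c i * b.repr ⟨y, hy⟩ i, ?_⟩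
    rw [real_inner_comm, InnerProductSpace.toDual_symm_apply]
    simp only [smul_apply, LinearMap.coe_toContinuousLinearMap', smul_eq_mul]
    rw [hψ y hy]
    push_cast
    ring
  · rw [real_inner_comm, InnerProductSpace.toDual_symm_apply]
    simp only [smul_apply, LinearMap.coe_toContinuousLinearMap', smul_eq_mul]
    rw [hψ u hu]
    have : (∑ i, c i * b.repr ⟨u, hu⟩ i : ℤ) = g := hc
    rw [this, hgg]

/-- Shortest vectors exist. -/
theorem exists_shortest (P : Submodule ℤ E) [DiscreteTopology P] (h : ∃ y ∈ P, y ≠ 0) :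
    ∃ u ∈ P, u ≠ 0 ∧ ∀ y ∈ P, y ≠ 0 → ‖u‖ ≤ ‖y‖ := by
  obtain ⟨y₀, hy₀, hne⟩ := h
  have hfin : (Metric.closedBall (0 : E) ‖y₀‖ ∩ (P : Set E)).Finite := by
    change (Metric.closedBall (0 : E) ‖y₀‖ ∩ (P.toAddSubgroup : Set E)).Finite
    have : DiscreteTopology P.toAddSubgroup := (inferInstance : DiscreteTopology P)
    exact Metric.finite_isBounded_inter_isClosed DiscreteTopology.isDiscrete
      Metric.isBounded_closedBall inferInstance
  have hfin' : ((Metric.closedBall (0 : E) ‖y₀‖ ∩ (P : Set E)) \ {0}).Finite :=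
    hfin.subset Set.sdiff_subset
  have hnonempty : ((Metric.closedBall (0 : E) ‖y₀‖ ∩ (P : Set E)) \ {0}).Nonempty :=
    ⟨y₀, ⟨by simp, hy₀⟩, by simpa using hne⟩
  obtain ⟨u, ⟨⟨hu1, hu2⟩, hu3⟩, humin⟩ := Set.exists_min_image _ (fun y : E => ‖y‖) hfin' hnonempty
  refine ⟨u, hu2, by simpa using hu3, ?_⟩
  intro y hy hy0
  by_cases hle : ‖y‖ ≤ ‖y₀‖
  · exact humin y ⟨⟨by simpa using hle, hy⟩, by simpa using hy0⟩
  · have := humin y₀ ⟨⟨by simp, hy₀⟩, by simpa using hne⟩
    exact this.trans (not_le.mp hle).le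

/-- Projection along `u` onto the orthogonal complement of `u`. -/
noncomputable def proj (u : E) (hu : u ≠ 0) : E →ₗ[ℝ] (ℝ ∙ u)ᗮ where
  toFun y := ⟨y - (inner ℝ u y / ‖u‖ ^ 2) • u, by
    rw [Submodule.mem_orthogonal_singleton_iff_inner_right, inner_sub_right, inner_smul_right,
      real_inner_self_eq_norm_sq]
    have : ‖u‖ ^ 2 ≠ 0 := by positivity
    field_simp
    ring⟩
  map_add' y z := by
    apply Subtype.ext
    simp only [inner_add_right, Submodule.coe_add]
    rw [add_div, add_smul]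
    abel
  map_smul' c y := by
    apply Subtype.ext
    simp only [inner_smul_right, RingHom.id_apply, Submodule.coe_smul]
    rw [smul_sub, smul_smul, mul_div_assoc]

theorem proj_add (u : E) (hu : u ≠ 0) (y : E) :
    y = (proj u hu y : E) + (inner ℝ u y / ‖u‖ ^ 2) • u := by
  simp [proj]

theorem proj_of_mem (u : E) (hu : u ≠ 0) (y : (ℝ ∙ u)ᗮ) : proj u hu (y : E) = y := by
  apply Subtype.ext
  have h : inner ℝ u (y : E) = 0 := Submodule.mem_orthogonal_singleton_iff_inner_right.mp y.2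
  simp [proj, h]

theorem inner_orth (u : E) (y : (ℝ ∙ u)ᗮ) : inner ℝ u (y : E) = 0 :=
  Submodule.mem_orthogonal_singleton_iff_inner_right.mp y.2

theorem inner_proj (u : E) (hu : u ≠ 0) (y : E) (h : (ℝ ∙ u)ᗮ) :
    inner ℝ y (h : E) = inner ℝ (proj u hu y) h := by
  conv_lhs => rw [proj_add u hu y]
  rw [inner_add_left, inner_smul_left, inner_orth, mul_zero, add_zero]
  rfl

theorem norm_sq_add (u : E) (h : (ℝ ∙ u)ᗮ) (t : ℝ) :
    ‖(h : E) + t • u‖ ^ 2 = ‖h‖ ^ 2 + t ^ 2 * ‖u‖ ^ 2 := by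
  have h0 : inner ℝ (h : E) u = 0 := by rw [real_inner_comm]; exact inner_orth u h
  rw [norm_add_sq_real, inner_smul_right, h0, norm_smul, mul_pow]
  simp

end Basics

/-- **Transference.** -/
theorem cover (m : ℕ) : ∀ (E : Type u) [NormedAddCommGroup E] [InnerProductSpace ℝ E]
    [FiniteDimensional ℝ E], finrank ℝ E = m → ∀ (P : Submodule ℤ E),
    span ℝ (P : Set E) = ⊤ → ∀ R : ℝ, 0 < R → (∀ y ∈ P, y ≠ 0 → R ≤ ‖y‖) →
    ∀ x : E, ∃ l : E, (∀ y ∈ P, ∃ k : ℤ, inner ℝ y l = k) ∧ ‖x - l‖ ≤ 2 ^ m / R := by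
  induction m with
  | zero =>
    intro E _ _ _ hE P _ R hR _ x
    have : Subsingleton E := finrank_zero_iff.mp hE
    refine ⟨0, fun y _ => ⟨0, by simp⟩, ?_⟩
    rw [Subsingleton.elim x 0]
    simp only [sub_zero, norm_zero]
    positivity
  | succ m ih =>
    intro E _ _ _ hE P hspan R hR hP x
    have hdisc : DiscreteTopology P := discrete_of_norm P hR hP
    have hZ : IsZLattice ℝ P := ⟨hspan⟩
    have hnt : ∃ y ∈ P, y ≠ 0 := by
      by_contra hcon
      push Not at hcon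
      have hbot : (P : Set E) ⊆ {0} := fun y hy => hcon y hy
      have : span ℝ (P : Set E) = ⊥ := by
        rw [Submodule.span_eq_bot]
        exact fun y hy => hbot hy
      rw [hspan] at this
      have hz : finrank ℝ E = 0 := by
        rw [← finrank_top, this, finrank_bot]
      omega
    obtain ⟨u, huP, hu0, humin⟩ := exists_shortest P hnt
    have hupos : 0 < ‖u‖ := norm_pos_iff.mpr hu0
    have hRu : R ≤ ‖u‖ := hP u huP hu0
    -- the dual vector `w`
    obtain ⟨w, hw, huw⟩ := exists_dual P huP (by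
      intro g v hv hgv
      have hg0 : g ≠ 0 := by
        rintro rfl
        rw [zero_smul] at hgv
        exact hu0 hgv.symm
      have hv0 : v ≠ 0 := by
        rintro rfl
        rw [smul_zero] at hgv
        exact hu0 hgv.symm
      have hvmin := humin v hv hv0
      have hn : ‖u‖ = |(g : ℝ)| * ‖v‖ := by
        rw [← hgv, ← Int.cast_smul_eq_zsmul ℝ, norm_smul, Real.norm_eq_abs]
      have hvpos : 0 < ‖v‖ := norm_pos_iff.mpr hv0
      have hg1 : |(g : ℝ)| ≤ 1 := by
        by_contra hlt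
        push Not at hlt
        have : ‖v‖ < |(g : ℝ)| * ‖v‖ := by nlinarith
        linarith
      have hg2 : |g| ≤ 1 := by exact_mod_cast hg1
      rcases abs_le.mp hg2 with ⟨h1, h2⟩
      omega)
    -- the projected lattice
    set p := proj u hu0 with hp
    let P' : Submodule ℤ (ℝ ∙ u)ᗮ := P.map (p.restrictScalars ℤ)
    have hP'span : span ℝ (P' : Set (ℝ ∙ u)ᗮ) = ⊤ := by
      have h1 : (P' : Set (ℝ ∙ u)ᗮ) = p '' (P : Set E) := by
        simp [P']
      rw [h1, ← Submodule.map_span, hspan, Submodule.map_top, LinearMap.range_eq_top]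
      intro y
      exact ⟨(y : E), proj_of_mem u hu0 y⟩
    set R' : ℝ := Real.sqrt (3 / 4) * ‖u‖ with hR'
    have hs : 0 < Real.sqrt (3 / 4) := Real.sqrt_pos.mpr (by norm_num)
    have hR'pos : 0 < R' := mul_pos hs hupos
    have hP' : ∀ y ∈ P', y ≠ 0 → R' ≤ ‖y‖ := by
      rintro y ⟨z, hz, hzy⟩ hy0
      have hzy' : p z = y := hzy
      set t : ℝ := inner ℝ u z / ‖u‖ ^ 2 with ht
      set k : ℤ := round t with hk
      have hz' : z - k • u ∈ P := P.sub_mem hz (P.smul_mem _ huP)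
      have hdec : z - k • u = (y : E) + (t - k) • u := by
        have := proj_add u hu0 z
        rw [← hp, hzy', ← ht] at this
        rw [this, sub_smul, ← Int.cast_smul_eq_zsmul ℝ]
        abel
      have hne : z - k • u ≠ 0 := by
        intro h0
        have hn := norm_sq_add u y (t - k)
        rw [← hdec, h0] at hn
        have hy1 : 0 < ‖y‖ := norm_pos_iff.mpr hy0
        have : (0 : ℝ) < ‖y‖ ^ 2 + (t - k) ^ 2 * ‖u‖ ^ 2 := by positivity
        rw [← hn] at this
        simp at this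
      have h1 := humin _ hz' hne
      have h2 := norm_sq_add u y (t - k)
      rw [← hdec] at h2
      have h3 : |t - k| ≤ 1 / 2 := abs_sub_round t
      have h4 : (t - k) ^ 2 ≤ 1 / 4 := by
        have := sq_abs (t - k)
        nlinarith [abs_nonneg (t - k)]
      have h5 : ‖u‖ ^ 2 ≤ ‖z - k • u‖ ^ 2 := by gcongr
      have h6 : 3 / 4 * ‖u‖ ^ 2 ≤ ‖y‖ ^ 2 := by nlinarith [sq_nonneg ‖u‖]
      have h7 : R' ^ 2 ≤ ‖y‖ ^ 2 := by
        rw [hR', mul_pow, Real.sq_sqrt (by norm_num)]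
        exact h6
      exact le_of_sq_le_sq h7 (norm_nonneg _) |> fun h => h
    have hfin' : finrank ℝ (ℝ ∙ u)ᗮ = m := by
      have : Fact (finrank ℝ E = m + 1) := ⟨hE⟩
      exact Submodule.finrank_orthogonal_span_singleton hu0
    -- choose the integral vector
    set k : ℤ := round (inner ℝ u x) with hk
    set x₁ : E := x - k • w with hx₁
    have hθ : inner ℝ u x₁ = inner ℝ u x - k := by
      rw [hx₁, inner_sub_right, ← Int.cast_smul_eq_zsmul ℝ, inner_smul_right, huw, mul_one]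
    have hθ' : |inner ℝ u x₁| ≤ 1 / 2 := by
      rw [hθ]
      exact abs_sub_round _
    obtain ⟨l', hl', hl'n⟩ := ih (ℝ ∙ u)ᗮ hfin' P' hP'span R' hR'pos hP' (p x₁)
    refine ⟨k • w + (l' : E), ?_, ?_⟩
    · intro y hy
      obtain ⟨a, ha⟩ := hw y hy
      obtain ⟨c, hc⟩ := hl' (p y) ⟨y, hy, rfl⟩
      refine ⟨k * a + c, ?_⟩
      rw [inner_add_right, ← Int.cast_smul_eq_zsmul ℝ, inner_smul_right, ha,
        inner_proj u hu0 y l', ← hp, hc]
      push_cast
      ring
    · have hdec : x - (k • w + (l' : E)) = ((p x₁ - l' : (ℝ ∙ u)ᗮ) : E)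
          + (inner ℝ u x₁ / ‖u‖ ^ 2) • u := by
        have := proj_add u hu0 x₁
        rw [← hp] at this
        calc x - (k • w + (l' : E)) = x₁ - (l' : E) := by rw [hx₁]; abel
          _ = _ := by
            conv_lhs => rw [this]
            rw [Submodule.coe_sub]
            abel
      have h2 := norm_sq_add u (p x₁ - l') (inner ℝ u x₁ / ‖u‖ ^ 2)
      rw [← hdec] at h2
      have h3 : (inner ℝ u x₁ / ‖u‖ ^ 2) ^ 2 * ‖u‖ ^ 2 ≤ 1 / 4 / ‖u‖ ^ 2 := by
        have h4 : (inner ℝ u x₁) ^ 2 ≤ 1 / 4 := by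
          have := sq_abs (inner ℝ u x₁)
          nlinarith [abs_nonneg (inner ℝ u x₁)]
        have h5 : (inner ℝ u x₁ / ‖u‖ ^ 2) ^ 2 * ‖u‖ ^ 2 = (inner ℝ u x₁) ^ 2 / ‖u‖ ^ 2 := by
          field_simp
        rw [h5]
        gcongr
      have h6 : ‖p x₁ - l'‖ ^ 2 ≤ 4 / 3 * 4 ^ m / ‖u‖ ^ 2 := by
        have h7 : ‖p x₁ - l'‖ ^ 2 ≤ (2 ^ m / R') ^ 2 := by gcongr
        refine h7.trans (le_of_eq ?_)
        rw [hR', div_pow, mul_pow, Real.sq_sqrt (by norm_num), ← pow_mul, mul_comm m 2, pow_mul]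
        norm_num
        field_simp
      have h8 : ‖x - (k • w + (l' : E))‖ ^ 2 ≤ (2 ^ (m + 1) / ‖u‖) ^ 2 := by
        have h11 : (2 ^ (m + 1) / ‖u‖ : ℝ) ^ 2 = (4 ^ m * 4) / ‖u‖ ^ 2 := by
          rw [div_pow, ← pow_mul, mul_comm (m + 1) 2, pow_mul, pow_succ]
          norm_num
        rw [h2, h11]
        have h9 : (1 : ℝ) ≤ 4 ^ m := one_le_pow₀ (by norm_num)
        calc ‖p x₁ - l'‖ ^ 2 + (inner ℝ u x₁ / ‖u‖ ^ 2) ^ 2 * ‖u‖ ^ 2
            ≤ 4 / 3 * 4 ^ m / ‖u‖ ^ 2 + 1 / 4 / ‖u‖ ^ 2 := add_le_add h6 h3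
          _ = (4 / 3 * 4 ^ m + 1 / 4) / ‖u‖ ^ 2 := by ring
          _ ≤ (4 ^ m * 4) / ‖u‖ ^ 2 := by
            gcongr
            linarith
      have h10 : ‖x - (k • w + (l' : E))‖ ≤ 2 ^ (m + 1) / ‖u‖ :=
        le_of_sq_le_sq h8 (by positivity)
      refine h10.trans ?_
      gcongr

end Crest.Agent.R014.TS1_837
end

-- ▼ part R014/TS2_837
section

set_option autoImplicit false

/-!
Counting points of the dual `P* = {x | ∀ y ∈ P, x · y ∈ ℤ}` of a lattice `P ∋ 1` of `ℝⁿ` in slabs of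
the hyperplanes `∑ x i = t`, when every vector of `P` outside `ℤ • 1` is far from the line `ℝ • 1`.
-/

open Module Submodule MeasureTheory

namespace Crest.Agent.R014.TS2_837

open TS1_837

variable {n : ℕ}

theorem inner_toLp' (x y : Fin n → ℝ) :
    inner ℝ (WithLp.toLp 2 x) (WithLp.toLp 2 y) = ∑ i, x i * y i := by
  rw [EuclideanSpace.inner_toLp_toLp]
  simp only [dotProduct, star_trivial]
  exact Finset.sum_congr rfl fun i _ => mul_comm _ _

/-- The dual of `P` with respect to the standard dot product. -/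
def dual (P : Submodule ℤ (Fin n → ℝ)) : Submodule ℤ (Fin n → ℝ) where
  carrier := {x | ∀ y ∈ P, ∃ k : ℤ, ∑ i, x i * y i = k}
  zero_mem' := fun y _ => ⟨0, by simp⟩
  add_mem' := by
    intro x x' hx hx' y hy
    obtain ⟨k, hk⟩ := hx y hy
    obtain ⟨k', hk'⟩ := hx' y hy
    refine ⟨k + k', ?_⟩
    push_cast
    rw [← hk, ← hk', ← Finset.sum_add_distrib]
    exact Finset.sum_congr rfl fun i _ => by simp only [Pi.add_apply]; ring
  smul_mem' := by
    intro c x hx y hy
    obtain ⟨k, hk⟩ := hx y hy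
    refine ⟨c * k, ?_⟩
    push_cast
    rw [← hk, Finset.mul_sum]
    exact Finset.sum_congr rfl fun i _ => by simp only [Pi.smul_apply, zsmul_eq_mul]; ring


/-- `P` moved to the Euclidean space. -/
noncomputable def toE (P : Submodule ℤ (Fin n → ℝ)) : Submodule ℤ (EuclideanSpace ℝ (Fin n)) :=
  P.map ((WithLp.linearEquiv 2 ℝ (Fin n → ℝ)).symm.toLinearMap.restrictScalars ℤ)

theorem mem_toE {P : Submodule ℤ (Fin n → ℝ)} {z : EuclideanSpace ℝ (Fin n)} :
    z ∈ toE P ↔ ∃ y ∈ P, WithLp.toLp 2 y = z := Iff.rfl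

theorem span_toE {P : Submodule ℤ (Fin n → ℝ)} (h : span ℝ (P : Set (Fin n → ℝ)) = ⊤) :
    span ℝ (toE P : Set (EuclideanSpace ℝ (Fin n))) = ⊤ := by
  have h1 : (toE P : Set (EuclideanSpace ℝ (Fin n)))
      = (WithLp.linearEquiv 2 ℝ (Fin n → ℝ)).symm.toLinearMap '' (P : Set (Fin n → ℝ)) := by
    simp [toE]
  rw [h1, ← Submodule.map_span, h, Submodule.map_top, LinearMap.range_eq_top]
  exact (WithLp.linearEquiv 2 ℝ (Fin n → ℝ)).symm.surjective

/-- The vector `(1, …, 1)`. -/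
def one : Fin n → ℝ := fun _ => 1

/-- The separation hypothesis: vectors of `P` which are not integral multiples of `1` have two
coordinates at distance at least `R`. -/
def Sep (P : Submodule ℤ (Fin n → ℝ)) (R : ℝ) : Prop :=
  ∀ y ∈ P, (∀ k : ℤ, y ≠ fun _ => (k : ℝ)) → ∃ i j, R ≤ |y i - y j|

section Cover

variable {P : Submodule ℤ (Fin n → ℝ)} {R : ℝ}

theorem one_ne (hn : 0 < n) : (WithLp.toLp 2 (one : Fin n → ℝ) : EuclideanSpace ℝ (Fin n)) ≠ 0 := by
  intro h
  have := congrFun (congrArg (WithLp.ofLp) h) ⟨0, hn⟩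
  simp [one] at this

theorem exists_trace_one (hn : 0 < n) [DiscreteTopology P] (hspan : span ℝ (P : Set (Fin n → ℝ)) = ⊤)
    (hR : 0 < R) (h1 : one ∈ P) (hsep : Sep P R) :
    ∃ q ∈ dual P, ∑ i, q i = 1 := by
  have hdisc : DiscreteTopology (toE P) := by
    let e : (toE P) ≃ₜ P :=
      { toFun := fun z => ⟨WithLp.ofLp z.1, by
          obtain ⟨y, hy, hz⟩ := mem_toE.mp z.2
          rw [← hz]
          exact hy⟩
        invFun := fun y => ⟨WithLp.toLp 2 y.1, mem_toE.mpr ⟨y.1, y.2, rfl⟩⟩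
        left_inv := fun z => rfl
        right_inv := fun y => rfl
        continuous_toFun := by
          refine Continuous.subtype_mk ?_ _
          exact (PiLp.continuous_ofLp 2 _).comp continuous_subtype_val
        continuous_invFun := by
          refine Continuous.subtype_mk ?_ _
          exact (PiLp.continuous_toLp 2 _).comp continuous_subtype_val }
    exact e.isEmbedding.discreteTopology
  have hZ : IsZLattice ℝ (toE P) := ⟨span_toE hspan⟩
  obtain ⟨w, hw, hw1⟩ := exists_dual (toE P) (u := WithLp.toLp 2 one) (mem_toE.mpr ⟨one, h1, rfl⟩) (by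
    intro g v hv hgv
    obtain ⟨y, hy, rfl⟩ := mem_toE.mp hv
    have hgy : ∀ i, (g : ℝ) * y i = 1 := by
      intro i
      have := congrFun (congrArg (WithLp.ofLp) hgv) i
      simpa [one] using this
    have hg0 : (g : ℝ) ≠ 0 := by
      intro h0
      have := hgy ⟨0, hn⟩
      rw [h0, zero_mul] at this
      exact zero_ne_one this
    by_cases hk : ∃ k : ℤ, y = fun _ => (k : ℝ)
    · obtain ⟨k, rfl⟩ := hk
      have h3 : (g : ℝ) * (k : ℝ) = 1 := hgy ⟨0, hn⟩
      have h2 : g * k = 1 := by exact_mod_cast h3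
      exact Int.eq_one_or_neg_one_of_mul_eq_one h2
    · exfalso
      push Not at hk
      obtain ⟨i, j, hij⟩ := hsep y hy hk
      have : y i = y j := by
        have := (hgy i).trans (hgy j).symm
        exact mul_left_cancel₀ hg0 this
      rw [this, sub_self, abs_zero] at hij
      linarith)
  refine ⟨WithLp.ofLp w, ?_, ?_⟩
  · intro y hy
    obtain ⟨k, hk⟩ := hw (WithLp.toLp 2 y) (mem_toE.mpr ⟨y, hy, rfl⟩)
    refine ⟨k, ?_⟩
    rw [← hk]
    have := inner_toLp' y (WithLp.ofLp w)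
    rw [WithLp.toLp_ofLp] at this
    rw [this]
    exact Finset.sum_congr rfl fun i _ => mul_comm _ _
  · have := inner_toLp' one (WithLp.ofLp w)
    rw [WithLp.toLp_ofLp, hw1] at this
    rw [this]
    exact Finset.sum_congr rfl fun i _ => by simp [one]

/-- **Covering by the dual lattice, trace direction separated.** -/
theorem cover_slab (hn : 0 < n) [DiscreteTopology P] (hspan : span ℝ (P : Set (Fin n → ℝ)) = ⊤)
    (hR : 0 < R) (h1 : one ∈ P) (hsep : Sep P R) (x : Fin n → ℝ) :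
    ∃ q ∈ dual P, ∑ i, q i = ⌊∑ i, x i⌋ ∧
      ∀ i, |x i - q i - Int.fract (∑ i, x i) / n| ≤ 2 ^ n / R := by
  obtain ⟨q₁, hq₁, hq₁s⟩ := exists_trace_one hn hspan hR h1 hsep
  have hn' : (n : ℝ) ≠ 0 := by exact_mod_cast hn.ne'
  set u : EuclideanSpace ℝ (Fin n) := WithLp.toLp 2 one with hu
  have hu0 : u ≠ 0 := one_ne hn
  set τ : ℝ := ∑ i, x i with hτ
  -- the vector of the hyperplane to be approximated
  let v : Fin n → ℝ := fun i => x i - ⌊τ⌋ * q₁ i - Int.fract τ / n
  have hvsum : ∑ i, v i = 0 := by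
    simp only [v, Finset.sum_sub_distrib, ← Finset.mul_sum, hq₁s, Finset.sum_const,
      Finset.card_univ, Fintype.card_fin, nsmul_eq_mul]
    rw [← hτ, mul_div_cancel₀ _ hn', Int.fract]
    ring
  have hvH : (WithLp.toLp 2 v : EuclideanSpace ℝ (Fin n)) ∈ (ℝ ∙ u)ᗮ := by
    rw [Submodule.mem_orthogonal_singleton_iff_inner_right, hu, inner_toLp']
    simpa [one] using hvsum
  set p := proj u hu0 with hp
  let P' : Submodule ℤ (ℝ ∙ u)ᗮ := (toE P).map (p.restrictScalars ℤ)
  have hP'span : span ℝ (P' : Set (ℝ ∙ u)ᗮ) = ⊤ := by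
    have h1 : (P' : Set (ℝ ∙ u)ᗮ) = p '' (toE P : Set (EuclideanSpace ℝ (Fin n))) := by
      simp [P']
    rw [h1, ← Submodule.map_span, span_toE hspan, Submodule.map_top, LinearMap.range_eq_top]
    intro y
    exact ⟨(y : EuclideanSpace ℝ (Fin n)), proj_of_mem u hu0 y⟩
  have hP' : ∀ y ∈ P', y ≠ 0 → R / 2 ≤ ‖y‖ := by
    rintro y ⟨z, hz, hzy⟩ hy0
    have hzy' : p z = y := hzy
    obtain ⟨y₀, hy₀, rfl⟩ := mem_toE.mp hz
    have hnotint : ∀ k : ℤ, y₀ ≠ fun _ => (k : ℝ) := by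
      rintro k rfl
      apply hy0
      rw [← hzy']
      have : (WithLp.toLp 2 (fun _ : Fin n => (k : ℝ)) : EuclideanSpace ℝ (Fin n)) = (k : ℝ) • u := by
        rw [hu]
        ext i
        simp [one]
      rw [this, map_smul]
      have hpu : p u = 0 := by
        apply Subtype.ext
        have hh : ‖u‖ ^ 2 ≠ 0 := by positivity
        simp only [hp, proj, LinearMap.coe_mk, AddHom.coe_mk, real_inner_self_eq_norm_sq,
          div_self hh, one_smul, sub_self, ZeroMemClass.coe_zero]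
      rw [hpu, smul_zero]
    obtain ⟨i, j, hij⟩ := hsep y₀ hy₀ hnotint
    have hdec := proj_add u hu0 (WithLp.toLp 2 y₀)
    rw [← hp, hzy'] at hdec
    have hco : ∀ i, y₀ i = (y : EuclideanSpace ℝ (Fin n)) i
        + inner ℝ u (WithLp.toLp 2 y₀) / ‖u‖ ^ 2 := by
      intro i
      have := congrFun (congrArg (WithLp.ofLp) hdec) i
      simpa [hu, one] using this
    have hle : ∀ i, |(y : EuclideanSpace ℝ (Fin n)) i| ≤ ‖y‖ := by
      intro i
      have := PiLp.norm_apply_le (y : EuclideanSpace ℝ (Fin n)) i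
      simpa using this
    have h3 : |y₀ i - y₀ j| ≤ ‖y‖ + ‖y‖ := by
      rw [hco i, hco j]
      have : ∀ a b c : ℝ, (a + c) - (b + c) = a - b := by intros; ring
      rw [this]
      exact (abs_sub _ _).trans (add_le_add (hle i) (hle j))
    linarith
  have hfin : finrank ℝ (ℝ ∙ u)ᗮ = n - 1 := by
    have : Fact (finrank ℝ (EuclideanSpace ℝ (Fin n)) = (n - 1) + 1) := ⟨by
      rw [finrank_euclideanSpace_fin]; omega⟩
    exact Submodule.finrank_orthogonal_span_singleton hu0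
  obtain ⟨l, hl, hln⟩ := cover (n - 1) (ℝ ∙ u)ᗮ hfin P' hP'span (R / 2) (by positivity) hP'
    ⟨WithLp.toLp 2 v, hvH⟩
  have hlsum : ∑ i, (l : EuclideanSpace ℝ (Fin n)) i = 0 := by
    have h2 := inner_toLp' one (WithLp.ofLp (l : EuclideanSpace ℝ (Fin n)))
    rw [WithLp.toLp_ofLp] at h2
    have h3 := h2.symm.trans (inner_orth u l)
    rw [← h3]
    exact Finset.sum_congr rfl fun i _ => by simp [one]
  have hco : ∀ i, (⌊τ⌋ • q₁ + WithLp.ofLp (l : EuclideanSpace ℝ (Fin n))) i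
      = ⌊τ⌋ * q₁ i + (l : EuclideanSpace ℝ (Fin n)) i := by
    intro i
    rw [Pi.add_apply, Pi.smul_apply, zsmul_eq_mul]
  refine ⟨⌊τ⌋ • q₁ + WithLp.ofLp (l : EuclideanSpace ℝ (Fin n)), ?_, ?_, ?_⟩
  · refine (dual P).add_mem ((dual P).smul_mem _ hq₁) ?_
    intro y hy
    obtain ⟨k, hk⟩ := hl (p (WithLp.toLp 2 y)) ⟨WithLp.toLp 2 y, mem_toE.mpr ⟨y, hy, rfl⟩, rfl⟩
    refine ⟨k, ?_⟩
    rw [← hk, ← inner_proj u hu0 (WithLp.toLp 2 y) l]
    have h2 := inner_toLp' y (WithLp.ofLp (l : EuclideanSpace ℝ (Fin n)))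
    rw [WithLp.toLp_ofLp] at h2
    rw [h2]
    exact Finset.sum_congr rfl fun i _ => mul_comm _ _
  · simp only [hco, Finset.sum_add_distrib, ← Finset.mul_sum, hq₁s, hlsum, mul_one, add_zero]
  · intro i
    have h2 : x i - (⌊τ⌋ • q₁ + WithLp.ofLp (l : EuclideanSpace ℝ (Fin n))) i - Int.fract τ / n
        = ((⟨WithLp.toLp 2 v, hvH⟩ - l : (ℝ ∙ u)ᗮ) : EuclideanSpace ℝ (Fin n)) i := by
      rw [hco i]
      simp [v]
      ring
    rw [h2]
    have h3 := PiLp.norm_apply_le
      (((⟨WithLp.toLp 2 v, hvH⟩ - l : (ℝ ∙ u)ᗮ) : EuclideanSpace ℝ (Fin n))) i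
    refine (by simpa using h3 : _ ≤ ‖(⟨WithLp.toLp 2 v, hvH⟩ - l : (ℝ ∙ u)ᗮ)‖).trans (hln.trans ?_)
    have h4 : (2 : ℝ) ^ n = 2 ^ (n - 1) * 2 := by
      rw [← pow_succ, Nat.sub_add_cancel hn]
    rw [h4]
    apply le_of_eq
    field_simp

end Cover

end Crest.Agent.R014.TS2_837
end

-- ▼ part R014/TS3_837
section

set_option autoImplicit false

/-!
The dual basis, and the count of points of the dual lattice in slabs.
-/

open Module Submodule MeasureTheory

namespace Crest.Agent.R014.TS3_837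

open TS2_837

variable {n : ℕ}

section DualBasis

variable (b : Basis (Fin n) ℝ (Fin n → ℝ))

theorem det_ne_zero : (Matrix.of b).det ≠ 0 := by
  have h := Basis.isUnit_det (Pi.basisFun ℝ (Fin n)) b
  rw [Pi.basisFun_det_apply] at h
  exact h.ne_zero

/-- The dual family: `c i · b j = δ i j`. -/
noncomputable def cvec (i : Fin n) : Fin n → ℝ := fun k => (Matrix.of b)⁻¹ k i

theorem cvec_dot (i j : Fin n) : ∑ k, cvec b i k * b j k = if i = j then 1 else 0 := by
  have h : (Matrix.of b) * (Matrix.of b)⁻¹ = 1 :=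
    Matrix.mul_nonsing_inv _ (isUnit_iff_ne_zero.mpr (det_ne_zero b))
  have h2 := congrFun (congrFun h j) i
  rw [Matrix.mul_apply, Matrix.one_apply] at h2
  have h3 : (if i = j then (1 : ℝ) else 0) = if j = i then 1 else 0 := by
    by_cases hij : i = j
    · simp [hij]
    · simp [hij, Ne.symm hij]
  rw [h3, ← h2]
  exact Finset.sum_congr rfl fun k _ => by simp only [cvec, Matrix.of_apply]; ring

theorem cvec_indep : LinearIndependent ℝ (cvec b) := by
  rw [Fintype.linearIndependent_iff]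
  intro g hg j
  have h : ∑ k, (∑ i, g i • cvec b i) k * b j k = 0 := by
    rw [hg]; simp
  have h2 : ∑ k, (∑ i, g i • cvec b i) k * b j k = g j := by
    calc ∑ k, (∑ i, g i • cvec b i) k * b j k = ∑ k, ∑ i, g i * (cvec b i k * b j k) := by
          refine Finset.sum_congr rfl fun k _ => ?_
          rw [Finset.sum_apply, Finset.sum_mul]
          exact Finset.sum_congr rfl fun i _ => by rw [Pi.smul_apply, smul_eq_mul]; ring
      _ = ∑ i, g i * ∑ k, cvec b i k * b j k := by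
          rw [Finset.sum_comm]
          exact Finset.sum_congr rfl fun i _ => by rw [Finset.mul_sum]
      _ = g j := by simp [cvec_dot]
  rw [← h2, h]

/-- The dual basis. -/
noncomputable def cb : Basis (Fin n) ℝ (Fin n → ℝ) :=
  basisOfLinearIndependentOfCardEqFinrank' (cvec b) (cvec_indep b) (by simp)

theorem cb_apply (i : Fin n) : cb b i = cvec b i := by
  simp [cb]

theorem det_cb : |(Matrix.of (cb b)).det| = |(Matrix.of b).det|⁻¹ := by
  have h : Matrix.of (cb b) = ((Matrix.of b)⁻¹).transpose := by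
    ext i j
    simp [cb_apply, cvec]
  rw [h, Matrix.det_transpose, Matrix.det_nonsing_inv, Ring.inverse_eq_inv', abs_inv]

theorem cb_repr (x : Fin n → ℝ) (j : Fin n) : (cb b).repr x j = ∑ k, x k * b j k := by
  have h : x = ∑ i, (cb b).repr x i • cvec b i := by
    conv_lhs => rw [← (cb b).sum_repr x]
    exact Finset.sum_congr rfl fun i _ => by rw [cb_apply]
  have h2 : ∑ k, x k * b j k = ∑ k, (∑ i, (cb b).repr x i • cvec b i) k * b j k := by
    rw [← h]
  rw [h2]
  symm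
  calc ∑ k, (∑ i, (cb b).repr x i • cvec b i) k * b j k
      = ∑ k, ∑ i, (cb b).repr x i * (cvec b i k * b j k) := by
        refine Finset.sum_congr rfl fun k _ => ?_
        rw [Finset.sum_apply, Finset.sum_mul]
        exact Finset.sum_congr rfl fun i _ => by rw [Pi.smul_apply, smul_eq_mul]; ring
    _ = ∑ i, (cb b).repr x i * ∑ k, cvec b i k * b j k := by
        rw [Finset.sum_comm]
        exact Finset.sum_congr rfl fun i _ => by rw [Finset.mul_sum]
    _ = (cb b).repr x j := by simp [cvec_dot]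

theorem dual_eq : dual (span ℤ (Set.range b)) = span ℤ (Set.range (cb b)) := by
  apply le_antisymm
  · intro x hx
    rw [Basis.mem_span_iff_repr_mem ℤ (cb b) x]
    intro j
    obtain ⟨k, hk⟩ := hx (b j) (subset_span ⟨j, rfl⟩)
    exact ⟨k, by rw [cb_repr, hk]; simp⟩
  · rw [span_le]
    rintro _ ⟨i, rfl⟩
    rw [cb_apply]
    intro y hy
    induction hy using Submodule.span_induction with
    | mem y hy =>
      obtain ⟨j, rfl⟩ := hy
      exact ⟨if i = j then 1 else 0, by rw [cvec_dot]; push_cast; rfl⟩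
    | zero => exact ⟨0, by simp⟩
    | add y z _ _ hy hz =>
      obtain ⟨k, hk⟩ := hy
      obtain ⟨l, hl⟩ := hz
      refine ⟨k + l, ?_⟩
      push_cast
      rw [← hk, ← hl, ← Finset.sum_add_distrib]
      exact Finset.sum_congr rfl fun i _ => by rw [Pi.add_apply]; ring
    | smul a y _ hy =>
      obtain ⟨k, hk⟩ := hy
      refine ⟨a * k, ?_⟩
      push_cast
      rw [← hk, Finset.mul_sum]
      exact Finset.sum_congr rfl fun i _ => by rw [Pi.smul_apply, zsmul_eq_mul]; ring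

end DualBasis

section Packing

/-- **Packing.** If for every `x` there is a lattice vector `q` such that `β + (x - q) ∈ W` for all
`β ∈ A`, then `#A · vol(F) ≤ vol W`. -/
theorem packing (e : Basis (Fin n) ℝ (Fin n → ℝ)) (A : Finset (Fin n → ℝ)) (W : Set (Fin n → ℝ))
    (hW : MeasurableSet W) (hA : ∀ x ∈ A, x ∈ span ℤ (Set.range e))
    (h : ∀ x : Fin n → ℝ, ∃ q ∈ span ℤ (Set.range e), ∀ β ∈ A, β + (x - q) ∈ W) :
    (A.card : ENNReal) * ENNReal.ofReal |(Matrix.of e).det| ≤ volume W := by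
  classical
  have hF := ZSpan.isAddFundamentalDomain' e (volume : Measure (Fin n → ℝ))
  set F := ZSpan.fundamentalDomain e with hFdef
  set G : AddSubgroup (Fin n → ℝ) := (span ℤ (Set.range e)).toAddSubgroup with hG
  have hcount : Countable G := (inferInstance : Countable (span ℤ (Set.range e)))
  have h1 : volume W = ∑' g : G, ∫⁻ x in F, W.indicator 1 (-g +ᵥ x) := by
    rw [← lintegral_indicator_one hW]
    exact hF.lintegral_eq_tsum' _
  have hmeas : ∀ g : G, Measurable fun x : Fin n → ℝ =>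
      (W.indicator (1 : (Fin n → ℝ) → ENNReal) (-g +ᵥ x)) := by
    intro g
    refine (measurable_one.indicator hW).comp ?_
    change Measurable fun x : Fin n → ℝ => ((-g : G) : Fin n → ℝ) + x
    exact measurable_const_add _
  rw [h1, ← lintegral_tsum fun g => (hmeas g).aemeasurable, ← ZSpan.volume_fundamentalDomain e]
  rw [← setLIntegral_const]
  refine lintegral_mono fun x => ?_
  obtain ⟨q, hq, hqA⟩ := h x
  let f : (Fin n → ℝ) → G := fun β =>
    if hβ : β ∈ A then ⟨q - β, (span ℤ (Set.range e)).sub_mem hq (hA β hβ)⟩ else 0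
  have hinj : Set.InjOn f A := by
    intro β hβ β' hβ' hff
    simp only [Finset.mem_coe] at hβ hβ'
    simp only [f, dif_pos hβ, dif_pos hβ'] at hff
    have := congrArg Subtype.val hff
    simpa using this
  calc (A.card : ENNReal) = ∑ β ∈ A, 1 := by simp
    _ = ∑ β ∈ A, W.indicator (1 : (Fin n → ℝ) → ENNReal) (-(f β) +ᵥ x) := by
        refine Finset.sum_congr rfl fun β hβ => ?_
        have : (-(f β) +ᵥ x : Fin n → ℝ) = β + (x - q) := by
          change ((-(f β) : G) : Fin n → ℝ) + x = _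
          simp only [f, dif_pos hβ]
          simp only [NegMemClass.coe_neg]
          abel
        rw [this, Set.indicator_of_mem (hqA β hβ)]
        rfl
    _ = ∑ g ∈ A.image f, W.indicator (1 : (Fin n → ℝ) → ENNReal) (-g +ᵥ x) :=
        (Finset.sum_image (f := fun g : G =>
          W.indicator (1 : (Fin n → ℝ) → ENNReal) (-g +ᵥ x)) hinj).symm
    _ ≤ ∑' g : G, W.indicator (1 : (Fin n → ℝ) → ENNReal) (-g +ᵥ x) := ENNReal.sum_le_tsum _

end Packing

section Slab

/-- The linear functional `z ↦ ∑_{i ∈ S} z i - (|S| / n) ∑ z i`, as a vector. -/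
noncomputable def lvec (S : Finset (Fin n)) : Fin n → ℝ :=
  fun i => (if i ∈ S then 1 else 0) - (S.card : ℝ) / n

theorem lvec_dot (S : Finset (Fin n)) (z : Fin n → ℝ) :
    ∑ i, lvec S i * z i = ∑ i ∈ S, z i - (S.card : ℝ) / n * ∑ i, z i := by
  simp only [lvec, sub_mul, Finset.sum_sub_distrib, ite_mul, one_mul, zero_mul, Finset.mul_sum]
  rw [Finset.sum_ite_mem, Finset.univ_inter]

/-- The slab region. -/
def region (S : Finset (Fin n)) (c' s' r' : ℝ) : Set (Fin n → ℝ) :=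
  {z | (∀ i, |z i| ≤ c') ∧ |∑ i, lvec S i * z i - s'| ≤ r'}

theorem measurableSet_region (S : Finset (Fin n)) (c' s' r' : ℝ) :
    MeasurableSet (region S c' s' r') := by
  have h1 : IsClosed {z : Fin n → ℝ | ∀ i, |z i| ≤ c'} := by
    have : {z : Fin n → ℝ | ∀ i, |z i| ≤ c'} = ⋂ i, {z : Fin n → ℝ | |z i| ≤ c'} := by
      ext z; simp
    rw [this]
    refine isClosed_iInter fun i => ?_
    have h2 : Continuous fun z : Fin n → ℝ => |z i| := by fun_prop
    exact isClosed_le h2 continuous_const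
  have h2 : IsClosed {z : Fin n → ℝ | |∑ i, lvec S i * z i - s'| ≤ r'} := by
    have h3 : Continuous fun z : Fin n → ℝ => |∑ i, lvec S i * z i - s'| := by fun_prop
    exact isClosed_le h3 continuous_const
  exact (h1.inter h2).measurableSet

theorem volume_region_le (S : Finset (Fin n)) (i₀ : Fin n) (hi₀ : i₀ ∈ S) (hS : S ≠ Finset.univ)
    {c' s' r' : ℝ} (hc' : 0 ≤ c') (hr' : 0 ≤ r') :
    volume (region S c' s' r') ≤ ENNReal.ofReal (n * 2 ^ n * c' ^ (n - 1) * r') := by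
  classical
  have hn : 0 < n := i₀.pos
  have hn' : (0 : ℝ) < n := by exact_mod_cast hn
  have hcard : (S.card : ℝ) + 1 ≤ n := by
    have h1 : S.card < n := by
      have := Finset.card_lt_univ_of_notMem (s := S)
        (x := (Finset.not_subset.mp (fun h => hS (Finset.univ_subset_iff.mp h))).choose)
        (Finset.not_subset.mp (fun h => hS (Finset.univ_subset_iff.mp h))).choose_spec.2
      simpa using this
    exact_mod_cast h1
  have hv : 1 / (n : ℝ) ≤ lvec S i₀ := by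
    simp only [lvec, if_pos hi₀]
    rw [div_le_iff₀ hn', sub_mul, one_mul, div_mul_cancel₀ _ hn'.ne']
    linarith
  have hvpos : 0 < lvec S i₀ := lt_of_lt_of_le (by positivity) hv
  let M : Matrix (Fin n) (Fin n) ℝ := (1 : Matrix (Fin n) (Fin n) ℝ).updateRow i₀ (lvec S)
  have hdet : M.det = lvec S i₀ := by
    change ((1 : Matrix (Fin n) (Fin n) ℝ).updateRow i₀ (lvec S)).det = _
    rw [← Matrix.cramer_transpose_apply, Matrix.transpose_one, Matrix.cramer_one]
    rfl
  have hTdet : LinearMap.det (Matrix.toLin' M) = lvec S i₀ := by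
    rw [LinearMap.det_toLin', hdet]
  let box : Set (Fin n → ℝ) := Set.Icc (fun i => if i = i₀ then s' - r' else -c')
    (fun i => if i = i₀ then s' + r' else c')
  have hsub : region S c' s' r' ⊆ (Matrix.toLin' M) ⁻¹' box := by
    rintro z ⟨hz1, hz2⟩
    have hval : ∀ i, (Matrix.toLin' M z) i = if i = i₀ then ∑ j, lvec S j * z j else z i := by
      intro i
      rw [Matrix.toLin'_apply, Matrix.mulVec, dotProduct]
      by_cases h : i = i₀
      · subst h
        rw [if_pos rfl]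
        exact Finset.sum_congr rfl fun j _ => by simp [M]
      · rw [if_neg h]
        simp [M, Matrix.updateRow_ne h, Matrix.one_apply]
    refine ⟨fun i => ?_, fun i => ?_⟩
    · rw [hval i]
      by_cases h : i = i₀
      · simp only [h, if_true]
        have := (abs_le.mp hz2).1
        linarith
      · simp only [h, if_false]
        exact (abs_le.mp (hz1 i)).1
    · rw [hval i]
      by_cases h : i = i₀
      · simp only [h, if_true]
        have := (abs_le.mp hz2).2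
        linarith
      · simp only [h, if_false]
        exact (abs_le.mp (hz1 i)).2
  have hbox : volume box = ENNReal.ofReal (2 * r' * (2 * c') ^ (n - 1)) := by
    rw [Real.volume_Icc_pi, ← Finset.mul_prod_erase Finset.univ _ (Finset.mem_univ i₀)]
    have h1 : ∀ i ∈ Finset.univ.erase i₀, ENNReal.ofReal ((if i = i₀ then s' + r' else c')
        - (if i = i₀ then s' - r' else -c')) = ENNReal.ofReal (2 * c') := by
      intro i hi
      rw [if_neg (Finset.ne_of_mem_erase hi), if_neg (Finset.ne_of_mem_erase hi)]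
      congr 1
      ring
    rw [Finset.prod_congr rfl h1, Finset.prod_const, Finset.card_erase_of_mem (Finset.mem_univ _),
      Finset.card_univ, Fintype.card_fin, if_pos rfl, if_pos rfl, ← ENNReal.ofReal_pow (by positivity),
      ← ENNReal.ofReal_mul (by linarith)]
    congr 1
    ring
  calc volume (region S c' s' r') ≤ volume ((Matrix.toLin' M) ⁻¹' box) := measure_mono hsub
    _ = ENNReal.ofReal |(LinearMap.det (Matrix.toLin' M))⁻¹| * volume box :=
        Measure.addHaar_preimage_linearMap _ (by rw [hTdet]; exact hvpos.ne') _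
    _ = ENNReal.ofReal ((lvec S i₀)⁻¹ * (2 * r' * (2 * c') ^ (n - 1))) := by
        rw [hTdet, hbox, abs_of_pos (inv_pos.mpr hvpos), ← ENNReal.ofReal_mul (by positivity)]
    _ ≤ _ := by
        apply ENNReal.ofReal_le_ofReal
        have h1 : (lvec S i₀)⁻¹ ≤ n := by
          rw [inv_le_comm₀ hvpos hn']
          simpa using hv
        have h2 : (2 : ℝ) ^ n = 2 * 2 ^ (n - 1) := by
          rw [← pow_succ', Nat.sub_add_cancel hn]
        calc (lvec S i₀)⁻¹ * (2 * r' * (2 * c') ^ (n - 1))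
            ≤ n * (2 * r' * (2 * c') ^ (n - 1)) := by gcongr
          _ = n * 2 ^ n * c' ^ (n - 1) * r' := by rw [mul_pow, h2]; ring

/-- **Slab count, finset form.** -/
theorem slab_card (b : Basis (Fin n) ℝ (Fin n → ℝ)) {R : ℝ} (hR : 0 < R)
    (h1 : one ∈ span ℤ (Set.range b)) (hsep : Sep (span ℤ (Set.range b)) R)
    (S : Finset (Fin n)) (hS : S.Nonempty) (hS' : S ≠ Finset.univ)
    {t s c r : ℝ} (hc : 0 ≤ c) (hr : 0 ≤ r) (A : Finset (Fin n → ℝ))
    (hA : ∀ x ∈ A, x ∈ dual (span ℤ (Set.range b)) ∧ ∑ i, x i = t ∧ (∀ i, |x i| ≤ c) ∧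
      |∑ i ∈ S, x i - s| ≤ r) :
    (A.card : ℝ) ≤ |(Matrix.of b).det| *
      (n * 2 ^ n * (c + 1 + 2 ^ n / R) ^ (n - 1) * (r + n * (2 ^ n / R))) := by
  classical
  obtain ⟨i₀, hi₀⟩ := hS
  have hn : 0 < n := i₀.pos
  have hn' : (0 : ℝ) < n := by exact_mod_cast hn
  have hρ : 0 < 2 ^ n / R := by positivity
  have hcs := hsep
  have key := packing (cb b) A
    (region S (c + 1 + 2 ^ n / R) (s - (S.card : ℝ) / n * t) (r + n * (2 ^ n / R)))
    (measurableSet_region _ _ _ _) (fun x hx => by rw [← dual_eq]; exact (hA x hx).1) (by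
      intro x
      obtain ⟨q, hq, hqs, hqd⟩ := cover_slab (P := span ℤ (Set.range b)) hn (ZSpan.span_top b) hR h1
        hsep x
      refine ⟨q, by rw [← dual_eq]; exact hq, ?_⟩
      intro β hβ
      obtain ⟨-, hβt, hβc, hβs⟩ := hA β hβ
      set θ : ℝ := Int.fract (∑ i, x i) with hθ
      have hθ0 : 0 ≤ θ := Int.fract_nonneg _
      have hθ1 : θ < 1 := Int.fract_lt_one _
      let ε : Fin n → ℝ := fun i => x i - q i - θ / n
      have hεi : ∀ i, |ε i| ≤ 2 ^ n / R := hqd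
      have hεs : ∑ i, ε i = 0 := by
        simp only [ε, Finset.sum_sub_distrib, hqs, Finset.sum_const, Finset.card_univ,
          Fintype.card_fin, nsmul_eq_mul]
        rw [mul_div_cancel₀ _ hn'.ne', hθ, Int.fract]
        ring
      have hz : β + (x - q) = fun i => β i + θ / n + ε i := by
        funext i
        simp only [Pi.add_apply, Pi.sub_apply, ε]
        ring
      rw [hz]
      refine ⟨fun i => ?_, ?_⟩
      · have h2 : |θ / n| ≤ 1 := by
          rw [abs_div, abs_of_nonneg hθ0, abs_of_pos hn', div_le_one hn']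
          have : (1 : ℝ) ≤ n := by exact_mod_cast hn
          linarith
        calc |β i + θ / n + ε i| ≤ |β i| + |θ / n| + |ε i| := abs_add_three _ _ _
          _ ≤ c + 1 + 2 ^ n / R := by
            have := hβc i
            have := hεi i
            linarith
      · rw [lvec_dot]
        have h3 : ∑ i ∈ S, (β i + θ / n + ε i) - (S.card : ℝ) / n * ∑ i, (β i + θ / n + ε i)
            - (s - (S.card : ℝ) / n * t) = (∑ i ∈ S, β i - s) + ∑ i ∈ S, ε i := by
          simp only [Finset.sum_add_distrib, hβt, hεs, Finset.sum_const, Finset.card_univ,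
            Fintype.card_fin, nsmul_eq_mul]
          field_simp
          ring
        rw [h3]
        have h4 : |∑ i ∈ S, ε i| ≤ n * (2 ^ n / R) := by
          calc |∑ i ∈ S, ε i| ≤ ∑ i ∈ S, |ε i| := Finset.abs_sum_le_sum_abs _ _
            _ ≤ ∑ i ∈ S, 2 ^ n / R := Finset.sum_le_sum fun i _ => hεi i
            _ = S.card * (2 ^ n / R) := by rw [Finset.sum_const, nsmul_eq_mul]
            _ ≤ n * (2 ^ n / R) := by
              gcongr
              have := Finset.card_le_univ S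
              simpa using this
        exact (abs_add_le _ _).trans (add_le_add hβs h4))
  have hvol := key.trans (volume_region_le S i₀ hi₀ hS' (c' := c + 1 + 2 ^ n / R)
    (s' := s - (S.card : ℝ) / n * t) (r' := r + n * (2 ^ n / R)) (by positivity) (by positivity))
  have hdet : 0 < |(Matrix.of b).det| := abs_pos.mpr (det_ne_zero b)
  rw [det_cb, ← ENNReal.ofReal_natCast, ← ENNReal.ofReal_mul (by positivity)] at hvol
  have h5 := (ENNReal.ofReal_le_ofReal_iff (by positivity)).mp hvol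
  rw [← div_eq_mul_inv, div_le_iff₀ hdet] at h5
  linarith

/-- The set of dual vectors in a slab. -/
def slabSet (P : Submodule ℤ (Fin n → ℝ)) (S : Finset (Fin n)) (t s c r : ℝ) :
    Set (Fin n → ℝ) :=
  {x | x ∈ dual P ∧ ∑ i, x i = t ∧ (∀ i, |x i| ≤ c) ∧ |∑ i ∈ S, x i - s| ≤ r}

theorem slab_finite (b : Basis (Fin n) ℝ (Fin n → ℝ)) (S : Finset (Fin n)) (t s c r : ℝ) :
    (slabSet (span ℤ (Set.range b)) S t s c r).Finite := by
  have h := ZSpan.setFinite_inter (cb b) (s := {x : Fin n → ℝ | ∀ i, |x i| ≤ c}) (by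
    refine (Metric.isBounded_closedBall (x := (0 : Fin n → ℝ)) (r := |c|)).subset ?_
    intro x hx
    rw [mem_closedBall_zero_iff]
    exact (pi_norm_le_iff_of_nonneg (abs_nonneg c)).mpr fun i =>
      (hx i).trans (le_abs_self c))
  refine h.subset ?_
  rintro x ⟨hx, -, hxc, -⟩
  refine ⟨hxc, ?_⟩
  rw [dual_eq] at hx
  exact hx

/-- **Slab count.** -/
theorem slab_count (n : ℕ) : ∃ C : ℝ, 0 < C ∧ ∀ (b : Basis (Fin n) ℝ (Fin n → ℝ)) (R : ℝ), 1 ≤ R →
    one ∈ span ℤ (Set.range b) → Sep (span ℤ (Set.range b)) R →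
    ∀ S : Finset (Fin n), S.Nonempty → S ≠ Finset.univ → ∀ t s c r : ℝ, 1 ≤ c → 1 / R ≤ r →
    (slabSet (span ℤ (Set.range b)) S t s c r).Finite ∧
    ((slabSet (span ℤ (Set.range b)) S t s c r).ncard : ℝ)
      ≤ C * c ^ (n - 1) * r * |(Matrix.of b).det| := by
  refine ⟨(n + 1) * 2 ^ n * (2 + 2 ^ n) ^ (n - 1) * (1 + n * 2 ^ n), by positivity, ?_⟩
  intro b R hR h1 hsep S hS hS' t s c r hc hr
  have hR0 : 0 < R := by linarith
  have hr0 : 0 < r := lt_of_lt_of_le (by positivity) hr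
  have hfin := slab_finite b S t s c r
  refine ⟨hfin, ?_⟩
  rw [Set.ncard_eq_toFinset_card _ hfin]
  have h2 := slab_card b hR0 h1 hsep S hS hS' (t := t) (s := s) (c := c) (r := r) (by linarith)
    hr0.le hfin.toFinset (by
      intro x hx
      rw [Set.Finite.mem_toFinset] at hx
      exact hx)
  refine h2.trans ?_
  have h3 : 2 ^ n / R ≤ 2 ^ n * r := by
    rw [div_eq_mul_one_div]
    gcongr
  have h3' : 2 ^ n / R ≤ (2 : ℝ) ^ n := div_le_self (by positivity) hR
  have h4 : c + 1 + 2 ^ n / R ≤ (2 + 2 ^ n) * c := by nlinarith [pow_pos (two_pos : (0:ℝ) < 2) n]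
  have h5 : r + n * (2 ^ n / R) ≤ (1 + n * 2 ^ n) * r := by
    have : (n : ℝ) * (2 ^ n / R) ≤ n * (2 ^ n * r) := by gcongr
    nlinarith
  calc |(Matrix.of b).det| *
      (n * 2 ^ n * (c + 1 + 2 ^ n / R) ^ (n - 1) * (r + n * (2 ^ n / R)))
      ≤ |(Matrix.of b).det| *
      ((n + 1) * 2 ^ n * ((2 + 2 ^ n) * c) ^ (n - 1) * ((1 + n * 2 ^ n) * r)) := by
        gcongr
        linarith
    _ = _ := by rw [mul_pow]; ring

end Slab

end Crest.Agent.R014.TS3_837
end

-- ▼ part R014/N2Main_675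
section

/-!
Row 14, part N2 (helper675): the final counts in the form consumed by `Unf5_71`, and their
transformation into bounds of measures.
-/

set_option autoImplicit false

open Crest.NumberTheoryR.Packets Module NumberField MeasureTheory
open scoped nonZeroDivisors ENNReal

namespace Crest.Agent.R014.N2_675

open Crest.Agent.R014.Sl_652 Crest.Agent.R014.DivB_684
open Crest.Agent.R014.Unf_71 (InCl IsPk Good)
open Crest.Agent.R014.LocDefs_524 (IsTy)

noncomputable section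

universe u

/-- The slab count of TRSLAB in the form of `Sl2_652`. -/
theorem exists_slabCount (n : ℕ) : ∃ C : ℝ, 0 < C ∧ SlabCount n C := by
  obtain ⟨C, hC, h⟩ := TS3_837.slab_count n
  exact ⟨C, hC, fun b R hR h1 hsep S hS hS' t s c r hc hr => h b R hR h1 hsep S hS hS' t s c r hc hr⟩

/-- The bound of the bad types (shape of `bad_sum_le` of helper524). -/
def BadSum (n : ℕ) : Prop :=
  ∃ δ η C : ℝ, 0 < δ ∧ 0 < η ∧ 0 < C ∧ ∀ (K : Type u) [Field K] [NumberField K]
    [NumberField.IsTotallyReal K], IsPrimitiveField K →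
    ∀ (m : LatticeBasis n K) (σ : Fin n ≃ (K →+* ℝ)) (B : Finset (AddSubgroup K)),
    (∀ P ∈ B, IsTy m P ∧ Bad P σ (latticeDisc m ^ δ)) →
    ∑ P ∈ B, (((multiplierOrder m).relIndex P : ℕ) : ℝ)⁻¹ ≤ C * latticeDisc m ^ (-η)

/-- The parts of the lattices of the class are types. -/
def Bridge (n : ℕ) : Prop :=
  ∀ (K : Type u) [Field K] [NumberField K] (m m1 : LatticeBasis n K), LocallyHomothetic m m1 →
    (1 : K) ∈ m1.lattice → IsTy m (LocDefs_524.fPart m m1)

variable {K : Type u} [Field K] [NumberField K] {d : ℕ}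

theorem isTy_fP {n : ℕ} (hbr : Bridge.{u} n) {m : LatticeBasis n K} {M : Submodule ℤ K}
    (h : InCls m M) : IsTy m (fP m M) := by
  obtain ⟨m1, a1, rfl, b1⟩ := h
  have := hbr K m m1 a1 b1
  have e : LocDefs_524.fPart m m1 = fP m m1.lattice := by ext x; rfl
  rwa [e] at this

theorem inCls_of {m m'' : LatticeBasis (d + 1) K} {M : Submodule ℤ K} (h : m''.lattice = M)
    (hc : InCl m m'') : InCls m M :=
  ⟨m'', hc.locHom, h, by rw [← h]; exact hc.one_mem⟩

theorem fIdx_le_disc {n : ℕ} (m : LatticeBasis n K) (σ : Fin n ≃ (K →+* ℝ)) :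
    (fIdx m : ℝ) ≤ latticeDisc m := by
  have hf1 : (1 : ℝ) ≤ fIdx m := by exact_mod_cast fIdx_pos m
  have h1 : (1 : ℝ) ≤ |(NumberField.discr K : ℝ)| := by
    have : (1 : ℤ) ≤ |NumberField.discr K| := Int.one_le_abs (NumberField.discr_ne_zero K)
    exact_mod_cast this
  rw [latticeDisc_eq]
  nlinarith

/-- Sum over all types. -/
theorem sum_ty_le {n : ℕ} {m : LatticeBasis n K} (σ : Fin n ≃ (K →+* ℝ)) {ε : ℝ}
    (hε : 0 < ε) (B : Finset (AddSubgroup K)) (hB : ∀ P ∈ B, IsTy m P) :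
    ∑ P ∈ B, (ix m P)⁻¹ ≤ (CDiv 1 (ε / (n + 1))) ^ n * latticeDisc m ^ ε := by
  have h1 := Loc4_524.ty_sum_le m B hB
  have h2 := pow_omega_le hε n (fIdx m) (fIdx_pos m).ne'
  have h3 : (2 : ℝ) ^ (n * (LocDefs_524.fIdx m).primeFactors.card) =
      ((2 : ℝ) ^ n) ^ (fIdx m).primeFactors.card := by
    rw [pow_mul]; rfl
  rw [h3] at h1
  refine (show ∑ P ∈ B, (ix m P)⁻¹ ≤ _ from h1).trans (h2.trans ?_)
  have h4 : 0 ≤ (CDiv 1 (ε / ((n : ℝ) + 1))) ^ n := by
    have := one_le_CDiv 1 (ε := ε / ((n : ℝ) + 1)) (by positivity)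
    positivity
  refine mul_le_mul_of_nonneg_left ?_ h4
  exact Real.rpow_le_rpow (Nat.cast_nonneg _) (fIdx_le_disc m σ) hε.le

/-- count of lattices with a bound `A` of the sum over the types. -/
theorem count_lattices {ε : ℝ} (hε : 0 < ε) (hbr : Bridge.{u} (d + 1))
    (m : LatticeBasis (d + 1) K) (σ : Fin (d + 1) ≃ (K →+* ℝ)) {r A : ℝ} (hr : 0 < r)
    (Q : Submodule ℤ K → Prop)
    (hA : ∀ B : Finset (AddSubgroup K), (∀ P ∈ B, IsTy m P ∧ ∃ M, Q M ∧ fP m M = P) →
      ∑ P ∈ B, (ix m P)⁻¹ ≤ A)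
    (F : Finset (Submodule ℤ K)) (hF : ∀ M ∈ F, ∃ m'' : LatticeBasis (d + 1) K,
      m''.lattice = M ∧ InCl m m'' ∧ Q M ∧ 1 ≤ r ^ (d + 1) * |(embMatrix m'' σ).det|) :
    (F.card : ℝ) ≤ CDiv (d + 1) (ε / (d + 1)) *
      (Real.sqrt (latticeDisc m) * r ^ (d + 1)) ^ (1 + ε) * A := by
  classical
  have hX : 0 ≤ Real.sqrt (latticeDisc m) * r ^ (d + 1) := by positivity
  have hcls : ∀ M ∈ F, InCls m M := fun M hM => by
    obtain ⟨m'', a, b, -⟩ := hF M hM
    exact inCls_of a b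
  have h1 := card_lattices_le hε m σ hX F (by
    intro M hM
    obtain ⟨m'', a, b, -, c⟩ := hF M hM
    refine ⟨m'', b.locHom, a, by rw [← a]; exact b.one_mem, ?_⟩
    rw [mul_assoc]
    exact le_mul_of_one_le_right (Real.sqrt_nonneg _) c) (F.image (fP m))
    (fun M hM => Finset.mem_image_of_mem _ hM) (by
      intro P hP
      obtain ⟨M, hM, rfl⟩ := Finset.mem_image.mp hP
      exact ix_pos (hcls M hM))
  have h2 : ∑ P ∈ F.image (fP m), (ix m P)⁻¹ ≤ A := by
    apply hA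
    intro P hP
    obtain ⟨M, hM, rfl⟩ := Finset.mem_image.mp hP
    obtain ⟨m'', a, b, q, -⟩ := hF M hM
    exact ⟨isTy_fP hbr (hcls M hM), M, q, rfl⟩
  refine h1.trans ?_
  push_cast
  refine mul_le_mul_of_nonneg_left h2 ?_
  have := one_le_CDiv (d + 1) (ε := ε / ((d : ℝ) + 1)) (by positivity)
  positivity

/-- count of pairs. -/
theorem count_pairs {C : ℝ} (hC0 : 0 ≤ C) (hC : SlabCount (d + 1) C) {ε : ℝ} (hε : 0 < ε)
    (hbr : Bridge.{u} (d + 1))
    (m : LatticeBasis (d + 1) K) (σ : Fin (d + 1) ≃ (K →+* ℝ)) (S : Finset (Fin (d + 1)))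
    (hS : S.Nonempty) (hS' : S ≠ Finset.univ) (t s c r T : ℝ) (hc : 1 ≤ c) (hT : 2 ≤ T)
    (hr : 2 / T ≤ r)
    (F : Finset (Submodule ℤ K × K))
    (hF : ∀ Mβ ∈ F, ∃ m'' : LatticeBasis (d + 1) K, m''.lattice = Mβ.1 ∧ InCl m m'' ∧
        ¬ Bad (fP m Mβ.1) σ T ∧
        Mβ.2 ∈ Sl_652.TrDual Mβ.1 σ ∧ Mβ.2 ≠ 0 ∧ ∑ j, σ j Mβ.2 = t ∧
        (∀ j, |σ j Mβ.2| ≤ c) ∧ |∑ j ∈ S, σ j Mβ.2 - s| ≤ r) :
    (F.card : ℝ) ≤ (CDiv (d + 1) ε * ((latticeDisc m * c) ^ (d + 1)) ^ ε) *
      (C * c ^ d * r * Real.sqrt (latticeDisc m)) *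
      ((CDiv 1 (ε / (d + 1 + 1))) ^ (d + 1) * latticeDisc m ^ ε) := by
  classical
  have hcls : ∀ q ∈ F, InCls m q.1 := fun q hq => by
    obtain ⟨m'', a, b, -⟩ := hF q hq
    exact inCls_of a b
  have h1 := card_pairs_le hC0 hC hε m σ S hS hS' t s c r T hc hT hr F (by
    intro q hq
    obtain ⟨m'', a, b, g, h2, h3, h4, h5, h6⟩ := hF q hq
    refine ⟨inCls_of a b, ?_, g, h2, h3, h4, h5, h6⟩
    intro k y hy hk
    rw [← a] at hy
    exact b.prim k y hy hk) (F.image fun q => fP m q.1)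
    (fun q hq => Finset.mem_image_of_mem _ hq) (by
      intro P hP
      obtain ⟨M, hM, rfl⟩ := Finset.mem_image.mp hP
      exact ix_pos (hcls M hM))
  have h2 := sum_ty_le σ hε (F.image fun q => fP m q.1) (by
    intro P hP
    obtain ⟨M, hM, rfl⟩ := Finset.mem_image.mp hP
    exact isTy_fP hbr (hcls M hM))
  refine h1.trans ?_
  simp only [Nat.add_sub_cancel]
  push_cast at h2 ⊢
  refine mul_le_mul_of_nonneg_left h2 ?_
  have := one_le_CDiv (d + 1) hε
  have hr0 : 0 ≤ r := le_trans (by positivity) hr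
  have hD := Sl_652.one_le_latticeDisc m σ
  positivity

end

end Crest.Agent.R014.N2_675
end

-- ▼ part R014/N2Fin_675
section

/-!
Row 14, part N2 (helper675): Theorem A (`Iface_792.ThmA`) from the lower bound of the residue, the
bound of the bad types and the bridge.
-/

set_option autoImplicit false

open Crest.NumberTheoryR.Packets Module NumberField MeasureTheory Filter Asymptotics
open scoped nonZeroDivisors ENNReal

namespace Crest.Agent.R014.N2_675

open Crest.Agent.R014.Sl_652 Crest.Agent.R014.DivB_684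
open Crest.Agent.R014.Unf_71 (InCl IsPk Good)
open Crest.Agent.R014.LocDefs_524 (IsTy)

noncomputable section

universe u

/-! ### Absorbing constants and logarithms -/

theorem absorb {a b : ℝ} (hab : a < b) (A : ℝ) (k : ℕ) :
    ∀ᶠ D : ℝ in atTop, A * D ^ a * (Real.log D) ^ k ≤ D ^ b := by
  have h1 := isLittleO_log_rpow_rpow_atTop (k : ℝ) (sub_pos.mpr hab)
  have hA : 0 < 1 / (|A| + 1) := by positivity
  filter_upwards [h1.def hA, eventually_ge_atTop (1 : ℝ)] with D h2 hD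
  have hD0 : 0 < D := by linarith
  have hlog : 0 ≤ Real.log D := Real.log_nonneg hD
  rw [Real.rpow_natCast, Real.norm_of_nonneg (pow_nonneg hlog k),
    Real.norm_of_nonneg (Real.rpow_nonneg hD0.le _)] at h2
  have h3 : (|A| + 1) * (Real.log D) ^ k ≤ D ^ (b - a) := by
    have : (|A| + 1) * (Real.log D) ^ k ≤ (|A| + 1) * (1 / (|A| + 1) * D ^ (b - a)) :=
      mul_le_mul_of_nonneg_left h2 (by positivity)
    refine this.trans (le_of_eq ?_)
    field_simp
  have h4 : A * (Real.log D) ^ k ≤ D ^ (b - a) := by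
    refine le_trans ?_ h3
    refine mul_le_mul_of_nonneg_right ?_ (pow_nonneg hlog k)
    have := le_abs_self A
    linarith
  calc A * D ^ a * (Real.log D) ^ k = D ^ a * (A * (Real.log D) ^ k) := by ring
    _ ≤ D ^ a * D ^ (b - a) := mul_le_mul_of_nonneg_left h4 (Real.rpow_nonneg hD0.le _)
    _ = D ^ b := by rw [← Real.rpow_add hD0]; congr 1; ring

theorem meas_le {x V : ℝ≥0∞} {v Y Z : ℝ} (hv : 0 < v) (hV : ENNReal.ofReal v ≤ V)
    (hZ : 0 ≤ Z) (h : x ≤ V⁻¹ * ENNReal.ofReal Y) (hY : Y ≤ Z * v) : x ≤ ENNReal.ofReal Z := by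
  have hv0 : ENNReal.ofReal v ≠ 0 := (ENNReal.ofReal_pos.mpr hv).ne'
  calc x ≤ V⁻¹ * ENNReal.ofReal Y := h
    _ ≤ (ENNReal.ofReal v)⁻¹ * ENNReal.ofReal (Z * v) :=
        mul_le_mul' (ENNReal.inv_le_inv.mpr hV) (ENNReal.ofReal_le_ofReal hY)
    _ = ENNReal.ofReal Z := by
        rw [ENNReal.ofReal_mul hZ, mul_comm (ENNReal.ofReal Z), ← mul_assoc,
          ENNReal.inv_mul_cancel hv0 ENNReal.ofReal_ne_top, one_mul]

/-- cusp: the real inequality. -/
theorem cusp_real (d : ℕ) {e ε cV C1 CD : ℝ} (hε : 0 < ε) (hcV : 0 < cV) (hC1 : 0 ≤ C1)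
    (hCD : 0 ≤ CD) (he : 4 * ε ≤ e) :
    ∀ᶠ D : ℝ in atTop, ∀ r : ℝ, 0 < r → r ≤ 1 →
      2 ^ (d + 1) * (CD * (Real.sqrt D * r ^ (d + 1)) ^ (1 + ε) * (C1 * D ^ ε)) *
        (Real.log D) ^ d ≤ (D ^ e * r ^ (d + 1)) * (cV * D ^ (1 / 2 - ε)) := by
  have h1 := absorb (a := (1 + ε) / 2 + ε) (b := e + (1 / 2 - ε)) (by linarith)
    (2 ^ (d + 1) * CD * C1 / cV) d
  filter_upwards [h1, eventually_ge_atTop (1 : ℝ)] with D h2 hD r hr hr1
  have hD0 : 0 < D := by linarith
  have hlog : 0 ≤ Real.log D := Real.log_nonneg hD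
  have hrn : 0 < r ^ (d + 1) := pow_pos hr _
  have hrn1 : r ^ (d + 1) ≤ 1 := pow_le_one₀ hr.le hr1
  have h3 : (Real.sqrt D * r ^ (d + 1)) ^ (1 + ε) ≤ D ^ ((1 + ε) / 2) * r ^ (d + 1) := by
    rw [Real.mul_rpow (Real.sqrt_nonneg _) hrn.le, Real.sqrt_eq_rpow, ← Real.rpow_mul hD0.le]
    have e1 : (1 : ℝ) / 2 * (1 + ε) = (1 + ε) / 2 := by ring
    rw [e1]
    refine mul_le_mul_of_nonneg_left ?_ (Real.rpow_nonneg hD0.le _)
    calc (r ^ (d + 1)) ^ (1 + ε) ≤ (r ^ (d + 1)) ^ (1 : ℝ) :=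
          Real.rpow_le_rpow_of_exponent_ge hrn hrn1 (by linarith)
      _ = _ := Real.rpow_one _
  have h4 : 2 ^ (d + 1) * CD * C1 * D ^ ((1 + ε) / 2 + ε) * (Real.log D) ^ d ≤
      cV * D ^ (e + (1 / 2 - ε)) := by
    have := mul_le_mul_of_nonneg_left h2 hcV.le
    refine le_trans (le_of_eq ?_) this
    field_simp
  calc 2 ^ (d + 1) * (CD * (Real.sqrt D * r ^ (d + 1)) ^ (1 + ε) * (C1 * D ^ ε)) *
        (Real.log D) ^ d
      ≤ 2 ^ (d + 1) * (CD * (D ^ ((1 + ε) / 2) * r ^ (d + 1)) * (C1 * D ^ ε)) *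
        (Real.log D) ^ d := by gcongr
    _ = (2 ^ (d + 1) * CD * C1 * D ^ ((1 + ε) / 2 + ε) * (Real.log D) ^ d) * r ^ (d + 1) := by
        rw [Real.rpow_add hD0]; ring
    _ ≤ (cV * D ^ (e + (1 / 2 - ε))) * r ^ (d + 1) :=
        mul_le_mul_of_nonneg_right h4 hrn.le
    _ = _ := by rw [Real.rpow_add hD0]; ring

/-- complement of the good set: the real inequality. -/
theorem good_real (d : ℕ) {e ε η η0 cV Cb CD : ℝ} (he0 : 0 ≤ e) (hε : 0 < ε) (hcV : 0 < cV)
    (hCb : 0 ≤ Cb) (hCD : 0 ≤ CD)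
    (hexp : (d + 1) * e + ε * (3 / 2 + (d + 1) * e) + η < η0) :
    ∀ᶠ D : ℝ in atTop,
      2 ^ (d + 1) * (CD * (Real.sqrt D * (2 * (d + 1) * D ^ e) ^ (d + 1)) ^ (1 + ε) *
        (Cb * D ^ (-η0))) * (((1 + (d + 1) + (d + 1) * e) * Real.log D)) ^ d ≤
        D ^ (-η) * (cV * D ^ (1 / 2 - ε)) := by
  set n : ℝ := (d : ℝ) + 1 with hn
  have hn0 : 0 < n := by positivity
  have h1 := absorb (a := (1 / 2 + n * e) * (1 + ε) + -η0) (b := -η + (1 / 2 - ε)) (by
      nlinarith)
    (2 ^ (d + 1) * CD * Cb * ((2 * n) ^ (d + 1)) ^ (1 + ε) * (1 + n + n * e) ^ d / cV) d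
  filter_upwards [h1, eventually_ge_atTop (1 : ℝ)] with D h2 hD
  have hD0 : 0 < D := by linarith
  have hlog : 0 ≤ Real.log D := Real.log_nonneg hD
  have h3 : (Real.sqrt D * (2 * n * D ^ e) ^ (d + 1)) ^ (1 + ε) =
      ((2 * n) ^ (d + 1)) ^ (1 + ε) * D ^ ((1 / 2 + n * e) * (1 + ε)) := by
    have e1 : Real.sqrt D * (2 * n * D ^ e) ^ (d + 1) = (2 * n) ^ (d + 1) * D ^ (1 / 2 + n * e) := by
      rw [mul_pow, Real.sqrt_eq_rpow, Real.rpow_add hD0, ← Real.rpow_natCast (D ^ e) (d + 1),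
        ← Real.rpow_mul hD0.le]
      have : e * ((d + 1 : ℕ) : ℝ) = n * e := by push_cast; rw [hn]; ring
      rw [this]; ring
    rw [e1, Real.mul_rpow (by positivity) (Real.rpow_nonneg hD0.le _), ← Real.rpow_mul hD0.le]
  have h4 := mul_le_mul_of_nonneg_left h2 hcV.le
  refine le_trans (le_of_eq ?_) (h4.trans (le_of_eq ?_))
  · rw [h3, mul_pow (1 + n + n * e) (Real.log D) d, Real.rpow_add hD0]
    field_simp
  · rw [Real.rpow_add hD0]; ring

/-- slab: the real inequality. -/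
theorem slab_real (d : ℕ) {e ε cV Cs C1 CD C : ℝ} (he0 : 0 ≤ e) (hε : 0 < ε) (hcV : 0 < cV)
    (hCs : 0 ≤ Cs) (hC1 : 0 ≤ C1) (hCD : 0 ≤ CD)
    (hexp : (d + 1) * ε * (1 + 2 * e) + 2 * d * e + e + 2 * ε < C * e) :
    ∀ᶠ D : ℝ in atTop, ∀ δ : ℝ, 0 ≤ δ →
      2 ^ (d + 1) * ((CD * ((D * (2 * (d + 1) * D ^ e) ^ 2) ^ (d + 1)) ^ ε) *
        (Cs * ((2 * (d + 1) * D ^ e) ^ 2) ^ d * (4 * (d + 1) ^ 3 * D ^ e * δ) * Real.sqrt D) *
        (C1 * D ^ ε)) * ((3 * (d + 1) + 2 * (d + 1) * e) * Real.log D) ^ d ≤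
        (D ^ (C * e) * δ) * (cV * D ^ (1 / 2 - ε)) := by
  set n : ℝ := (d : ℝ) + 1 with hn
  have hn0 : 0 < n := by positivity
  have h1 := absorb (a := (1 + 2 * e) * (n * ε) + (2 * d * e + (e + (1 / 2 + ε))))
    (b := C * e + (1 / 2 - ε)) (by nlinarith)
    (2 ^ (d + 1) * CD * (((2 * n) ^ 2) ^ (d + 1)) ^ ε * Cs * ((2 * n) ^ 2) ^ d * (4 * n ^ 3) * C1 *
      (3 * n + 2 * n * e) ^ d / cV) d
  filter_upwards [h1, eventually_ge_atTop (1 : ℝ)] with D h2 hD δ hδ
  have hD0 : 0 < D := by linarith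
  have hlog : 0 ≤ Real.log D := Real.log_nonneg hD
  have h3 : ((D * (2 * n * D ^ e) ^ 2) ^ (d + 1)) ^ ε =
      (((2 * n) ^ 2) ^ (d + 1)) ^ ε * D ^ ((1 + 2 * e) * (n * ε)) := by
    have e1 : (D * (2 * n * D ^ e) ^ 2) ^ (d + 1) =
        ((2 * n) ^ 2) ^ (d + 1) * D ^ ((1 + 2 * e) * n) := by
      have e2 : D * (2 * n * D ^ e) ^ 2 = (2 * n) ^ 2 * D ^ (1 + 2 * e) := by
        rw [Real.rpow_add hD0, Real.rpow_one, mul_comm (2 : ℝ) e, Real.rpow_mul hD0.le]
        have : (D ^ e) ^ (2 : ℝ) = (D ^ e) ^ 2 := by exact_mod_cast Real.rpow_natCast (D ^ e) 2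
        rw [this]; ring
      rw [e2, mul_pow, ← Real.rpow_natCast (D ^ (1 + 2 * e)) (d + 1), ← Real.rpow_mul hD0.le]
      have : (1 + 2 * e) * ((d + 1 : ℕ) : ℝ) = (1 + 2 * e) * n := by push_cast; rw [hn]
      rw [this]
    rw [e1, Real.mul_rpow (by positivity) (Real.rpow_nonneg hD0.le _), ← Real.rpow_mul hD0.le]
    congr 2
    ring
  have h5 : ((2 * n * D ^ e) ^ 2) ^ d = ((2 * n) ^ 2) ^ d * D ^ (2 * d * e) := by
    rw [mul_pow, mul_pow, ← pow_mul (D ^ e), ← Real.rpow_natCast (D ^ e), ← Real.rpow_mul hD0.le]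
    congr 2
    push_cast
    ring
  have h4 := mul_le_mul_of_nonneg_left h2 (mul_nonneg hcV.le hδ)
  refine le_trans (le_of_eq ?_) (h4.trans (le_of_eq ?_))
  · rw [h3, h5, mul_pow (3 * n + 2 * n * e) (Real.log D) d, Real.rpow_add hD0,
      Real.rpow_add hD0, Real.rpow_add hD0, Real.rpow_add hD0, Real.sqrt_eq_rpow]
    field_simp
  · rw [Real.rpow_add hD0]; ring

end

end Crest.Agent.R014.N2_675
end

-- ▼ part R014/Pk6_349
section

/-!
Row 14, packets, part 6 (helper349): the interface statement `Iface_792.Pack`.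
-/

set_option autoImplicit false

open MeasureTheory
open Crest.NumberTheoryR.Packets

universe u

namespace Crest.Agent.R014.Pk6_349

open Crest.Agent.R014.Pk5_349

/-- The packet side of the assembly: existence, mass one and invariance of packet measures. -/
theorem pack (d : ℕ) : Crest.Agent.R014.Iface_792.Pack.{u} d := by
  intro K _ _ _ _ m σ
  refine ⟨exists_packet m σ, fun μ hμ => ⟨isProbabilityMeasure_of_packet hμ, fun u => ?_⟩⟩
  exact map_flow_of_packet hμ u

end Crest.Agent.R014.Pk6_349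
end

-- ▼ part R014/N2ThmA_675

/-!
Row 14, part N2 (helper675): **Theorem A** (`Iface_792.ThmA`) from the lower bound of the residue
(N1), the bound of the bad types and the bridge.
-/

set_option autoImplicit false

open Crest.NumberTheoryR.Packets Module NumberField MeasureTheory Filter Asymptotics
open scoped nonZeroDivisors ENNReal

namespace Crest.Agent.R014.N2_675

open Crest.Agent.R014.Sl_652 Crest.Agent.R014.DivB_684
open Crest.Agent.R014.Unf_71 (InCl IsPk Good)
open Crest.Agent.R014.LocDefs_524 (IsTy)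

noncomputable section

universe u

section bounds

variable {K : Type u} [Field K] [NumberField K] {d : ℕ}

theorem isPk_vol {m : LatticeBasis (d + 1) K} {σ : Fin (d + 1) ≃ (K →+* ℝ)}
    {μ : Measure (ModSpace (d + 1))} {V : ℝ≥0∞} (h : IsPk m σ μ V) :
    V = Pk5_349.packVol m σ := by
  obtain ⟨k, x, D, h1, h2, h3, h4, h5⟩ := h
  rw [h5]
  exact Pk5_349.sum_volume_eq h1 h2 (fun i => (h3 i).1)

/-- cusp bound with explicit constants. -/
theorem cusp_le {ε : ℝ} (hε : 0 < ε) (hbr : Bridge.{u} (d + 1))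
    {m : LatticeBasis (d + 1) K} {σ : Fin (d + 1) ≃ (K →+* ℝ)}
    {μ : Measure (ModSpace (d + 1))} {V : ℝ≥0∞} (h : IsPk m σ μ V) {r : ℝ} (hr : 0 < r)
    (hr1 : r ≤ 1) :
    μ {x | ¬ Iface_792.Thick x r} ≤ V⁻¹ * ENNReal.ofReal
      (2 ^ (d + 1) * (CDiv (d + 1) (ε / (d + 1)) *
        (Real.sqrt (latticeDisc m) * r ^ (d + 1)) ^ (1 + ε) *
        ((CDiv 1 (ε / (d + 1 + 1))) ^ (d + 1) * latticeDisc m ^ ε)) *
        (Real.log (latticeDisc m)) ^ d) := by
  have hD := one_le_latticeDisc m σ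
  have hlog : 0 ≤ Real.log (latticeDisc m) := Real.log_nonneg hD
  refine Unf_71.thin_le h hr hlog ?_ ?_
  · rw [Real.log_sqrt (by linarith)]
    have : Real.log r ≤ 0 := Real.log_nonpos hr.le hr1
    have hd : (0 : ℝ) ≤ d := Nat.cast_nonneg d
    nlinarith
  · intro F hF
    refine count_lattices hε hbr m σ hr (fun _ => True) ?_ F ?_
    · intro B hB
      have := sum_ty_le σ hε B (fun P hP => (hB P hP).1)
      push_cast at this
      exact this
    · intro M hM
      obtain ⟨m'', a, b, c⟩ := hF M hM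
      exact ⟨m'', a, b, trivial, c⟩

/-- bound of the complement of the good set. -/
theorem good_compl_le {ε e T A : ℝ} (hε : 0 < ε) (he : 0 ≤ e) (hbr : Bridge.{u} (d + 1))
    {m : LatticeBasis (d + 1) K} {σ : Fin (d + 1) ≃ (K →+* ℝ)}
    {μ : Measure (ModSpace (d + 1))} {V : ℝ≥0∞} (h : IsPk m σ μ V)
    (hDn : 2 * ((d : ℝ) + 1) ≤ latticeDisc m)
    (hbad : ∀ B : Finset (AddSubgroup K), (∀ P ∈ B, IsTy m P ∧ Bad P σ T) →
      ∑ P ∈ B, (ix m P)⁻¹ ≤ A) :
    μ (Good m σ (fun M => ¬ Bad (fP m M) σ T) (2 * (d + 1) * latticeDisc m ^ e))ᶜ ≤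
      V⁻¹ * ENNReal.ofReal
      (2 ^ (d + 1) * (CDiv (d + 1) (ε / (d + 1)) *
        (Real.sqrt (latticeDisc m) * (2 * (d + 1) * latticeDisc m ^ e) ^ (d + 1)) ^ (1 + ε) * A) *
        ((1 + (d + 1) + (d + 1) * e) * Real.log (latticeDisc m)) ^ d) := by
  have hD := one_le_latticeDisc m σ
  have hD0 : 0 < latticeDisc m := by linarith
  have hlog : 0 ≤ Real.log (latticeDisc m) := Real.log_nonneg hD
  have hd : (0 : ℝ) ≤ d := Nat.cast_nonneg d
  refine Unf_71.good_compl_le h _ (by positivity) (by positivity) ?_ ?_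
  · rw [Real.log_sqrt hD0.le, Real.log_mul (by positivity) (Real.rpow_pos_of_pos hD0 _).ne',
      Real.log_rpow hD0]
    have h1 : Real.log (2 * ((d : ℝ) + 1)) ≤ Real.log (latticeDisc m) :=
      Real.log_le_log (by positivity) hDn
    nlinarith
  · intro F hF
    refine count_lattices hε hbr m σ (by positivity)
      (fun M => ¬ ¬ Bad (fP m M) σ T) ?_ F hF
    intro B hB
    refine hbad B fun P hP => ?_
    obtain ⟨h1, M, h2, rfl⟩ := hB P hP
    exact ⟨h1, not_not.mp h2⟩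

/-- slab bound with explicit constants. -/
theorem slab_le {ε e T δ Cs : ℝ} (hε : 0 < ε) (he : 0 ≤ e) (hCs : 0 ≤ Cs)
    (hslab : SlabCount (d + 1) Cs) (hbr : Bridge.{u} (d + 1))
    {m : LatticeBasis (d + 1) K} {σ : Fin (d + 1) ≃ (K →+* ℝ)}
    {μ : Measure (ModSpace (d + 1))} {V : ℝ≥0∞} (h : IsPk m σ μ V)
    (hDn : 2 * ((d : ℝ) + 1) ≤ latticeDisc m) (hT : 2 ≤ T) (hδ : T⁻¹ ≤ δ)
    (x : ModSpace (d + 1)) (S : Finset (Fin (d + 1))) (hS : S.Nonempty) (hS' : S ≠ Finset.univ) :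
    μ (Good m σ (fun M => ¬ Bad (fP m M) σ T) (2 * (d + 1) * latticeDisc m ^ e) ∩
      (act x) '' Iface_792.Box S (latticeDisc m ^ e) δ) ≤
      V⁻¹ * ENNReal.ofReal
      (2 ^ (d + 1) * ((CDiv (d + 1) ε *
        ((latticeDisc m * (2 * (d + 1) * latticeDisc m ^ e) ^ 2) ^ (d + 1)) ^ ε) *
        (Cs * ((2 * (d + 1) * latticeDisc m ^ e) ^ 2) ^ d *
          (4 * (d + 1) ^ 3 * latticeDisc m ^ e * δ) * Real.sqrt (latticeDisc m)) *
        ((CDiv 1 (ε / (d + 1 + 1))) ^ (d + 1) * latticeDisc m ^ ε)) *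
        ((3 * (d + 1) + 2 * (d + 1) * e) * Real.log (latticeDisc m)) ^ d) := by
  have hD := one_le_latticeDisc m σ
  have hD0 : 0 < latticeDisc m := by linarith
  have hlog : 0 ≤ Real.log (latticeDisc m) := Real.log_nonneg hD
  have hd : (0 : ℝ) ≤ d := Nat.cast_nonneg d
  have hR : 1 ≤ latticeDisc m ^ e := Real.one_le_rpow hD he
  have hT0 : 0 < T := by linarith
  have hδ0 : 0 < δ := lt_of_lt_of_le (inv_pos.mpr hT0) hδ
  refine Unf_71.slab_le h _ x S hR hδ0.le ?_ ?_
  · rw [Real.log_mul (by positivity) (Real.rpow_pos_of_pos hD0 _).ne', Real.log_rpow hD0]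
    have h1 : Real.log (2 * ((d : ℝ) + 1)) ≤ Real.log (latticeDisc m) :=
      Real.log_le_log (by positivity) hDn
    nlinarith
  · intro t s F hF
    refine count_pairs hCs hslab hε hbr m σ S hS hS' t s _ _ T ?_ hT ?_ F hF
    · refine one_le_pow₀ ?_
      nlinarith
    · have h1 : 2 / T ≤ 2 * δ := by
        rw [div_eq_mul_inv]; linarith
      refine h1.trans ?_
      have h2 : (1 : ℝ) ≤ ((d : ℝ) + 1) ^ 3 := one_le_pow₀ (by linarith)
      have h3 : (2 : ℝ) ≤ 4 * ((d : ℝ) + 1) ^ 3 * latticeDisc m ^ e := by nlinarith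
      exact mul_le_mul_of_nonneg_right h3 hδ0.le

end bounds

/-- **Theorem A**. -/
theorem thmA_of {d : ℕ} (hN1 : Vol6_834.ResLower.{u} (d + 1)) (hbad : BadSum.{u} (d + 1))
    (hbr : Bridge.{u} (d + 1)) : Iface_792.ThmA.{u} d := by
  obtain ⟨δ0, η0, Cb, hδ0, hη0, hCb, hbad⟩ := hbad
  obtain ⟨Cs, hCs, hslab⟩ := exists_slabCount (d + 1)
  have hd : (0 : ℝ) ≤ d := Nat.cast_nonneg d
  set e0 : ℝ := min 1 (η0 / (4 * (d + 1))) with he0
  have he00 : 0 < e0 := by
    rw [he0]; positivity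
  have he01 : e0 ≤ 1 := min_le_left _ _
  have he02 : (d + 1) * e0 ≤ η0 / 4 := by
    have : e0 ≤ η0 / (4 * (d + 1)) := min_le_right _ _
    calc ((d : ℝ) + 1) * e0 ≤ (d + 1) * (η0 / (4 * (d + 1))) := by gcongr
      _ = η0 / 4 := by field_simp
  set C : ℝ := max (4 * (d + 1) + 4) (δ0 / e0) with hC
  have hC1 : 4 * ((d : ℝ) + 1) + 4 ≤ C := le_max_left _ _
  have hC2 : δ0 / e0 ≤ C := le_max_right _ _
  have hC0 : 0 < C := by linarith
  refine ⟨δ0, C, hδ0, hC0, fun e he => ?_⟩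
  set ε : ℝ := min (e / 4) (min (1 / 8) (η0 / 16)) with hεd
  have hε : 0 < ε := by rw [hεd]; positivity
  have hε1 : ε ≤ e / 4 := min_le_left _ _
  have hε2 : ε ≤ 1 / 8 := (min_le_right _ _).trans (min_le_left _ _)
  have hε3 : ε ≤ η0 / 16 := (min_le_right _ _).trans (min_le_right _ _)
  obtain ⟨cV, hcV, hvol⟩ := Vol6_834.packVol_ge_latticeDisc hN1 hε
  have hCD1 : 0 ≤ CDiv (d + 1) (ε / (d + 1)) :=
    le_trans zero_le_one (one_le_CDiv _ (by positivity))
  have hCD2 : 0 ≤ CDiv (d + 1) ε := le_trans zero_le_one (one_le_CDiv _ (by positivity))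
  have hCD3 : 0 ≤ (CDiv 1 (ε / (d + 1 + 1))) ^ (d + 1) :=
    pow_nonneg (le_trans zero_le_one (one_le_CDiv _ (by positivity))) _
  have E1 := cusp_real d (e := e) hε hcV hCD3 hCD1 (by linarith)
  by_cases hee : e ≤ e0
  · -- the main case
    have hne : ((d : ℝ) + 1) * e ≤ η0 / 4 := le_trans (by gcongr) he02
    have he1 : e ≤ 1 := hee.trans he01
    have E2 := good_real d (e := e) (ε := ε) (η := η0 / 4) (η0 := η0) he.le hε hcV hCb.le hCD1
      (by nlinarith)
    have E3 := slab_real d (e := e) (ε := ε) (C := C) he.le hε hcV hCs.le hCD3 hCD2 (by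
      have h1 : ((d : ℝ) + 1) * ε * (1 + 2 * e) ≤ (d + 1) * (e / 4) * 3 := by
        gcongr
        linarith
      have h2 : (4 * ((d : ℝ) + 1) + 4) * e ≤ C * e := by gcongr
      nlinarith)
    have E4 : ∀ᶠ D : ℝ in atTop, 2 ≤ D ^ δ0 := (tendsto_rpow_atTop hδ0).eventually_ge_atTop 2
    obtain ⟨D₀, hD₀⟩ := eventually_atTop.mp
      (E1.and (E2.and (E3.and (E4.and (eventually_ge_atTop (2 * ((d : ℝ) + 1)))))))
    refine ⟨max D₀ 2, η0 / 4, lt_of_lt_of_le (by norm_num) (le_max_right _ _), by positivity, ?_⟩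
    intro K _ _ _ hfin hprim m σ hDm μ hμ
    obtain ⟨V, hV⟩ := Unf_71.isPacketMeasure_iff.mp hμ
    obtain ⟨F1, F2, F3, F4, F5⟩ := hD₀ (latticeDisc m) ((le_max_left _ _).trans hDm)
    have hD1 := one_le_latticeDisc m σ
    have hD0 : 0 < latticeDisc m := by linarith
    have hvolV : ENNReal.ofReal (cV * latticeDisc m ^ (1 / 2 - ε)) ≤ V := by
      rw [isPk_vol hV]; exact hvol K hprim m σ
    have hv0 : 0 < cV * latticeDisc m ^ (1 / 2 - ε) := mul_pos hcV (Real.rpow_pos_of_pos hD0 _)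
    have hprob : IsProbabilityMeasure μ := (Pk6_349.pack d K hfin m σ).2 μ hμ |>.1
    have hbadm := hbad K hprim m σ
    refine ⟨?_, ?_⟩
    · set G := Good m σ (fun M => ¬ Bad (fP m M) σ (latticeDisc m ^ δ0))
        (2 * (d + 1) * latticeDisc m ^ e) with hG
      refine ⟨(toMeasurable μ Gᶜ)ᶜ, (measurableSet_toMeasurable _ _).compl, ?_, ?_⟩
      · rw [compl_compl, measure_toMeasurable]
        refine meas_le hv0 hvolV (Real.rpow_nonneg hD0.le _)
          (good_compl_le hε he.le hbr hV F5 (A := Cb * latticeDisc m ^ (-η0)) hbadm) ?_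
        exact F2
      · intro x _ S hS hS' δ hδ hδ1
        have hδ0' : 0 < δ := lt_of_lt_of_le (Real.rpow_pos_of_pos hD0 _) hδ
        have hsub : (toMeasurable μ Gᶜ)ᶜ ∩ act x '' Iface_792.Box S (latticeDisc m ^ e) δ ⊆
            G ∩ act x '' Iface_792.Box S (latticeDisc m ^ e) δ := by
          refine Set.inter_subset_inter_left _ ?_
          rw [Set.compl_subset_comm]
          exact subset_toMeasurable _ _
        refine (measure_mono hsub).trans ?_
        refine meas_le hv0 hvolV (by positivity)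
          (slab_le hε he.le hCs.le hslab hbr hV F5 F4 ?_ x S hS hS') (F3 δ hδ0'.le)
        rw [← Real.rpow_neg hD0.le]; exact hδ
    · intro r hr
      rcases le_or_gt r 1 with hr1 | hr1
      · exact meas_le hv0 hvolV (by positivity) (cusp_le hε hbr hV hr hr1) (F1 r hr hr1)
      · refine prob_le_one.trans ?_
        rw [ENNReal.one_le_ofReal]
        have h1 : 1 ≤ latticeDisc m ^ e := Real.one_le_rpow hD1 he.le
        have h2 : 1 ≤ r ^ (d + 1) := one_le_pow₀ hr1.le
        nlinarith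
  · -- large `e`: the slab bound is trivial
    push Not at hee
    obtain ⟨D₀, hD₀⟩ := eventually_atTop.mp E1
    refine ⟨max D₀ 2, 1, lt_of_lt_of_le (by norm_num) (le_max_right _ _), one_pos, ?_⟩
    intro K _ _ _ hfin hprim m σ hDm μ hμ
    obtain ⟨V, hV⟩ := Unf_71.isPacketMeasure_iff.mp hμ
    have F1 := hD₀ (latticeDisc m) ((le_max_left _ _).trans hDm)
    have hD1 := one_le_latticeDisc m σ
    have hD0 : 0 < latticeDisc m := by linarith
    have hvolV : ENNReal.ofReal (cV * latticeDisc m ^ (1 / 2 - ε)) ≤ V := by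
      rw [isPk_vol hV]; exact hvol K hprim m σ
    have hv0 : 0 < cV * latticeDisc m ^ (1 / 2 - ε) := mul_pos hcV (Real.rpow_pos_of_pos hD0 _)
    have hprob : IsProbabilityMeasure μ := (Pk6_349.pack d K hfin m σ).2 μ hμ |>.1
    refine ⟨⟨Set.univ, MeasurableSet.univ, ?_, ?_⟩, ?_⟩
    · rw [Set.compl_univ, measure_empty]; exact bot_le
    · intro x _ S hS hS' δ hδ hδ1
      refine prob_le_one.trans ?_
      rw [ENNReal.one_le_ofReal]
      have h1 : δ0 ≤ C * e := by
        calc δ0 = δ0 / e0 * e0 := by field_simp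
          _ ≤ C * e := by gcongr
      calc (1 : ℝ) = latticeDisc m ^ δ0 * latticeDisc m ^ (-δ0) := by
            rw [← Real.rpow_add hD0]; simp
        _ ≤ latticeDisc m ^ (C * e) * δ := by
            gcongr
    · intro r hr
      rcases le_or_gt r 1 with hr1 | hr1
      · exact meas_le hv0 hvolV (by positivity) (cusp_le hε hbr hV hr hr1) (F1 r hr hr1)
      · refine prob_le_one.trans ?_
        rw [ENNReal.one_le_ofReal]
        have h1 : 1 ≤ latticeDisc m ^ e := Real.one_le_rpow hD1 he.le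
        have h2 : 1 ≤ r ^ (d + 1) := one_le_pow₀ hr1.le
        nlinarith

end

end Crest.Agent.R014.N2_675
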