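import Crest.Agent.R014.Nd1_837
import Crest.Agent.R014.Ne1_567
import Crest.Agent.R014.Ne3_567
import Crest.Agent.R014.Nd2_837

-- ▼ part R014/NScB_395
section

/-!
# Row 14, block D, noise formalism, section 3 of post 3844 (helper395), part B (abstract)

* total variation bounds and integrals, `L¹` comparison of posterior laws;
* the abstract form of (3.1) and (3.2): the digit spread `Ψ` is nearly invariant under the
  kernel of the root.
-/

set_option autoImplicit false

open MeasureTheory Finset Crest.NumberTheoryR.Packets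
open Crest.Agent.R014.Nd_837

noncomputable section

namespace Crest.Agent.R014.NScB_395

/-! ### total variation -/

section TV
variable {Y : Type*} [MeasurableSpace Y]

/-- integrals of functions with values in `[0,1]` -/
theorem integral01 {μ ν : Measure Y} [IsFiniteMeasure μ] [IsFiniteMeasure ν] {e : ℝ}
    (h : TVle μ ν e) {f : Y → ℝ} (hf : Measurable f) (h0 : ∀ y, 0 ≤ f y) (h1 : ∀ y, f y ≤ 1) :
    |∫ y, f y ∂μ - ∫ y, f y ∂ν| ≤ e := by
  have hint : ∀ ρ : Measure Y, IsFiniteMeasure ρ → Integrable f ρ := fun ρ _ =>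
    Integrable.of_bound hf.aestronglyMeasurable 1
      (Filter.Eventually.of_forall fun y => by rw [Real.norm_eq_abs, abs_of_nonneg (h0 y)]; exact h1 y)
  have key : ∀ ρ : Measure Y, IsFiniteMeasure ρ →
      ∫ y, f y ∂ρ = ∫ t in Set.Ioc (0:ℝ) 1, ρ.real {a | t ≤ f a} := fun ρ hρ =>
    (hint ρ hρ).integral_eq_integral_Ioc_meas_le (Filter.Eventually.of_forall h0)
      (Filter.Eventually.of_forall h1)
  have hmeas : ∀ ρ : Measure Y, IsFiniteMeasure ρ →
      IntegrableOn (fun t : ℝ => ρ.real {a | t ≤ f a}) (Set.Ioc (0:ℝ) 1) := by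
    intro ρ hρ
    refine Integrable.of_bound (C := ρ.real Set.univ) ?_ ?_
    · refine (Antitone.measurable ?_).aestronglyMeasurable
      intro s t hst
      exact measureReal_mono (fun a (ha : t ≤ f a) => le_trans hst ha)
    · refine Filter.Eventually.of_forall fun t => ?_
      rw [Real.norm_eq_abs, abs_of_nonneg measureReal_nonneg]
      exact measureReal_mono (Set.subset_univ _)
  rw [key μ inferInstance, key ν inferInstance,
    ← integral_sub (hmeas μ inferInstance) (hmeas ν inferInstance)]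
  have hb : ‖∫ t in Set.Ioc (0:ℝ) 1, (μ.real {a | t ≤ f a} - ν.real {a | t ≤ f a})‖ ≤
      e * volume.real (Set.Ioc (0:ℝ) 1) := by
    refine norm_setIntegral_le_of_norm_le_const (by simp) fun t _ => ?_
    rw [Real.norm_eq_abs]
    exact h _ (measurableSet_le measurable_const hf)
  rw [Real.norm_eq_abs] at hb
  simpa using hb

theorem integral_le {μ ν : Measure Y} [IsProbabilityMeasure μ] [IsProbabilityMeasure ν] {e : ℝ}
    (h : TVle μ ν e) {f : Y → ℝ} (hf : Measurable f) {M : ℝ} (hM : ∀ y, |f y| ≤ M) :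
    |∫ y, f y ∂μ - ∫ y, f y ∂ν| ≤ 2 * M * e := by
  have hM0 : 0 ≤ M := by
    obtain ⟨y⟩ : Nonempty Y := by
      by_contra hne
      rw [not_nonempty_iff] at hne
      have := measure_univ (μ := μ)
      rw [Set.eq_empty_of_isEmpty (Set.univ : Set Y), measure_empty] at this
      exact zero_ne_one this
    exact le_trans (abs_nonneg _) (hM y)
  rcases hM0.eq_or_lt with hM00 | hMpos
  · have : f = fun _ => 0 := by
      funext y
      have := hM y
      rw [← hM00] at this
      exact abs_eq_zero.1 (le_antisymm this (abs_nonneg _))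
    subst this
    simp [← hM00]
  · have hg := integral01 h (f := fun y => (f y + M) / (2 * M)) ((hf.add_const M).div_const _)
      (fun y => div_nonneg (by linarith [neg_abs_le (f y), hM y]) (by linarith))
      (fun y => by rw [div_le_one (by linarith)]; linarith [le_abs_self (f y), hM y])
    have hint : ∀ ρ : Measure Y, IsProbabilityMeasure ρ → Integrable f ρ := fun ρ _ =>
      Integrable.of_bound hf.aestronglyMeasurable M (Filter.Eventually.of_forall hM)
    have hcalc : ∀ ρ : Measure Y, IsProbabilityMeasure ρ →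
        ∫ y, (f y + M) / (2 * M) ∂ρ = (∫ y, f y ∂ρ + M) / (2 * M) := by
      intro ρ hρ
      rw [integral_div, integral_add (hint ρ hρ) (integrable_const M)]
      simp
    rw [hcalc μ inferInstance, hcalc ν inferInstance] at hg
    have hrw : (∫ y, f y ∂μ + M) / (2 * M) - (∫ y, f y ∂ν + M) / (2 * M) =
        (∫ y, f y ∂μ - ∫ y, f y ∂ν) / (2 * M) := by ring
    rw [hrw, abs_div, abs_of_pos (by linarith : (0:ℝ) < 2 * M), div_le_iff₀ (by linarith)] at hg
    linarith

/-- `L¹` bound from set bounds -/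
theorem integral_abs_le_of_sets {ν : Measure Y} {g : Y → ℝ} (hg : Measurable g)
    (hgi : Integrable g ν) {e : ℝ} (h : ∀ A, MeasurableSet A → |∫ y in A, g y ∂ν| ≤ e) :
    ∫ y, |g y| ∂ν ≤ 2 * e := by
  have hA : MeasurableSet {y | 0 ≤ g y} := measurableSet_le measurable_const hg
  rw [← integral_add_compl hA hgi.abs]
  have h1 : ∫ y in {y | 0 ≤ g y}, |g y| ∂ν = ∫ y in {y | 0 ≤ g y}, g y ∂ν :=
    setIntegral_congr_fun hA fun y hy => abs_of_nonneg hy
  have h2 : ∫ y in {y | 0 ≤ g y}ᶜ, |g y| ∂ν = ∫ y in {y | 0 ≤ g y}ᶜ, - g y ∂ν :=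
    setIntegral_congr_fun hA.compl fun y hy => by
      simp only [Set.mem_compl_iff, Set.mem_ofPred_eq, not_le] at hy
      exact abs_of_neg hy
  rw [h1, h2, integral_neg]
  have := h _ hA
  have := h _ hA.compl
  linarith [le_abs_self (∫ y in {y | 0 ≤ g y}, g y ∂ν), neg_abs_le (∫ y in {y | 0 ≤ g y}ᶜ, g y ∂ν)]

/-- comparison of two densities: `p` is a density of `ρ` w.r.t. `τ`, `p'` of `ρ'` w.r.t. `τ'`,
`0 ≤ p ≤ 1` everywhere, `ρ ≈ ρ'`, `τ ≈ τ'` in total variation. -/
theorem density_compare {ρ ρ' τ τ' : Measure Y} [IsFiniteMeasure ρ] [IsFiniteMeasure ρ']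
    [IsFiniteMeasure τ] [IsFiniteMeasure τ'] {e e' : ℝ} (h : TVle ρ ρ' e) (ht : TVle τ τ' e')
    {p p' : Y → ℝ} (hp : Measurable p) (hp' : Measurable p') (hp0 : ∀ y, 0 ≤ p y)
    (hp1 : ∀ y, p y ≤ 1) (hpi' : Integrable p' τ')
    (hd : ∀ A, MeasurableSet A → ∫ y in A, p y ∂τ = ρ.real A)
    (hd' : ∀ A, MeasurableSet A → ∫ y in A, p' y ∂τ' = ρ'.real A) :
    ∫ y, |p' y - p y| ∂τ' ≤ 2 * (e + e') := by
  have hpi : Integrable p τ' :=
    Integrable.of_bound hp.aestronglyMeasurable 1 (Filter.Eventually.of_forall fun y => by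
      rw [Real.norm_eq_abs, abs_of_nonneg (hp0 y)]; exact hp1 y)
  refine integral_abs_le_of_sets (hp'.sub hp) (hpi'.sub hpi) fun A hA => ?_
  have h1 : ∫ y in A, (p' y - p y) ∂τ' = ρ'.real A - ∫ y in A, p y ∂τ' := by
    rw [integral_sub hpi'.integrableOn hpi.integrableOn, hd' A hA]
  have h2 : |∫ y in A, p y ∂τ - ∫ y in A, p y ∂τ'| ≤ e' := by
    have := integral01 ht (f := A.indicator p) (hp.indicator hA)
      (fun y => Set.indicator_nonneg (fun y _ => hp0 y) y)
      (fun y => (Set.indicator_le_self' (fun _ _ => hp0 _) y).trans (hp1 y))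
    rwa [integral_indicator hA, integral_indicator hA] at this
  rw [hd A hA] at h2
  show |∫ y in A, (p' y - p y) ∂τ'| ≤ e + e'
  rw [h1]
  have h3 := h A hA
  have : ρ'.real A - ∫ y in A, p y ∂τ' = -(ρ.real A - ρ'.real A) + (ρ.real A - ∫ y in A, p y ∂τ') := by
    ring
  rw [this]
  refine (abs_add_le _ _).trans ?_
  rw [abs_neg]
  linarith

end TV

end Crest.Agent.R014.NScB_395
end
end

-- ▼ part R014/NScC_395

/-!
# Row 14, block D, noise formalism, section 3 of post 3844 (helper395), part C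

Posterior laws as probability vectors everywhere, the spread of a digit law, the function `Psi`,
and its near invariance under the kernel of the root: (3.1), (3.2).
-/

set_option autoImplicit false

open MeasureTheory Finset Crest.NumberTheoryR.Packets
open Crest.Agent.R014.Nd_837 Crest.Agent.R014.Ne1_567 Crest.Agent.R014.NScB_395
open Crest.Agent.R014.Ne3_567 (pv measurable_pv pv_nonneg sum_pv pv_le_one pv_eq)
open scoped ENNReal

noncomputable section

namespace Crest.Agent.R014.NScC_395

/-! ### posterior as a probability vector everywhere -/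

section Post
variable {ι Y : Type*} [Fintype ι] [MeasurableSpace Y]

variable (ρ : ι → Measure Y) [∀ c, IsFiniteMeasure (ρ c)]

theorem pv_ae : ∀ᵐ y ∂(tot ρ), ∀ c, pv ρ c y = pr ρ c y := pv_eq ρ

theorem setIntegral_pv (c : ι) (A : Set Y) (hA : MeasurableSet A) :
    ∫ y in A, pv ρ c y ∂(tot ρ) = (ρ c).real A := by
  have h1 : ∫ y in A, pv ρ c y ∂(tot ρ) = ∫ y, pr ρ c y * A.indicator 1 y ∂(tot ρ) := by
    rw [← integral_indicator hA]
    refine integral_congr_ae ?_
    filter_upwards [pv_ae ρ] with y hy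
    by_cases h : y ∈ A
    · simp [h, hy c]
    · simp [h]
  rw [h1, integral_pr_mul, integral_indicator_one hA]

theorem setIntegral_pr (c : ι) (A : Set Y) (hA : MeasurableSet A) :
    ∫ y in A, pr ρ c y ∂(tot ρ) = (ρ c).real A := by
  have h1 : ∫ y in A, pr ρ c y ∂(tot ρ) = ∫ y, pr ρ c y * A.indicator 1 y ∂(tot ρ) := by
    rw [← integral_indicator hA]
    refine integral_congr_ae (Filter.Eventually.of_forall fun y => ?_)
    by_cases h : y ∈ A
    · simp [h]
    · simp [h]
  rw [h1, integral_pr_mul, integral_indicator_one hA]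

theorem integrable_pr (c : ι) : Integrable (pr ρ c) (tot ρ) := by
  refine Integrable.of_bound (measurable_pr ρ c).aestronglyMeasurable 1 ?_
  filter_upwards [pr_le_one ρ c] with y hy
  rw [Real.norm_eq_abs, abs_of_nonneg (pr_nonneg ρ c y)]
  exact hy

/-- comparison of posteriors of two joint laws that are close in total variation -/
theorem post_compare [Nonempty ι] (ρ' : ι → Measure Y) [∀ c, IsFiniteMeasure (ρ' c)] {e : ℝ}
    (h : ∀ c, TVle (ρ c) (ρ' c) e) :
    ∫ y, ∑ c, |pr ρ' c y - pv ρ c y| ∂(tot ρ') ≤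
      2 * Fintype.card ι * (1 + Fintype.card ι) * e := by
  have htot : TVle (tot ρ) (tot ρ') (Fintype.card ι * e) := by
    intro A hA
    have h1 : ∀ σ : ι → Measure Y, (∀ c, IsFiniteMeasure (σ c)) →
        (tot σ).real A = ∑ c, (σ c).real A := by
      intro σ hσ
      rw [measureReal_def, tot_apply, ENNReal.toReal_sum (fun c _ => measure_ne_top _ _)]
      rfl
    rw [h1 ρ inferInstance, h1 ρ' inferInstance, ← sum_sub_distrib]
    refine (abs_sum_le_sum_abs _ _).trans ?_
    refine (sum_le_sum fun c _ => h c A hA).trans ?_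
    rw [sum_const, card_univ, nsmul_eq_mul]
  have hI : ∀ c, Integrable (fun y => |pr ρ' c y - pv ρ c y|) (tot ρ') := by
    intro c
    refine (Integrable.sub (integrable_pr ρ' c) ?_).abs
    exact Integrable.of_bound (measurable_pv ρ c).aestronglyMeasurable 1
      (Filter.Eventually.of_forall fun y => by
        rw [Real.norm_eq_abs, abs_of_nonneg (pv_nonneg ρ c y)]; exact pv_le_one ρ c y)
  rw [integral_finsetSum _ fun c _ => hI c]
  have hc : ∀ c ∈ (univ : Finset ι), ∫ y, |pr ρ' c y - pv ρ c y| ∂(tot ρ') ≤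
      2 * (e + Fintype.card ι * e) := fun c _ =>
    density_compare (h c) htot (measurable_pv ρ c) (measurable_pr ρ' c) (pv_nonneg ρ c)
      (pv_le_one ρ c) (integrable_pr ρ' c) (setIntegral_pv ρ c) (setIntegral_pr ρ' c)
  refine (sum_le_sum hc).trans ?_
  rw [sum_const, card_univ, nsmul_eq_mul]
  exact le_of_eq (by ring)

end Post

/-! ### the spread -/

section Spread
variable {ι : Type*} [Fintype ι]

/-- mean distance of two independent samples of the law `p` on the points `x c` -/
def spr (x : ι → ℝ) (p : ι → ℝ) : ℝ := ∑ c, ∑ c', p c * p c' * |x c - x c'|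

theorem spr_nonneg {x p : ι → ℝ} (h0 : ∀ c, 0 ≤ p c) : 0 ≤ spr x p :=
  sum_nonneg fun c _ => sum_nonneg fun c' _ =>
    mul_nonneg (mul_nonneg (h0 c) (h0 c')) (abs_nonneg _)

theorem spr_le {x p : ι → ℝ} {D : ℝ} (hx : ∀ c c', |x c - x c'| ≤ D) (h0 : ∀ c, 0 ≤ p c)
    (h1 : ∑ c, p c = 1) : spr x p ≤ D := by
  have : spr x p ≤ ∑ c, ∑ c', p c * p c' * D :=
    sum_le_sum fun c _ => sum_le_sum fun c' _ =>
      mul_le_mul_of_nonneg_left (hx c c') (mul_nonneg (h0 c) (h0 c'))
  refine this.trans (le_of_eq ?_)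
  simp_rw [← sum_mul, ← mul_sum, h1]
  simp [h1]

theorem spr_lip {x p q : ι → ℝ} {D : ℝ} (hx : ∀ c c', |x c - x c'| ≤ D) (hp0 : ∀ c, 0 ≤ p c)
    (hp1 : ∑ c, p c = 1) (hq0 : ∀ c, 0 ≤ q c) (hq1 : ∑ c, q c = 1) :
    |spr x p - spr x q| ≤ 2 * D * ∑ c, |p c - q c| := by
  unfold spr
  simp_rw [← sum_sub_distrib]
  have key : ∀ c c', abs (p c * p c' * abs (x c - x c') - q c * q c' * abs (x c - x c')) ≤
      D * (abs (p c - q c) * p c' + q c * abs (p c' - q c')) := by
    intro c c'
    have h1 : p c * p c' * |x c - x c'| - q c * q c' * |x c - x c'| =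
        ((p c - q c) * p c' + q c * (p c' - q c')) * |x c - x c'| := by ring
    rw [h1, abs_mul, abs_abs]
    have h2 : |(p c - q c) * p c' + q c * (p c' - q c')| ≤
        |p c - q c| * p c' + q c * |p c' - q c'| := by
      refine (abs_add_le _ _).trans ?_
      rw [abs_mul, abs_mul, abs_of_nonneg (hp0 c'), abs_of_nonneg (hq0 c)]
    have h3 : 0 ≤ |p c - q c| * p c' + q c * |p c' - q c'| :=
      add_nonneg (mul_nonneg (abs_nonneg _) (hp0 c')) (mul_nonneg (hq0 c) (abs_nonneg _))
    calc _ ≤ (|p c - q c| * p c' + q c * |p c' - q c'|) * D :=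
          mul_le_mul h2 (hx c c') (abs_nonneg _) h3
      _ = _ := by ring
  refine (abs_sum_le_sum_abs _ _).trans ?_
  refine (sum_le_sum fun c _ => (abs_sum_le_sum_abs _ _).trans
    (sum_le_sum fun c' _ => key c c')).trans (le_of_eq ?_)
  simp_rw [← mul_sum, sum_add_distrib, ← mul_sum, ← sum_mul, hp1, hq1]
  ring

end Spread

end Crest.Agent.R014.NScC_395
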