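import Crest.Agent.R014.Ne2_567
import Crest.Agent.R014.Nd2_837
import Crest.Agent.R014.NS0_373
import Crest.Agent.R014.NScD_395

-- ▼ part R014/NSlab1_373
section

/-!
Row 14, block D, noise formalism (#3844), section SLAB (helper373, task 1063), part 1 (abstract).

`W = Fin T → D` = words; `p : W → ℝ` a probability vector.
* `tree_bound`: if `p w ≤ τ` on `E` and `∑_i Φ (conditional law of the letter i given the letters < i) ≤ κ`
  on `E` then `p(E) ≤ √τ · exp (K √(T κ))`, for every functional `Φ ≥ 0` of probability vectors with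
  `∑_j √(c_j) ≤ exp (K √(Φ c))`;
* `coll`: `ρ w ≤ M • λ` for all words ⇒ `∑_w ρ_w {P(w | y) ≥ τ} ≤ τ⁻¹ M λ(univ)`;
* `joint`: the two together for a family `ρ : W → Measure Y`.
-/

set_option autoImplicit false

open MeasureTheory Finset
open scoped ENNReal

noncomputable section

namespace Crest.Agent.R014.NSlab_373

open Ne1_567

section Tree

variable {D : Type*} [Fintype D] {T : ℕ}

open Classical in
/-- the words with the same letters as `w` at the levels `< m`. -/
def cl (m : ℕ) (w : Fin T → D) : Finset (Fin T → D) :=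
  univ.filter fun w' => ∀ i : Fin T, (i : ℕ) < m → w' i = w i

lemma mem_cl {m : ℕ} {w w' : Fin T → D} :
    w' ∈ cl m w ↔ ∀ i : Fin T, (i : ℕ) < m → w' i = w i := by
  simp [cl]

lemma self_mem_cl (m : ℕ) (w : Fin T → D) : w ∈ cl m w := mem_cl.2 fun _ _ => rfl

lemma cl_eq {m : ℕ} {w w' : Fin T → D} (h : w' ∈ cl m w) : cl m w' = cl m w := by
  ext v
  rw [mem_cl] at h
  rw [mem_cl, mem_cl]
  exact ⟨fun H i hi => (H i hi).trans (h i hi), fun H i hi => (H i hi).trans (h i hi).symm⟩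

lemma cl_zero (w : Fin T → D) : cl 0 w = univ := by
  ext; simp [mem_cl]

lemma cl_top (w : Fin T → D) : cl T w = {w} := by
  ext v
  rw [mem_cl, mem_singleton]
  exact ⟨fun h => funext fun i => h i i.2, fun h i _ => by rw [h]⟩

lemma cl_subset {m m' : ℕ} (h : m ≤ m') (w : Fin T → D) : cl m' w ⊆ cl m w := fun _ hv =>
  mem_cl.2 fun i hi => mem_cl.1 hv i (hi.trans_le h)

lemma mem_cl_update {i : Fin T} {w w' : Fin T → D} {j : D} :
    w' ∈ cl ((i : ℕ) + 1) (Function.update w i j) ↔ w' ∈ cl (i : ℕ) w ∧ w' i = j := by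
  rw [mem_cl, mem_cl]
  constructor
  · intro h
    refine ⟨fun k hk => ?_, ?_⟩
    · have := h k (by omega)
      rwa [Function.update_of_ne (by rintro rfl; exact lt_irrefl _ hk)] at this
    · have := h i (by omega)
      rwa [Function.update_self] at this
  · rintro ⟨h, h'⟩ k hk
    by_cases hki : k = i
    · subst hki; rw [Function.update_self, h']
    · rw [Function.update_of_ne hki]
      refine h k ?_
      have : (k : ℕ) ≠ i := fun h => hki (Fin.ext h)
      omega

/-- split a class according to the next letter. -/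
lemma sum_cl_split {M : Type*} [AddCommMonoid M] (i : Fin T) (w : Fin T → D) (f : (Fin T → D) → M) :
    ∑ w' ∈ cl (i : ℕ) w, f w' = ∑ j, ∑ w' ∈ cl ((i : ℕ) + 1) (Function.update w i j), f w' := by
  classical
  rw [← Finset.sum_fiberwise (cl (i : ℕ) w) (fun w' => w' i) f]
  refine Finset.sum_congr rfl fun j _ => Finset.sum_congr ?_ fun _ _ => rfl
  ext v
  rw [mem_filter, mem_cl_update]

/-- comparison of sums class by class. -/
lemma sum_le_of_cl {f g : (Fin T → D) → ℝ} (m : ℕ)
    (h : ∀ w, ∑ w' ∈ cl m w, f w' ≤ ∑ w' ∈ cl m w, g w') : ∑ w, f w ≤ ∑ w, g w := by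
  classical
  let pf : (Fin T → D) → (Fin T → Option D) := fun w i => if (i : ℕ) < m then some (w i) else none
  have hpf : ∀ w w', pf w' = pf w ↔ w' ∈ cl m w := by
    intro w w'
    rw [mem_cl]
    constructor
    · intro hh i hi
      have := congrFun hh i
      simp only [pf, if_pos hi, Option.some.injEq] at this
      exact this
    · intro hh
      funext i
      by_cases hi : (i : ℕ) < m
      · simp only [pf, if_pos hi, hh i hi]
      · simp only [pf, if_neg hi]
  rw [← Finset.sum_fiberwise_of_maps_to (s := univ) (t := univ.image pf) (g := pf)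
      (fun w _ => mem_image_of_mem _ (mem_univ w)) f,
    ← Finset.sum_fiberwise_of_maps_to (s := univ) (t := univ.image pf) (g := pf)
      (fun w _ => mem_image_of_mem _ (mem_univ w)) g]
  refine Finset.sum_le_sum fun v hv => ?_
  obtain ⟨w, _, rfl⟩ := mem_image.1 hv
  have : (univ.filter fun w' => pf w' = pf w) = cl m w := by
    ext w'
    rw [mem_filter, hpf]
    simp
  rw [this]
  exact h w

/-- mass of the words which agree with `w` at the levels `< m`. -/
def P (p : (Fin T → D) → ℝ) (m : ℕ) (w : Fin T → D) : ℝ := ∑ w' ∈ cl m w, p w'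

/-- mass of the words which agree with `w` before `i` and have the letter `j` at `i`. -/
def mj (p : (Fin T → D) → ℝ) (i : Fin T) (w : Fin T → D) (j : D) : ℝ :=
  P p ((i : ℕ) + 1) (Function.update w i j)

/-- conditional law of the letter `i` given the letters `< i` of `w`. -/
def post (p : (Fin T → D) → ℝ) (i : Fin T) (w : Fin T → D) (j : D) : ℝ := mj p i w j / P p i w

variable {p : (Fin T → D) → ℝ}

lemma P_eq_of_mem {m : ℕ} {w w' : Fin T → D} (h : w' ∈ cl m w) : P p m w' = P p m w := by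
  rw [P, cl_eq h]; rfl

lemma P_top (w : Fin T → D) : P p T w = p w := by rw [P, cl_top, sum_singleton]

lemma P_zero (w : Fin T → D) : P p 0 w = ∑ w, p w := by rw [P, cl_zero]

lemma sum_mj (i : Fin T) (w : Fin T → D) : ∑ j, mj p i w j = P p i w := by
  rw [P, sum_cl_split]; rfl

lemma mj_eq_of_mem {i : Fin T} {w w' : Fin T → D} (h : w' ∈ cl (i : ℕ) w) (j : D) :
    mj p i w' j = mj p i w j := by
  unfold mj
  refine (P_eq_of_mem ?_)
  rw [mem_cl_update]
  refine ⟨?_, Function.update_self _ _ _⟩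
  rw [mem_cl] at h ⊢
  intro k hk
  rw [Function.update_of_ne (by rintro rfl; exact lt_irrefl _ hk)]
  exact h k hk

lemma mj_self (i : Fin T) (w : Fin T → D) : mj p i w (w i) = P p ((i : ℕ) + 1) w := by
  rw [mj, Function.update_eq_self]

lemma post_eq_of_mem {i : Fin T} {w w' : Fin T → D} (h : w' ∈ cl (i : ℕ) w) :
    post p i w' = post p i w := by
  funext j
  rw [post, post, mj_eq_of_mem h, P_eq_of_mem h]

lemma P_nonneg (hp : ∀ w, 0 ≤ p w) (m : ℕ) (w : Fin T → D) : 0 ≤ P p m w :=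
  Finset.sum_nonneg fun _ _ => hp _

lemma mj_nonneg (hp : ∀ w, 0 ≤ p w) (i : Fin T) (w : Fin T → D) (j : D) : 0 ≤ mj p i w j :=
  P_nonneg hp _ _

lemma post_nonneg (hp : ∀ w, 0 ≤ p w) (i : Fin T) (w : Fin T → D) (j : D) : 0 ≤ post p i w j :=
  div_nonneg (mj_nonneg hp _ _ _) (P_nonneg hp _ _)

lemma le_P (hp : ∀ w, 0 ≤ p w) (m : ℕ) (w : Fin T → D) : p w ≤ P p m w :=
  Finset.single_le_sum (f := p) (fun _ _ => hp _) (self_mem_cl m w)

lemma sum_post {i : Fin T} {w : Fin T → D} (h : P p i w ≠ 0) : ∑ j, post p i w j = 1 := by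
  unfold post
  rw [← Finset.sum_div, sum_mj, div_self h]

/-- the normalising factor of the tree martingale. -/
def Z (p : (Fin T → D) → ℝ) (i : Fin T) (w : Fin T → D) : ℝ := (∑ j, √(mj p i w j)) / √(P p i w)

lemma Z_nonneg (i : Fin T) (w : Fin T → D) : 0 ≤ Z p i w :=
  div_nonneg (Finset.sum_nonneg fun _ _ => Real.sqrt_nonneg _) (Real.sqrt_nonneg _)

lemma Z_eq_of_mem {i : Fin T} {w w' : Fin T → D} (h : w' ∈ cl (i : ℕ) w) : Z p i w' = Z p i w := by
  unfold Z
  rw [P_eq_of_mem h]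
  simp_rw [mj_eq_of_mem h]

lemma Z_eq (hp : ∀ w, 0 ≤ p w) (i : Fin T) (w : Fin T → D) : Z p i w = ∑ j, √(post p i w j) := by
  unfold Z post
  rw [Finset.sum_div]
  exact Finset.sum_congr rfl fun j _ => (Real.sqrt_div (mj_nonneg hp _ _ _) _).symm

/-- product of the factors of the levels `< m`. -/
def ZZ (p : (Fin T → D) → ℝ) (m : ℕ) (w : Fin T → D) : ℝ :=
  ∏ i ∈ univ.filter (fun i : Fin T => (i : ℕ) < m), Z p i w

lemma ZZ_nonneg (m : ℕ) (w : Fin T → D) : 0 ≤ ZZ p m w := Finset.prod_nonneg fun _ _ => Z_nonneg _ _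

lemma ZZ_eq_of_mem {m : ℕ} {w w' : Fin T → D} (h : w' ∈ cl m w) : ZZ p m w' = ZZ p m w := by
  unfold ZZ
  refine Finset.prod_congr rfl fun i hi => ?_
  rw [mem_filter] at hi
  exact Z_eq_of_mem (cl_subset hi.2.le w h)

lemma ZZ_succ (i : Fin T) (w : Fin T → D) : ZZ p ((i : ℕ) + 1) w = Z p i w * ZZ p i w := by
  unfold ZZ
  have : (univ.filter fun k : Fin T => (k : ℕ) < (i : ℕ) + 1)
      = insert i (univ.filter fun k : Fin T => (k : ℕ) < (i : ℕ)) := by
    ext k
    simp only [mem_filter, mem_univ, true_and, mem_insert, Fin.ext_iff]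
    omega
  rw [this, Finset.prod_insert (by simp)]

lemma tree_aux (h1 : ∑ w, p w = 1) (m : ℕ) (hm : m ≤ T) :
    ∑ w, p w / √(P p m w) * (ZZ p m w)⁻¹ ≤ 1 := by
  induction m with
  | zero =>
    have : ∀ w : Fin T → D, p w / √(P p 0 w) * (ZZ p 0 w)⁻¹ = p w := by
      intro w
      rw [P_zero, h1]
      simp [ZZ]
    simp_rw [this]
    exact h1.le
  | succ m ih =>
    refine le_trans (sum_le_of_cl m fun w => ?_) (ih (by omega))
    set i : Fin T := ⟨m, by omega⟩ with hi
    have him : (i : ℕ) = m := rfl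
    have hR : ∑ w' ∈ cl m w, p w' / √(P p m w') * (ZZ p m w')⁻¹
        = √(P p m w) * (ZZ p m w)⁻¹ := by
      have : ∀ w' ∈ cl m w, p w' / √(P p m w') * (ZZ p m w')⁻¹
          = p w' * ((√(P p m w))⁻¹ * (ZZ p m w)⁻¹) := by
        intro w' hw'
        rw [P_eq_of_mem hw', ZZ_eq_of_mem hw']; ring
      rw [Finset.sum_congr rfl this, ← Finset.sum_mul]
      change P p m w * _ = _
      rw [← mul_assoc, ← div_eq_mul_inv (P p m w), Real.div_sqrt]
    have hL : ∑ w' ∈ cl m w, p w' / √(P p (m + 1) w') * (ZZ p (m + 1) w')⁻¹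
        = (∑ j, √(mj p i w j)) * ((Z p i w)⁻¹ * (ZZ p m w)⁻¹) := by
      have : ∀ w' ∈ cl m w, p w' / √(P p (m + 1) w') * (ZZ p (m + 1) w')⁻¹
          = p w' / √(P p (m + 1) w') * ((Z p i w)⁻¹ * (ZZ p m w)⁻¹) := by
        intro w' hw'
        have h2 : ZZ p (m + 1) w' = Z p i w' * ZZ p m w' := ZZ_succ i w'
        rw [h2, Z_eq_of_mem (i := i) hw', ZZ_eq_of_mem hw', mul_inv]
      rw [Finset.sum_congr rfl this, ← Finset.sum_mul]
      congr 1
      have h3 := sum_cl_split i w (fun w' => p w' / √(P p (m + 1) w'))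
      rw [him] at h3
      rw [h3]
      refine Finset.sum_congr rfl fun j _ => ?_
      have : ∀ w' ∈ cl (m + 1) (Function.update w i j), p w' / √(P p (m + 1) w')
          = p w' / √(mj p i w j) := by
        intro w' hw'
        rw [P_eq_of_mem hw']
        rfl
      rw [Finset.sum_congr rfl this, ← Finset.sum_div]
      change mj p i w j / _ = _
      exact Real.div_sqrt
    rw [hR, hL, ← mul_assoc]
    refine mul_le_mul_of_nonneg_right ?_ (inv_nonneg.2 (ZZ_nonneg _ _))
    unfold Z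
    rw [inv_div, ← mul_div_assoc, mul_comm, mul_div_assoc]
    refine mul_le_of_le_one_right (Real.sqrt_nonneg _) (div_self_le_one _)

/-- **Tree inequality.** -/
theorem tree (h1 : ∑ w, p w = 1) :
    ∑ w, √(p w) * (∏ i, Z p i w)⁻¹ ≤ 1 := by
  have h := tree_aux h1 T le_rfl
  refine le_trans (le_of_eq ?_) h
  refine Finset.sum_congr rfl fun w _ => ?_
  rw [P_top, Real.div_sqrt]
  congr 2
  unfold ZZ
  rw [Finset.filter_true_of_mem (fun i _ => i.2)]

lemma Z_pos (hp : ∀ w, 0 ≤ p w) {w : Fin T → D} (hw : 0 < p w) (i : Fin T) : 0 < Z p i w := by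
  refine div_pos ?_ (Real.sqrt_pos.2 (hw.trans_le (le_P hp _ _)))
  refine lt_of_lt_of_le ?_ (Finset.single_le_sum (f := fun j => √(mj p i w j))
    (fun _ _ => Real.sqrt_nonneg _) (mem_univ (w i)))
  rw [mj_self]
  exact Real.sqrt_pos.2 (hw.trans_le (le_P hp _ _))

/-- the mass of a set of words on which `p` and the product of the factors are bounded. -/
theorem tree_mass (hp : ∀ w, 0 ≤ p w) (h1 : ∑ w, p w = 1) (E : Finset (Fin T → D)) {τ Λ : ℝ}
    (hΛ0 : 0 ≤ Λ) (hτ : ∀ w ∈ E, p w ≤ τ) (hΛ : ∀ w ∈ E, 0 < p w → ∏ i, Z p i w ≤ Λ) :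
    ∑ w ∈ E, p w ≤ √τ * Λ := by
  have key : ∀ w ∈ E, p w ≤ √τ * Λ * (√(p w) * (∏ i, Z p i w)⁻¹) := by
    intro w hw
    rcases (hp w).eq_or_lt with h0 | h0
    · rw [← h0]; simp
    · have hZ : 0 < ∏ i, Z p i w := Finset.prod_pos fun i _ => Z_pos hp h0 i
      have h2 : 1 ≤ Λ * (∏ i, Z p i w)⁻¹ := by
        rw [← div_eq_mul_inv, one_le_div hZ]; exact hΛ w hw h0
      have h3 : √(p w) ≤ √τ := Real.sqrt_le_sqrt (hτ w hw)
      have h4 : p w = √(p w) * √(p w) := (Real.mul_self_sqrt (hp w)).symm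
      have h5 : 0 ≤ √(p w) := Real.sqrt_nonneg _
      calc p w = √(p w) * √(p w) := h4
        _ ≤ √τ * √(p w) := mul_le_mul_of_nonneg_right h3 h5
        _ = √τ * √(p w) * 1 := (mul_one _).symm
        _ ≤ √τ * √(p w) * (Λ * (∏ i, Z p i w)⁻¹) := by
            refine mul_le_mul_of_nonneg_left h2 (by positivity)
        _ = _ := by ring
  calc ∑ w ∈ E, p w ≤ ∑ w ∈ E, √τ * Λ * (√(p w) * (∏ i, Z p i w)⁻¹) := Finset.sum_le_sum key
    _ = √τ * Λ * ∑ w ∈ E, √(p w) * (∏ i, Z p i w)⁻¹ := by rw [Finset.mul_sum]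
    _ ≤ √τ * Λ * ∑ w, √(p w) * (∏ i, Z p i w)⁻¹ := by
        refine mul_le_mul_of_nonneg_left ?_ (by positivity)
        refine Finset.sum_le_sum_of_subset_of_nonneg (Finset.subset_univ _) fun w _ _ => ?_
        exact mul_nonneg (Real.sqrt_nonneg _) (inv_nonneg.2 (Finset.prod_nonneg fun _ _ => Z_nonneg _ _))
    _ ≤ √τ * Λ * 1 := mul_le_mul_of_nonneg_left (tree h1) (by positivity)
    _ = _ := mul_one _

/-- **Tree bound.** -/
theorem tree_bound (hp : ∀ w, 0 ≤ p w) (h1 : ∑ w, p w = 1) {Φ : (D → ℝ) → ℝ} {K κ τ : ℝ}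
    (hK : 0 ≤ K) (hΦ0 : ∀ c, 0 ≤ Φ c)
    (hΦ : ∀ c : D → ℝ, (∀ j, 0 ≤ c j) → ∑ j, c j = 1 → ∑ j, √(c j) ≤ Real.exp (K * √(Φ c)))
    (E : Finset (Fin T → D)) (hτ : ∀ w ∈ E, p w ≤ τ)
    (hκ : ∀ w ∈ E, ∑ i, Φ (post p i w) ≤ κ) :
    ∑ w ∈ E, p w ≤ √τ * Real.exp (K * √(T * κ)) := by
  refine tree_mass hp h1 E (Real.exp_pos _).le hτ fun w hw hw0 => ?_
  have h2 : ∀ i, Z p i w ≤ Real.exp (K * √(Φ (post p i w))) := by
    intro i
    rw [Z_eq hp]
    exact hΦ _ (fun j => post_nonneg hp i w j) (sum_post (hw0.trans_le (le_P hp _ _)).ne')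
  calc ∏ i, Z p i w ≤ ∏ i, Real.exp (K * √(Φ (post p i w))) :=
        Finset.prod_le_prod (fun i _ => Z_nonneg _ _) fun i _ => h2 i
    _ = Real.exp (K * ∑ i, √(Φ (post p i w))) := by rw [← Real.exp_sum, Finset.mul_sum]
    _ ≤ Real.exp (K * √(T * κ)) := by
        refine Real.exp_le_exp.2 (mul_le_mul_of_nonneg_left ?_ hK)
        refine Real.le_sqrt_of_sq_le ?_
        have h3 := sq_sum_le_card_mul_sum_sq (s := (univ : Finset (Fin T)))
          (f := fun i => √(Φ (post p i w)))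
        rw [Finset.card_univ, Fintype.card_fin] at h3
        refine h3.trans (mul_le_mul_of_nonneg_left ?_ (Nat.cast_nonneg _))
        refine le_trans (le_of_eq ?_) (hκ w hw)
        exact Finset.sum_congr rfl fun i _ => Real.sq_sqrt (hΦ0 _)

end Tree

section Coll

variable {D : Type*} [Fintype D] {T : ℕ} {Y : Type*} [MeasurableSpace Y]

/-- **Collision bound.** -/
theorem coll {W : Type*} [Fintype W] (ρ : W → Measure Y) [∀ w, IsFiniteMeasure (ρ w)]
    (lam : Measure Y) (M : ℝ≥0∞) (h : ∀ w, ρ w ≤ M • lam) {τ : ℝ} (hτ : 0 < τ) :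
    ∑ w, ρ w {y | τ ≤ pr ρ w y} ≤ ENNReal.ofReal τ⁻¹ * (M * lam Set.univ) := by
  classical
  set N : Set Y := {y | ∑ w, pr ρ w y = 1} with hN
  have hNm : MeasurableSet N :=
    measurableSet_eq_fun (Finset.measurable_sum _ fun w _ => measurable_pr ρ w) measurable_const
  have hEm : ∀ w, MeasurableSet {y | τ ≤ pr ρ w y} := fun w =>
    measurableSet_le measurable_const (measurable_pr ρ w)
  have hN0 : ∀ w, ρ w Nᶜ = 0 := by
    intro w
    have h0 : tot ρ Nᶜ = 0 := by
      have := sum_pr ρ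
      rw [ae_iff] at this
      exact this
    exact (ac ρ w) h0
  have h1 : ∀ w, ρ w {y | τ ≤ pr ρ w y} ≤ M * ∫⁻ y, ({y | τ ≤ pr ρ w y} ∩ N).indicator 1 y ∂lam := by
    intro w
    have h2 : ρ w {y | τ ≤ pr ρ w y} = ρ w ({y | τ ≤ pr ρ w y} ∩ N) := by
      refine le_antisymm ?_ (measure_mono Set.inter_subset_left)
      calc ρ w {y | τ ≤ pr ρ w y} ≤ ρ w (({y | τ ≤ pr ρ w y} ∩ N) ∪ Nᶜ) := by
            refine measure_mono fun y hy => ?_
            by_cases hyN : y ∈ N
            · exact Or.inl ⟨hy, hyN⟩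
            · exact Or.inr hyN
        _ ≤ _ := (measure_union_le _ _).trans (by rw [hN0, add_zero])
    rw [h2, lintegral_indicator_one ((hEm w).inter hNm)]
    exact h w _
  calc ∑ w, ρ w {y | τ ≤ pr ρ w y}
      ≤ ∑ w, M * ∫⁻ y, ({y | τ ≤ pr ρ w y} ∩ N).indicator 1 y ∂lam :=
        Finset.sum_le_sum fun w _ => h1 w
    _ = M * ∫⁻ y, ∑ w, ({y | τ ≤ pr ρ w y} ∩ N).indicator 1 y ∂lam := by
        rw [← Finset.mul_sum, lintegral_finsetSum _ fun w _ =>
          (measurable_one.indicator ((hEm w).inter hNm))]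
    _ ≤ M * ∫⁻ _, ENNReal.ofReal τ⁻¹ ∂lam := by
        gcongr with y
        by_cases hy : y ∈ N
        · have h3 : (∑ w, ({y | τ ≤ pr ρ w y} ∩ N).indicator (1 : Y → ℝ≥0∞) y)
              = ((univ.filter fun w => τ ≤ pr ρ w y).card : ℝ≥0∞) := by
            rw [Finset.card_filter, Nat.cast_sum]
            refine Finset.sum_congr rfl fun w _ => ?_
            by_cases hw : τ ≤ pr ρ w y
            · rw [Set.indicator_of_mem (show y ∈ {y | τ ≤ pr ρ w y} ∩ N from ⟨hw, hy⟩), if_pos hw]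
              simp
            · rw [Set.indicator_of_notMem (fun h => hw h.1), if_neg hw]
              simp
          rw [h3]
          have h4 : ((univ.filter fun w => τ ≤ pr ρ w y).card : ℝ) * τ ≤ 1 := by
            have h5 : ∑ w, pr ρ w y = 1 := hy
            rw [← h5]
            calc ((univ.filter fun w => τ ≤ pr ρ w y).card : ℝ) * τ
                = ∑ w ∈ univ.filter (fun w => τ ≤ pr ρ w y), τ := by
                  rw [Finset.sum_const, nsmul_eq_mul]
              _ ≤ ∑ w ∈ univ.filter (fun w => τ ≤ pr ρ w y), pr ρ w y :=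
                  Finset.sum_le_sum fun w hw => (mem_filter.1 hw).2
              _ ≤ ∑ w, pr ρ w y :=
                  Finset.sum_le_sum_of_subset_of_nonneg (Finset.filter_subset _ _)
                    fun w _ _ => pr_nonneg ρ w y
          have h6 : ((univ.filter fun w => τ ≤ pr ρ w y).card : ℝ) ≤ τ⁻¹ := by
            rw [← one_div, le_div_iff₀ hτ]; exact h4
          rw [← ENNReal.ofReal_natCast]
          exact ENNReal.ofReal_le_ofReal h6
        · have : (∑ w, ({y | τ ≤ pr ρ w y} ∩ N).indicator (1 : Y → ℝ≥0∞) y) = 0 := by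
            refine Finset.sum_eq_zero fun w _ => ?_
            exact Set.indicator_of_notMem (fun h => hy h.2) _
          rw [this]
          exact zero_le
    _ = _ := by
        rw [lintegral_const]
        ring

theorem ofReal_pr {W : Type*} [Fintype W] (ρ : W → Measure Y) [∀ w, IsFiniteMeasure (ρ w)] (w : W) :
    (fun y => ENNReal.ofReal (pr ρ w y)) =ᵐ[tot ρ] (ρ w).rnDeriv (tot ρ) := by
  filter_upwards [Measure.rnDeriv_ne_top (ρ w) (tot ρ)] with y hy
  exact ENNReal.ofReal_toReal hy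

theorem apply_eq {W : Type*} [Fintype W] (ρ : W → Measure Y) [∀ w, IsFiniteMeasure (ρ w)] (w : W)
    (A : Set Y) : ρ w A = ∫⁻ y in A, ENNReal.ofReal (pr ρ w y) ∂(tot ρ) := by
  rw [← Measure.setLIntegral_rnDeriv (ac ρ w) A]
  exact lintegral_congr_ae (ae_restrict_of_ae (ofReal_pr ρ w).symm)

theorem measurable_post (ρ : (Fin T → D) → Measure Y) (i : Fin T) (w : Fin T → D) :
    Measurable fun y => post (fun w => pr ρ w y) i w := by
  refine measurable_pi_lambda _ fun j => ?_
  unfold post mj P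
  exact (Finset.measurable_sum _ fun w _ => measurable_pr ρ w).div
    (Finset.measurable_sum _ fun w _ => measurable_pr ρ w)

/-- **Collision + tree.** -/
theorem joint (ρ : (Fin T → D) → Measure Y) [∀ w, IsFiniteMeasure (ρ w)]
    (lam : Measure Y) (M : ℝ≥0∞) (h : ∀ w, ρ w ≤ M • lam) {Φ : (D → ℝ) → ℝ} (hΦm : Measurable Φ)
    {K κ τ : ℝ} (hτ : 0 < τ) (hK : 0 ≤ K) (hΦ0 : ∀ c, 0 ≤ Φ c)
    (hΦ : ∀ c : D → ℝ, (∀ j, 0 ≤ c j) → ∑ j, c j = 1 → ∑ j, √(c j) ≤ Real.exp (K * √(Φ c))) :
    ∑ w, ρ w {y | ∑ i, Φ (post (fun w => pr ρ w y) i w) < κ} ≤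
      ENNReal.ofReal τ⁻¹ * (M * lam Set.univ) +
        ENNReal.ofReal (√τ * Real.exp (K * √(T * κ))) * tot ρ Set.univ := by
  classical
  set F : (Fin T → D) → Set Y := fun w =>
    {y | pr ρ w y ≤ τ ∧ ∑ i, Φ (post (fun w => pr ρ w y) i w) ≤ κ} with hF
  have hFm : ∀ w, MeasurableSet (F w) := fun w =>
    (measurableSet_le (measurable_pr ρ w) measurable_const).inter
      (measurableSet_le (Finset.measurable_sum _ fun i _ => hΦm.comp (measurable_post ρ i w))
        measurable_const)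
  have h1 : ∀ w, ρ w {y | ∑ i, Φ (post (fun w => pr ρ w y) i w) < κ} ≤
      ρ w {y | τ ≤ pr ρ w y} + ρ w (F w) := by
    intro w
    refine le_trans (measure_mono fun y hy => ?_) (measure_union_le _ _)
    rcases le_total τ (pr ρ w y) with h2 | h2
    · exact Or.inl h2
    · exact Or.inr ⟨h2, le_of_lt hy⟩
  have h3 : ∑ w, ρ w (F w) ≤ ENNReal.ofReal (√τ * Real.exp (K * √(T * κ))) * tot ρ Set.univ := by
    calc ∑ w, ρ w (F w) = ∑ w, ∫⁻ y, (F w).indicator (fun y => ENNReal.ofReal (pr ρ w y)) y ∂(tot ρ) := by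
          refine Finset.sum_congr rfl fun w _ => ?_
          rw [apply_eq ρ w (F w), lintegral_indicator (hFm w)]
      _ = ∫⁻ y, ∑ w, (F w).indicator (fun y => ENNReal.ofReal (pr ρ w y)) y ∂(tot ρ) := by
          rw [lintegral_finsetSum _ fun w _ => ((measurable_pr ρ w).ennreal_ofReal.indicator (hFm w))]
      _ ≤ ∫⁻ _, ENNReal.ofReal (√τ * Real.exp (K * √(T * κ))) ∂(tot ρ) := by
          refine lintegral_mono_ae ?_
          filter_upwards [sum_pr ρ] with y hy
          have h4 : ∑ w, (F w).indicator (fun y => ENNReal.ofReal (pr ρ w y)) y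
              = ENNReal.ofReal (∑ w ∈ univ.filter (fun w => y ∈ F w), pr ρ w y) := by
            rw [ENNReal.ofReal_sum_of_nonneg fun w _ => pr_nonneg ρ w y, Finset.sum_filter]
            refine Finset.sum_congr rfl fun w _ => ?_
            by_cases hw : y ∈ F w
            · rw [Set.indicator_of_mem hw, if_pos hw]
            · rw [Set.indicator_of_notMem hw, if_neg hw]
          rw [h4]
          refine ENNReal.ofReal_le_ofReal ?_
          refine tree_bound (p := fun w => pr ρ w y) (fun w => pr_nonneg ρ w y) hy hK hΦ0 hΦ _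
            (fun w hw => (mem_filter.1 hw).2.1) (fun w hw => (mem_filter.1 hw).2.2)
      _ = _ := by rw [lintegral_const]
  calc ∑ w, ρ w {y | ∑ i, Φ (post (fun w => pr ρ w y) i w) < κ}
      ≤ ∑ w, (ρ w {y | τ ≤ pr ρ w y} + ρ w (F w)) := Finset.sum_le_sum fun w _ => h1 w
    _ = ∑ w, ρ w {y | τ ≤ pr ρ w y} + ∑ w, ρ w (F w) := Finset.sum_add_distrib
    _ ≤ _ := add_le_add (coll ρ lam M h hτ) h3

/-- the joint law of the letter `i` and the observation on the class of `w`. -/
def sg (ρ : (Fin T → D) → Measure Y) (i : Fin T) (w : Fin T → D) (j : D) : Measure Y :=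
  ∑ w' ∈ cl ((i : ℕ) + 1) (Function.update w i j), ρ w'

instance (ρ : (Fin T → D) → Measure Y) [∀ w, IsFiniteMeasure (ρ w)] (i : Fin T) (w : Fin T → D)
    (j : D) : IsFiniteMeasure (sg ρ i w j) := by unfold sg; infer_instance

theorem tot_sg (ρ : (Fin T → D) → Measure Y) (i : Fin T) (w : Fin T → D) :
    tot (sg ρ i w) = ∑ w' ∈ cl (i : ℕ) w, ρ w' := by
  rw [sum_cl_split]; rfl

theorem sum_cl_eq (ρ : (Fin T → D) → Measure Y) [∀ w, IsFiniteMeasure (ρ w)] (m : ℕ)
    (w : Fin T → D) : ∑ w' ∈ cl m w, ρ w' =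
      (tot ρ).withDensity fun y => ENNReal.ofReal (P (fun w => pr ρ w y) m w) := by
  ext A hA
  rw [Measure.finsetSum_apply, withDensity_apply _ hA]
  unfold P
  have : ∀ y, ENNReal.ofReal (∑ w' ∈ cl m w, pr ρ w' y) = ∑ w' ∈ cl m w, ENNReal.ofReal (pr ρ w' y) :=
    fun y => ENNReal.ofReal_sum_of_nonneg fun w' _ => pr_nonneg ρ w' y
  simp_rw [this]
  rw [lintegral_finsetSum _ fun w' _ => (measurable_pr ρ w').ennreal_ofReal]
  exact Finset.sum_congr rfl fun w' _ => apply_eq ρ w' A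

/-- the posterior of the letter `i` is the conditional law of the family `sg`. -/
theorem pr_sg (ρ : (Fin T → D) → Measure Y) [∀ w, IsFiniteMeasure (ρ w)] (i : Fin T)
    (w : Fin T → D) (j : D) :
    ∀ᵐ y ∂(tot (sg ρ i w)), pr (sg ρ i w) j y = post (fun w => pr ρ w y) i w j := by
  have hPm : ∀ (m : ℕ) (w : Fin T → D), Measurable fun y => P (fun w => pr ρ w y) m w := fun m w =>
    Finset.measurable_sum _ fun w _ => measurable_pr ρ w
  have hm : Measurable fun y => ENNReal.ofReal (post (fun w => pr ρ w y) i w j) :=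
    ((measurable_pi_iff.1 (measurable_post ρ i w)) j).ennreal_ofReal
  have h1 : sg ρ i w j = (tot (sg ρ i w)).withDensity
      fun y => ENNReal.ofReal (post (fun w => pr ρ w y) i w j) := by
    rw [tot_sg, sum_cl_eq, ← withDensity_mul _ (hPm _ _).ennreal_ofReal hm]
    unfold sg
    rw [sum_cl_eq]
    congr 1
    funext y
    rw [Pi.mul_apply, ← ENNReal.ofReal_mul (P_nonneg (fun w => pr_nonneg ρ w y) _ _)]
    congr 1
    unfold post
    change mj (fun w => pr ρ w y) i w j = _
    by_cases h0 : P (fun w => pr ρ w y) i w = 0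
    · have h2 : mj (fun w => pr ρ w y) i w j ≤ P (fun w => pr ρ w y) i w := by
        rw [← sum_mj]
        exact Finset.single_le_sum (f := fun j => mj (fun w => pr ρ w y) i w j)
          (fun j _ => mj_nonneg (fun w => pr_nonneg ρ w y) i w j) (mem_univ j)
      have h3 := mj_nonneg (fun w => pr_nonneg ρ w y) i w j
      rw [h0, zero_mul]
      exact le_antisymm (h2.trans h0.le) h3
    · rw [mul_div_cancel₀ _ h0]
  have h2 := Ne2_567.rn_of_eq hm h1
  filter_upwards [h2] with y hy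
  change ((sg ρ i w j).rnDeriv (tot (sg ρ i w)) y).toReal = _
  rw [hy, ENNReal.toReal_ofReal]
  exact post_nonneg (fun w => pr_nonneg ρ w y) i w j

end Coll

end Crest.Agent.R014.NSlab_373
end
end

-- ▼ part R014/NSlab2_373
section

/-!
Row 14, block D, noise formalism (#3844), section SLAB (helper373, task 1063), part 2 (abstract).

Lower bound for the sum over the levels of `∫ Φ (conditional law of the letter)`, restricted to a
sub-family `ρA ≤ ρ`, when the class families `sg ρ i w` are translates of one family `τ i`.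
-/

set_option autoImplicit false

open MeasureTheory Finset
open scoped ENNReal

noncomputable section

namespace Crest.Agent.R014.NSlab_373

open Ne1_567

variable {D : Type*} [Fintype D] {T : ℕ} {Y : Type*} [MeasurableSpace Y]

section Count

lemma card_cl (m : ℕ) (hm : m ≤ T) (w : Fin T → D) :
    ((cl m w).card : ℝ≥0∞) = (Fintype.card D : ℝ≥0∞) ^ (T - m) := by
  have key : ∀ k : ℕ, ∀ m : ℕ, m + k = T → ∀ w : Fin T → D,
      (cl m w).card = (Fintype.card D) ^ k := by
    intro k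
    induction k with
    | zero =>
      intro m hm w
      obtain rfl : m = T := by omega
      rw [cl_top]; simp
    | succ k ih =>
      intro m hm w
      set i : Fin T := ⟨m, by omega⟩
      have h := sum_cl_split i w (fun _ => (1 : ℕ))
      simp only [Finset.sum_const, smul_eq_mul, mul_one] at h
      change (cl m w).card = _ at h
      rw [h, Finset.sum_congr rfl fun j _ => ih (m + 1) (by omega) (Function.update w i j)]
      rw [Finset.sum_const, Finset.card_univ, smul_eq_mul, pow_succ, mul_comm]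
  rw [key (T - m) m (by omega) w]
  push_cast
  rfl

/-- double counting. -/
lemma sum_eq_avg (m : ℕ) (h : (Fin T → D) → ℝ≥0∞) :
    ∑ w, h w = ∑ w : Fin T → D, ((cl m w).card : ℝ≥0∞)⁻¹ * ∑ w' ∈ cl m w, h w' := by
  classical
  have h1 : ∑ w : Fin T → D, ((cl m w).card : ℝ≥0∞)⁻¹ * ∑ w' ∈ cl m w, h w'
      = ∑ w : Fin T → D, ∑ w' : Fin T → D,
        if w' ∈ cl m w then ((cl m w).card : ℝ≥0∞)⁻¹ * h w' else 0 := by
    refine Finset.sum_congr rfl fun w _ => ?_
    rw [Finset.mul_sum, ← Finset.sum_filter]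
    refine Finset.sum_congr ?_ fun _ _ => rfl
    ext w'; simp
  rw [h1, Finset.sum_comm]
  refine Finset.sum_congr rfl fun w' _ => ?_
  have h2 : ∀ w : Fin T → D, (if w' ∈ cl m w then ((cl m w).card : ℝ≥0∞)⁻¹ * h w' else 0)
      = if w ∈ cl m w' then ((cl m w').card : ℝ≥0∞)⁻¹ * h w' else 0 := by
    intro w
    by_cases hw : w' ∈ cl m w
    · have hw' : w ∈ cl m w' := by rw [cl_eq hw]; exact self_mem_cl m w
      rw [if_pos hw, if_pos hw', cl_eq hw]
    · have hw' : w ∉ cl m w' := fun h => hw (by rw [cl_eq h]; exact self_mem_cl m w')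
      rw [if_neg hw, if_neg hw']
  rw [Finset.sum_congr rfl fun w _ => h2 w, ← Finset.sum_filter, Finset.sum_const, nsmul_eq_mul]
  have h3 : (univ.filter fun w => w ∈ cl m w') = cl m w' := by ext; simp
  rw [h3, ← mul_assoc, ENNReal.mul_inv_cancel, one_mul]
  · simpa using (Finset.card_pos.2 ⟨w', self_mem_cl m w'⟩).ne'
  · exact ENNReal.natCast_ne_top _

end Count

section Lower

variable (ρ ρA : (Fin T → D) → Measure Y) [∀ w, IsFiniteMeasure (ρ w)] [∀ w, IsFiniteMeasure (ρA w)]

omit [∀ w, IsFiniteMeasure (ρ w)] [∀ w, IsFiniteMeasure (ρA w)] in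
/-- pointwise lower bound. -/
theorem lower (hA : ∀ w, ρA w ≤ ρ w) {Φ : (D → ℝ) → ℝ} (hΦm : Measurable Φ)
    (hΦ0 : ∀ c, 0 ≤ Φ c) {κ : ℝ} {B : ℝ≥0∞}
    (hB : ∑ w, ρ w {y | ∑ i, Φ (post (fun w => pr ρ w y) i w) < κ} ≤ B) :
    ENNReal.ofReal κ * tot ρA Set.univ ≤
      ∑ i, ∑ w, ∫⁻ y, ENNReal.ofReal (Φ (post (fun w => pr ρ w y) i w)) ∂(ρA w) +
        ENNReal.ofReal κ * B := by
  have hm : ∀ i w, Measurable fun y => Φ (post (fun w => pr ρ w y) i w) := fun i w =>
    hΦm.comp (measurable_post ρ i w)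
  have h1 : ∀ w, ENNReal.ofReal κ * ρA w Set.univ ≤
      ∫⁻ y, ∑ i, ENNReal.ofReal (Φ (post (fun w => pr ρ w y) i w)) ∂(ρA w) +
        ENNReal.ofReal κ * ρ w {y | ∑ i, Φ (post (fun w => pr ρ w y) i w) < κ} := by
    intro w
    have hS : MeasurableSet {y | ∑ i, Φ (post (fun w => pr ρ w y) i w) < κ} :=
      measurableSet_lt (Finset.measurable_sum _ fun i _ => hm i w) measurable_const
    calc ENNReal.ofReal κ * ρA w Set.univ
        = ENNReal.ofReal κ * ρA w {y | ∑ i, Φ (post (fun w => pr ρ w y) i w) < κ}ᶜ +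
          ENNReal.ofReal κ * ρA w {y | ∑ i, Φ (post (fun w => pr ρ w y) i w) < κ} := by
          rw [← mul_add, add_comm, measure_add_measure_compl hS]
      _ ≤ _ := by
          refine add_le_add ?_ (mul_le_mul_right (hA w _) _)
          calc ENNReal.ofReal κ * ρA w {y | ∑ i, Φ (post (fun w => pr ρ w y) i w) < κ}ᶜ
              = ∫⁻ _ in {y | ∑ i, Φ (post (fun w => pr ρ w y) i w) < κ}ᶜ, ENNReal.ofReal κ ∂(ρA w) := by
                rw [setLIntegral_const]
            _ ≤ ∫⁻ y in {y | ∑ i, Φ (post (fun w => pr ρ w y) i w) < κ}ᶜ,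
                ∑ i, ENNReal.ofReal (Φ (post (fun w => pr ρ w y) i w)) ∂(ρA w) := by
                refine setLIntegral_mono' hS.compl fun y hy => ?_
                rw [← ENNReal.ofReal_sum_of_nonneg fun i _ => hΦ0 _]
                exact ENNReal.ofReal_le_ofReal (not_lt.1 hy)
            _ ≤ _ := setLIntegral_le_lintegral _ _
  calc ENNReal.ofReal κ * tot ρA Set.univ = ∑ w, ENNReal.ofReal κ * ρA w Set.univ := by
        rw [tot_apply, Finset.mul_sum]
    _ ≤ ∑ w, (∫⁻ y, ∑ i, ENNReal.ofReal (Φ (post (fun w => pr ρ w y) i w)) ∂(ρA w) +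
        ENNReal.ofReal κ * ρ w {y | ∑ i, Φ (post (fun w => pr ρ w y) i w) < κ}) :=
        Finset.sum_le_sum fun w _ => h1 w
    _ = ∑ w, ∑ i, ∫⁻ y, ENNReal.ofReal (Φ (post (fun w => pr ρ w y) i w)) ∂(ρA w) +
        ENNReal.ofReal κ * ∑ w, ρ w {y | ∑ i, Φ (post (fun w => pr ρ w y) i w) < κ} := by
        rw [Finset.sum_add_distrib, Finset.mul_sum]
        congr 1
        refine Finset.sum_congr rfl fun w _ => ?_
        exact lintegral_finsetSum _ fun i _ => (hm i w).ennreal_ofReal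
    _ ≤ _ := by
        rw [Finset.sum_comm]
        exact add_le_add le_rfl (mul_le_mul_right hB _)

theorem tot_mono {ι : Type*} [Fintype ι] {α β : ι → Measure Y} (h : ∀ c, α c ≤ β c) :
    tot α ≤ tot β := by
  refine Measure.le_iff.2 fun s _ => ?_
  rw [tot_apply, tot_apply]
  exact Finset.sum_le_sum fun c _ => h c s

omit [∀ w, IsFiniteMeasure (ρA w)] in
/-- one level, regrouped by classes. -/
theorem level_eq (hA : ∀ w, ρA w ≤ ρ w) (Φ : (D → ℝ) → ℝ) (i : Fin T) :
    ∑ w, ∫⁻ y, ENNReal.ofReal (Φ (post (fun w => pr ρ w y) i w)) ∂(ρA w) =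
      ∑ w : Fin T → D, ((Fintype.card D : ℝ≥0∞) ^ (T - (i : ℕ)))⁻¹ *
        ∫⁻ y, ENNReal.ofReal (Φ fun j => pr (sg ρ i w) j y) ∂(tot (sg ρA i w)) := by
  rw [sum_eq_avg (i : ℕ)]
  refine Finset.sum_congr rfl fun w _ => ?_
  rw [card_cl (i : ℕ) i.2.le w]
  congr 1
  have h1 : ∀ w' ∈ cl (i : ℕ) w,
      ∫⁻ y, ENNReal.ofReal (Φ (post (fun w => pr ρ w y) i w')) ∂(ρA w') =
      ∫⁻ y, ENNReal.ofReal (Φ (post (fun w => pr ρ w y) i w)) ∂(ρA w') := by
    intro w' hw'
    simp_rw [post_eq_of_mem hw']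
  rw [Finset.sum_congr rfl h1, ← lintegral_finsetSum_measure, ← tot_sg]
  refine lintegral_congr_ae ?_
  have h2 : ∀ᵐ y ∂(tot (sg ρ i w)), ∀ j, pr (sg ρ i w) j y = post (fun w => pr ρ w y) i w j :=
    ae_all_iff.2 fun j => pr_sg ρ i w j
  have h3 : tot (sg ρA i w) ≤ tot (sg ρ i w) := by
    refine tot_mono fun j => ?_
    unfold sg
    exact Finset.sum_le_sum fun w _ => hA w
  filter_upwards [h3.absolutelyContinuous.ae_le h2] with y hy
  congr 2
  funext j
  exact (hy j).symm

/-- translation structure of the classes. -/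
structure Trans (ρ ρA : (Fin T → D) → Measure Y) (τ τA : Fin T → D → Measure Y) : Prop where
  ex : ∀ i w, ∃ e : Y ≃ᵐ Y,
    (∀ j, sg ρ i w j = ((Fintype.card D : ℝ≥0∞)⁻¹) ^ (i : ℕ) • (τ i j).map e) ∧
    (∀ j, sg ρA i w j = ((Fintype.card D : ℝ≥0∞)⁻¹) ^ (i : ℕ) • (τA i j).map e)

theorem pr_map_smul {ι Z : Type*} [Fintype ι] [MeasurableSpace Z] (τ : ι → Measure Y)
    [∀ j, IsFiniteMeasure (τ j)]
    (e : Y ≃ᵐ Z) {a : ℝ≥0∞} (h0 : a ≠ 0) (ha : a ≠ ∞) (j : ι) :
    ∀ᵐ y ∂(tot τ), pr (fun j => a • (τ j).map e) j (e y) = pr τ j y := by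
  have h1 := Nd_837.pr_equiv τ e j
  have h2 : ∀ᵐ z ∂(tot (mp e τ)), pr (fun j => a • (mp e τ) j) j z = pr (mp e τ) j z :=
    Nd_837.pr_smul (mp e τ) h0 ha j
  rw [tot_mp e.measurable] at h2
  have h3 := ae_of_ae_map e.measurable.aemeasurable h2
  filter_upwards [h1, h3] with y hy hy'
  exact hy'.trans hy

omit [∀ w, IsFiniteMeasure (ρA w)] in
/-- **Lower bound, regrouped.** -/
theorem lower_trans [Nonempty D] (hA : ∀ w, ρA w ≤ ρ w) {Φ : (D → ℝ) → ℝ} (hΦm : Measurable Φ)
    (hΦ0 : ∀ c, 0 ≤ Φ c) {κ : ℝ} {B : ℝ≥0∞}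
    (hB : ∑ w, ρ w {y | ∑ i, Φ (post (fun w => pr ρ w y) i w) < κ} ≤ B)
    (τ τA : Fin T → D → Measure Y) [∀ i j, IsFiniteMeasure (τ i j)] [∀ i j, IsFiniteMeasure (τA i j)]
    (hτ : ∀ i j, τA i j ≤ τ i j) (hT : Trans ρ ρA τ τA) :
    ENNReal.ofReal κ * tot ρA Set.univ ≤
      ∑ i, ∫⁻ y, ENNReal.ofReal (Φ fun j => pr (τ i) j y) ∂(tot (τA i)) + ENNReal.ofReal κ * B := by
  refine (lower ρ ρA hA hΦm hΦ0 hB).trans (add_le_add ?_ le_rfl)
  refine Finset.sum_le_sum fun i _ => le_of_eq ?_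
  rw [level_eq ρ ρA hA Φ i]
  have hc0 : (Fintype.card D : ℝ≥0∞) ≠ 0 := by simp
  have hct : (Fintype.card D : ℝ≥0∞) ≠ ∞ := ENNReal.natCast_ne_top _
  have hi0 : ((Fintype.card D : ℝ≥0∞)⁻¹) ^ (i : ℕ) ≠ 0 := by
    simp [hct]
  have hit : ((Fintype.card D : ℝ≥0∞)⁻¹) ^ (i : ℕ) ≠ ∞ := by
    refine ENNReal.pow_ne_top ?_
    simp
  have key : ∀ w : Fin T → D,
      ∫⁻ y, ENNReal.ofReal (Φ fun j => pr (sg ρ i w) j y) ∂(tot (sg ρA i w)) =
      ((Fintype.card D : ℝ≥0∞)⁻¹) ^ (i : ℕ) *
        ∫⁻ y, ENNReal.ofReal (Φ fun j => pr (τ i) j y) ∂(tot (τA i)) := by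
    intro w
    obtain ⟨e, he, heA⟩ := hT.ex i w
    have h1 : tot (sg ρA i w) = ((Fintype.card D : ℝ≥0∞)⁻¹) ^ (i : ℕ) • (tot (τA i)).map e := by
      have : sg ρA i w = fun j => ((Fintype.card D : ℝ≥0∞)⁻¹) ^ (i : ℕ) • (mp e (τA i)) j :=
        funext heA
      rw [this, Nd_837.tot_smul, tot_mp e.measurable]
    have h2 : sg ρ i w = fun j => ((Fintype.card D : ℝ≥0∞)⁻¹) ^ (i : ℕ) • (τ i j).map e := funext he
    rw [h1, lintegral_smul_measure, smul_eq_mul, h2, lintegral_map_equiv]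
    congr 1
    refine lintegral_congr_ae ?_
    have h3 : ∀ᵐ y ∂(tot (τ i)), ∀ j,
        pr (fun j => ((Fintype.card D : ℝ≥0∞)⁻¹) ^ (i : ℕ) • (τ i j).map e) j (e y) = pr (τ i) j y :=
      ae_all_iff.2 fun j => pr_map_smul (τ i) e hi0 hit j
    filter_upwards [(tot_mono (hτ i)).absolutelyContinuous.ae_le h3] with y hy
    congr 2
    funext j
    exact hy j
  rw [Finset.sum_congr rfl fun w _ => by rw [key w], Finset.sum_const, nsmul_eq_mul, Finset.card_univ,
    Fintype.card_fun, Fintype.card_fin, ← mul_assoc, ← mul_assoc]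
  have h4 : (((Fintype.card D) ^ T : ℕ) : ℝ≥0∞) * ((Fintype.card D : ℝ≥0∞) ^ (T - (i : ℕ)))⁻¹ *
      ((Fintype.card D : ℝ≥0∞)⁻¹) ^ (i : ℕ) = 1 := by
    push_cast
    have h5 : (Fintype.card D : ℝ≥0∞) ^ T
        = (Fintype.card D : ℝ≥0∞) ^ (T - (i : ℕ)) * (Fintype.card D : ℝ≥0∞) ^ (i : ℕ) := by
      rw [← pow_add]; congr 1; omega
    rw [h5, mul_right_comm ((Fintype.card D : ℝ≥0∞) ^ (T - (i : ℕ))),
      ENNReal.mul_inv_cancel (pow_ne_zero _ hc0) (ENNReal.pow_ne_top hct),
      one_mul, ← ENNReal.inv_pow, ENNReal.mul_inv_cancel (pow_ne_zero _ hc0) (ENNReal.pow_ne_top hct)]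
  rw [h4, one_mul]

end Lower

end Crest.Agent.R014.NSlab_373
end
end

-- ▼ part R014/NSlab3_373
section

/-!
Row 14, block D, noise formalism (#3844), section SLAB (helper373, task 1063), part 3 (concrete):
the digits of `v(s)`, `s` uniform in `[-1,1]^(S × Sᶜ)`: decomposition into cells, translation,
and the structure `Trans` for the family `rho` of `NS0_373`.
-/

set_option autoImplicit false

open MeasureTheory Crest.NumberTheoryR.Packets Finset
open scoped ENNReal

noncomputable section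

namespace Crest.Agent.R014.NS_373

open Ms_667 Nd_837 Ne1_567 NSlab_373

variable {n : ℕ} {S : Finset (Fin n)} {b : ℕ}

/-- the centre of a letter. -/
def cenv (j : CC S → Fin b) : CC S → ℝ := fun c => cen b (j c)

lemma card_letters : (Fintype.card (CC S → Fin b) : ℝ≥0∞) = (b : ℝ≥0∞) ^ Fintype.card (CC S) := by
  rw [Fintype.card_fun, Fintype.card_fin]; push_cast; rfl

/-- the uniform law on the cube is the mixture of the uniform laws on the cells. -/
theorem uniC_split (hb : 0 < b) : uniC S = (Fintype.card (CC S → Fin b) : ℝ≥0∞)⁻¹ •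
    ∑ j : CC S → Fin b, (uniC S).map fun θ => cenv j + (b : ℝ)⁻¹ • θ := by
  have hm : ∀ j : CC S → Fin b, Measurable fun θ : CC S → ℝ => cenv j + (b : ℝ)⁻¹ • θ := by
    intro j; fun_prop
  have hm1 : ∀ k : Fin b, Measurable fun θ : ℝ => cen b k + θ / b := by
    intro k; fun_prop
  refine Measure.pi_eq fun s hs => ?_
  rw [Measure.smul_apply, Measure.finsetSum_apply, smul_eq_mul]
  have h1 : ∀ j : CC S → Fin b, ((uniC S).map fun θ => cenv j + (b : ℝ)⁻¹ • θ) (Set.univ.pi s)
      = ∏ c, (uni.map fun θ => cen b (j c) + θ / b) (s c) := by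
    intro j
    rw [Measure.map_apply (hm j) (MeasurableSet.univ_pi hs)]
    have h2 : (fun θ : CC S → ℝ => cenv j + (b : ℝ)⁻¹ • θ) ⁻¹' (Set.univ.pi s)
        = Set.univ.pi fun c => (fun θ : ℝ => cen b (j c) + θ / b) ⁻¹' (s c) := by
      ext θ
      simp only [Set.mem_preimage, Set.mem_pi, Set.mem_univ, true_implies, Pi.add_apply,
        Pi.smul_apply, smul_eq_mul, cenv, div_eq_inv_mul]
    rw [h2, uniC, Measure.pi_pi]
    exact Finset.prod_congr rfl fun c _ => (Measure.map_apply (hm1 _) (hs c)).symm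
  rw [Finset.sum_congr rfl fun j _ => h1 j]
  have h3 : ∏ c, uni (s c) = ∏ c, ((b : ℝ≥0∞)⁻¹ * ∑ k : Fin b, (uni.map fun θ => cen b k + θ / b) (s c)) := by
    refine Finset.prod_congr rfl fun c _ => ?_
    conv_lhs => rw [uni_split hb]
    rw [Measure.smul_apply, Measure.finsetSum_apply, smul_eq_mul]
  have h4 : ∏ c : CC S, ∑ k : Fin b, (uni.map fun θ => cen b k + θ / b) (s c)
      = ∑ j : CC S → Fin b, ∏ c, (uni.map fun θ => cen b (j c) + θ / b) (s c) := by
    rw [Finset.prod_univ_sum, Fintype.piFinset_univ]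
  rw [h3, Finset.prod_mul_distrib, h4, Finset.prod_const, Finset.card_univ, card_letters,
    ENNReal.inv_pow]

theorem vlaw_split (hb : 0 < b) (m : ℕ) (x : CC S → ℝ) : vlaw S b m x =
    (Fintype.card (CC S → Fin b) : ℝ≥0∞)⁻¹ •
      ∑ j : CC S → Fin b, vlaw S b (m + 1) (x + ((b : ℝ)⁻¹) ^ m • cenv j) := by
  have hm : ∀ j : CC S → Fin b, Measurable fun θ : CC S → ℝ => cenv j + (b : ℝ)⁻¹ • θ := by
    intro j; fun_prop
  unfold vlaw
  conv_lhs => rw [uniC_split (S := S) hb]
  rw [Measure.map_smul, Measure.map_finset_sum (measurable_vlaw S b m x).aemeasurable]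
  congr 1
  refine Finset.sum_congr rfl fun j _ => ?_
  rw [Measure.map_map (measurable_vlaw S b m x) (hm j)]
  congr 1
  funext θ
  simp only [Function.comp_apply]
  congr 1
  rw [smul_add, smul_smul, ← pow_succ, add_assoc]

theorem vlaw_add (m : ℕ) (x y : CC S → ℝ) :
    vlaw S b m (x + y) = (vlaw S b m y).map fun g => g * vv S x := by
  unfold vlaw
  rw [Measure.map_map (measurable_mul_const _) (measurable_vlaw S b m y)]
  congr 1
  funext θ
  simp only [Function.comp_apply]
  rw [← vv_add]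
  congr 1
  abel

instance instSFiniteStp (ν : Measure (ModSpace n)) (κ : Measure (SLR n)) [SFinite ν] [SFinite κ] :
    SFinite (stp ν κ) := by unfold stp; infer_instance

theorem stp_vlaw_add (ν : Measure (ModSpace n)) [SFinite ν] (m : ℕ) (x y : CC S → ℝ) :
    stp ν (vlaw S b m (x + y)) = (stp ν (vlaw S b m y)).map fun z => act z (vv S x) := by
  rw [vlaw_add, ← cv_dirac, ← stp_dirac, stp_stp]

/-- the centre of the cell of the letters `< m` of the word `w`. -/
def repm {T : ℕ} (m : ℕ) (w : Fin T → CC S → Fin b) : CC S → ℝ :=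
  fun c => ∑ i ∈ univ.filter (fun i : Fin T => (i : ℕ) < m), ((b : ℝ)⁻¹) ^ (i : ℕ) * cen b (w i c)

lemma repm_top {T : ℕ} (w : Fin T → CC S → Fin b) : repm T w = rep w := by
  funext c
  unfold repm rep
  rw [Finset.filter_true_of_mem fun i _ => i.2]


lemma repm_succ {T : ℕ} (i : Fin T) (w : Fin T → CC S → Fin b) (j : CC S → Fin b) :
    repm ((i : ℕ) + 1) (Function.update w i j) = repm (i : ℕ) w + ((b : ℝ)⁻¹) ^ (i : ℕ) • cenv j := by
  funext c
  simp only [repm, Pi.add_apply, Pi.smul_apply, smul_eq_mul, cenv]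
  have : (univ.filter fun k : Fin T => (k : ℕ) < (i : ℕ) + 1)
      = insert i (univ.filter fun k : Fin T => (k : ℕ) < (i : ℕ)) := by
    ext k
    simp only [mem_filter, mem_univ, true_and, mem_insert, Fin.ext_iff]
    omega
  rw [this, Finset.sum_insert (by simp), Function.update_self, add_comm]
  congr 1
  refine Finset.sum_congr rfl fun k hk => ?_
  rw [mem_filter] at hk
  rw [Function.update_of_ne]
  rintro rfl
  exact lt_irrefl _ hk.2

/-- the law of the observation on a class of words. -/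
theorem sum_cl_rho (hb : 0 < b) (ν : Measure (ModSpace n)) [IsFiniteMeasure ν]
    (κ : Measure (SLR n)) [IsFiniteMeasure κ] (T m : ℕ) (hm : m ≤ T) (w : Fin T → CC S → Fin b) :
    ∑ w' ∈ cl m w, rho ν κ S b T w' =
      ((Fintype.card (CC S → Fin b) : ℝ≥0∞)⁻¹) ^ m • stp (stp ν κ) (vlaw S b m (repm m w)) := by
  have key : ∀ k : ℕ, ∀ m : ℕ, m + k = T → ∀ w : Fin T → CC S → Fin b,
      ∑ w' ∈ cl m w, rho ν κ S b T w' =
      ((Fintype.card (CC S → Fin b) : ℝ≥0∞)⁻¹) ^ m • stp (stp ν κ) (vlaw S b m (repm m w)) := by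
    intro k
    induction k with
    | zero =>
      intro m hm w
      obtain rfl : m = T := by omega
      rw [cl_top, Finset.sum_singleton, repm_top]
      rfl
    | succ k ih =>
      intro m hm w
      set i : Fin T := ⟨m, by omega⟩ with hi
      have h := sum_cl_split i w (fun w' => rho ν κ S b T w')
      change ∑ w' ∈ cl m w, rho ν κ S b T w' = _ at h
      rw [h, Finset.sum_congr rfl fun j _ => ih (m + 1) (by omega) (Function.update w i j),
        ← Finset.smul_sum, vlaw_split hb, stp_smul, smul_smul, ← pow_succ, stp_sum]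
      congr 1
      refine Finset.sum_congr rfl fun j _ => ?_
      rw [← repm_succ i w j]
  exact key (T - m) m (by omega) w

/-- the family of one level: joint law of the letter and the noisy point. -/
def tau (ν : Measure (ModSpace n)) (κ : Measure (SLR n)) (S : Finset (Fin n)) (b m : ℕ)
    (j : CC S → Fin b) : Measure (ModSpace n) :=
  (Fintype.card (CC S → Fin b) : ℝ≥0∞)⁻¹ • stp (stp ν κ) (vlaw S b (m + 1) (((b : ℝ)⁻¹) ^ m • cenv j))

instance (ν : Measure (ModSpace n)) (κ : Measure (SLR n)) [IsFiniteMeasure ν] [IsFiniteMeasure κ]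
    (S : Finset (Fin n)) (b m : ℕ) (j : CC S → Fin b) : IsFiniteMeasure (tau ν κ S b m j) := by
  unfold tau
  have : (Fintype.card (CC S → Fin b) : ℝ≥0∞)⁻¹ ≠ ∞ := by
    have : Nonempty (CC S → Fin b) := ⟨j⟩
    exact ENNReal.inv_ne_top.2 (by exact_mod_cast Fintype.card_ne_zero)
  exact Measure.smul_finite _ this

instance (ν : Measure (ModSpace n)) (κ : Measure (SLR n)) [IsFiniteMeasure ν] [IsFiniteMeasure κ]
    (S : Finset (Fin n)) (b T : ℕ) (w : Fin T → CC S → Fin b) :
    IsFiniteMeasure (rho ν κ S b T w) := by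
  unfold rho
  by_cases hT : T = 0
  · subst hT
    rw [pow_zero, one_smul]
    infer_instance
  · have : ((Fintype.card (CC S → Fin b) : ℝ≥0∞)⁻¹) ^ T ≠ ∞ := by
      have : Nonempty (CC S → Fin b) := ⟨w ⟨0, Nat.pos_of_ne_zero hT⟩⟩
      refine ENNReal.pow_ne_top ?_
      exact ENNReal.inv_ne_top.2 (by exact_mod_cast Fintype.card_ne_zero)
    exact Measure.smul_finite _ this

theorem sg_rho (hb : 0 < b) (ν : Measure (ModSpace n)) [IsFiniteMeasure ν]
    (κ : Measure (SLR n)) [IsFiniteMeasure κ] (T : ℕ) (i : Fin T) (w : Fin T → CC S → Fin b)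
    (j : CC S → Fin b) : sg (rho ν κ S b T) i w j =
      ((Fintype.card (CC S → Fin b) : ℝ≥0∞)⁻¹) ^ (i : ℕ) •
        (tau ν κ S b i j).map (actE (vv S (repm (i : ℕ) w))) := by
  unfold sg tau
  rw [sum_cl_rho hb ν κ T _ i.2, repm_succ, Measure.map_smul, smul_smul, ← pow_succ,
    stp_vlaw_add]
  rfl

theorem trans_rho (hb : 0 < b) (ν νA : Measure (ModSpace n)) [IsFiniteMeasure ν]
    [IsFiniteMeasure νA] (κ : Measure (SLR n)) [IsFiniteMeasure κ] (T : ℕ) :
    Trans (rho ν κ S b T) (rho νA κ S b T) (fun i => tau ν κ S b i) (fun i => tau νA κ S b i) where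
  ex i w := ⟨actE (vv S (repm (i : ℕ) w)), fun j => sg_rho hb ν κ T i w j,
    fun j => sg_rho hb νA κ T i w j⟩

theorem stp_mono {ν νA : Measure (ModSpace n)} (h : νA ≤ ν) (κ : Measure (SLR n)) [SFinite κ]
    [SFinite ν] [SFinite νA] : stp νA κ ≤ stp ν κ := by
  unfold stp
  exact Measure.map_mono (Measure.prod_mono h le_rfl) measurable_act₂

end Crest.Agent.R014.NS_373
end
end

-- ▼ part R014/NSlab4_373
section

/-!
Row 14, block D, noise formalism (#3844), section SLAB (helper373, task 1063), part 4: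
the functional `PhiS` (sum over the crossing roots of the spread of the marginal digit law),
marginals of the level family `tau`: 837's `lab` with the noise `κ * ovl`.
-/

set_option autoImplicit false

open MeasureTheory Crest.NumberTheoryR.Packets Finset
open scoped ENNReal

noncomputable section

namespace Crest.Agent.R014.NS_373

open Ms_667 Nd_837 Ne1_567 NSlab_373 NScC_395 NScD_395
open Ne2_567 (lb tot_lb)

variable {n : ℕ} {S : Finset (Fin n)} {b : ℕ}

section Phi

open Classical in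
/-- marginal of a law of letters at the root `c`. -/
def mg (c : CC S) (p : (CC S → Fin b) → ℝ) (k : Fin b) : ℝ := ∑ j with j c = k, p j

/-- sum over the crossing roots of the spread of the marginal digit law. -/
def PhiS (p : (CC S → Fin b) → ℝ) : ℝ := ∑ c : CC S, |spr (cen b) (mg c p)|

lemma PhiS_nonneg (p : (CC S → Fin b) → ℝ) : 0 ≤ PhiS p := Finset.sum_nonneg fun _ _ => abs_nonneg _

lemma measurable_PhiS : Measurable (PhiS : ((CC S → Fin b) → ℝ) → ℝ) := by
  unfold PhiS spr mg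
  fun_prop

lemma mg_nonneg {p : (CC S → Fin b) → ℝ} (hp : ∀ j, 0 ≤ p j) (c : CC S) (k : Fin b) :
    0 ≤ mg c p k := Finset.sum_nonneg fun _ _ => hp _

lemma sum_mg (p : (CC S → Fin b) → ℝ) (c : CC S) : ∑ k, mg c p k = ∑ j, p j := by
  classical
  exact Finset.sum_fiberwise univ (fun j : CC S → Fin b => j c) p

lemma cen_sub {b : ℕ} {c c' : Fin b} (h : c ≠ c') : 2 / (b : ℝ) ≤ |cen b c - cen b c'| := by
  have hb : (0:ℝ) < b := by exact_mod_cast c.pos
  have h1 : cen b c - cen b c' = 2 * (((c : ℕ) : ℝ) - (c' : ℕ)) / b := by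
    unfold cen; field_simp; ring
  rw [h1, abs_div, abs_mul, abs_of_pos hb, abs_of_pos (by norm_num : (0:ℝ) < 2)]
  have h2 : (1 : ℝ) ≤ |((c : ℕ) : ℝ) - (c' : ℕ)| := by
    have h3 : ((c : ℕ) : ℤ) - ((c' : ℕ) : ℤ) ≠ 0 := by
      intro h0
      apply h
      apply Fin.ext
      omega
    have h4 := Int.one_le_abs h3
    exact_mod_cast h4
  gcongr
  linarith

lemma spr_ge {q : Fin b → ℝ} (h0 : ∀ k, 0 ≤ q k) (h1 : ∑ k, q k = 1) (k₀ : Fin b)
    (hk : ∀ k, q k ≤ q k₀) : 2 / (b : ℝ) * (1 - q k₀) ≤ spr (cen b) q := by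
  classical
  have h2 : ∀ c c' : Fin b, q c * q c' * (2 / (b : ℝ)) - (if c = c' then q c * q c * (2 / (b:ℝ)) else 0)
      ≤ q c * q c' * |cen b c - cen b c'| := by
    intro c c'
    by_cases hcc : c = c'
    · subst hcc; simp
    · rw [if_neg hcc, sub_zero]
      exact mul_le_mul_of_nonneg_left (cen_sub hcc) (mul_nonneg (h0 _) (h0 _))
  have h3 : ∑ c, ∑ c', (q c * q c' * (2 / (b : ℝ)) - (if c = c' then q c * q c * (2 / (b:ℝ)) else 0))
      = 2 / (b : ℝ) * (1 - ∑ c, q c * q c) := by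
    have h4 : ∀ c, ∑ c', (q c * q c' * (2 / (b : ℝ)) - (if c = c' then q c * q c * (2 / (b:ℝ)) else 0))
        = q c * (2 / b) - q c * q c * (2 / b) := by
      intro c
      rw [Finset.sum_sub_distrib, Finset.sum_ite_eq, if_pos (mem_univ c), ← Finset.sum_mul,
        ← Finset.mul_sum, h1, mul_one]
    rw [Finset.sum_congr rfl fun c _ => h4 c, Finset.sum_sub_distrib, ← Finset.sum_mul,
      ← Finset.sum_mul, h1]
    ring
  have h5 : ∑ c, q c * q c ≤ q k₀ := by
    calc ∑ c, q c * q c ≤ ∑ c, q c * q k₀ :=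
          Finset.sum_le_sum fun c _ => mul_le_mul_of_nonneg_left (hk c) (h0 c)
      _ = q k₀ := by rw [← Finset.sum_mul, h1, one_mul]
  have h6 : (0:ℝ) ≤ 2 / b := by positivity
  calc 2 / (b : ℝ) * (1 - q k₀) ≤ 2 / (b : ℝ) * (1 - ∑ c, q c * q c) :=
        mul_le_mul_of_nonneg_left (by linarith) h6
    _ = _ := h3.symm
    _ ≤ spr (cen b) q := by
        unfold spr
        exact Finset.sum_le_sum fun c _ => Finset.sum_le_sum fun c' _ => h2 c c'

/-- the constant of the tree bound. -/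
def KS (S : Finset (Fin n)) (b : ℕ) : ℝ := Fintype.card (CC S → Fin b) * √((b : ℝ) / 2)

lemma KS_nonneg : 0 ≤ KS S b := by unfold KS; positivity

theorem sqrt_bound (hb : 0 < b) (p : (CC S → Fin b) → ℝ) (hp : ∀ j, 0 ≤ p j) (h1 : ∑ j, p j = 1) :
    ∑ j, √(p j) ≤ Real.exp (KS S b * √(PhiS p)) := by
  classical
  have hbR : (0:ℝ) < b := by exact_mod_cast hb
  have : Nonempty (Fin b) := ⟨⟨0, hb⟩⟩
  have hmax : ∀ c : CC S, ∃ k₀, ∀ k, mg c p k ≤ mg c p k₀ := fun c => Finite.exists_max (mg c p)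
  choose k₀ hk₀ using hmax
  set m : ℝ := 1 - p k₀ with hm
  have hm0 : 0 ≤ m := by
    have : p k₀ ≤ ∑ j, p j := Finset.single_le_sum (fun j _ => hp j) (mem_univ k₀)
    rw [h1] at this; linarith
  have h2 : m = ∑ j ∈ univ.erase k₀, p j := by
    rw [hm, ← h1, ← Finset.add_sum_erase univ p (mem_univ k₀)]; ring
  have h3 : m ≤ ∑ c : CC S, (1 - mg c p (k₀ c)) := by
    have h4 : ∀ c : CC S, 1 - mg c p (k₀ c) = ∑ j, if j c ≠ k₀ c then p j else 0 := by
      intro c
      have h5 : ∑ j, p j = mg c p (k₀ c) + ∑ j, if j c ≠ k₀ c then p j else 0 := by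
        rw [mg, ← Finset.sum_filter, Finset.sum_filter_add_sum_filter_not]
      rw [← h1, h5]; ring
    rw [Finset.sum_congr rfl fun c _ => h4 c, Finset.sum_comm, h2]
    refine le_trans ?_ (Finset.sum_le_sum_of_subset_of_nonneg (Finset.erase_subset k₀ univ)
      fun j _ _ => Finset.sum_nonneg fun c _ => by split_ifs; exacts [hp j, le_rfl])
    refine Finset.sum_le_sum fun j hj => ?_
    obtain ⟨c, hc⟩ : ∃ c, j c ≠ k₀ c := by
      by_contra hcon
      push Not at hcon
      exact (Finset.mem_erase.1 hj).1 (funext hcon)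
    refine le_trans (le_of_eq (if_pos hc).symm) (Finset.single_le_sum
      (f := fun c => if j c ≠ k₀ c then p j else 0) (fun c _ => ?_) (mem_univ c))
    split_ifs
    exacts [hp j, le_rfl]
  have h6 : ∀ c : CC S, 1 - mg c p (k₀ c) ≤ b / 2 * |spr (cen b) (mg c p)| := by
    intro c
    have h7 := spr_ge (q := mg c p) (fun k => mg_nonneg hp c k) (by rw [sum_mg, h1]) (k₀ c) (hk₀ c)
    have h8 := h7.trans (le_abs_self _)
    calc 1 - mg c p (k₀ c) = b / 2 * (2 / b * (1 - mg c p (k₀ c))) := by field_simp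
      _ ≤ _ := mul_le_mul_of_nonneg_left h8 (by positivity)
  have h9 : m ≤ b / 2 * PhiS p := by
    refine h3.trans ((Finset.sum_le_sum fun c _ => h6 c).trans (le_of_eq ?_))
    rw [PhiS, Finset.mul_sum]
  have h10 : ∑ j, √(p j) ≤ 1 + Fintype.card (CC S → Fin b) * √m := by
    rw [← Finset.add_sum_erase univ _ (mem_univ k₀)]
    refine add_le_add ?_ ?_
    · exact Real.sqrt_le_one.2 (by linarith)
    · have h11 : ∀ j ∈ univ.erase k₀, √(p j) ≤ √m := by
        intro j hj
        refine Real.sqrt_le_sqrt ?_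
        rw [h2]
        exact Finset.single_le_sum (fun j _ => hp j) hj
      refine (Finset.sum_le_card_nsmul _ _ _ h11).trans ?_
      rw [nsmul_eq_mul]
      refine mul_le_mul_of_nonneg_right ?_ (Real.sqrt_nonneg _)
      exact_mod_cast (Finset.card_le_univ _)
  calc ∑ j, √(p j) ≤ Fintype.card (CC S → Fin b) * √m + 1 := by linarith
    _ ≤ Real.exp (Fintype.card (CC S → Fin b) * √m) := Real.add_one_le_exp _
    _ ≤ _ := by
        refine Real.exp_le_exp.2 ?_
        rw [KS, mul_assoc, ← Real.sqrt_mul (by positivity)]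
        exact mul_le_mul_of_nonneg_left (Real.sqrt_le_sqrt h9) (by positivity)

end Phi

section Marg

/-- `θ` uniform, the root `c` frozen: the other crossing roots at depth `m`. -/
def ovl (S : Finset (Fin n)) (b m : ℕ) (c : CC S) : Measure (SLR n) :=
  (uniC S).map fun θ => vv S (((b : ℝ)⁻¹) ^ m • Function.update θ c 0)

lemma measurable_ovl (S : Finset (Fin n)) (b m : ℕ) (c : CC S) :
    Measurable fun θ : CC S → ℝ => vv S (((b : ℝ)⁻¹) ^ m • Function.update θ c 0) := by
  refine (measurable_vv S).comp ?_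
  fun_prop

instance (S : Finset (Fin n)) (b m : ℕ) (c : CC S) : IsProbabilityMeasure (ovl S b m c) :=
  Measure.isProbabilityMeasure_map (measurable_ovl S b m c).aemeasurable

/-- the cube with the root `c` restricted to the cell `k`. -/
def mk (S : Finset (Fin n)) (b : ℕ) (c : CC S) (k : Fin b) : Measure (CC S → ℝ) :=
  ((uniC S).prod uni).map fun p => Function.update p.1 c (cen b k + p.2 / b)

lemma measurable_mk (b : ℕ) (c : CC S) (k : Fin b) :
    Measurable fun p : (CC S → ℝ) × ℝ => Function.update p.1 c (cen b k + p.2 / b) := by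
  fun_prop

lemma mk_pi (b : ℕ) (c : CC S) (k : Fin b) (s : CC S → Set ℝ) (hs : ∀ i, MeasurableSet (s i)) :
    mk S b c k (Set.univ.pi s) =
      ∏ i, if i = c then (uni.map fun θ => cen b k + θ / b) (s i) else uni (s i) := by
  have hm1 : Measurable fun θ : ℝ => cen b k + θ / b := by fun_prop
  rw [mk, Measure.map_apply (measurable_mk b c k) (MeasurableSet.univ_pi hs)]
  have h1 : (fun p : (CC S → ℝ) × ℝ => Function.update p.1 c (cen b k + p.2 / b)) ⁻¹'
      (Set.univ.pi s) = (Set.univ.pi (Function.update s c Set.univ)) ×ˢ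
        ((fun θ : ℝ => cen b k + θ / b) ⁻¹' (s c)) := by
    ext p
    simp only [Set.mem_preimage, Set.mem_pi, Set.mem_univ, true_implies, Set.mem_prod]
    constructor
    · intro h
      refine ⟨fun i => ?_, ?_⟩
      · by_cases hi : i = c
        · subst hi; rw [Function.update_self]; exact Set.mem_univ _
        · have := h i
          rw [Function.update_of_ne hi] at this ⊢
          exact this
      · have := h c
        rwa [Function.update_self] at this
    · rintro ⟨h, h'⟩ i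
      by_cases hi : i = c
      · subst hi; rw [Function.update_self]; exact h'
      · have := h i
        rw [Function.update_of_ne hi] at this ⊢
        exact this
  rw [h1, Measure.prod_prod, uniC, Measure.pi_pi, ← Measure.map_apply hm1 (hs c),
    Fintype.prod_eq_mul_prod_subtype_ne _ c, Fintype.prod_eq_mul_prod_subtype_ne (fun i =>
      if i = c then (uni.map fun θ => cen b k + θ / b) (s i) else uni (s i)) c, if_pos rfl,
    Function.update_self, measure_univ, one_mul, mul_comm]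
  congr 1
  refine Finset.prod_congr rfl fun i _ => ?_
  rw [if_neg i.2, Function.update_of_ne i.2]

/-- sum of the cells with the letter `k` at the root `c`. -/
theorem sum_cells (hb : 0 < b) (c : CC S) (k : Fin b) :
    (Fintype.card (CC S → Fin b) : ℝ≥0∞)⁻¹ • ∑ j : CC S → Fin b with j c = k,
      (uniC S).map (fun θ => cenv j + (b : ℝ)⁻¹ • θ) = (b : ℝ≥0∞)⁻¹ • mk S b c k := by
  classical
  have hb0 : (b : ℝ≥0∞) ≠ 0 := by exact_mod_cast hb.ne'
  have hbt : (b : ℝ≥0∞) ≠ ∞ := ENNReal.natCast_ne_top b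
  have hm : ∀ j : CC S → Fin b, Measurable fun θ : CC S → ℝ => cenv j + (b : ℝ)⁻¹ • θ := by
    intro j; fun_prop
  have hm1 : ∀ k : Fin b, Measurable fun θ : ℝ => cen b k + θ / b := by
    intro k; fun_prop
  have : ∀ i : CC S, SigmaFinite (if i = c then uni.map (fun θ => cen b k + θ / b) else uni) := by
    intro i
    have : IsProbabilityMeasure (uni.map (fun θ => cen b k + θ / b)) :=
      Measure.isProbabilityMeasure_map (hm1 k).aemeasurable
    split_ifs <;> infer_instance
  have hR : Measure.pi (fun i : CC S => if i = c then uni.map (fun θ => cen b k + θ / b) else uni)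
      = mk S b c k := by
    refine Measure.pi_eq fun s hs => ?_
    rw [mk_pi b c k s hs]
    refine Finset.prod_congr rfl fun i _ => ?_
    split_ifs <;> rfl
  have hL : Measure.pi (fun i : CC S => if i = c then uni.map (fun θ => cen b k + θ / b) else uni)
      = (b : ℝ≥0∞) • ((Fintype.card (CC S → Fin b) : ℝ≥0∞)⁻¹ • ∑ j : CC S → Fin b with j c = k,
      (uniC S).map (fun θ => cenv j + (b : ℝ)⁻¹ • θ)) := by
    refine Measure.pi_eq fun s hs => ?_
    rw [Measure.smul_apply, Measure.smul_apply, Measure.finsetSum_apply, smul_eq_mul, smul_eq_mul]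
    have h1 : ∀ j : CC S → Fin b, ((uniC S).map fun θ => cenv j + (b : ℝ)⁻¹ • θ) (Set.univ.pi s)
        = ∏ c, (uni.map fun θ => cen b (j c) + θ / b) (s c) := by
      intro j
      rw [Measure.map_apply (hm j) (MeasurableSet.univ_pi hs)]
      have h2 : (fun θ : CC S → ℝ => cenv j + (b : ℝ)⁻¹ • θ) ⁻¹' (Set.univ.pi s)
          = Set.univ.pi fun c => (fun θ : ℝ => cen b (j c) + θ / b) ⁻¹' (s c) := by
        ext θ
        simp only [Set.mem_preimage, Set.mem_pi, Set.mem_univ, true_implies, Pi.add_apply,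
          Pi.smul_apply, smul_eq_mul, cenv, div_eq_inv_mul]
      rw [h2, uniC, Measure.pi_pi]
      exact Finset.prod_congr rfl fun c _ => (Measure.map_apply (hm1 _) (hs c)).symm
    rw [Finset.sum_congr rfl fun j _ => h1 j]
    have h3 : ∑ j : CC S → Fin b with j c = k, ∏ i, (uni.map fun θ => cen b (j i) + θ / b) (s i)
        = ∏ i, ∑ k' : Fin b, if i = c then (if k' = k then (uni.map fun θ => cen b k' + θ / b) (s i) else 0)
          else (uni.map fun θ => cen b k' + θ / b) (s i) := by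
      rw [Finset.prod_univ_sum, Fintype.piFinset_univ, Finset.sum_filter]
      refine Finset.sum_congr rfl fun j _ => ?_
      by_cases hj : j c = k
      · rw [if_pos hj]
        refine Finset.prod_congr rfl fun i _ => ?_
        by_cases hi : i = c
        · subst hi; rw [if_pos rfl, if_pos hj]
        · rw [if_neg hi]
      · rw [if_neg hj]
        refine (Finset.prod_eq_zero (mem_univ c) ?_).symm
        rw [if_pos rfl, if_neg hj]
    have h4 : ∀ i : CC S, (b : ℝ≥0∞)⁻¹ * (∑ k' : Fin b, if i = c then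
          (if k' = k then (uni.map fun θ => cen b k' + θ / b) (s i) else 0)
          else (uni.map fun θ => cen b k' + θ / b) (s i)) =
        (if i = c then (b : ℝ≥0∞)⁻¹ else 1) *
          (if i = c then uni.map (fun θ => cen b k + θ / b) else uni : Measure ℝ) (s i) := by
      intro i
      by_cases hi : i = c
      · simp only [if_pos hi]
        rw [Finset.sum_ite_eq' univ k, if_pos (mem_univ k)]
      · simp only [if_neg hi]
        rw [one_mul]
        conv_rhs => rw [uni_split hb]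
        rw [Measure.smul_apply, Measure.finsetSum_apply, smul_eq_mul]
    rw [h3, card_letters, ENNReal.inv_pow, ← Finset.card_univ, ← Finset.prod_const,
      ← Finset.prod_mul_distrib, Finset.prod_congr rfl fun i _ => h4 i, Finset.prod_mul_distrib,
      Finset.prod_ite_eq' univ c, if_pos (mem_univ c), ← mul_assoc,
      ENNReal.mul_inv_cancel hb0 hbt, one_mul]
  rw [← hR, hL, smul_smul, ENNReal.inv_mul_cancel hb0 hbt, one_smul]

theorem rpow_depth (hb : 0 < b) (m : ℕ) : (2 : ℝ) ^ (-((m : ℝ) * Real.logb 2 b)) = ((b : ℝ)⁻¹) ^ m := by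
  have hb' : (0 : ℝ) < b := by exact_mod_cast hb
  rw [Real.rpow_neg two_pos.le, mul_comm, Real.rpow_mul two_pos.le,
    Real.rpow_logb two_pos (by norm_num) hb', Real.rpow_natCast, inv_pow]

lemma update_eq (θ : CC S → ℝ) (c : CC S) (y : ℝ) :
    Function.update θ c y = Function.update θ c 0 + Pi.single c y := by
  funext i
  by_cases hi : i = c
  · subst hi; simp
  · simp [hi]

/-- the cell of the root `c` in the group. -/
theorem mk_map (hb : 0 < b) (m : ℕ) (c : CC S) (k : Fin b) :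
    (mk S b c k).map (fun θ => vv S (((b : ℝ)⁻¹) ^ m • θ)) =
      cv (ovl S b m c) (dlaw c.ne (m * Real.logb 2 b) b k) := by
  have hF : Measurable fun θ : CC S → ℝ => vv S (((b : ℝ)⁻¹) ^ m • θ) := by
    refine (measurable_vv S).comp ?_
    fun_prop
  unfold mk cv ovl dlaw
  rw [Measure.map_map hF (measurable_mk b c k), Measure.map_prod_map _ _ (measurable_ovl S b m c)
      (measurable_dlaw c.ne _ b k), Measure.map_map measurable_mul₂
      ((measurable_ovl S b m c).prodMap (measurable_dlaw c.ne _ b k))]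
  congr 1
  funext p
  simp only [Function.comp_apply, Prod.map_fst, Prod.map_snd]
  rw [update_eq, smul_add, vv_add, rpow_depth hb]
  congr 1
  rw [← vv_single]
  congr 1
  funext i
  by_cases hi : i = c
  · subst hi; simp
  · simp [hi]

/-- **The marginal of a level family is a one-root family.** -/
theorem marg_tau (hb : 0 < b) (ν : Measure (ModSpace n)) [IsFiniteMeasure ν]
    (κ : Measure (SLR n)) [IsFiniteMeasure κ] (m : ℕ) (c : CC S) :
    lb (fun j : CC S → Fin b => j c) (tau ν κ S b m) =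
      lab ν (cv κ (ovl S b m c)) c.ne (m * Real.logb 2 b) b := by
  classical
  funext k
  have hF : Measurable fun θ : CC S → ℝ => vv S (((b : ℝ)⁻¹) ^ m • θ) := by
    refine (measurable_vv S).comp ?_
    fun_prop
  have hm : ∀ j : CC S → Fin b, Measurable fun θ : CC S → ℝ => cenv j + (b : ℝ)⁻¹ • θ := by
    intro j; fun_prop
  have h1 : ∀ j : CC S → Fin b, vlaw S b (m + 1) (((b : ℝ)⁻¹) ^ m • cenv j) =
      ((uniC S).map (fun θ => cenv j + (b : ℝ)⁻¹ • θ)).map fun θ => vv S (((b : ℝ)⁻¹) ^ m • θ) := by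
    intro j
    rw [Measure.map_map hF (hm j), vlaw]
    congr 1
    funext θ
    simp only [Function.comp_apply]
    congr 1
    rw [smul_add, smul_smul, ← pow_succ]
  unfold lb tau
  rw [← Finset.smul_sum, ← stp_sum, Finset.sum_congr rfl fun j _ => h1 j,
    ← Measure.map_finset_sum hF.aemeasurable, ← stp_smul, ← Measure.map_smul, sum_cells hb c k,
    Measure.map_smul, mk_map hb, stp_smul, lab, ← stp_stp, stp_stp ν κ]

end Marg

section PrLb

variable {ι ι' Y : Type*} [Fintype ι] [Fintype ι'] [DecidableEq ι'] [MeasurableSpace Y]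

/-- posterior of a function of the label. -/
theorem pr_lb (g : ι → ι') (ρ : ι → Measure Y) [∀ c, IsFiniteMeasure (ρ c)] (k : ι') :
    ∀ᵐ y ∂(tot ρ), pr (lb g ρ) k y = ∑ c with g c = k, pr ρ c y := by
  have hm : Measurable fun y => ENNReal.ofReal (∑ c with g c = k, pr ρ c y) :=
    (Finset.measurable_sum _ fun c _ => measurable_pr ρ c).ennreal_ofReal
  have h1 : lb g ρ k = (tot ρ).withDensity fun y => ENNReal.ofReal (∑ c with g c = k, pr ρ c y) := by
    ext A hA
    rw [lb, Measure.finsetSum_apply, withDensity_apply _ hA]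
    have : ∀ y, ENNReal.ofReal (∑ c with g c = k, pr ρ c y) =
        ∑ c with g c = k, ENNReal.ofReal (pr ρ c y) :=
      fun y => ENNReal.ofReal_sum_of_nonneg fun c _ => pr_nonneg ρ c y
    simp_rw [this]
    rw [lintegral_finsetSum _ fun c _ => (measurable_pr ρ c).ennreal_ofReal]
    exact Finset.sum_congr rfl fun c _ => apply_eq ρ c A
  have h2 := Ne2_567.rn_of_eq hm h1
  filter_upwards [h2] with y hy
  change ((lb g ρ k).rnDeriv (tot (lb g ρ)) y).toReal = _
  rw [tot_lb, hy, ENNReal.toReal_ofReal]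
  exact Finset.sum_nonneg fun c _ => pr_nonneg ρ c y

end PrLb

end Crest.Agent.R014.NS_373
end
end

-- ▼ part R014/NSlab5_373

/-!
Row 14, block D, noise formalism (#3844), section SLAB (helper373, task 1063), part 5:
**lower bound (LB)**: the mass bound for all digit words forces, for every sub-measure `νA ≤ ν`,
`∑_{i<T} ∑_c ∫ (posterior spread of the digit i of the root c) ≥ c₁ T (νA(univ) - B)`.
-/

set_option autoImplicit false

open MeasureTheory Crest.NumberTheoryR.Packets Finset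
open scoped ENNReal

noncomputable section

namespace Crest.Agent.R014.NS_373

open Ms_667 Nd_837 Ne1_567 NSlab_373 NScC_395 NScD_395
open Ne2_567 (lb tot_lb)

variable {n : ℕ} {S : Finset (Fin n)} {b : ℕ}

theorem stp_univ (ν : Measure (ModSpace n)) [SFinite ν] (κ : Measure (SLR n)) [IsProbabilityMeasure κ] :
    stp ν κ Set.univ = ν Set.univ := by
  unfold stp
  rw [Measure.map_apply measurable_act₂ MeasurableSet.univ, Set.preimage_univ, ← Set.univ_prod_univ,
    Measure.prod_prod, measure_univ (μ := κ), mul_one]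

theorem tot_rho_univ (hb : 0 < b) (ν : Measure (ModSpace n)) [IsFiniteMeasure ν]
    (κ : Measure (SLR n)) [IsProbabilityMeasure κ] (T : ℕ) :
    tot (rho ν κ S b T) Set.univ = ν Set.univ := by
  have w : Fin T → CC S → Fin b := fun _ _ => ⟨0, hb⟩
  have h := sum_cl_rho (S := S) hb ν κ T 0 (Nat.zero_le T) w
  rw [cl_zero, pow_zero, one_smul] at h
  change tot (rho ν κ S b T) = _ at h
  rw [h, stp_univ, stp_univ]

theorem rho_mono {ν νA : Measure (ModSpace n)} [SFinite ν] [SFinite νA] (h : νA ≤ ν)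
    (κ : Measure (SLR n)) [SFinite κ] (T : ℕ) (w : Fin T → CC S → Fin b) :
    rho νA κ S b T w ≤ rho ν κ S b T w := by
  unfold rho
  refine Measure.le_iff.2 fun A _ => ?_
  rw [Measure.smul_apply, Measure.smul_apply]
  exact mul_le_mul_right (stp_mono (stp_mono h κ) _ A) _

theorem tau_mono {ν νA : Measure (ModSpace n)} [SFinite ν] [SFinite νA] (h : νA ≤ ν)
    (κ : Measure (SLR n)) [SFinite κ] (m : ℕ) (j : CC S → Fin b) :
    tau νA κ S b m j ≤ tau ν κ S b m j := by
  unfold tau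
  refine Measure.le_iff.2 fun A _ => ?_
  rw [Measure.smul_apply, Measure.smul_apply]
  exact mul_le_mul_right (stp_mono (stp_mono h κ) _ A) _

/-- noise seen by the digit `m` of the root `c`: the noise `κ` and the other crossing roots. -/
abbrev kapc (κ : Measure (SLR n)) (S : Finset (Fin n)) (b m : ℕ) (c : CC S) : Measure (SLR n) :=
  cv κ (ovl S b m c)

/-- the one-root family of the digit `m` of the root `c`. -/
abbrev labc (ν : Measure (ModSpace n)) (κ : Measure (SLR n)) (S : Finset (Fin n)) (b m : ℕ)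
    (c : CC S) : Fin b → Measure (ModSpace n) :=
  lab ν (kapc κ S b m c) c.ne (m * Real.logb 2 b) b

theorem lintegral_PhiS (hb : 0 < b) {ν νA : Measure (ModSpace n)} [IsFiniteMeasure ν]
    [IsFiniteMeasure νA] (h : νA ≤ ν) (κ : Measure (SLR n)) [IsProbabilityMeasure κ] (m : ℕ)
    (hfin : ∀ (ν : Measure (ModSpace n)) [IsFiniteMeasure ν] (c : CC S) (k : Fin b),
      IsFiniteMeasure (labc ν κ S b m c k)) :
    ∫⁻ y, ENNReal.ofReal (PhiS fun j => pr (tau ν κ S b m) j y) ∂(tot (tau νA κ S b m)) =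
      ∑ c : CC S, ∫⁻ y, ENNReal.ofReal (ps (labc ν κ S b m c) y) ∂(tot (labc νA κ S b m c)) := by
  classical
  have hle : tot (tau νA κ S b m) ≤ tot (tau ν κ S b m) := tot_mono fun j => tau_mono h κ m j
  have htot : ∀ (ν : Measure (ModSpace n)) [IsFiniteMeasure ν] (c : CC S),
      tot (labc ν κ S b m c) = tot (tau ν κ S b m) := by
    intro ν _ c
    exact (congrArg tot (marg_tau hb ν κ m c)).symm.trans (tot_lb _ _)
  have key : ∀ c : CC S, ∀ᵐ y ∂(tot (tau νA κ S b m)),
      |spr (cen b) (mg c fun j => pr (tau ν κ S b m) j y)| = ps (labc ν κ S b m c) y := by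
    intro c
    have h1 : ∀ᵐ y ∂(tot (tau ν κ S b m)), ∀ k,
        pr (lb (fun j : CC S → Fin b => j c) (tau ν κ S b m)) k y =
          ∑ j with (fun j : CC S → Fin b => j c) j = k, pr (tau ν κ S b m) j y :=
      ae_all_iff.2 fun k => pr_lb _ _ k
    have h2 : ∀ᵐ y ∂(tot (labc ν κ S b m c)), ∀ k,
        Ne3_567.pv (labc ν κ S b m c) k y = pr (labc ν κ S b m c) k y := by
      have : ∀ k, IsFiniteMeasure (labc ν κ S b m c k) := hfin ν c
      exact Ne3_567.pv_eq _
    rw [htot ν c] at h2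
    filter_upwards [hle.absolutelyContinuous.ae_le h1, hle.absolutelyContinuous.ae_le h2] with y hy hy2
    have h3 : (mg c fun j => pr (tau ν κ S b m) j y) = fun k => Ne3_567.pv (labc ν κ S b m c) k y := by
      funext k
      rw [hy2 k]
      have h4 := hy k
      rw [marg_tau hb ν κ m c] at h4
      rw [h4, mg]
    rw [h3, abs_of_nonneg (spr_nonneg fun k => Ne3_567.pv_nonneg _ k y)]
    rfl
  have h5 : ∀ᵐ y ∂(tot (tau νA κ S b m)), ENNReal.ofReal (PhiS fun j => pr (tau ν κ S b m) j y) =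
      ∑ c : CC S, ENNReal.ofReal (ps (labc ν κ S b m c) y) := by
    filter_upwards [ae_all_iff.2 key] with y hy
    unfold PhiS
    rw [ENNReal.ofReal_sum_of_nonneg fun c _ => abs_nonneg _]
    exact Finset.sum_congr rfl fun c _ => by rw [hy c]
  have : NeZero b := ⟨hb.ne'⟩
  rw [lintegral_congr_ae h5, lintegral_finsetSum _ fun c _ => (measurable_ps _).ennreal_ofReal]
  exact Finset.sum_congr rfl fun c _ => by rw [htot νA c]

instance (ν : Measure (ModSpace n)) (κ : Measure (SLR n)) [IsFiniteMeasure ν] [IsFiniteMeasure κ]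
    {i j : Fin n} (hij : i ≠ j) (r : ℝ) (b : ℕ) (d : Fin b) :
    IsFiniteMeasure (lab ν κ hij r b d) := by
  rw [lab_eq_gl]
  infer_instance

/-- **Lower bound (LB)**. -/
theorem LB (hb : 0 < b) (S : Finset (Fin n)) {ν νA : Measure (ModSpace n)} [IsFiniteMeasure ν]
    [IsFiniteMeasure νA] (hνA : νA ≤ ν) (κ : Measure (SLR n)) [IsProbabilityMeasure κ] (T : ℕ)
    (lam : Measure (ModSpace n)) (M : ℝ≥0∞) (h : ∀ w, rho ν κ S b T w ≤ M • lam) {τ : ℝ} (hτ : 0 < τ)
    (c₁ : ℝ) :
    ENNReal.ofReal (c₁ * T) * νA Set.univ ≤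
      ∑ i : Fin T, ∑ c : CC S,
        ∫⁻ y, ENNReal.ofReal (ps (labc ν κ S b i c) y) ∂(tot (labc νA κ S b i c)) +
      ENNReal.ofReal (c₁ * T) * (ENNReal.ofReal τ⁻¹ * (M * lam Set.univ) +
        ENNReal.ofReal (√τ * Real.exp (KS S b * √(T * (c₁ * T)))) * ν Set.univ) := by
  have hne : Nonempty (CC S → Fin b) := ⟨fun _ => ⟨0, hb⟩⟩
  have h1 := joint (rho ν κ S b T) lam M h (Φ := PhiS) measurable_PhiS (K := KS S b)
    (κ := c₁ * T) hτ KS_nonneg PhiS_nonneg (sqrt_bound hb)
  have h2 := lower_trans (rho ν κ S b T) (rho νA κ S b T) (fun w => rho_mono hνA κ T w)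
    measurable_PhiS PhiS_nonneg h1 (fun i => tau ν κ S b i) (fun i => tau νA κ S b i)
    (fun i j => tau_mono hνA κ i j) (trans_rho hb ν νA κ T)
  rw [tot_rho_univ hb, tot_rho_univ hb] at h2
  refine h2.trans (add_le_add (le_of_eq ?_) le_rfl)
  refine Finset.sum_congr rfl fun i _ => ?_
  exact lintegral_PhiS hb hνA κ i (fun ν _ c k => inferInstance)

/-- **Lower bound (LB)**, real form. -/
theorem LBr (hb : 0 < b) (S : Finset (Fin n)) {ν νA : Measure (ModSpace n)} [IsFiniteMeasure ν]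
    [IsFiniteMeasure νA] (hνA : νA ≤ ν) (κ : Measure (SLR n)) [IsProbabilityMeasure κ] (T : ℕ)
    (lam : Measure (ModSpace n)) [IsFiniteMeasure lam] {M : ℝ} (hM : 0 ≤ M)
    (h : ∀ w, rho ν κ S b T w ≤ ENNReal.ofReal M • lam) {τ : ℝ} (hτ : 0 < τ) {c₁ : ℝ} (hc : 0 ≤ c₁) :
    c₁ * T * (νA.real Set.univ - (τ⁻¹ * (M * lam.real Set.univ) +
        √τ * Real.exp (KS S b * √(T * (c₁ * T))) * ν.real Set.univ)) ≤
      ∑ i : Fin T, ∑ c : CC S, ∫ y, ps (labc ν κ S b i c) y ∂(tot (labc νA κ S b i c)) := by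
  have : NeZero b := ⟨hb.ne'⟩
  have hcT : 0 ≤ c₁ * T := mul_nonneg hc (Nat.cast_nonneg _)
  have h1 := LB hb S hνA κ T lam (ENNReal.ofReal M) h hτ c₁
  have h2 : ∀ (i : Fin T) (c : CC S),
      ∫⁻ y, ENNReal.ofReal (ps (labc ν κ S b i c) y) ∂(tot (labc νA κ S b i c)) =
      ENNReal.ofReal (∫ y, ps (labc ν κ S b i c) y ∂(tot (labc νA κ S b i c))) := by
    intro i c
    rw [ofReal_integral_eq_lintegral_ofReal]
    · exact bdd_integrable (measurable_ps _) (abs_ps_le _)
    · exact Filter.Eventually.of_forall fun y => ps_nonneg _ y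
  have h3 : ∀ (i : Fin T) (c : CC S),
      0 ≤ ∫ y, ps (labc ν κ S b i c) y ∂(tot (labc νA κ S b i c)) := fun i c =>
    integral_nonneg fun y => ps_nonneg _ y
  have h4 : ∑ i : Fin T, ∑ c : CC S,
      ∫⁻ y, ENNReal.ofReal (ps (labc ν κ S b i c) y) ∂(tot (labc νA κ S b i c)) =
      ENNReal.ofReal (∑ i : Fin T, ∑ c : CC S,
        ∫ y, ps (labc ν κ S b i c) y ∂(tot (labc νA κ S b i c))) := by
    rw [ENNReal.ofReal_sum_of_nonneg fun i _ => Finset.sum_nonneg fun c _ => h3 i c]
    refine Finset.sum_congr rfl fun i _ => ?_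
    rw [ENNReal.ofReal_sum_of_nonneg fun c _ => h3 i c]
    exact Finset.sum_congr rfl fun c _ => h2 i c
  have e1 : νA Set.univ = ENNReal.ofReal (νA.real Set.univ) := (ofReal_measureReal (by finiteness)).symm
  have e2 : ν Set.univ = ENNReal.ofReal (ν.real Set.univ) := (ofReal_measureReal (by finiteness)).symm
  have e3 : lam Set.univ = ENNReal.ofReal (lam.real Set.univ) :=
    (ofReal_measureReal (by finiteness)).symm
  have hexp : 0 ≤ √τ * Real.exp (KS S b * √(T * (c₁ * T))) := by positivity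
  have hτ' : 0 ≤ τ⁻¹ := by positivity
  rw [h4, e1, e2, e3, ← ENNReal.ofReal_mul hM, ← ENNReal.ofReal_mul hτ', ← ENNReal.ofReal_mul hexp,
    ← ENNReal.ofReal_add (by positivity) (by positivity), ← ENNReal.ofReal_mul hcT,
    ← ENNReal.ofReal_mul hcT, ← ENNReal.ofReal_add (Finset.sum_nonneg fun i _ =>
      Finset.sum_nonneg fun c _ => h3 i c) (by positivity),
    ENNReal.ofReal_le_ofReal_iff (add_nonneg (Finset.sum_nonneg fun i _ =>
      Finset.sum_nonneg fun c _ => h3 i c) (by positivity))] at h1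
  linarith

end Crest.Agent.R014.NS_373
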