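import Mathlib
import Crest.Agent.R014.Nd3_837
import Crest.Agent.R014.NScE_395
import Crest.Agent.R014.NScH_395
import Crest.Agent.R014.NScG_458

-- ▼ part R014/Prod1_108
section

/-!
Row 14, block D, section 4 (PROD), helper108: near independence of two bounded observables which
have a common noise variable `z`, when each of them hardly depends on `z`.
-/

set_option autoImplicit false

namespace Crest.Agent.R014.Prod_108

open MeasureTheory

variable {X Z S T : Type*} [MeasurableSpace X] [MeasurableSpace Z] [MeasurableSpace S]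
  [MeasurableSpace T]

theorem integrable_bdd {Y : Type*} [MeasurableSpace Y] {μ : Measure Y} [IsFiniteMeasure μ]
    {f : Y → ℝ} (hf : Measurable f) {M : ℝ} (hM : ∀ y, |f y| ≤ M) : Integrable f μ :=
  Integrable.of_bound hf.aestronglyMeasurable M (Filter.Eventually.of_forall hM)

/-- The inner inequality, with the outer variable frozen. -/
theorem prod_inner {ν : Measure Z} {σ : Measure S} {τ : Measure T} [IsProbabilityMeasure ν]
    [IsProbabilityMeasure σ] [IsProbabilityMeasure τ] {A : Z × S → ℝ} {B : Z × T → ℝ}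
    {A1 : S → ℝ} {B1 : T → ℝ} (hA : Measurable A) (hB : Measurable B) (hA1 : Measurable A1)
    (hB1 : Measurable B1) {M : ℝ} (mA : ∀ p, |A p| ≤ M) (mB : ∀ p, |B p| ≤ M)
    (mA1 : ∀ p, |A1 p| ≤ M) (mB1 : ∀ p, |B1 p| ≤ M) :
    |(∫ z, (∫ s, A (z, s) ∂σ) * (∫ t, B (z, t) ∂τ) ∂ν)
        - (∫ z, ∫ s, A (z, s) ∂σ ∂ν) * (∫ z, ∫ t, B (z, t) ∂τ ∂ν)|
      ≤ 2 * M * ((∫ p, |A p - A1 p.2| ∂(ν.prod σ)) + ∫ p, |B p - B1 p.2| ∂(ν.prod τ)) := by
  have hM : 0 ≤ M := by
    obtain ⟨z⟩ := nonempty_of_isProbabilityMeasure ν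
    obtain ⟨s⟩ := nonempty_of_isProbabilityMeasure σ
    exact (abs_nonneg _).trans (mA (z, s))
  set α : Z → ℝ := fun z => ∫ s, A (z, s) ∂σ with hα
  set β : Z → ℝ := fun z => ∫ t, B (z, t) ∂τ with hβ
  set α1 : ℝ := ∫ s, A1 s ∂σ with hα1
  set β1 : ℝ := ∫ t, B1 t ∂τ with hβ1
  have iA : ∀ z, Integrable (fun s => A (z, s)) σ := fun z =>
    integrable_bdd (hA.comp measurable_prodMk_left) fun s => mA (z, s)
  have iB : ∀ z, Integrable (fun t => B (z, t)) τ := fun z =>
    integrable_bdd (hB.comp measurable_prodMk_left) fun t => mB (z, t)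
  have iA1 : Integrable A1 σ := integrable_bdd hA1 mA1
  have iB1 : Integrable B1 τ := integrable_bdd hB1 mB1
  have bα : ∀ z, |α z| ≤ M := fun z => by
    have := norm_integral_le_of_norm_le_const (μ := σ) (f := fun s => A (z, s)) (C := M)
      (Filter.Eventually.of_forall fun s => mA (z, s))
    simpa using this
  have bβ : ∀ z, |β z| ≤ M := fun z => by
    have := norm_integral_le_of_norm_le_const (μ := τ) (f := fun t => B (z, t)) (C := M)
      (Filter.Eventually.of_forall fun t => mB (z, t))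
    simpa using this
  have bα1 : |α1| ≤ M := by
    have := norm_integral_le_of_norm_le_const (μ := σ) (f := A1) (C := M)
      (Filter.Eventually.of_forall fun s => mA1 s)
    simpa using this
  have bβ1 : |β1| ≤ M := by
    have := norm_integral_le_of_norm_le_const (μ := τ) (f := B1) (C := M)
      (Filter.Eventually.of_forall fun t => mB1 t)
    simpa using this
  have mα : Measurable α := (StronglyMeasurable.integral_prod_right
    (f := fun z s => A (z, s)) hA.stronglyMeasurable).measurable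
  have mβ : Measurable β := (StronglyMeasurable.integral_prod_right
    (f := fun z t => B (z, t)) hB.stronglyMeasurable).measurable
  have iα : Integrable α ν := integrable_bdd mα bα
  have iβ : Integrable β ν := integrable_bdd mβ bβ
  have iαβ : Integrable (fun z => α z * β z) ν := integrable_bdd (M := M * M) (mα.mul mβ) fun z => by
    rw [abs_mul]
    exact mul_le_mul (bα z) (bβ z) (abs_nonneg _) hM
  have bαb : |∫ z, α z ∂ν| ≤ M := by
    have := norm_integral_le_of_norm_le_const (μ := ν) (f := α) (C := M)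
      (Filter.Eventually.of_forall fun z => bα z)
    simpa using this
  -- the two basic distances
  have dα : ∫ z, |α z - α1| ∂ν ≤ ∫ p, |A p - A1 p.2| ∂(ν.prod σ) := by
    have iAA : Integrable (fun p : Z × S => |A p - A1 p.2|) (ν.prod σ) :=
      integrable_bdd (M := M + M) ((hA.sub (hA1.comp measurable_snd)).abs) fun p => by
        rw [abs_abs]
        exact (abs_sub _ _).trans (add_le_add (mA p) (mA1 p.2))
    rw [integral_prod _ iAA]
    refine integral_mono_of_nonneg (Filter.Eventually.of_forall fun z => abs_nonneg _)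
      iAA.integral_prod_left (Filter.Eventually.of_forall fun z => ?_)
    simp only [hα, hα1]
    rw [← integral_sub (iA z) iA1]
    exact abs_integral_le_integral_abs
  have dβ : ∫ z, |β z - β1| ∂ν ≤ ∫ p, |B p - B1 p.2| ∂(ν.prod τ) := by
    have iBB : Integrable (fun p : Z × T => |B p - B1 p.2|) (ν.prod τ) :=
      integrable_bdd (M := M + M) ((hB.sub (hB1.comp measurable_snd)).abs) fun p => by
        rw [abs_abs]
        exact (abs_sub _ _).trans (add_le_add (mB p) (mB1 p.2))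
    rw [integral_prod _ iBB]
    refine integral_mono_of_nonneg (Filter.Eventually.of_forall fun z => abs_nonneg _)
      iBB.integral_prod_left (Filter.Eventually.of_forall fun z => ?_)
    simp only [hβ, hβ1]
    rw [← integral_sub (iB z) iB1]
    exact abs_integral_le_integral_abs
  have idα : Integrable (fun z => |α z - α1|) ν := (iα.sub (integrable_const _)).abs
  have idβ : Integrable (fun z => |β z - β1|) ν := (iβ.sub (integrable_const _)).abs
  have eα : |(∫ z, α z ∂ν) - α1| ≤ ∫ z, |α z - α1| ∂ν := by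
    have h : (∫ z, α z ∂ν) - α1 = ∫ z, (α z - α1) ∂ν := by
      rw [integral_sub iα (integrable_const _)]
      simp
    rw [h]
    exact abs_integral_le_integral_abs
  have eβ : |(∫ z, β z ∂ν) - β1| ≤ ∫ z, |β z - β1| ∂ν := by
    have h : (∫ z, β z ∂ν) - β1 = ∫ z, (β z - β1) ∂ν := by
      rw [integral_sub iβ (integrable_const _)]
      simp
    rw [h]
    exact abs_integral_le_integral_abs
  have h1 : |(∫ z, α z * β z ∂ν) - α1 * β1| ≤
      M * ((∫ z, |α z - α1| ∂ν) + ∫ z, |β z - β1| ∂ν) := by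
    have h : (∫ z, α z * β z ∂ν) - α1 * β1 = ∫ z, (α z * β z - α1 * β1) ∂ν := by
      rw [integral_sub iαβ (integrable_const _)]
      simp
    have e2 : M * ((∫ z, |α z - α1| ∂ν) + ∫ z, |β z - β1| ∂ν)
        = ∫ z, (M * |α z - α1| + M * |β z - β1|) ∂ν := by
      rw [integral_add (idα.const_mul _) (idβ.const_mul _), integral_const_mul,
        integral_const_mul, mul_add]
    rw [h, e2]
    refine abs_integral_le_integral_abs.trans (integral_mono_of_nonneg
      (Filter.Eventually.of_forall fun z => abs_nonneg _)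
      ((idα.const_mul _).add (idβ.const_mul _)) (Filter.Eventually.of_forall fun z => ?_))
    show |α z * β z - α1 * β1| ≤ M * |α z - α1| + M * |β z - β1|
    have e : α z * β z - α1 * β1 = (α z - α1) * β z + α1 * (β z - β1) := by ring
    rw [e]
    refine (abs_add_le _ _).trans (add_le_add ?_ ?_)
    · rw [abs_mul, mul_comm]
      exact mul_le_mul_of_nonneg_right (bβ z) (abs_nonneg _)
    · rw [abs_mul]
      exact mul_le_mul_of_nonneg_right bα1 (abs_nonneg _)
  have h2 : |(∫ z, α z ∂ν) * (∫ z, β z ∂ν) - α1 * β1| ≤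
      M * ((∫ z, |α z - α1| ∂ν) + ∫ z, |β z - β1| ∂ν) := by
    have e : (∫ z, α z ∂ν) * (∫ z, β z ∂ν) - α1 * β1
        = ((∫ z, α z ∂ν) - α1) * β1 + (∫ z, α z ∂ν) * ((∫ z, β z ∂ν) - β1) := by ring
    rw [e, mul_add]
    refine (abs_add_le _ _).trans (add_le_add ?_ ?_)
    · rw [abs_mul, mul_comm]
      exact mul_le_mul bβ1 eα (abs_nonneg _) hM
    · rw [abs_mul]
      exact mul_le_mul bαb eβ (abs_nonneg _) hM
  have h3 : |(∫ z, α z * β z ∂ν) - (∫ z, α z ∂ν) * (∫ z, β z ∂ν)| ≤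
      2 * M * ((∫ z, |α z - α1| ∂ν) + ∫ z, |β z - β1| ∂ν) := by
    have := abs_sub_le (∫ z, α z * β z ∂ν) (α1 * β1) ((∫ z, α z ∂ν) * (∫ z, β z ∂ν))
    rw [abs_sub_comm (α1 * β1)] at this
    linarith
  refine h3.trans ?_
  exact mul_le_mul_of_nonneg_left (add_le_add dα dβ) (by linarith)

/-- **Near independence.** `A (x, z, s)` and `B (x, z, t)` hardly depend on `z`, so their product
averaged over `(z, s, t)` is the product of the averages, for most `x`. -/
theorem prod_abs {μ : Measure X} {ν : Measure Z} {σ : Measure S} {τ : Measure T}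
    [IsProbabilityMeasure μ] [IsProbabilityMeasure ν] [IsProbabilityMeasure σ]
    [IsProbabilityMeasure τ] {A : X × Z × S → ℝ} {B : X × Z × T → ℝ} {A1 : X × S → ℝ}
    {B1 : X × T → ℝ} (hA : Measurable A) (hB : Measurable B) (hA1 : Measurable A1)
    (hB1 : Measurable B1) {M a b : ℝ} (mA : ∀ p, |A p| ≤ M) (mB : ∀ p, |B p| ≤ M)
    (mA1 : ∀ p, |A1 p| ≤ M) (mB1 : ∀ p, |B1 p| ≤ M)
    (ha : ∫ p, |A p - A1 (p.1, p.2.2)| ∂(μ.prod (ν.prod σ)) ≤ a)
    (hb : ∫ p, |B p - B1 (p.1, p.2.2)| ∂(μ.prod (ν.prod τ)) ≤ b) :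
    ∫ x, |(∫ z, (∫ s, A (x, z, s) ∂σ) * (∫ t, B (x, z, t) ∂τ) ∂ν)
        - (∫ z, ∫ s, A (x, z, s) ∂σ ∂ν) * (∫ z, ∫ t, B (x, z, t) ∂τ ∂ν)| ∂μ
      ≤ 2 * M * (a + b) := by
  have hM : 0 ≤ M := by
    obtain ⟨x⟩ := nonempty_of_isProbabilityMeasure μ
    obtain ⟨z⟩ := nonempty_of_isProbabilityMeasure ν
    obtain ⟨s⟩ := nonempty_of_isProbabilityMeasure σ
    exact (abs_nonneg _).trans (mA (x, z, s))
  have iAA : Integrable (fun p : X × Z × S => |A p - A1 (p.1, p.2.2)|) (μ.prod (ν.prod σ)) :=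
    integrable_bdd (M := M + M) ((hA.sub (hA1.comp
      (measurable_fst.prodMk (measurable_snd.comp measurable_snd)))).abs) fun p => by
      rw [abs_abs]
      exact (abs_sub _ _).trans (add_le_add (mA p) (mA1 _))
  have iBB : Integrable (fun p : X × Z × T => |B p - B1 (p.1, p.2.2)|) (μ.prod (ν.prod τ)) :=
    integrable_bdd (M := M + M) ((hB.sub (hB1.comp
      (measurable_fst.prodMk (measurable_snd.comp measurable_snd)))).abs) fun p => by
      rw [abs_abs]
      exact (abs_sub _ _).trans (add_le_add (mB p) (mB1 _))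
  rw [integral_prod _ iAA] at ha
  rw [integral_prod _ iBB] at hb
  have key : ∀ x, |(∫ z, (∫ s, A (x, z, s) ∂σ) * (∫ t, B (x, z, t) ∂τ) ∂ν)
        - (∫ z, ∫ s, A (x, z, s) ∂σ ∂ν) * (∫ z, ∫ t, B (x, z, t) ∂τ ∂ν)|
      ≤ 2 * M * ((∫ p, |A (x, p) - A1 (x, p.2)| ∂(ν.prod σ))
          + ∫ p, |B (x, p) - B1 (x, p.2)| ∂(ν.prod τ)) := fun x =>
    prod_inner (hA.comp measurable_prodMk_left) (hB.comp measurable_prodMk_left)
      (hA1.comp measurable_prodMk_left) (hB1.comp measurable_prodMk_left)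
      (fun p => mA (x, p)) (fun p => mB (x, p)) (fun p => mA1 (x, p)) (fun p => mB1 (x, p))
  calc _ ≤ ∫ x, 2 * M * ((∫ p, |A (x, p) - A1 (x, p.2)| ∂(ν.prod σ))
          + ∫ p, |B (x, p) - B1 (x, p.2)| ∂(ν.prod τ)) ∂μ :=
        integral_mono_of_nonneg (Filter.Eventually.of_forall fun x => abs_nonneg _)
          ((iAA.integral_prod_left.add iBB.integral_prod_left).const_mul _)
          (Filter.Eventually.of_forall key)
    _ = 2 * M * ((∫ x, ∫ p, |A (x, p) - A1 (x, p.2)| ∂(ν.prod σ) ∂μ)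
          + ∫ x, ∫ p, |B (x, p) - B1 (x, p.2)| ∂(ν.prod τ) ∂μ) := by
        rw [integral_const_mul, integral_add iAA.integral_prod_left iBB.integral_prod_left]
    _ ≤ 2 * M * (a + b) := mul_le_mul_of_nonneg_left (add_le_add ha hb) (by linarith)

end Crest.Agent.R014.Prod_108
end

-- ▼ part R014/Prod2_108
section

/-!
Row 14, block D, section 4 (PROD), helper108: the posterior spread of one digit hardly depends on
the noise, and the near independence of the spreads of two roots with a common noise.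
-/

set_option autoImplicit false

open MeasureTheory Finset Crest.NumberTheoryR.Packets
open Crest.Agent.R014.Nd_837 Crest.Agent.R014.Ne1_567 Crest.Agent.R014.NScB_395
open Crest.Agent.R014.NScC_395 Crest.Agent.R014.NScD_395 Crest.Agent.R014.NScE_395
open Crest.Agent.R014.Ms_667
open Crest.Agent.R014.Ne3_567 (pv measurable_pv pv_nonneg sum_pv pv_le_one sum_abs_pv_le_two)
open scoped ENNReal

noncomputable section

namespace Crest.Agent.R014.Prod_108

variable {n : ℕ}

/-! ### the observation as a function of (x, ζ, s) -/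

/-- the observation `x ζ u(2^-r s)` -/
def ob {i j : Fin n} (hij : i ≠ j) (r : ℝ) (p : ModSpace n × SLR n × ℝ) : ModSpace n :=
  act p.1 (p.2.1 * uu hij ((2 : ℝ) ^ (-r) * p.2.2))

theorem measurable_ob {i j : Fin n} (hij : i ≠ j) (r : ℝ) : Measurable (ob (n := n) hij r) :=
  measurable_act₂.comp (measurable_fst.prodMk (measurable_mul₂.comp
    ((measurable_fst.comp measurable_snd).prodMk
      ((measurable_uuw hij r).comp (measurable_snd.comp measurable_snd)))))

theorem map_ob (μ : Measure (ModSpace n)) (κ : Measure (SLR n)) [IsProbabilityMeasure μ]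
    [IsProbabilityMeasure κ] {i j : Fin n} (hij : i ≠ j) (r : ℝ) :
    (μ.prod (κ.prod uni)).map (ob hij r) = stp μ (cv κ (dl hij r)) := by
  have h1 : κ.prod (dl hij r) = (κ.prod uni).map
      (Prod.map id fun θ : ℝ => (uu hij ((2 : ℝ) ^ (-r) * θ) : SLR n)) := by
    conv_lhs => rw [← Measure.map_id (μ := κ)]
    exact Measure.map_prod_map κ uni measurable_id (measurable_uuw hij r)
  have h2 : cv κ (dl hij r) = (κ.prod uni).map
      fun q : SLR n × ℝ => q.1 * uu hij ((2 : ℝ) ^ (-r) * q.2) := by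
    unfold cv
    rw [h1, Measure.map_map measurable_mul₂ (measurable_id.prodMap (measurable_uuw hij r))]
    rfl
  have hm : Measurable fun q : SLR n × ℝ => q.1 * uu hij ((2 : ℝ) ^ (-r) * q.2) :=
    measurable_mul₂.comp (measurable_fst.prodMk ((measurable_uuw hij r).comp measurable_snd))
  have h3 : μ.prod (cv κ (dl hij r)) = (μ.prod (κ.prod uni)).map
      (Prod.map id fun q : SLR n × ℝ => q.1 * uu hij ((2 : ℝ) ^ (-r) * q.2)) := by
    rw [h2]
    conv_lhs => rw [← Measure.map_id (μ := μ)]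
    exact Measure.map_prod_map μ (κ.prod uni) measurable_id hm
  unfold stp
  rw [h3, Measure.map_map measurable_act₂ (measurable_id.prodMap hm)]
  rfl

/-- double average of the spread over noise and window -/
theorem integral_ob (κ : Measure (SLR n)) [IsProbabilityMeasure κ]
    {i j : Fin n} (hij : i ≠ j) (r : ℝ) {b : ℕ} [NeZero b] (ρ : Fin b → Measure (ModSpace n))
    (x : ModSpace n) :
    ∫ z, ∫ s, ps ρ (ob hij r (x, z, s)) ∂uni ∂κ = Av ρ (cv κ (dl hij r)) x := by
  unfold Av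
  rw [integral_cv κ (dl hij r) (F := fun g => ps ρ (act x g)) ((measurable_ps ρ).comp
      (measurable_act₂.comp measurable_prodMk_left)) (M := 2) (fun g => abs_ps_le ρ _)]
  refine integral_congr_ae (Filter.Eventually.of_forall fun z => ?_)
  have hm : Measurable fun h : SLR n => ps ρ (act x (z * h)) :=
    (measurable_ps ρ).comp (measurable_act₂.comp (measurable_prodMk_left.comp
      (measurable_mul₂.comp measurable_prodMk_left)))
  simp only
  unfold dl
  rw [integral_map (measurable_uuw hij r).aemeasurable hm.aestronglyMeasurable]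
  rfl

/-! ### the spread hardly depends on the noise -/

/-- the reference average -/
def rf (μ : Measure (ModSpace n)) (κ1 : Measure (SLR n)) {i j : Fin n} (hij : i ≠ j) (r : ℝ)
    (b : ℕ) (q : ModSpace n × ℝ) : ℝ :=
  Av (lab μ κ1 hij r b) κ1 (act q.1 (uu hij ((2 : ℝ) ^ (-r) * q.2)))

theorem measurable_rf (μ : Measure (ModSpace n)) (κ1 : Measure (SLR n)) [IsProbabilityMeasure κ1]
    {i j : Fin n} (hij : i ≠ j) (r : ℝ) {b : ℕ} [NeZero b] :
    Measurable (rf μ κ1 hij r b) :=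
  (measurable_Av _ κ1).comp (measurable_act₂.comp (measurable_fst.prodMk
    ((measurable_uuw hij r).comp measurable_snd)))

theorem rf_nonneg (μ : Measure (ModSpace n)) (κ1 : Measure (SLR n)) [IsProbabilityMeasure κ1]
    {i j : Fin n} (hij : i ≠ j) (r : ℝ) {b : ℕ} [NeZero b] (q : ModSpace n × ℝ) :
    0 ≤ rf μ κ1 hij r b q := Av_nonneg _ _ _

theorem rf_le (μ : Measure (ModSpace n)) (κ1 : Measure (SLR n)) [IsProbabilityMeasure κ1]
    {i j : Fin n} (hij : i ≠ j) (r : ℝ) {b : ℕ} [NeZero b] (q : ModSpace n × ℝ) :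
    rf μ κ1 hij r b q ≤ 2 := Av_le _ _ _

/-- **(IND)** at the depth of the reference law. -/
theorem ind_ref {μ : Measure (ModSpace n)} [IsProbabilityMeasure μ] {κR κ1 : Measure (SLR n)}
    [IsProbabilityMeasure κR] [IsProbabilityMeasure κ1] {i j : Fin n} (hij : i ≠ j) (r : ℝ)
    {b : ℕ} [NeZero b] {E e' : ℝ}
    (h1 : ∫ p, ∑ d, |pv (lab μ κR hij r b) d p.1 - pv (lab μ κ1 hij r b) d (act p.1 p.2)|
      ∂((tot (lab μ κR hij r b)).prod κ1) ≤ E)
    (h3 : ∀ᵐ q ∂(κR.prod uni), TVle (κ1.map fun g =>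
      (uu hij ((2 : ℝ) ^ (-r) * q.2))⁻¹ * q.1 * uu hij ((2 : ℝ) ^ (-r) * q.2) * g) κ1 e') :
    ∫ p, |ps (lab μ κR hij r b) (ob hij r p) - rf μ κ1 hij r b (p.1, p.2.2)|
      ∂(μ.prod (κR.prod uni)) ≤ 4 * E + 4 * e' := by
  have hb : 0 < b := Nat.pos_of_ne_zero (NeZero.ne b)
  set ρR := lab μ κR hij r b with hρR
  set ρ1 := lab μ κ1 hij r b with hρ1
  have hlaw : tot ρR = (μ.prod (κR.prod uni)).map (ob hij r) := by
    rw [map_ob, NScD_395.tot_lab_eq μ κR hij r hb]
  have hP1 : IsProbabilityMeasure (tot ρR) := by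
    rw [hlaw]; exact Measure.isProbabilityMeasure_map (measurable_ob hij r).aemeasurable
  set P := (tot ρR).prod κ1 with hP
  set T : ModSpace n × SLR n → ℝ := fun p => |ps ρR p.1 - ps ρ1 (act p.1 p.2)| with hTdef
  have hTm : Measurable T :=
    (((measurable_ps ρR).comp measurable_fst).sub ((measurable_ps ρ1).comp measurable_act₂)).abs
  have hTb : ∀ p, |T p| ≤ 2 := by
    intro p
    rw [hTdef]
    simp only [abs_abs]
    rw [abs_le]
    constructor <;> linarith [ps_nonneg ρR p.1, ps_nonneg ρ1 (act p.1 p.2), ps_le ρR p.1,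
      ps_le ρ1 (act p.1 p.2)]
  have hTi : Integrable T P := bdd_integrable hTm hTb
  have hSm : Measurable fun p : ModSpace n × SLR n =>
      ∑ d, |pv ρR d p.1 - pv ρ1 d (act p.1 p.2)| :=
    Finset.measurable_sum _ fun d _ => (((measurable_pv ρR d).comp measurable_fst).sub
      ((measurable_pv ρ1 d).comp measurable_act₂)).abs
  have hSi : Integrable (fun p : ModSpace n × SLR n =>
      ∑ d, |pv ρR d p.1 - pv ρ1 d (act p.1 p.2)|) P := by
    refine bdd_integrable hSm (M := 2) fun p => ?_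
    rw [abs_of_nonneg (sum_nonneg fun c _ => abs_nonneg _)]
    exact sum_abs_pv_le_two ρR ρ1 _ _
  have hT : ∫ p, T p ∂P ≤ 4 * E := by
    refine (integral_mono hTi (hSi.const_mul 4) fun p => ps_lip ρR ρ1 p.1 (act p.1 p.2)).trans ?_
    rw [integral_const_mul]
    exact mul_le_mul_of_nonneg_left h1 (by norm_num)
  -- average over the reference noise
  set G : ModSpace n → ℝ := fun y => ∫ h, T (y, h) ∂κ1 with hG
  have hGm : Measurable G := (hTm.stronglyMeasurable.integral_prod_right').measurable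
  have hGb : ∀ y, |G y| ≤ 2 := by
    intro y
    have h := norm_integral_le_of_norm_le_const (μ := κ1) (C := 2) (f := fun h => T (y, h))
      (Filter.Eventually.of_forall fun h => by rw [Real.norm_eq_abs]; exact hTb _)
    simpa using h
  have hGI : ∫ p, G (ob hij r p) ∂(μ.prod (κR.prod uni)) ≤ 4 * E := by
    have h4 : ∫ y, G y ∂(tot ρR) = ∫ p, T p ∂P := by
      rw [hP, integral_prod _ hTi]
    rw [← h4, hlaw, integral_map (measurable_ob hij r).aemeasurable
      hGm.aestronglyMeasurable] at hT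
    exact hT
  have hW : Measurable fun y : ModSpace n => ∫ h, ps ρ1 (act y h) ∂κ1 := measurable_Av ρ1 κ1
  -- pointwise estimate
  have hpt : ∀ᵐ p ∂(μ.prod (κR.prod uni)),
      |ps ρR (ob hij r p) - rf μ κ1 hij r b (p.1, p.2.2)| ≤ G (ob hij r p) + 4 * e' := by
    have h5 : ∀ᵐ p ∂(μ.prod (κR.prod uni)), TVle (κ1.map fun g =>
        (uu hij ((2 : ℝ) ^ (-r) * p.2.2))⁻¹ * p.2.1 * uu hij ((2 : ℝ) ^ (-r) * p.2.2) * g)
          κ1 e' := Measure.quasiMeasurePreserving_snd.ae h3
    filter_upwards [h5] with p hp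
    have e2 : ps ρR (ob hij r p) - ∫ h, ps ρ1 (act (ob hij r p) h) ∂κ1 =
        ∫ h, (ps ρR (ob hij r p) - ps ρ1 (act (ob hij r p) h)) ∂κ1 := by
      rw [integral_sub (integrable_const _)]
      · simp
      · exact bdd_integrable ((measurable_ps ρ1).comp
          (measurable_act₂.comp measurable_prodMk_left)) (M := 2) fun g => abs_ps_le ρ1 _
    have e3 : |ps ρR (ob hij r p) - ∫ h, ps ρ1 (act (ob hij r p) h) ∂κ1| ≤ G (ob hij r p) := by
      rw [e2]
      exact abs_integral_le_integral_abs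
    set u : SLR n := uu hij ((2 : ℝ) ^ (-r) * p.2.2) with hu
    have hmg : Measurable fun g : SLR n => u⁻¹ * p.2.1 * u * g :=
      measurable_mul₂.comp measurable_prodMk_left
    have hpr : IsProbabilityMeasure (κ1.map fun g => u⁻¹ * p.2.1 * u * g) :=
      Measure.isProbabilityMeasure_map hmg.aemeasurable
    have hFm : Measurable fun g => ps ρ1 (act (act p.1 u) g) :=
      (measurable_ps ρ1).comp (measurable_act₂.comp measurable_prodMk_left)
    have e4 := integral_le hp (f := fun g => ps ρ1 (act (act p.1 u) g)) hFm (M := 2)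
      (fun g => abs_ps_le ρ1 _)
    rw [integral_map hmg.aemeasurable hFm.aestronglyMeasurable] at e4
    have e5 : ∀ g, act (act p.1 u) (u⁻¹ * p.2.1 * u * g) = act (ob hij r p) g := by
      intro g
      unfold ob
      rw [act_act, act_act, ← hu]
      congr 1
      group
    simp only [e5] at e4
    have e6 : rf μ κ1 hij r b (p.1, p.2.2) = ∫ g, ps ρ1 (act (act p.1 u) g) ∂κ1 := rfl
    rw [e6]
    refine (abs_sub_le _ (∫ h, ps ρ1 (act (ob hij r p) h) ∂κ1) _).trans (add_le_add e3 ?_)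
    refine e4.trans (le_of_eq (by ring))
  have hGi : Integrable (fun p => G (ob hij r p)) (μ.prod (κR.prod uni)) :=
    bdd_integrable (hGm.comp (measurable_ob hij r)) (M := 2) fun p => hGb _
  have hDm : Measurable fun p : ModSpace n × SLR n × ℝ =>
      |ps ρR (ob hij r p) - rf μ κ1 hij r b (p.1, p.2.2)| :=
    (((measurable_ps ρR).comp (measurable_ob hij r)).sub ((measurable_rf μ κ1 hij r).comp
      (measurable_fst.prodMk (measurable_snd.comp measurable_snd)))).abs
  have hDi : Integrable (fun p : ModSpace n × SLR n × ℝ =>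
      |ps ρR (ob hij r p) - rf μ κ1 hij r b (p.1, p.2.2)|) (μ.prod (κR.prod uni)) := by
    refine bdd_integrable hDm (M := 2) fun p => ?_
    rw [abs_abs, abs_le]
    constructor <;> linarith [ps_nonneg ρR (ob hij r p), ps_le ρR (ob hij r p),
      rf_nonneg μ κ1 hij r (b := b) (p.1, p.2.2), rf_le μ κ1 hij r (b := b) (p.1, p.2.2)]
  refine (integral_mono_ae hDi (hGi.add (integrable_const _)) hpt).trans ?_
  have h7 : ∫ p, (fun p => G (ob hij r p)) p + (4 * e') ∂(μ.prod (κR.prod uni))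
      = (∫ p, G (ob hij r p) ∂(μ.prod (κR.prod uni))) + 4 * e' := by
    rw [integral_add hGi (integrable_const _)]
    simp
  simp only [Pi.add_apply]
  rw [h7]
  linarith

section Shift

variable {μ : Measure (ModSpace n)} [IsProbabilityMeasure μ] (hμ : AInv μ)
  {κR κ1 : Measure (SLR n)} [IsProbabilityMeasure κR] [IsProbabilityMeasure κ1]
  {i j : Fin n} (hij : i ≠ j) (t : Fin n → ℝ) (r : ℝ) {b : ℕ} [NeZero b]
include hμ

/-- **(IND)** after a shift by the diagonal group. -/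
theorem ind_shift {r0 E e' : ℝ} (hr : r + (t i - t j) = r0)
    (h1 : ∫ p, ∑ d, |pv (lab μ (cj (aT t) κR) hij r0 b) d p.1
        - pv (lab μ κ1 hij r0 b) d (act p.1 p.2)|
      ∂((tot (lab μ (cj (aT t) κR) hij r0 b)).prod κ1) ≤ E)
    (h3 : ∀ᵐ q ∂((cj (aT t) κR).prod uni), TVle (κ1.map fun g =>
      (uu hij ((2 : ℝ) ^ (-r0) * q.2))⁻¹ * q.1 * uu hij ((2 : ℝ) ^ (-r0) * q.2) * g) κ1 e') :
    ∫ p, |ps (lab μ κR hij r b) (ob hij r p) - rf μ κ1 hij r0 b (act p.1 (aT t), p.2.2)|
      ∂(μ.prod (κR.prod uni)) ≤ 4 * E + 4 * e' := by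
  subst hr
  have hb : 0 < b := Nat.pos_of_ne_zero (NeZero.ne b)
  have h := ind_ref (μ := μ) (κR := cj (aT t) κR) (κ1 := κ1) hij (r + (t i - t j)) h1 h3
  -- the change of variables
  set a := aT t with ha
  set Φ : ModSpace n × SLR n × ℝ → ModSpace n × SLR n × ℝ :=
    Prod.map (fun x => act x a) (Prod.map (fun g => a⁻¹ * g * a) id) with hΦ
  have hΦm : Measurable Φ :=
    (measurable_act a).prodMap ((measurable_cj a).prodMap measurable_id)
  have hmap : μ.prod ((cj a κR).prod uni) = (μ.prod (κR.prod uni)).map Φ := by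
    have h2 : (cj a κR).prod uni = (κR.prod uni).map (Prod.map (fun g => a⁻¹ * g * a) id) := by
      unfold cj
      conv_lhs => rw [← Measure.map_id (μ := uni)]
      exact Measure.map_prod_map κR uni (measurable_cj a) measurable_id
    rw [h2]
    conv_lhs => rw [← hμ t]
    exact Measure.map_prod_map μ (κR.prod uni) (measurable_act a)
      ((measurable_cj a).prodMap measurable_id)
  have hDm : Measurable fun p : ModSpace n × SLR n × ℝ =>
      |ps (lab μ (cj a κR) hij (r + (t i - t j)) b) (ob hij (r + (t i - t j)) p)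
        - rf μ κ1 hij (r + (t i - t j)) b (p.1, p.2.2)| :=
    (((measurable_ps _).comp (measurable_ob hij _)).sub ((measurable_rf μ κ1 hij _).comp
      (measurable_fst.prodMk (measurable_snd.comp measurable_snd)))).abs
  rw [hmap, integral_map hΦm.aemeasurable hDm.aestronglyMeasurable] at h
  refine le_trans (le_of_eq (integral_congr_ae ?_)) h
  have h4 := ps_lab_sh hμ κR hij t r b
  rw [NScD_395.tot_lab_eq μ κR hij r hb, ← map_ob] at h4
  have h5 := ae_of_ae_map (measurable_ob hij r).aemeasurable h4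
  filter_upwards [h5] with p hp
  rw [← hp]
  have e1 : act (ob hij r p) a = ob hij (r + (t i - t j)) (Φ p) := by
    have e2 := aT_conj_uu hij t ((2 : ℝ) ^ (-r) * p.2.2)
    have e3 : (2 : ℝ) ^ (-(t i - t j)) * ((2 : ℝ) ^ (-r) * p.2.2)
        = (2 : ℝ) ^ (-(r + (t i - t j))) * p.2.2 := by
      rw [← mul_assoc, ← Real.rpow_add two_pos]
      congr 2
      ring
    rw [e3] at e2
    simp only [hΦ, ob, Prod.map_fst, Prod.map_snd, id_eq, act_act]
    rw [← e2, ← ha]
    congr 1
    group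
  rw [e1]
  rfl

end Shift

/-! ### absorption of every conjugate -/

/-- If the law of `g` is nearly invariant under left multiplication by `z` and under conjugation
by `u`, it is nearly invariant under left multiplication by `u⁻¹ z u`. -/
theorem conj_absorb {κ1 : Measure (SLR n)} {z u : SLR n} {ea ec : ℝ}
    (hz : TVle (κ1.map fun g => z * g) κ1 ea) (hu : TVle (cj u κ1) κ1 ec) :
    TVle (κ1.map fun g => u⁻¹ * z * u * g) κ1 (ea + 2 * ec) := by
  have hm : Measurable fun g : SLR n => u⁻¹ * z * u * g := measurable_const_mul _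
  have hz' : Measurable fun g : SLR n => z * g := measurable_const_mul _
  have s1 : TVle (κ1.map fun g => u⁻¹ * z * u * g) ((cj u κ1).map fun g => u⁻¹ * z * u * g) ec :=
    (hu.symm).map hm
  have e1 : (cj u κ1).map (fun g => u⁻¹ * z * u * g) = cj u (κ1.map fun g => z * g) := by
    unfold cj
    rw [Measure.map_map hm (measurable_cj u), Measure.map_map (measurable_cj u) hz']
    congr 1
    funext g
    simp only [Function.comp_apply]
    group
  rw [e1] at s1
  have s2 := TVle.cj u hz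
  exact ((s1.trans s2).trans hu).mono (by linarith)

/-! ### near independence of two spreads with a common noise -/

/-- **(PROD)**, abstract form: two spreads that hardly depend on the common noise. -/
theorem prod_gen {μ : Measure (ModSpace n)} [IsProbabilityMeasure μ] {κ : Measure (SLR n)}
    [IsProbabilityMeasure κ] {i j k l : Fin n} (hij : i ≠ j) (hkl : k ≠ l) (r r' : ℝ) {b b' : ℕ}
    [NeZero b] [NeZero b'] (ρ : Fin b → Measure (ModSpace n)) (ρ' : Fin b' → Measure (ModSpace n))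
    {A1 B1 : ModSpace n × ℝ → ℝ} (hA1 : Measurable A1) (hB1 : Measurable B1)
    (mA1 : ∀ q, |A1 q| ≤ 2) (mB1 : ∀ q, |B1 q| ≤ 2) {a a' : ℝ}
    (ha : ∫ p, |ps ρ (ob hij r p) - A1 (p.1, p.2.2)| ∂(μ.prod (κ.prod uni)) ≤ a)
    (hb : ∫ p, |ps ρ' (ob hkl r' p) - B1 (p.1, p.2.2)| ∂(μ.prod (κ.prod uni)) ≤ a') :
    ∫ x, |(∫ z, (∫ s, ps ρ (ob hij r (x, z, s)) ∂uni) * (∫ s, ps ρ' (ob hkl r' (x, z, s)) ∂uni) ∂κ)
        - Av ρ (cv κ (dl hij r)) x * Av ρ' (cv κ (dl hkl r')) x| ∂μ ≤ 4 * (a + a') := by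
  have h := prod_abs (μ := μ) (ν := κ) (σ := uni) (τ := uni)
    (A := fun p : ModSpace n × SLR n × ℝ => ps ρ (ob hij r p))
    (B := fun p : ModSpace n × SLR n × ℝ => ps ρ' (ob hkl r' p))
    ((measurable_ps ρ).comp (measurable_ob hij r)) ((measurable_ps ρ').comp (measurable_ob hkl r'))
    hA1 hB1 (M := 2) (fun p => abs_ps_le ρ _) (fun p => abs_ps_le ρ' _) mA1 mB1 ha hb
  have e : ∀ x, (∫ z, ∫ s, ps ρ (ob hij r (x, z, s)) ∂uni ∂κ) = Av ρ (cv κ (dl hij r)) x :=
    fun x => integral_ob κ hij r ρ x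
  have e' : ∀ x, (∫ z, ∫ s, ps ρ' (ob hkl r' (x, z, s)) ∂uni ∂κ) = Av ρ' (cv κ (dl hkl r')) x :=
    fun x => integral_ob κ hkl r' ρ' x
  simp only [e, e'] at h
  refine h.trans (le_of_eq (by ring))

/-- replacing the averages by nearby functions -/
theorem prod_replace {μ : Measure (ModSpace n)} [IsProbabilityMeasure μ]
    {J F G F' G' : ModSpace n → ℝ} (hJ : Measurable J) (mJ : ∀ x, |J x| ≤ 4)
    (hF : Measurable F) (hG : Measurable G) (hF' : Measurable F') (hG' : Measurable G')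
    (mF : ∀ x, |F x| ≤ 2) (mG : ∀ x, |G x| ≤ 2) (mF' : ∀ x, |F' x| ≤ 2) (mG' : ∀ x, |G' x| ≤ 2)
    {c e e' : ℝ} (h : ∫ x, |J x - F x * G x| ∂μ ≤ c) (h1 : ∫ x, |F x - F' x| ∂μ ≤ e)
    (h2 : ∫ x, |G x - G' x| ∂μ ≤ e') :
    ∫ x, |J x - F' x * G' x| ∂μ ≤ c + 2 * e + 2 * e' := by
  have b1 : ∀ x, |F x * G x| ≤ 4 := fun x => by
    rw [abs_mul]
    have := mul_le_mul (mF x) (mG x) (abs_nonneg _) (by norm_num)
    linarith
  have b2 : ∀ x, |F' x * G' x| ≤ 4 := fun x => by
    rw [abs_mul]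
    have := mul_le_mul (mF' x) (mG' x) (abs_nonneg _) (by norm_num)
    linarith
  have i1 : Integrable (fun x => |J x - F x * G x|) μ :=
    bdd_integrable (hJ.sub (hF.mul hG)).abs (M := 8) fun x => by
      rw [abs_abs]
      exact (abs_sub _ _).trans (by linarith [mJ x, b1 x])
  have i2 : Integrable (fun x => |F x - F' x|) μ :=
    bdd_integrable (hF.sub hF').abs (M := 4) fun x => by
      rw [abs_abs]
      exact (abs_sub _ _).trans (by linarith [mF x, mF' x])
  have i3 : Integrable (fun x => |G x - G' x|) μ :=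
    bdd_integrable (hG.sub hG').abs (M := 4) fun x => by
      rw [abs_abs]
      exact (abs_sub _ _).trans (by linarith [mG x, mG' x])
  have i4 : Integrable (fun x => |J x - F' x * G' x|) μ :=
    bdd_integrable (hJ.sub (hF'.mul hG')).abs (M := 8) fun x => by
      rw [abs_abs]
      exact (abs_sub _ _).trans (by linarith [mJ x, b2 x])
  have hle : ∫ x, |J x - F' x * G' x| ∂μ ≤
      ∫ x, (|J x - F x * G x| + 2 * |F x - F' x| + 2 * |G x - G' x|) ∂μ := by
    refine integral_mono i4 ((i1.add (i2.const_mul 2)).add (i3.const_mul 2)) fun x => ?_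
    have e1 : J x - F' x * G' x =
        (J x - F x * G x) + ((F x - F' x) * G x + F' x * (G x - G' x)) := by ring
    simp only
    rw [e1]
    have e2 : |(F x - F' x) * G x| ≤ 2 * |F x - F' x| := by
      rw [abs_mul, mul_comm]
      exact mul_le_mul_of_nonneg_right (mG x) (abs_nonneg _)
    have e3 : |F' x * (G x - G' x)| ≤ 2 * |G x - G' x| := by
      rw [abs_mul]
      exact mul_le_mul_of_nonneg_right (mF' x) (abs_nonneg _)
    have e4 := abs_add_le (J x - F x * G x) ((F x - F' x) * G x + F' x * (G x - G' x))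
    have e5 := abs_add_le ((F x - F' x) * G x) (F' x * (G x - G' x))
    linarith
  have i5 : Integrable (fun x => |J x - F x * G x| + 2 * |F x - F' x|) μ :=
    i1.add (i2.const_mul 2)
  rw [integral_add i5 (i3.const_mul 2), integral_add i1 (i2.const_mul 2), integral_const_mul,
    integral_const_mul] at hle
  linarith

/-- the joint average of two spreads with a common noise -/
def J2 (κ : Measure (SLR n)) {i j k l : Fin n} (hij : i ≠ j) (hkl : k ≠ l) (r r' : ℝ) {b b' : ℕ}
    (ρ : Fin b → Measure (ModSpace n)) (ρ' : Fin b' → Measure (ModSpace n)) (x : ModSpace n) : ℝ :=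
  ∫ z, (∫ s, ps ρ (ob hij r (x, z, s)) ∂uni) * (∫ s, ps ρ' (ob hkl r' (x, z, s)) ∂uni) ∂κ

theorem measurable_inner {i j : Fin n} (hij : i ≠ j) (r : ℝ) {b : ℕ} [NeZero b]
    (ρ : Fin b → Measure (ModSpace n)) :
    Measurable fun q : ModSpace n × SLR n => ∫ s, ps ρ (ob hij r (q.1, q.2, s)) ∂uni := by
  have hm : Measurable fun w : (ModSpace n × SLR n) × ℝ =>
      ps ρ (ob hij r (w.1.1, w.1.2, w.2)) :=
    (measurable_ps ρ).comp ((measurable_ob hij r).comp
      ((measurable_fst.comp measurable_fst).prodMk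
        ((measurable_snd.comp measurable_fst).prodMk measurable_snd)))
  exact (hm.stronglyMeasurable.integral_prod_right').measurable

theorem inner_nonneg {i j : Fin n} (hij : i ≠ j) (r : ℝ) {b : ℕ} [NeZero b]
    (ρ : Fin b → Measure (ModSpace n)) (x : ModSpace n) (z : SLR n) :
    0 ≤ ∫ s, ps ρ (ob hij r (x, z, s)) ∂uni := integral_nonneg fun s => ps_nonneg ρ _

theorem inner_le {i j : Fin n} (hij : i ≠ j) (r : ℝ) {b : ℕ} [NeZero b]
    (ρ : Fin b → Measure (ModSpace n)) (x : ModSpace n) (z : SLR n) :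
    ∫ s, ps ρ (ob hij r (x, z, s)) ∂uni ≤ 2 := by
  have h : ∫ s, ps ρ (ob hij r (x, z, s)) ∂uni ≤ ∫ _, (2 : ℝ) ∂uni :=
    integral_mono_of_nonneg (Filter.Eventually.of_forall fun g => ps_nonneg ρ _)
      (integrable_const _) (Filter.Eventually.of_forall fun g => ps_le ρ _)
  simpa using h

section J2
variable (κ : Measure (SLR n)) [IsProbabilityMeasure κ] {i j k l : Fin n} (hij : i ≠ j)
  (hkl : k ≠ l) (r r' : ℝ) {b b' : ℕ} [NeZero b] [NeZero b'] (ρ : Fin b → Measure (ModSpace n))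
  (ρ' : Fin b' → Measure (ModSpace n))

theorem measurable_J2 : Measurable (J2 κ hij hkl r r' ρ ρ') :=
  (((measurable_inner hij r ρ).mul
    (measurable_inner hkl r' ρ')).stronglyMeasurable.integral_prod_right').measurable

omit [IsProbabilityMeasure κ] in
theorem J2_nonneg (x : ModSpace n) : 0 ≤ J2 κ hij hkl r r' ρ ρ' x :=
  integral_nonneg fun z => mul_nonneg (inner_nonneg hij r ρ x z) (inner_nonneg hkl r' ρ' x z)

theorem J2_le (x : ModSpace n) : J2 κ hij hkl r r' ρ ρ' x ≤ 4 := by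
  have h : J2 κ hij hkl r r' ρ ρ' x ≤ ∫ _, (4 : ℝ) ∂κ := by
    refine integral_mono_of_nonneg (Filter.Eventually.of_forall fun z =>
      mul_nonneg (inner_nonneg hij r ρ x z) (inner_nonneg hkl r' ρ' x z)) (integrable_const _)
      (Filter.Eventually.of_forall fun z => ?_)
    have := mul_le_mul (inner_le hij r ρ x z) (inner_le hkl r' ρ' x z)
      (inner_nonneg hkl r' ρ' x z) (by norm_num)
    simp only
    linarith
  simpa using h

end J2

end Crest.Agent.R014.Prod_108
end
end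

-- ▼ part R014/Prod3_108

/-!
Row 14, block D, section 4 (PROD), helper108: the box noises. The joint average of the posterior
spreads of two digits (roots `(i,j)` and `(k,l)`, common noise `zt O`) is the product of the two
reference functions, for most points.
-/

set_option autoImplicit false

open MeasureTheory Finset Filter Topology Crest.NumberTheoryR.Packets
open Crest.Agent.R014.Nd_837 Crest.Agent.R014.Ne1_567
open Crest.Agent.R014.NScD_395 Crest.Agent.R014.NScE_395 Crest.Agent.R014.NScG_395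
open Crest.Agent.R014.NScH_395 Crest.Agent.R014.Ms_667
open Crest.Agent.R014.NScA_395 (Met rho Dig Good)
open scoped ENNReal

noncomputable section

namespace Crest.Agent.R014.Prod_108

variable {n : ℕ}

/-- the error of one factor -/
def eI (n b : ℕ) (η w : ℝ) : ℝ :=
  8 * √(η + ew b (Nz_323.CN n) w + ew b (Nz_323.CN n) w) + 44 * (Nz_323.CN n * 2 ^ (-w))

/-- half of the error of (PROD) -/
def eP (n b : ℕ) (η w : ℝ) : ℝ :=
  48 * √(η + ew b (Nz_323.CN n) w + ew b (Nz_323.CN n) w)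
    + (32 * b + 224) * (Nz_323.CN n * 2 ^ (-w))

/-- The data of a good box noise for the root `(i,j)` at depth `r`, after the shift by `t`. -/
structure GoodZ (i j : Fin n) (r w u1 u2 : ℝ) (t : Fin n → ℝ) (O : Met n) : Prop where
  shift : r + (t i - t j) = 0
  clean : NScA_395.Clean i j r w O
  lo : ∀ p q, 3 * u1 + w ≤ (O + NScA_395.sh t) p q
  hi : ∀ p q, (O + NScA_395.sh t) p q + w ≤ u2 / 20

section Zt

variable {μ : Measure (ModSpace n)} [IsProbabilityMeasure μ] (hμ : AInv μ)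
  {i j : Fin n} (hij : i ≠ j) {r w u1 u2 η : ℝ} {t : Fin n → ℝ} {O : Met n} {b : ℕ}

theorem GoodZ.clean0 (h : GoodZ i j r w u1 u2 t O) :
    NScA_395.Clean i j 0 w (O + NScA_395.sh t) := by
  have := (NScA_395.clean_sh (i := i) (j := j) (r := r) (w := w) (R := O) (t := t)).2 h.clean
  rwa [h.shift] at this

theorem GoodZ.adm' (h : GoodZ i j r w u1 u2 t O) (hw : 1 ≤ w) (hc : 20 * c1N n ≤ u1)
    (hu : 0 ≤ u1) : Nz_323.Adm (O + NScA_395.sh t) :=
  (noiseFam n).adm_of _ fun p q => by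
    have := h.lo p q
    rcases le_total 0 (c1N n) with h0 | h0 <;> linarith

theorem GoodZ.adm (h : GoodZ i j r w u1 u2 t O) (hw : 1 ≤ w) (hc : 20 * c1N n ≤ u1)
    (hu : 0 ≤ u1) : Nz_323.Adm O :=
  (Nz_323.adm_sh (t := t)).1 (h.adm' hw hc hu)

theorem GoodZ.neg (h : GoodZ i j r w u1 u2 t O) (hu : 0 ≤ u1) :
    NScA_395.Neg w (O + NScA_395.sh t) (u1 • rho i j) :=
  NScA_395.neg_of_bounds (a := 3 * u1 + w) (b := 3 * u1) h.lo
    (fun p q => le_trans (by positivity) (NScA_395.smul_ge hu i j p q))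
    (NScA_395.smul_le hu i j) le_rfl

include hμ in
/-- **(IND)** for the box noises. -/
theorem ind_zt [NeZero b] (hw : 1 ≤ w) (hwu : w ≤ u1 / 20) (hc : 20 * c1N n ≤ u1)
    (hη : fdig zt μ b i j 0 (u1 • rho i j) - fdig zt μ b i j 0 (u2 • rho i j) ≤ η)
    (he : 2 * Nz_323.CN n * (2:ℝ) ^ (-w) ≤ 1) (h : GoodZ i j r w u1 u2 t O) :
    ∫ p, |ps (lab μ (zt O) hij r b) (ob hij r p)
        - rf μ (zt (u1 • rho i j)) hij 0 b (act p.1 (aT t), p.2.2)| ∂(μ.prod ((zt O).prod uni))
      ≤ eI n b η w := by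
  have hb : 0 < b := Nat.pos_of_ne_zero (NeZero.ne b)
  have hu1 : 0 ≤ u1 := by linarith
  have hadm := h.adm hw hc hu1
  have hadm' := h.adm' hw hc hu1
  have hadm1 := adm_rho (n := n) hc hu1 i j
  have := isProb_zt hadm
  have := isProb_zt hadm'
  have := isProb_zt hadm1
  have hcj : cj (aT t) (zt O) = zt (O + NScA_395.sh t) := (noiseFam n).cj_zt O t hadm
  have hcl1 : NScA_395.Clean i j 0 w (u1 • rho i j) := (NScA_395.clean_rho hij hu1).mono hwu
  have hk := (noiseFam n).key hij (by linarith) hadm1 hadm' hcl1 (h.neg hu1) b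
  have hgood : Good i j w u1 u2 (O + NScA_395.sh t) := by
    refine ⟨h.clean0, 0, rfl, fun p q => ?_⟩
    have h0 : (O + NScA_395.sh t + NScA_395.sh (0 : Fin n → ℝ)) p q = (O + NScA_395.sh t) p q := by
      simp [NScA_395.sh]
    rw [h0]
    exact ⟨h.lo p q, h.hi p q⟩
  have hH := ((noiseFam n).good hμ hb hij hw hwu hc hη hgood).2
  have hpin := pinsker_lab μ (zt (O + NScA_395.sh t)) (zt (u1 • rho i j)) hij 0 hb hk he
  have hew : md b (2 * Nz_323.CN n * (2:ℝ) ^ (-w)) = ew b (Nz_323.CN n) w := by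
    unfold ew
    rw [min_eq_right he]
  rw [hew] at hpin
  have h1 : ∫ p, ∑ d, |Ne3_567.pv (lab μ (cj (aT t) (zt O)) hij 0 b) d p.1
        - Ne3_567.pv (lab μ (zt (u1 • rho i j)) hij 0 b) d (act p.1 p.2)|
      ∂((tot (lab μ (cj (aT t) (zt O)) hij 0 b)).prod (zt (u1 • rho i j)))
      ≤ 2 * √(η + ew b (Nz_323.CN n) w + ew b (Nz_323.CN n) w)
        + 4 * (2 * Nz_323.CN n * (2:ℝ) ^ (-w)) := by
    rw [hcj]
    refine hpin.trans (add_le_add ?_ le_rfl)
    have h2 : √(4 * (Hc (lab μ (zt (u1 • rho i j)) hij 0 b) + ew b (Nz_323.CN n) w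
        - Hc (lab μ (zt (O + NScA_395.sh t)) hij 0 b)))
        ≤ √(4 * (η + ew b (Nz_323.CN n) w + ew b (Nz_323.CN n) w)) :=
      Real.sqrt_le_sqrt (by linarith)
    refine h2.trans (le_of_eq ?_)
    rw [Real.sqrt_mul (by norm_num)]
    congr 1
    rw [show (4:ℝ) = 2 ^ 2 by norm_num, Real.sqrt_sq (by norm_num)]
  have h3 : ∀ᵐ q ∂((cj (aT t) (zt O)).prod uni), TVle ((zt (u1 • rho i j)).map fun g =>
      (uu hij ((2 : ℝ) ^ (-(0:ℝ)) * q.2))⁻¹ * q.1 * uu hij ((2 : ℝ) ^ (-(0:ℝ)) * q.2) * g)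
        (zt (u1 • rho i j)) (3 * (Nz_323.CN n * 2 ^ (-w))) := by
    rw [hcj]
    have a1 : ∀ᵐ q ∂((zt (O + NScA_395.sh t)).prod uni), q.1 ∈ bxG (O + NScA_395.sh t) :=
      Measure.quasiMeasurePreserving_fst.ae (zt_ae hadm')
    have a2 : ∀ᵐ q ∂((zt (O + NScA_395.sh t)).prod uni), |q.2| ≤ 1 :=
      Measure.quasiMeasurePreserving_snd.ae uni_ae
    filter_upwards [a1, a2] with q hq1 hq2
    have c1 := L1G_left (w := w) (by linarith) hadm1 (neg_iff.2 (h.neg hu1)) hq1
    have c2 := L2G (r := 0) (w := w) hij hadm1 hcl1 (s := (2 : ℝ) ^ (-(0:ℝ)) * q.2) (by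
      rw [abs_mul, abs_of_pos (Real.rpow_pos_of_pos two_pos _)]
      exact mul_le_of_le_one_right (Real.rpow_nonneg two_pos.le _) hq2)
    exact (conj_absorb c1 c2).mono (le_of_eq (by ring))
  have h4 := ind_shift hμ hij t r (κR := zt O) (κ1 := zt (u1 • rho i j)) h.shift h1 h3
  refine h4.trans (le_of_eq ?_)
  unfold eI
  ring

include hμ in
/-- (3.1) at depth `r` for the box noises. -/
theorem acv_zt [NeZero b] (hw : 1 ≤ w) (hwu : w ≤ u1 / 20) (hc : 20 * c1N n ≤ u1)
    (hη : fdig zt μ b i j 0 (u1 • rho i j) - fdig zt μ b i j 0 (u2 • rho i j) ≤ η)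
    (he : 2 * Nz_323.CN n * (2:ℝ) ^ (-w) ≤ 1) (h : GoodZ i j r w u1 u2 t O) :
    ∫ x, |Acv μ (zt O) hij r b x - PZ μ u1 b i j (act x (aT t))| ∂μ ≤
      8 * √(η + ew b (Nz_323.CN n) w + ew b (Nz_323.CN n) w)
        + (8 * b + 12) * (2 * Nz_323.CN n * (2:ℝ) ^ (-w)) := by
  have hu1 : 0 ≤ u1 := by linarith
  have hadm := h.adm hw hc hu1
  have hadm1 := adm_rho (n := n) hc hu1 i j
  have := isProb_zt hadm
  have := isProb_zt hadm1
  have hcj : cj (aT t) (zt O) = zt (O + NScA_395.sh t) := (noiseFam n).cj_zt O t hadm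
  have h1 := (noiseFam n).acv hμ hij hw hwu hc hη he h.clean0 h.lo h.hi
  rw [← hcj] at h1
  have h2 := kern_shift hμ hij t h.shift h1
  rw [PZ_eq hij]
  exact h2

end Zt

section Main

variable {μ : Measure (ModSpace n)} [IsProbabilityMeasure μ] (hμ : AInv μ)
  {i j k l : Fin n} (hij : i ≠ j) (hkl : k ≠ l) {r r' w u1 u2 η : ℝ} {t t' : Fin n → ℝ}
  {O : Met n} {b b' : ℕ}

include hμ in
/-- **(PROD)**. For a box noise `zt O` that is good for the roots `(i,j)` (depth `r`, digits to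
base `b`) and `(k,l)` (depth `r'`, digits to base `b'`), the average over the common noise and the
two windows of the product of the two posterior spreads is the product of the two reference
functions, for most points. -/
theorem prod_zt [NeZero b] [NeZero b'] (hw : 1 ≤ w) (hwu : w ≤ u1 / 20) (hc : 20 * c1N n ≤ u1)
    (hη : fdig zt μ b i j 0 (u1 • rho i j) - fdig zt μ b i j 0 (u2 • rho i j) ≤ η)
    (hη' : fdig zt μ b' k l 0 (u1 • rho k l) - fdig zt μ b' k l 0 (u2 • rho k l) ≤ η)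
    (he : 2 * Nz_323.CN n * (2:ℝ) ^ (-w) ≤ 1) (h : GoodZ i j r w u1 u2 t O)
    (h' : GoodZ k l r' w u1 u2 t' O) :
    ∫ x, |J2 (zt O) hij hkl r r' (lab μ (zt O) hij r b) (lab μ (zt O) hkl r' b') x
        - PZ μ u1 b i j (act x (aT t)) * PZ μ u1 b' k l (act x (aT t'))| ∂μ
      ≤ eP n b η w + eP n b' η w := by
  have hu1 : 0 ≤ u1 := by linarith
  have hadm := h.adm hw hc hu1
  have := isProb_zt hadm
  have h1ij := isProb_zt (adm_rho (n := n) hc hu1 i j)
  have h1kl := isProb_zt (adm_rho (n := n) hc hu1 k l)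
  have mA : Measurable fun q : ModSpace n × ℝ =>
      rf μ (zt (u1 • rho i j)) hij 0 b (act q.1 (aT t), q.2) :=
    (measurable_rf μ _ hij 0).comp (((measurable_act _).comp measurable_fst).prodMk measurable_snd)
  have mB : Measurable fun q : ModSpace n × ℝ =>
      rf μ (zt (u1 • rho k l)) hkl 0 b' (act q.1 (aT t'), q.2) :=
    (measurable_rf μ _ hkl 0).comp (((measurable_act _).comp measurable_fst).prodMk measurable_snd)
  have hgen := prod_gen hij hkl r r' (lab μ (zt O) hij r b) (lab μ (zt O) hkl r' b') mA mB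
    (fun q => by
      rw [abs_of_nonneg (rf_nonneg _ _ _ _ _)]; exact rf_le _ _ _ _ _)
    (fun q => by
      rw [abs_of_nonneg (rf_nonneg _ _ _ _ _)]; exact rf_le _ _ _ _ _)
    (ind_zt hμ hij hw hwu hc hη he h) (ind_zt hμ hkl hw hwu hc hη' he h')
  have e1 := acv_zt hμ hij hw hwu hc hη he h
  have e2 := acv_zt hμ hkl hw hwu hc hη' he h'
  have bd : ∀ {F : ModSpace n → ℝ}, (∀ x, 0 ≤ F x) → (∀ x, F x ≤ 2) → ∀ x, |F x| ≤ 2 :=
    fun h0 h2 x => by rw [abs_of_nonneg (h0 x)]; exact h2 x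
  have hfin := prod_replace (μ := μ)
    (J := J2 (zt O) hij hkl r r' (lab μ (zt O) hij r b) (lab μ (zt O) hkl r' b'))
    (F := Acv μ (zt O) hij r b) (G := Acv μ (zt O) hkl r' b')
    (F' := fun x => PZ μ u1 b i j (act x (aT t))) (G' := fun x => PZ μ u1 b' k l (act x (aT t')))
    (measurable_J2 _ _ _ _ _ _ _)
    (fun x => by rw [abs_of_nonneg (J2_nonneg _ _ _ _ _ _ _ x)]; exact J2_le _ _ _ _ _ _ _ x)
    (measurable_Acv hij _ _) (measurable_Acv hkl _ _)
    ((measurable_PZ hc hu1 b i j).comp (measurable_act _))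
    ((measurable_PZ hc hu1 b' k l).comp (measurable_act _))
    (bd (fun x => Av_nonneg _ _ x) (fun x => Av_le _ _ x))
    (bd (fun x => Av_nonneg _ _ x) (fun x => Av_le _ _ x))
    (bd (fun x => PZ_nonneg hc hu1 b i j _) (fun x => PZ_le hc hu1 b i j _))
    (bd (fun x => PZ_nonneg hc hu1 b' k l _) (fun x => PZ_le hc hu1 b' k l _))
    hgen e1 e2
  refine hfin.trans (le_of_eq ?_)
  unfold eP eI
  ring

end Main

/-! ### the joint average as one integral -/

section J2

variable (κ : Measure (SLR n)) [IsProbabilityMeasure κ] {i j k l : Fin n} (hij : i ≠ j)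
  (hkl : k ≠ l) (r r' : ℝ) {b b' : ℕ} [NeZero b] [NeZero b'] (ρ : Fin b → Measure (ModSpace n))
  (ρ' : Fin b' → Measure (ModSpace n))


theorem pair_le (p : ModSpace n × SLR n × ℝ × ℝ) :
    |ps ρ (ob hij r (p.1, p.2.1, p.2.2.1)) * ps ρ' (ob hkl r' (p.1, p.2.1, p.2.2.2))| ≤ 4 := by
  rw [abs_mul]
  have := mul_le_mul (abs_ps_le ρ (ob hij r (p.1, p.2.1, p.2.2.1)))
    (abs_ps_le ρ' (ob hkl r' (p.1, p.2.1, p.2.2.2))) (abs_nonneg _) (by norm_num)
  linarith

/-- `J2` is the average over `(ζ, s, t) ~ κ ⊗ uni ⊗ uni` of the product of the two spreads. -/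
theorem J2_eq (x : ModSpace n) : J2 κ hij hkl r r' ρ ρ' x =
    ∫ q : SLR n × ℝ × ℝ, ps ρ (ob hij r (x, q.1, q.2.1)) * ps ρ' (ob hkl r' (x, q.1, q.2.2))
      ∂(κ.prod (uni.prod uni)) := by
  have m1 : Measurable fun q : SLR n × ℝ × ℝ => (x, q.1, q.2.1) := by fun_prop
  have m2 : Measurable fun q : SLR n × ℝ × ℝ => (x, q.1, q.2.2) := by fun_prop
  have hm : Measurable fun q : SLR n × ℝ × ℝ =>
      ps ρ (ob hij r (x, q.1, q.2.1)) * ps ρ' (ob hkl r' (x, q.1, q.2.2)) :=
    ((measurable_ps ρ).comp ((measurable_ob hij r).comp m1)).mul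
      ((measurable_ps ρ').comp ((measurable_ob hkl r').comp m2))
  have hi : Integrable (fun q : SLR n × ℝ × ℝ =>
      ps ρ (ob hij r (x, q.1, q.2.1)) * ps ρ' (ob hkl r' (x, q.1, q.2.2)))
      (κ.prod (uni.prod uni)) :=
    bdd_integrable hm (M := 4) fun q => pair_le hij hkl r r' ρ ρ' (x, q)
  rw [integral_prod _ hi]
  unfold J2
  refine integral_congr_ae (Filter.Eventually.of_forall fun z => ?_)
  exact (integral_prod_mul (μ := uni) (ν := uni) (fun s => ps ρ (ob hij r (x, z, s)))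
    (fun s => ps ρ' (ob hkl r' (x, z, s)))).symm


end J2

/-! ### the Heisenberg metric, and the limit form -/

section Limit

open Crest.Agent.R014.NScG_458 (RN)

/-- the shift that brings depth `r` of a root `(i, ·)` to depth `0` -/
def tI (i : Fin n) (r : ℝ) : Fin n → ℝ := Pi.single i (-r)

theorem tI_apply (i : Fin n) (r : ℝ) (p : Fin n) : tI i r p = if p = i then -r else 0 := by
  unfold tI
  rw [Pi.single_apply]


theorem goodZ_RN {j k l : Fin n} (hjk : j ≠ k) (hkl : k ≠ l) (hjl : j ≠ l) {M r w W u1 u2 : ℝ}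
    (hu1 : 0 ≤ u1) (hw : w ≤ u1) (hw0 : 0 ≤ w) (hM : 100 * (u1 + W) ≤ M) (hr : |r| ≤ W)
    (hu2 : 2 * M ≤ u2 / 20) {i i' : Fin n}
    (hi : (i = j ∧ i' = k) ∨ (i = k ∧ i' = l) ∨ (i = j ∧ i' = l)) :
    GoodZ i i' r w u1 u2 (tI i r) (RN j k l M) := by
  have hW0 : 0 ≤ W := (abs_nonneg r).trans hr
  have hM0 : 0 ≤ M := by linarith
  have hii : i ≠ i' := by
    rcases hi with ⟨rfl, rfl⟩ | ⟨rfl, rfl⟩ | ⟨rfl, rfl⟩ <;> assumption
  have ht : ∀ p, |tI i r p| ≤ W := fun p => by
    rw [tI_apply]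
    split_ifs
    · rw [abs_neg]; exact hr
    · rw [abs_zero]; exact hW0
  have hb := fun p q => NScG_458.range_sh (j := j) (k := k) (l := l) (M := M) (T := W) (u1 := u1)
    (u2 := u2) (w := w) hM0 ht (by linarith) (by linarith) p q
  refine ⟨?_, NScG_458.clean_roots hjk hkl hjl hM0 hw0 (by linarith) hi,
    fun p q => (hb p q).1, fun p q => (hb p q).2⟩
  rw [tI_apply, tI_apply, if_pos rfl, if_neg hii.symm]
  ring

/-- the error tends to `0` -/
theorem eP_small (n b : ℕ) {e : ℝ} (he : 0 < e) :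
    ∃ η w0 : ℝ, 0 < η ∧ 1 ≤ w0 ∧ ∀ η' w : ℝ, η' ≤ η → w0 ≤ w →
      2 * Nz_323.CN n * (2:ℝ) ^ (-w) ≤ 1 ∧ eP n b η' w ≤ e := by
  have hC0 : 0 ≤ Nz_323.CN n := (noiseFam n).C0
  set η : ℝ := (e / 200) ^ 2 / 3 with hη
  have hη0 : 0 < η := by positivity
  have t1 := (tendsto_ew b (Nz_323.CN n)).eventually (eventually_lt_nhds hη0)
  have t2 := (tendsto_pow (Nz_323.CN n)).eventually
    (eventually_lt_nhds (show (0:ℝ) < min 1 (e / (32 * b + 224)) by
      refine lt_min one_pos (div_pos he (by positivity))))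
  obtain ⟨w0, hw0⟩ := eventually_atTop.1 (t1.and t2)
  refine ⟨η, max w0 1, hη0, le_max_right _ _, fun η' w h1 h2 => ?_⟩
  obtain ⟨h3, h4⟩ := hw0 w ((le_max_left _ _).trans h2)
  have h5 := h4.le.trans (min_le_left _ _)
  have h6 := h4.le.trans (min_le_right _ _)
  refine ⟨h5, ?_⟩
  unfold eP
  have h7 : √(η' + ew b (Nz_323.CN n) w + ew b (Nz_323.CN n) w) ≤ e / 200 := by
    refine Real.sqrt_le_iff.2 ⟨by positivity, ?_⟩
    have : 3 * η = (e / 200) ^ 2 := by rw [hη]; ring
    linarith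
  have h8 : (32 * (b:ℝ) + 224) * (Nz_323.CN n * 2 ^ (-w)) ≤ e / 2 := by
    rw [le_div_iff₀ (by positivity)] at h6
    linarith
  linarith

/-- **(PROD)**, limit form: for every error there are `η` and `U` such that for all scales
`U ≤ u1`, `100 (u1 + W) ≤ M`, `2 M ≤ u2 / 20` with near constant digit entropies, (PROD) holds
for the Heisenberg noise `zt (RN j k l M)` and the roots `(j,k)`, `(k,l)` at all depths in
`[-W, W]`. -/
theorem prod_RN {b b' : ℕ} (hb : 0 < b) (hb' : 0 < b') {e : ℝ} (he : 0 < e) :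
    ∃ η U : ℝ, 0 < η ∧ 0 < U ∧ ∀ μ : Measure (ModSpace n), IsProbabilityMeasure μ → AInv μ →
      ∀ u1 u2 M W : ℝ, U ≤ u1 → 100 * (u1 + W) ≤ M → 2 * M ≤ u2 / 20 →
      NC μ u1 u2 {b, b'} η → ∀ (j k l : Fin n) (hjk : j ≠ k) (hkl : k ≠ l), j ≠ l →
      ∀ r r' : ℝ, |r| ≤ W → |r'| ≤ W →
      ∫ x, |J2 (zt (RN j k l M)) hjk hkl r r' (lab μ (zt (RN j k l M)) hjk r b)
          (lab μ (zt (RN j k l M)) hkl r' b') x
        - PZ μ u1 b j k (act x (aT (tI j r))) * PZ μ u1 b' k l (act x (aT (tI k r')))| ∂μ ≤ e := by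
  have hne : NeZero b := ⟨hb.ne'⟩
  have hne' : NeZero b' := ⟨hb'.ne'⟩
  obtain ⟨η1, w1, hη1, hw1, h1⟩ := eP_small n b (half_pos he)
  obtain ⟨η2, w2, hη2, hw2, h2⟩ := eP_small n b' (half_pos he)
  refine ⟨min η1 η2, max (20 * max w1 w2) (20 * c1N n), lt_min hη1 hη2, ?_, ?_⟩
  · refine lt_of_lt_of_le ?_ (le_max_left _ _)
    have := le_max_left w1 w2
    linarith
  intro μ hμp hμ u1 u2 M W hU hM hu2 hnc j k l hjk hkl hjl r r' hr hr'
  have hU1 : 20 * max w1 w2 ≤ u1 := (le_max_left _ _).trans hU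
  have hc : 20 * c1N n ≤ u1 := (le_max_right _ _).trans hU
  set w : ℝ := u1 / 20 with hw
  have hwm : max w1 w2 ≤ w := by rw [hw]; linarith
  have hw1' : w1 ≤ w := (le_max_left _ _).trans hwm
  have hw2' : w2 ≤ w := (le_max_right _ _).trans hwm
  have hw_1 : 1 ≤ w := hw1.trans hw1'
  have hu1 : 0 ≤ u1 := by linarith
  obtain ⟨hsm, hE1⟩ := h1 (min η1 η2) w (min_le_left _ _) hw1'
  obtain ⟨-, hE2⟩ := h2 (min η1 η2) w (min_le_right _ _) hw2'
  have g1 := goodZ_RN hjk hkl hjl (M := M) (r := r) (w := w) (W := W) (u1 := u1) (u2 := u2) hu1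
    (by linarith) (by linarith) hM hr hu2 (Or.inl ⟨rfl, rfl⟩)
  have g2 := goodZ_RN hjk hkl hjl (M := M) (r := r') (w := w) (W := W) (u1 := u1) (u2 := u2) hu1
    (by linarith) (by linarith) hM hr' hu2 (Or.inr (Or.inl ⟨rfl, rfl⟩))
  have hmain := prod_zt hμ hjk hkl (b := b) (b' := b') hw_1 le_rfl hc
    (hnc j k hjk b (by simp) hb) (hnc k l hkl b' (by simp) hb') hsm g1 g2
  linarith

end Limit

end Crest.Agent.R014.Prod_108
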