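import Mathlib
import Crest.Agent.R014.Cell1_433_Mg
import Crest.Agent.R014.Asm2_792
import Crest.Agent.R014.NS0_373
import Crest.Agent.R014.NSlab5_373
import Crest.Agent.R014.StepQ_870
import Crest.Agent.R014.Nd4_837
import Crest.Agent.R014.StepQ3_870
import Crest.Agent.R014.StepQ4_870
import Crest.Agent.R014.AsmB2_460
import Crest.Agent.R014.DSkel_792
import Crest.Agent.R014.AsmB_460

-- ▼ part R014/Nm5_884
section

/-!
R014, block D, leaf NOISE-SLAB MASS (helper884), part 5: the final mass bound for digit words.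
-/

set_option autoImplicit false

open MeasureTheory Filter Topology
open Crest.NumberTheoryR.Packets
open scoped ENNReal

namespace Crest.Agent.R014.Nm_884

open Crest.Agent.R014.Ms_667 Crest.Agent.R014.Nd_837 Crest.Agent.R014.Iface_792
open Crest.Agent.R014.Nz_323 (haar bx bxc Adm un vb)
open Crest.Agent.R014.NS_373 (CC nn vv vlaw rep rho uniC)

variable {n : ℕ}

/-- the bound for the entries of a reduced representative of a point of thickness `r ≤ 1` -/
noncomputable def B0 (n : ℕ) (r : ℝ) : ℝ := n * (2 ^ n / r) ^ (n - 1)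

lemma B0_nonneg {r : ℝ} (hr : 0 < r) : 0 ≤ B0 n r := by unfold B0; positivity

/-- thick points have reduced representatives. -/
lemma exists_rep_of_thick {r : ℝ} (hr : 0 < r) (hr1 : r ≤ 1) {x : ModSpace n} (hx : Thick x r) :
    ∃ g ∈ Ent n (B0 n r), q g = x := by
  obtain ⟨g, rfl⟩ := q_surjective x
  obtain ⟨γ, hγ, h⟩ := Cell_433.exists_short g
  refine ⟨γ * g, fun i j => (h i j).trans ?_, q_mul_left hγ g⟩
  have hmm : r ≤ Cell_433.mm g := by
    rw [Cell_433.le_mm_iff]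
    refine ⟨hr1, fun z hz => ?_⟩
    have h1 : q g ∈ thick n r := (Asm2_792.thick_iff _ _).2 hx
    exact h1 g rfl z hz
  have hmp := Cell_433.mm_pos g
  have h3 : (2 : ℝ) ^ n / Cell_433.mm g ≤ 2 ^ n / r := by gcongr
  unfold B0
  exact mul_le_mul_of_nonneg_left (pow_le_pow_left₀ (by positivity) h3 _) (Nat.cast_nonneg n)

lemma vv_mem_Ent {S : Finset (Fin n)} {s : CC S → ℝ} {B : ℝ} (hB : 1 ≤ B) (hs : ∀ c, |s c| ≤ B) :
    vv S s ∈ Ent n B := by
  intro i j
  rw [NS_373.vv_val, Matrix.add_apply, NS_373.nn_apply]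
  split_ifs with h
  · have hne : i ≠ j := fun hij => h.2 (hij ▸ h.1)
    rw [Matrix.one_apply_ne hne, zero_add]
    exact hs _
  · rw [add_zero]
    by_cases hij : i = j
    · subst hij
      rw [Matrix.one_apply_eq, abs_one]
      exact hB
    · rw [Matrix.one_apply_ne hij, abs_zero]
      linarith

lemma abs_cen_le {b : ℕ} (d : Fin b) : |cen b d| ≤ 1 := by
  have hb : 0 < b := d.pos
  have hbr : (0 : ℝ) < b := by exact_mod_cast hb
  have h1 : ((d : ℕ) : ℝ) + 1 ≤ b := by exact_mod_cast d.isLt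
  have h0 : (0 : ℝ) ≤ (d : ℕ) := Nat.cast_nonneg _
  unfold cen
  rw [abs_le]
  constructor
  · have : 0 ≤ (2 * ((d : ℕ) : ℝ) + 1) / b := by positivity
    linarith
  · have : (2 * ((d : ℕ) : ℝ) + 1) / b ≤ 2 := by
      rw [div_le_iff₀ hbr]
      linarith
    linarith

lemma abs_rep_le {S : Finset (Fin n)} {b : ℕ} (hb : 2 ≤ b) {T : ℕ} (w : Fin T → CC S → Fin b)
    (c : CC S) : |rep w c| ≤ 2 := by
  have hbr : (2 : ℝ) ≤ b := by exact_mod_cast hb
  have hb0 : (0 : ℝ) < b := by linarith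
  have hinv : (b : ℝ)⁻¹ ≤ 1 / 2 := by
    rw [inv_eq_one_div]
    exact one_div_le_one_div_of_le (by norm_num) hbr
  unfold rep
  calc |∑ i : Fin T, ((b : ℝ)⁻¹) ^ (i : ℕ) * cen b (w i c)|
      ≤ ∑ i : Fin T, |((b : ℝ)⁻¹) ^ (i : ℕ) * cen b (w i c)| := Finset.abs_sum_le_sum_abs _ _
    _ ≤ ∑ i : Fin T, (1 / 2 : ℝ) ^ (i : ℕ) := by
        apply Finset.sum_le_sum
        intro i _
        rw [abs_mul, abs_of_nonneg (by positivity)]
        calc ((b : ℝ)⁻¹) ^ (i : ℕ) * |cen b (w i c)| ≤ (1 / 2 : ℝ) ^ (i : ℕ) * 1 := by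
              gcongr
              exact abs_cen_le _
          _ = _ := mul_one _
    _ = ∑ i ∈ Finset.range T, (1 / 2 : ℝ) ^ i := Fin.sum_univ_eq_sum_range (fun i => (1/2 : ℝ) ^ i) T
    _ ≤ 2 := by
        have h := geom_sum_eq (show (1 / 2 : ℝ) ≠ 1 by norm_num) T
        rw [h]
        have : (0 : ℝ) < (1 / 2) ^ T := by positivity
        rw [div_le_iff_of_neg (by norm_num)]
        linarith

lemma vlaw_ae {S : Finset (Fin n)} {b : ℕ} (hb : 2 ≤ b) {T : ℕ} (w : Fin T → CC S → Fin b) :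
    ∀ᵐ v ∂(vlaw S b T (rep w)), v ∈ Ent n 3 := by
  have hbr : (2 : ℝ) ≤ b := by exact_mod_cast hb
  unfold vlaw
  have hm : MeasurableSet {v : SLR n | v ∈ Ent n 3} := measurableSet_Ent 3
  rw [ae_map_iff (NS_373.measurable_vlaw S b T (rep w)).aemeasurable hm]
  have huni : ∀ᵐ x ∂uni, |x| ≤ 1 := by
    unfold uni
    apply Measure.ae_smul_measure
    rw [ae_restrict_iff' measurableSet_Icc]
    exact Filter.Eventually.of_forall fun x hx => abs_le.2 hx
  have hC : ∀ᵐ θ ∂(uniC S), ∀ c, |θ c| ≤ 1 := by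
    rw [ae_all_iff]
    intro c
    unfold uniC
    exact (Measure.quasiMeasurePreserving_eval (fun _ : CC S => uni) c).ae huni
  filter_upwards [hC] with θ hθ
  apply vv_mem_Ent (by norm_num)
  intro c
  have h1 := abs_rep_le hb w c
  have h2 : |(((b : ℝ)⁻¹) ^ T • θ) c| ≤ 1 := by
    rw [Pi.smul_apply, smul_eq_mul, abs_mul, abs_of_nonneg (by positivity)]
    have h3 : ((b : ℝ)⁻¹) ^ T ≤ 1 := by
      apply pow_le_one₀ (by positivity)
      exact inv_le_one_of_one_le₀ (by linarith)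
    calc ((b : ℝ)⁻¹) ^ T * |θ c| ≤ 1 * 1 := by
          gcongr
          exact hθ c
      _ = 1 := by norm_num
  rw [Pi.add_apply]
  refine (abs_add_le _ _).trans ?_
  linarith

/-- the entry bound for `K` -/
noncomputable def KB (n : ℕ) (r : ℝ) : ℝ := n * (n * (B0 n r * 4) * 3)

/-- the reference measure `lam` on the space of lattices -/
noncomputable def lamM (n : ℕ) (r : ℝ) : Measure (ModSpace n) :=
  ((Hs n).restrict (Ent n (KB n r))).map q

lemma lamM_univ_le (hn : 0 < n) {r : ℝ} (hr : 0 < r) :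
    lamM n r Set.univ ≤ ENNReal.ofReal (2 ^ n * (2 * (2 * KB n r + 1)) ^ (n ^ 2)) := by
  unfold lamM
  rw [Measure.map_apply continuous_q.measurable MeasurableSet.univ, Set.preimage_univ,
    Measure.restrict_apply MeasurableSet.univ, Set.univ_inter]
  exact Hs_Ent_le hn (by have := B0_nonneg (n := n) hr; unfold KB; positivity)

lemma isFiniteMeasure_lamM (hn : 0 < n) {r : ℝ} (hr : 0 < r) : IsFiniteMeasure (lamM n r) :=
  ⟨lt_of_le_of_lt (lamM_univ_le hn hr) ENNReal.ofReal_lt_top⟩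

/-- **MASS, general form.** -/
theorem mass (hn : 0 < n) (μ : Measure (ModSpace n)) [IsProbabilityMeasure μ] (hμ : AInv μ)
    {D κ C e η : ℝ} (hD : 1 ≤ D) (he : 0 ≤ e) (hSl : SlabBd μ D κ C e η) (hD16 : 16 ≤ D ^ e) :
    ∃ X' : Set (ModSpace n), MeasurableSet X' ∧ μ X'ᶜ ≤ ENNReal.ofReal (D ^ (-η)) ∧
    ∀ t : Fin n → ℝ, ∀ G : Set (ModSpace n), G = {x | act x (aT t) ∈ X'} ∩
        ({x | Thick (act x (aT t)) (D ^ (-e))} ∩ {x | Thick x (D ^ (-e))}) →
      MeasurableSet G ∧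
      μ Gᶜ ≤ ENNReal.ofReal (D ^ (-η)) + 2 * ENNReal.ofReal (D ^ e * (D ^ (-e)) ^ n) ∧
      ∀ S : Finset (Fin n), S.Nonempty → S ≠ Finset.univ →
      ∀ (R : Fin n → Fin n → ℝ) (c1 W : ℝ), Adm R → (∀ i j, 0 ≤ R i j) →
        (n : ℝ) * 2 ^ (-c1) ≤ 1 / 2 → (∀ i j, c1 ≤ (R + Nd_837.sh t) i j) →
        (∀ i j, (i ∈ S ↔ j ∉ S) → W ≤ (R + Nd_837.sh t) i j) →
        D ^ (-κ) ≤ (8 + 32 * n) * 2 ^ (-W) → (8 + 32 * n) * (2 : ℝ) ^ (-W) ≤ 1 →
      ∀ (b : ℕ), 2 ≤ b → ∀ (T : ℕ) (w : Fin T → CC S → Fin b),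
        rho (μ.restrict G) ((un R).map toSL) S b T w ≤
          (((Fintype.card (CC S → Fin b) : ℝ≥0∞)⁻¹) ^ T *
            (ENNReal.ofReal (2 ^ n * (vb R)⁻¹) *
              ENNReal.ofReal (D ^ (C * e) * ((8 + 32 * n) * 2 ^ (-W))))) • lamM n (D ^ (-e)) := by
  obtain ⟨⟨X', hX'm, hX'μ, hX'⟩, hcusp⟩ := hSl
  have hr0 : 0 < D ^ (-e) := Real.rpow_pos_of_pos (by linarith) _
  have hr1 : D ^ (-e) ≤ 1 := Real.rpow_le_one_of_one_le_of_nonpos hD (by linarith)
  have hmact : ∀ t : Fin n → ℝ, Measurable fun x : ModSpace n => act x (aT t) :=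
    fun t => measurable_act (aT t)
  have hth : MeasurableSet {x : ModSpace n | Thick x (D ^ (-e))} :=
    Asm2_792.measurableSet_thick n hr0
  refine ⟨X', hX'm, hX'μ, ?_⟩
  rintro t G rfl
  have hGm : MeasurableSet ({x | act x (aT t) ∈ X'} ∩
        ({x : ModSpace n | Thick (act x (aT t)) (D ^ (-e))} ∩ {x | Thick x (D ^ (-e))})) :=
    ((hmact t) hX'm).inter (((hmact t) hth).inter hth)
  have hinv : ∀ T : Set (ModSpace n), MeasurableSet T → μ {x | act x (aT t) ∈ T} = μ T := by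
    intro T hT
    have h1 := hμ t
    conv_rhs => rw [← h1]
    rw [Measure.map_apply (hmact t) hT]
    rfl
  refine ⟨hGm, ?_, ?_⟩
  · have hsub : ({x | act x (aT t) ∈ X'} ∩
        ({x : ModSpace n | Thick (act x (aT t)) (D ^ (-e))} ∩ {x | Thick x (D ^ (-e))}))ᶜ
        ⊆ {x | act x (aT t) ∈ X'ᶜ} ∪
          ({x | act x (aT t) ∈ {y : ModSpace n | ¬ Thick y (D ^ (-e))}} ∪
            {x | ¬ Thick x (D ^ (-e))}) := by
      intro x hx
      by_cases h1 : act x (aT t) ∈ X'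
      · by_cases h2 : Thick (act x (aT t)) (D ^ (-e))
        · by_cases h3 : Thick x (D ^ (-e))
          · exact absurd ⟨h1, h2, h3⟩ hx
          · exact Or.inr (Or.inr h3)
        · exact Or.inr (Or.inl h2)
      · exact Or.inl h1
    refine (measure_mono hsub).trans ((measure_union_le _ _).trans ?_)
    rw [hinv X'ᶜ hX'm.compl]
    refine add_le_add hX'μ ((measure_union_le _ _).trans ?_)
    have hthc : MeasurableSet {y : ModSpace n | ¬ Thick y (D ^ (-e))} := hth.compl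
    rw [hinv _ hthc, two_mul]
    exact add_le_add (hcusp _ hr0) (hcusp _ hr0)
  · intro S hS hS' R c1 W hAdm hR0 hc1 hR hW hδ0 hδ1 b hb T w
    set G : Set (ModSpace n) := {x | act x (aT t) ∈ X'} ∩
        ({x : ModSpace n | Thick (act x (aT t)) (D ^ (-e))} ∩ {x | Thick x (D ^ (-e))}) with hG
    have hprobZ : IsProbabilityMeasure ((un R).map toSL) := by
      have := Nz_323.isProb_un hAdm
      exact Measure.isProbabilityMeasure_map measurable_toSL'.aemeasurable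
    obtain ⟨s, hs, hqs, hsB⟩ := exists_bdd_section (n := n) (B0 n (D ^ (-e)))
    have hB0 := B0_nonneg (n := n) hr0
    have hmain := fun (B : Set (ModSpace n)) (hB : MeasurableSet B) =>
      mass_of (Hs n) Hs_mul_left Hs_mul_right μ ((un R).map toSL)
        (ENNReal.ofReal (2 ^ n * (vb R)⁻¹)) (VB R) (measurableSet_VB R) (map_un_le hn hAdm)
        s hs hqs G hGm (Ent n 3) (vlaw S b T (rep w)) (vlaw_ae hb w)
        (Ent n (KB n (D ^ (-e)))) (measurableSet_Ent _)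
        (by
          intro x hx g hg v hv
          have h1 : s x ∈ Ent n (B0 n (D ^ (-e))) := hsB x (exists_rep_of_thick hr0 hr1 hx.2.2)
          have h2 := Ent_mul hB0 h1 (VB_subset_Ent hR0 hg)
          have h3 : (0 : ℝ) ≤ n * (B0 n (D ^ (-e)) * 4) := by positivity
          exact Ent_mul h3 h2 hv)
        (ENNReal.ofReal (D ^ (C * e) * ((8 + 32 * n) * 2 ^ (-W))))
        (fun h v => num_bound μ hμ X' D C e κ S (fun x hx δ h0 h1 => hX' x hx S hS hS' δ h0 h1)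
          hD16 R t c1 W hc1 hR hW hδ0 hδ1 G (fun x hx => ⟨hx.1, hx.2.1⟩) s hqs h v) B hB
    unfold rho
    rw [stp_stp, mul_smul]
    refine Measure.le_iff.2 fun B hB => ?_
    rw [Measure.smul_apply, Measure.smul_apply, smul_eq_mul, smul_eq_mul]
    refine mul_le_mul' le_rfl ?_
    rw [Measure.smul_apply, smul_eq_mul]
    refine (hmain B hB).trans (le_of_eq ?_)
    congr 1
    unfold lamM
    rw [Measure.map_apply continuous_q.measurable hB,
      Measure.restrict_apply (continuous_q.measurable hB)]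
    congr 1
    ext h
    simp [and_comm]

/-- the torus element used for the one-sided slab -/
noncomputable def tS (S : Finset (Fin n)) (Tr : ℝ) : Fin n → ℝ :=
  open Classical in fun i => if i ∈ S then -(Tr / 2) else 0

lemma sh_tS {S : Finset (Fin n)} {R : Fin n → Fin n → ℝ} {c1 Tr : ℝ} (hTr : 0 ≤ Tr)
    (hcr : ∀ c : CC S, Tr + c1 ≤ R c.1.1 c.1.2) (hall : ∀ i j, c1 ≤ R i j) :
    (∀ i j, c1 ≤ (R + Nd_837.sh (tS S Tr)) i j) ∧
      ∀ i j, (i ∈ S ↔ j ∉ S) → Tr / 2 + c1 ≤ (R + Nd_837.sh (tS S Tr)) i j := by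
  classical
  have key : ∀ i j, (R + Nd_837.sh (tS S Tr)) i j
      = R i j + ((if i ∈ S then -(Tr / 2) else 0) - (if j ∈ S then -(Tr / 2) else 0)) := by
    intro i j
    simp only [Pi.add_apply, Nd_837.sh, tS]
  have hcr' : ∀ i j, i ∈ S → j ∉ S → Tr + c1 ≤ R i j := fun i j hi hj => hcr ⟨(i, j), hi, hj⟩
  constructor
  · intro i j
    rw [key]
    have h1 := hall i j
    by_cases hi : i ∈ S <;> by_cases hj : j ∈ S <;> simp only [hi, hj, if_true, if_false]
    · linarith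
    · have := hcr' i j hi hj; linarith
    · linarith
    · linarith
  · intro i j hij
    rw [key]
    have h1 := hall i j
    by_cases hi : i ∈ S
    · have hj : j ∉ S := hij.1 hi
      simp only [hi, hj, if_true, if_false]
      have := hcr' i j hi hj; linarith
    · have hj : j ∈ S := by
        by_contra hj; exact hi (hij.2 hj)
      simp only [hi, hj, if_true, if_false]
      linarith

/-- `(vb R)⁻¹` for a metric which is at most `Tr + U` on the crossing roots and `U` elsewhere. -/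
lemma inv_vb_le {S : Finset (Fin n)} {R : Fin n → Fin n → ℝ} {Tr U : ℝ} 
    (hcr : ∀ c : CC S, R c.1.1 c.1.2 ≤ Tr + U)
    (hall : ∀ i j, ¬ (i ∈ S ∧ j ∉ S) → R i j ≤ U) :
    (vb R)⁻¹ ≤ 2 ^ ((n : ℝ) ^ 2 * U) * 2 ^ ((Fintype.card (CC S) : ℝ) * Tr) := by
  classical
  have e1 : (vb R)⁻¹ = ∏ p : Fin n × Fin n, (2 * (2 : ℝ) ^ (-(R p.1 p.2)))⁻¹ := by
    unfold vb
    rw [← Finset.univ_product_univ, Finset.prod_product, ← Finset.prod_inv_distrib]
    refine Finset.prod_congr rfl fun i _ => ?_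
    rw [Finset.prod_inv_distrib]
  have e2 : ∏ p : Fin n × Fin n, (2 * (2 : ℝ) ^ (-(R p.1 p.2)))⁻¹
      ≤ ∏ p : Fin n × Fin n, (2 : ℝ) ^ (U + (if p.1 ∈ S ∧ p.2 ∉ S then Tr else 0)) := by
    refine Finset.prod_le_prod (fun p _ => by positivity) fun p _ => ?_
    rw [mul_inv, ← Real.rpow_neg (by norm_num), neg_neg]
    have h1 : R p.1 p.2 ≤ U + (if p.1 ∈ S ∧ p.2 ∉ S then Tr else 0) := by
      split_ifs with h
      · have := hcr ⟨p, h⟩
        linarith
      · have := hall p.1 p.2 h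
        linarith
    have h2 : (2 : ℝ) ^ (R p.1 p.2) ≤ 2 ^ (U + (if p.1 ∈ S ∧ p.2 ∉ S then Tr else 0)) :=
      Real.rpow_le_rpow_of_exponent_le (by norm_num) h1
    have h3 : (0 : ℝ) < 2 ^ (R p.1 p.2) := by positivity
    linarith
  rw [e1]
  refine e2.trans (le_of_eq ?_)
  rw [← Real.rpow_sum_of_pos (by norm_num : (0 : ℝ) < 2), ← Real.rpow_add (by norm_num)]
  congr 1
  rw [Finset.sum_add_distrib, Finset.sum_const, Finset.card_univ, Fintype.card_prod,
    Fintype.card_fin, nsmul_eq_mul]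
  have e3 : ∑ p : Fin n × Fin n, (if p.1 ∈ S ∧ p.2 ∉ S then Tr else 0)
      = (Fintype.card (CC S) : ℝ) * Tr := by
    rw [Finset.sum_ite, Finset.sum_const, Finset.sum_const_zero, add_zero, nsmul_eq_mul,
      Fintype.card_subtype]
  rw [e3]
  push_cast
  ring

/-- **MASS, final form.**  `Tr = T log₂ b` is the depth of the words. -/
theorem mass_final (hn : 0 < n) (μ : Measure (ModSpace n)) [IsProbabilityMeasure μ]
    (hμ : AInv μ) {D κ C e η : ℝ} (hD : 1 ≤ D) (he : 0 ≤ e) (hSl : SlabBd μ D κ C e η)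
    (hD16 : 16 ≤ D ^ e) {b : ℕ} (hb : 2 ≤ b) {T : ℕ} {Tr : ℝ} (hTr : Tr = T * Real.logb 2 b)
    (S : Finset (Fin n)) (hS : S.Nonempty) (hS' : S ≠ Finset.univ)
    (hδ0 : D ^ (-κ) ≤ (8 + 32 * n) * 2 ^ (-(Tr / 2)))
    (hδ1 : (8 + 32 * n) * (2 : ℝ) ^ (-(Tr / 2)) ≤ 1) :
    ∃ G : Set (ModSpace n), MeasurableSet G ∧
      μ Gᶜ ≤ ENNReal.ofReal (D ^ (-η)) + 2 * ENNReal.ofReal (D ^ e * (D ^ (-e)) ^ n) ∧
      ∀ (R : Fin n → Fin n → ℝ) (c1 U : ℝ), Adm R → 0 ≤ c1 → (n : ℝ) * 2 ^ (-c1) ≤ 1 / 2 →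
        (∀ i j, c1 ≤ R i j) → (∀ c : CC S, Tr + c1 ≤ R c.1.1 c.1.2) →
        (∀ c : CC S, R c.1.1 c.1.2 ≤ Tr + U) → (∀ i j, ¬ (i ∈ S ∧ j ∉ S) → R i j ≤ U) →
      ∀ w : Fin T → CC S → Fin b,
        rho (μ.restrict G) ((un R).map toSL) S b T w ≤
          ENNReal.ofReal ((2 ^ n * (8 + 32 * n)) * 2 ^ ((n : ℝ) ^ 2 * U) * D ^ (C * e)
            * 2 ^ (-(Tr / 2))) • lamM n (D ^ (-e)) := by
  have hb2 : (2 : ℝ) ≤ b := by exact_mod_cast hb
  have hb0 : (0 : ℝ) < b := by linarith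
  have hTr0 : 0 ≤ Tr := by
    rw [hTr]
    exact mul_nonneg (Nat.cast_nonneg _) (Real.logb_nonneg (by norm_num) (by linarith))
  have hbT : (b : ℝ) ^ T = 2 ^ Tr := by
    rw [hTr, mul_comm, Real.rpow_mul (by norm_num), Real.rpow_logb (by norm_num) (by norm_num) hb0,
      Real.rpow_natCast]
  obtain ⟨X', hX'm, hX'μ, hall⟩ := mass hn μ hμ hD he hSl hD16
  obtain ⟨hGm, hGμ, h⟩ := hall (tS S Tr) _ rfl
  refine ⟨_, hGm, hGμ, ?_⟩
  intro R c1 U hAdm hc10 hc1 hR1 hRcr hRcr' hRall w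
  obtain ⟨hs1, hs2⟩ := sh_tS hTr0 hRcr hR1
  have hmain := h S hS hS' R c1 (Tr / 2) hAdm (fun i j => hc10.trans (hR1 i j)) hc1 hs1
    (fun i j hij => by have := hs2 i j hij; linarith) hδ0 hδ1 b hb T w
  refine hmain.trans ?_
  refine Measure.le_iff.2 fun B _ => ?_
  rw [Measure.smul_apply, Measure.smul_apply, smul_eq_mul, smul_eq_mul]
  refine mul_le_mul' ?_ le_rfl
  have hcard : (Fintype.card (CC S → Fin b) : ℝ≥0∞)
      = ENNReal.ofReal ((b : ℝ) ^ (Fintype.card (CC S))) := by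
    rw [Fintype.card_fun, Fintype.card_fin, ENNReal.ofReal_pow hb0.le, ENNReal.ofReal_natCast]
    push_cast
    rfl
  have hDC : 0 ≤ D ^ (C * e) := Real.rpow_nonneg (by linarith) _
  have hvb := Nz_323.vb_pos R
  rw [hcard, ← ENNReal.ofReal_inv_of_pos (by positivity), ← ENNReal.ofReal_pow (by positivity),
    ← ENNReal.ofReal_mul (by positivity), ← ENNReal.ofReal_mul (by positivity)]
  apply ENNReal.ofReal_le_ofReal
  have hv := inv_vb_le hRcr' hRall
  have hpow : (((b : ℝ) ^ (Fintype.card (CC S)))⁻¹) ^ T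
      = (2 ^ ((Fintype.card (CC S) : ℝ) * Tr))⁻¹ := by
    rw [inv_pow, ← pow_mul, mul_comm (Fintype.card (CC S)) T, pow_mul, hbT, ← Real.rpow_natCast,
      ← Real.rpow_mul (by norm_num), mul_comm Tr]
  rw [hpow]
  have hp0 : (0 : ℝ) < 2 ^ ((Fintype.card (CC S) : ℝ) * Tr) := by positivity
  calc (2 ^ ((Fintype.card (CC S) : ℝ) * Tr))⁻¹ * (2 ^ n * (vb R)⁻¹ *
        (D ^ (C * e) * ((8 + 32 * n) * 2 ^ (-(Tr / 2)))))
      ≤ (2 ^ ((Fintype.card (CC S) : ℝ) * Tr))⁻¹ * (2 ^ n *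
        (2 ^ ((n : ℝ) ^ 2 * U) * 2 ^ ((Fintype.card (CC S) : ℝ) * Tr)) *
        (D ^ (C * e) * ((8 + 32 * n) * 2 ^ (-(Tr / 2))))) := by gcongr
    _ = 2 ^ n * (8 + 32 * n) * 2 ^ ((n : ℝ) ^ 2 * U) * D ^ (C * e) * 2 ^ (-(Tr / 2)) := by
        field_simp

end Crest.Agent.R014.Nm_884
end

-- ▼ part R014/NSlab6_373
section

/-!
Row 14, block D, noise formalism (#3844), section SLAB (helper373, task 1063), part 6:
conditioning on the good set `G` and the lower bound for `Acv` (**slab_avg**).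
-/

set_option autoImplicit false

open MeasureTheory Crest.NumberTheoryR.Packets Finset
open scoped ENNReal

noncomputable section

namespace Crest.Agent.R014.NS_373

open Ms_667 Nd_837 Ne1_567 NSlab_373 NScC_395 NScD_395

variable {n : ℕ} {S : Finset (Fin n)} {b : ℕ}

theorem stp_add (μ ν : Measure (ModSpace n)) [SFinite μ] [SFinite ν] (κ : Measure (SLR n))
    [SFinite κ] : stp (μ + ν) κ = stp μ κ + stp ν κ := by
  unfold stp
  rw [Measure.add_prod, Measure.map_add _ _ measurable_act₂]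

theorem lab_add (μ ν : Measure (ModSpace n)) [IsFiniteMeasure μ] [IsFiniteMeasure ν]
    (κ : Measure (SLR n)) [IsFiniteMeasure κ] {i j : Fin n} (hij : i ≠ j) (r : ℝ) (b : ℕ)
    (d : Fin b) : lab (μ + ν) κ hij r b d = lab μ κ hij r b d + lab ν κ hij r b d := by
  unfold lab
  rw [stp_add, stp_add, smul_add]

theorem tot_lab_real_univ (ν : Measure (ModSpace n)) [IsFiniteMeasure ν] (κ : Measure (SLR n))
    [IsProbabilityMeasure κ] {i j : Fin n} (hij : i ≠ j) (r : ℝ) [NeZero b] :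
    ∑ d, (lab ν κ hij r b d).real Set.univ = ν.real Set.univ := by
  rw [← tot_real_univ, StepQ_870.tot_lab_fin ν κ hij r (Nat.pos_of_ne_zero (NeZero.ne b)),
    Measure.real, stp_univ, Measure.real]

theorem lab_mono {ν νA : Measure (ModSpace n)} [SFinite ν] [SFinite νA] (h : νA ≤ ν)
    (κ : Measure (SLR n)) [SFinite κ] {i j : Fin n} (hij : i ≠ j) (r : ℝ) (d : Fin b) :
    lab νA κ hij r b d ≤ lab ν κ hij r b d := by
  unfold lab
  refine Measure.le_iff.2 fun A _ => ?_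
  rw [Measure.smul_apply, Measure.smul_apply]
  exact mul_le_mul_right (stp_mono (stp_mono h κ) _ A) _

/-- **G-conditioning.** -/
theorem cond_G (μ : Measure (ModSpace n)) [IsProbabilityMeasure μ] (κ : Measure (SLR n))
    [IsProbabilityMeasure κ] {i j : Fin n} (hij : i ≠ j) (r : ℝ) [NeZero b]
    {G : Set (ModSpace n)} (hG : MeasurableSet G) (A : Set (ModSpace n)) :
    ∫ y, ps (lab (μ.restrict G) κ hij r b) y ∂(tot (lab (μ.restrict (A ∩ G)) κ hij r b)) ≤
      ∫ x in A, Acv μ κ hij r b x ∂μ + 16 * μ.real Gᶜ := by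
  set ρG := lab (μ.restrict G) κ hij r b with hρG
  set ρ := lab μ κ hij r b with hρ
  set ρA := lab (μ.restrict (A ∩ G)) κ hij r b with hρA
  have hne : Nonempty (Fin b) := ⟨⟨0, Nat.pos_of_ne_zero (NeZero.ne b)⟩⟩
  have hle : tot ρA ≤ tot ρG := tot_mono fun d => lab_mono
    (Measure.restrict_mono Set.inter_subset_right le_rfl) κ hij r d
  have hb1 : ∀ y, |ps ρG y - ps ρ y| ≤ 2 := fun y => by
    rw [abs_le]
    constructor <;> linarith [ps_nonneg ρ y, ps_nonneg ρG y, ps_le ρ y, ps_le ρG y]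
  have hm1 : Measurable fun y => |ps ρG y - ps ρ y| := ((measurable_ps ρG).sub (measurable_ps ρ)).abs
  have hi1 : ∀ (θ : Measure (ModSpace n)) [IsFiniteMeasure θ],
      Integrable (fun y => |ps ρG y - ps ρ y|) θ := fun θ _ =>
    bdd_integrable hm1 fun y => by rw [abs_abs]; exact hb1 y
  -- the difference
  have hsplit : ∀ d, ρ d = ρG d + lab (μ.restrict Gᶜ) κ hij r b d := by
    intro d
    rw [hρ, hρG, ← lab_add, Measure.restrict_add_restrict_compl hG]
  have h1 : ∫ y, ∑ d, |Ne3_567.pv ρG d y - Ne3_567.pv ρ d y| ∂(tot ρG) ≤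
      4 * ∑ d, (lab (μ.restrict Gᶜ) κ hij r b d).real Set.univ := by
    refine Ne3_567.integral_abs_pv_le ρG ρ (fun d B _ => ?_) fun d B _ => ?_
    · have h2 : (ρG d).real B ≤ (ρ d).real B := by
        rw [hsplit d]
        exact ENNReal.toReal_mono (measure_ne_top _ _) (by
          rw [Measure.add_apply]; exact le_self_add)
      linarith [measureReal_nonneg (μ := lab (μ.restrict Gᶜ) κ hij r b d) (s := Set.univ)]
    · rw [hsplit d, measureReal_add_apply]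
      exact add_le_add le_rfl (measureReal_mono (Set.subset_univ _))
  rw [tot_lab_real_univ] at h1
  have hGc : (μ.restrict Gᶜ).real Set.univ = μ.real Gᶜ := by
    simp [Measure.real]
  rw [hGc] at h1
  have h2 : ∫ y, |ps ρG y - ps ρ y| ∂(tot ρG) ≤ 4 * (4 * μ.real Gᶜ) := by
    calc ∫ y, |ps ρG y - ps ρ y| ∂(tot ρG)
        ≤ ∫ y, 4 * ∑ d, |Ne3_567.pv ρG d y - Ne3_567.pv ρ d y| ∂(tot ρG) := by
          refine integral_mono (hi1 _) ?_ fun y => ps_lip ρG ρ y y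
          refine Integrable.const_mul ?_ 4
          refine Integrable.of_bound (Finset.measurable_sum _ fun d _ =>
            ((Ne3_567.measurable_pv ρG d).sub (Ne3_567.measurable_pv ρ d)).abs).aestronglyMeasurable 2
            (Filter.Eventually.of_forall fun y => ?_)
          rw [Real.norm_eq_abs, abs_of_nonneg (Finset.sum_nonneg fun d _ => abs_nonneg _)]
          exact Ne3_567.sum_abs_pv_le_two ρG ρ y y
      _ = 4 * ∫ y, ∑ d, |Ne3_567.pv ρG d y - Ne3_567.pv ρ d y| ∂(tot ρG) := integral_const_mul _ _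
      _ ≤ _ := mul_le_mul_of_nonneg_left h1 (by norm_num)
  have h3 : ∫ y, |ps ρG y - ps ρ y| ∂(tot ρA) ≤ ∫ y, |ps ρG y - ps ρ y| ∂(tot ρG) :=
    integral_mono_measure hle (Filter.Eventually.of_forall fun y => abs_nonneg _) (hi1 _)
  have h4 : ∫ y, ps ρG y ∂(tot ρA) ≤ ∫ y, ps ρ y ∂(tot ρA) + ∫ y, |ps ρG y - ps ρ y| ∂(tot ρA) := by
    rw [← integral_add (bdd_integrable (measurable_ps _) (abs_ps_le _)) (hi1 _)]
    refine integral_mono (bdd_integrable (measurable_ps _) (abs_ps_le _))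
      ((bdd_integrable (measurable_ps _) (abs_ps_le _)).add (hi1 _)) fun y => ?_
    simp only
    linarith [le_abs_self (ps ρG y - ps ρ y)]
  have h5 : ∫ y, ps ρ y ∂(tot ρA) = ∫ x in A ∩ G, Acv μ κ hij r b x ∂μ :=
    StepQ_870.integral_ps_restrict μ κ hij r (A ∩ G)
  have h6 : ∫ x in A ∩ G, Acv μ κ hij r b x ∂μ ≤ ∫ x in A, Acv μ κ hij r b x ∂μ := by
    refine setIntegral_mono_set ?_ ?_ (Filter.Eventually.of_forall fun x hx => hx.1)
    · exact (bdd_integrable (measurable_Av _ _) (M := 2) fun x => by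
        rw [abs_of_nonneg (Av_nonneg _ _ _)]; exact Av_le _ _ _).integrableOn
    · exact Filter.Eventually.of_forall fun x => Av_nonneg _ _ _
  linarith

/-- **The slab lower bound for the averaged posterior spreads.** -/
theorem slab_avg (hb : 0 < b) (S : Finset (Fin n)) (μ : Measure (ModSpace n))
    [IsProbabilityMeasure μ] (κ : Measure (SLR n)) [IsProbabilityMeasure κ] (T : ℕ)
    {G : Set (ModSpace n)} (hG : MeasurableSet G) (A : Set (ModSpace n))
    (lam : Measure (ModSpace n)) [IsFiniteMeasure lam] {M : ℝ} (hM : 0 ≤ M)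
    (h : ∀ w, rho (μ.restrict G) κ S b T w ≤ ENNReal.ofReal M • lam) {τ : ℝ} (hτ : 0 < τ)
    {c₁ : ℝ} (hc : 0 ≤ c₁) :
    c₁ * T * (μ.real (A ∩ G) - (τ⁻¹ * (M * lam.real Set.univ) +
        √τ * Real.exp (KS S b * √(T * (c₁ * T))))) ≤
      ∑ i : Fin T, ∑ c : CC S, (∫ x in A, Acv μ (cv κ (ovl S b i c)) c.ne (i * Real.logb 2 b) b x ∂μ +
        16 * μ.real Gᶜ) := by
  have : NeZero b := ⟨hb.ne'⟩
  have h1 := LBr hb S (ν := μ.restrict G) (νA := μ.restrict (A ∩ G))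
    (Measure.restrict_mono Set.inter_subset_right le_rfl) κ T lam hM h hτ hc
  have h2 : ∑ i : Fin T, ∑ c : CC S, ∫ y, ps (labc (μ.restrict G) κ S b i c) y
      ∂(tot (labc (μ.restrict (A ∩ G)) κ S b i c)) ≤
      ∑ i : Fin T, ∑ c : CC S, (∫ x in A, Acv μ (cv κ (ovl S b i c)) c.ne (i * Real.logb 2 b) b x ∂μ +
        16 * μ.real Gᶜ) :=
    Finset.sum_le_sum fun i _ => Finset.sum_le_sum fun c _ => cond_G μ _ c.ne _ hG A
  refine le_trans (mul_le_mul_of_nonneg_left ?_ (mul_nonneg hc (Nat.cast_nonneg _))) (h1.trans h2)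
  have h3 : (μ.restrict (A ∩ G)).real Set.univ = μ.real (A ∩ G) := by simp [Measure.real]
  have h4 : (μ.restrict G).real Set.univ ≤ 1 := by
    have : (μ.restrict G).real Set.univ = μ.real G := by simp [Measure.real]
    rw [this]; exact measureReal_le_one
  have h5 : 0 ≤ √τ * Real.exp (KS S b * √(T * (c₁ * T))) := by positivity
  rw [h3]
  nlinarith [mul_le_mul_of_nonneg_left h4 h5]

end Crest.Agent.R014.NS_373
end
end

-- ▼ part R014/L3_884
section

/-!
Row 14, block D, noise formalism (#3844), lemma (L3) of #4363/#4601 (helper884): the law of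
`ζ_R v(s)`, `s` uniform in the box of radii `2^(-r)` in the crossing group, is the uniform noise of the
metric `R` with the crossing entries replaced by `r`, up to `C 2^(-w)` in total variation.
-/

set_option autoImplicit false

open MeasureTheory Crest.NumberTheoryR.Packets
open scoped ENNReal

noncomputable section

namespace Crest.Agent.R014.L3_884

open Ms_667 Nd_837 NS_373
open Nz_323 (bx bxc Adm un haar vb isProb_un)

section Lin

variable {ι : Type*} [Fintype ι]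

/-- Linear maps close to the identity distort volumes a little. -/
theorem lin_bounds {f : (ι → ℝ) →ₗ[ℝ] (ι → ℝ)} {δ : ℝ} (h0 : 0 ≤ δ) (h1 : δ < 1)
    (hf : ∀ θ, ‖f θ - θ‖ ≤ δ * ‖θ‖) :
    LinearMap.det f ≠ 0 ∧ |(LinearMap.det f)⁻¹| * (1 - δ) ^ Fintype.card ι ≤ 1 ∧
      1 ≤ |(LinearMap.det f)⁻¹| * (1 + δ) ^ Fintype.card ι := by
  have hd : 0 < 1 - δ := by linarith
  have hlow : ∀ θ, (1 - δ) * ‖θ‖ ≤ ‖f θ‖ := by
    intro θ
    have h2 : ‖θ‖ ≤ ‖f θ‖ + ‖f θ - θ‖ := by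
      have := norm_sub_le (f θ) (f θ - θ)
      rwa [sub_sub_cancel] at this
    linarith [hf θ]
  have hup : ∀ θ, ‖f θ‖ ≤ (1 + δ) * ‖θ‖ := by
    intro θ
    have h2 : ‖f θ‖ ≤ ‖f θ - θ‖ + ‖θ‖ := by
      have := norm_add_le (f θ - θ) θ
      rwa [sub_add_cancel] at this
    linarith [hf θ]
  have hker : LinearMap.ker f = ⊥ := by
    rw [LinearMap.ker_eq_bot']
    intro θ hθ
    have h2 := hlow θ
    rw [hθ, norm_zero] at h2
    have h3 : ‖θ‖ ≤ 0 := by
      by_contra hcon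
      push Not at hcon
      nlinarith
    exact norm_le_zero_iff.1 h3
  have hdet : LinearMap.det f ≠ 0 := by
    have h2 : IsUnit f := (LinearMap.isUnit_iff_ker_eq_bot f).2 hker
    have h3 := (LinearMap.isUnit_iff_isUnit_det f).1 h2
    exact h3.ne_zero
  have hV0 : (volume : Measure (ι → ℝ)) (Metric.ball 0 1) ≠ 0 :=
    (Metric.measure_ball_pos _ _ one_pos).ne'
  have hVt : (volume : Measure (ι → ℝ)) (Metric.ball 0 1) ≠ ⊤ := measure_ball_lt_top.ne
  have hvol : ∀ r : ℝ, 0 ≤ r → (volume : Measure (ι → ℝ)) (Metric.closedBall 0 r)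
      = ENNReal.ofReal (r ^ Fintype.card ι) * volume (Metric.ball (0 : ι → ℝ) 1) := by
    intro r hr
    rw [Measure.addHaar_closedBall _ _ hr, Module.finrank_fintype_fun_eq_card]
  have hpre : ∀ s : Set (ι → ℝ), (volume : Measure (ι → ℝ)) (f ⁻¹' s)
      = ENNReal.ofReal |(LinearMap.det f)⁻¹| * volume s := fun s =>
    Measure.addHaar_preimage_linearMap _ hdet s
  refine ⟨hdet, ?_, ?_⟩
  · have hsub : f ⁻¹' (Metric.closedBall 0 (1 - δ)) ⊆ Metric.closedBall 0 1 := by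
      intro θ hθ
      rw [Set.mem_preimage, mem_closedBall_zero_iff] at hθ
      rw [mem_closedBall_zero_iff]
      have h2 := (hlow θ).trans hθ
      by_contra hcon
      push Not at hcon
      nlinarith
    have h2 := measure_mono (μ := (volume : Measure (ι → ℝ))) hsub
    rw [hpre, hvol _ hd.le, hvol 1 zero_le_one, ← mul_assoc, one_pow,
      ENNReal.mul_le_mul_iff_left hV0 hVt, ← ENNReal.ofReal_mul (abs_nonneg _)] at h2
    exact (ENNReal.ofReal_le_ofReal_iff zero_le_one).1 h2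
  · have hsub : Metric.closedBall 0 1 ⊆ f ⁻¹' (Metric.closedBall 0 (1 + δ)) := by
      intro θ hθ
      rw [mem_closedBall_zero_iff] at hθ
      rw [Set.mem_preimage, mem_closedBall_zero_iff]
      have h2 := hup θ
      nlinarith
    have h2 := measure_mono (μ := (volume : Measure (ι → ℝ))) hsub
    rw [hpre, hvol (1 + δ) (by linarith), hvol 1 zero_le_one, ← mul_assoc, one_pow,
      ENNReal.mul_le_mul_iff_left hV0 hVt, ← ENNReal.ofReal_mul (abs_nonneg _)] at h2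
    exact (ENNReal.ofReal_le_ofReal_iff (by positivity)).1 h2

end Lin


variable {n : ℕ}

/-- `R` with the crossing entries replaced by `r`. -/
def ovr (S : Finset (Fin n)) (R : Fin n → Fin n → ℝ) (r : CC S → ℝ) : Fin n → Fin n → ℝ :=
  fun i j => if h : i ∈ S ∧ j ∉ S then r ⟨(i, j), h⟩ else R i j

theorem ovr_cross (S : Finset (Fin n)) (R : Fin n → Fin n → ℝ) (r : CC S → ℝ) (c : CC S) :
    ovr S R r c.1.1 c.1.2 = r c := by
  unfold ovr
  rw [dif_pos c.2]

theorem ovr_not {S : Finset (Fin n)} (R : Fin n → Fin n → ℝ) (r : CC S → ℝ) {i j : Fin n}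
    (h : ¬ (i ∈ S ∧ j ∉ S)) : ovr S R r i j = R i j := by
  unfold ovr
  rw [dif_neg h]

/-- the scaled vector. -/
def sc {S : Finset (Fin n)} (r θ : CC S → ℝ) : CC S → ℝ := fun c => 2 ^ (-r c) * θ c

/-- the hypotheses of (L3). -/
structure Hyp (S : Finset (Fin n)) (R : Fin n → Fin n → ℝ) (r : CC S → ℝ) (w : ℝ) : Prop where
  hw : 0 ≤ w
  h1 : ∀ c : CC S, r c + w ≤ R c.1.1 c.1.2
  h2 : ∀ (k i j : Fin n) (hk : k ∈ S) (hi : i ∈ S) (hj : j ∉ S),
    r ⟨(k, j), hk, hj⟩ + w ≤ R k i + r ⟨(i, j), hi, hj⟩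
  h3 : ∀ (i k j : Fin n) (hi : i ∈ S) (_ : k ∉ S) (hj : j ∉ S),
    R k j + w ≤ R k i + r ⟨(i, j), hi, hj⟩

variable {S : Finset (Fin n)} {R : Fin n → Fin n → ℝ} {r : CC S → ℝ} {w : ℝ}

theorem mul_nn_le (H : Hyp S R r w) {m : Mt n} {a : ℝ} (ha : 0 ≤ a)
    (hm : ∀ i j, |m i j| ≤ a * 2 ^ (-(ovr S R r i j))) {s : CC S → ℝ} {T : ℝ} (hT : 0 ≤ T)
    (hs : ∀ c, |s c| ≤ T * 2 ^ (-(r c))) (k j : Fin n) :
    |(m * nn S s) k j| ≤ (n * 2 ^ (-w) * (a * T)) * 2 ^ (-(ovr S R r k j)) := by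
  by_cases hj : j ∈ S
  · have h0 : (m * nn S s) k j = 0 := by
      rw [Matrix.mul_apply]
      exact Finset.sum_eq_zero fun i _ => by rw [nn_of_mem s i hj, mul_zero]
    rw [h0, abs_zero]
    positivity
  · rw [Matrix.mul_apply]
    refine (Finset.abs_sum_le_sum_abs _ _).trans ?_
    have key : ∀ i, |m k i * nn S s i j| ≤ 2 ^ (-w) * (a * T) * 2 ^ (-(ovr S R r k j)) := by
      intro i
      by_cases hi : i ∈ S
      · have e1 : nn S s i j = s ⟨(i, j), hi, hj⟩ := nn_cross S s ⟨(i, j), hi, hj⟩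
        have e2 : ovr S R r k i = R k i := ovr_not R r (fun h => h.2 hi)
        rw [abs_mul, e1]
        have e3 := hm k i
        rw [e2] at e3
        have e4 := hs ⟨(i, j), hi, hj⟩
        have e5 : w + ovr S R r k j ≤ R k i + r ⟨(i, j), hi, hj⟩ := by
          by_cases hk : k ∈ S
          · have h6 : ovr S R r k j = r ⟨(k, j), hk, hj⟩ := ovr_cross S R r ⟨(k, j), hk, hj⟩
            rw [h6, add_comm]
            exact H.h2 k i j hk hi hj
          · rw [ovr_not R r (fun h => hk h.1), add_comm]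
            exact H.h3 i k j hi hk hj
        calc |m k i| * |s ⟨(i, j), hi, hj⟩|
            ≤ (a * 2 ^ (-(R k i))) * (T * 2 ^ (-(r ⟨(i, j), hi, hj⟩))) :=
              mul_le_mul e3 e4 (abs_nonneg _) (by positivity)
          _ = (a * T) * 2 ^ (-(R k i + r ⟨(i, j), hi, hj⟩)) := by
              rw [neg_add, Real.rpow_add two_pos]; ring
          _ ≤ (a * T) * 2 ^ (-(w + ovr S R r k j)) := by
              have h7 : (2:ℝ) ^ (-(R k i + r ⟨(i, j), hi, hj⟩)) ≤ 2 ^ (-(w + ovr S R r k j)) :=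
                Real.rpow_le_rpow_of_exponent_le one_le_two (by linarith)
              exact mul_le_mul_of_nonneg_left h7 (mul_nonneg ha hT)
          _ = _ := by rw [neg_add, Real.rpow_add two_pos]; ring
      · rw [nn_of_notMem s hi, mul_zero, abs_zero]
        positivity
    calc ∑ i, |m k i * nn S s i j| ≤ ∑ _i : Fin n, 2 ^ (-w) * (a * T) * 2 ^ (-(ovr S R r k j)) :=
          Finset.sum_le_sum fun i _ => key i
      _ = _ := by
          rw [Finset.sum_const, Finset.card_univ, Fintype.card_fin, nsmul_eq_mul]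
          ring

theorem nn_smul (S : Finset (Fin n)) (a : ℝ) (s : CC S → ℝ) : nn S (a • s) = a • nn S s := by
  ext i j
  simp only [nn_apply, Matrix.smul_apply, Pi.smul_apply, smul_eq_mul]
  split_ifs <;> simp

theorem nn_neg (S : Finset (Fin n)) (s : CC S → ℝ) : nn S (-s) = -nn S s := by
  ext i j
  simp only [nn_apply, Matrix.neg_apply, Pi.neg_apply]
  split_ifs <;> simp

theorem sc_add (θ θ' : CC S → ℝ) : sc r (θ + θ') = sc r θ + sc r θ' := by
  funext c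
  simp only [sc, Pi.add_apply]
  ring

theorem sc_smul (a : ℝ) (θ : CC S → ℝ) : sc r (a • θ) = a • sc r θ := by
  funext c
  simp only [sc, Pi.smul_apply, smul_eq_mul]
  ring

theorem two_rpow_mul_neg (x : ℝ) : (2:ℝ) ^ x * 2 ^ (-x) = 1 := by
  rw [← Real.rpow_add two_pos, add_neg_cancel, Real.rpow_zero]

/-- the linear map `θ ↦ 2^r (1 + m) (2^(-r) θ)` on the crossing vectors. -/
def fh (S : Finset (Fin n)) (r : CC S → ℝ) (m : Mt n) : (CC S → ℝ) →ₗ[ℝ] (CC S → ℝ) where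
  toFun θ := fun c => θ c + 2 ^ (r c) * (m * nn S (sc r θ)) c.1.1 c.1.2
  map_add' θ θ' := by
    funext c
    simp only [Pi.add_apply]
    rw [sc_add, nn_add, mul_add, Matrix.add_apply]
    ring
  map_smul' a θ := by
    funext c
    simp only [Pi.smul_apply, smul_eq_mul, RingHom.id_apply]
    rw [sc_smul, nn_smul, Matrix.mul_smul, Matrix.smul_apply, smul_eq_mul]
    ring

theorem fh_apply (m : Mt n) (θ : CC S → ℝ) (c : CC S) :
    fh S r m θ c = θ c + 2 ^ (r c) * (m * nn S (sc r θ)) c.1.1 c.1.2 := rfl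

theorem abs_sc_le (θ : CC S → ℝ) (c : CC S) : |sc r θ c| ≤ ‖θ‖ * 2 ^ (-(r c)) := by
  unfold sc
  rw [abs_mul, abs_of_pos (Real.rpow_pos_of_pos two_pos _), mul_comm]
  exact mul_le_mul_of_nonneg_right (norm_le_pi_norm θ c) (Real.rpow_nonneg two_pos.le _)

theorem fh_sub_le (H : Hyp S R r w) {m : Mt n} {a δ : ℝ} (ha : 0 ≤ a)
    (hm : ∀ i j, |m i j| ≤ a * 2 ^ (-(ovr S R r i j))) (hδ : n * 2 ^ (-w) * a ≤ δ)
    (θ : CC S → ℝ) : ‖fh S r m θ - θ‖ ≤ δ * ‖θ‖ := by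
  have hδ0 : 0 ≤ δ := le_trans (by positivity) hδ
  rw [pi_norm_le_iff_of_nonneg (by positivity)]
  intro c
  rw [Pi.sub_apply, fh_apply, add_sub_cancel_left, Real.norm_eq_abs, abs_mul,
    abs_of_pos (Real.rpow_pos_of_pos two_pos _)]
  have h1 := mul_nn_le H ha hm (norm_nonneg θ) (abs_sc_le (r := r) θ) c.1.1 c.1.2
  rw [ovr_cross] at h1
  calc (2:ℝ) ^ (r c) * |(m * nn S (sc r θ)) c.1.1 c.1.2|
      ≤ 2 ^ (r c) * ((n * 2 ^ (-w) * (a * ‖θ‖)) * 2 ^ (-(r c))) :=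
        mul_le_mul_of_nonneg_left h1 (Real.rpow_nonneg two_pos.le _)
    _ = (n * 2 ^ (-w) * a) * ‖θ‖ * (2 ^ (r c) * 2 ^ (-(r c))) := by ring
    _ = (n * 2 ^ (-w) * a) * ‖θ‖ := by rw [two_rpow_mul_neg, mul_one]
    _ ≤ δ * ‖θ‖ := mul_le_mul_of_nonneg_right hδ (norm_nonneg _)

/-- the cube. -/
def cube (S : Finset (Fin n)) : Set (CC S → ℝ) := Set.univ.pi fun _ => Set.Icc (-1 : ℝ) 1

theorem measurableSet_cube : MeasurableSet (cube S) :=
  MeasurableSet.univ_pi fun _ => measurableSet_Icc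

theorem uniC_eq_restrict : uniC S = ((2 : ℝ≥0∞)⁻¹) ^ Fintype.card (CC S) •
    (volume : Measure (CC S → ℝ)).restrict (cube S) := by
  unfold uniC
  refine Measure.pi_eq fun s hs => ?_
  rw [Measure.smul_apply, cube]
  have h1 : (volume : Measure (CC S → ℝ)).restrict (Set.univ.pi fun _ => Set.Icc (-1 : ℝ) 1)
      = Measure.pi fun _ => (volume : Measure ℝ).restrict (Set.Icc (-1 : ℝ) 1) := by
    rw [volume_pi, Measure.restrict_pi_pi]
  rw [h1, Measure.pi_pi]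
  unfold uni
  simp_rw [Measure.smul_apply]
  rw [smul_eq_mul]
  simp_rw [smul_eq_mul]
  rw [Finset.prod_mul_distrib]
  simp

theorem uniC_le (X : Set (CC S → ℝ)) :
    uniC S X ≤ ((2 : ℝ≥0∞)⁻¹) ^ Fintype.card (CC S) * volume X := by
  rw [uniC_eq_restrict, Measure.smul_apply, smul_eq_mul]
  gcongr
  exact Measure.restrict_le_self

theorem uniC_eq {X : Set (CC S → ℝ)} (hX : MeasurableSet X) (h : X ⊆ cube S) :
    uniC S X = ((2 : ℝ≥0∞)⁻¹) ^ Fintype.card (CC S) * volume X := by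
  rw [uniC_eq_restrict, Measure.smul_apply, smul_eq_mul, Measure.restrict_apply hX,
    Set.inter_eq_left.2 h]

/-- the normalising constant. -/
def kap (S : Finset (Fin n)) (R : Fin n → Fin n → ℝ) (r : CC S → ℝ) : ℝ :=
  ∏ c : CC S, 2 ^ (r c - R c.1.1 c.1.2)

theorem kap_pos : 0 < kap S R r := Finset.prod_pos fun _ _ => by positivity

/-- the set of the `θ` which satisfy the crossing constraint. -/
def Q (S : Finset (Fin n)) (R : Fin n → Fin n → ℝ) (r : CC S → ℝ) (m : Mt n) : Set (CC S → ℝ) :=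
  fh S r m ⁻¹' Set.Icc (fun c => 2 ^ (r c) * m c.1.1 c.1.2 - 2 ^ (r c - R c.1.1 c.1.2))
    (fun c => 2 ^ (r c) * m c.1.1 c.1.2 + 2 ^ (r c - R c.1.1 c.1.2))

theorem measurableSet_Q (m : Mt n) : MeasurableSet (Q S R r m) :=
  (LinearMap.continuous_of_finiteDimensional (fh S r m)).measurable measurableSet_Icc

theorem volume_Q {m : Mt n} (hdet : LinearMap.det (fh S r m) ≠ 0) :
    ((2 : ℝ≥0∞)⁻¹) ^ Fintype.card (CC S) * volume (Q S R r m)
      = ENNReal.ofReal (|(LinearMap.det (fh S r m))⁻¹| * kap S R r) := by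
  unfold Q
  rw [Measure.addHaar_preimage_linearMap _ hdet, Real.volume_Icc_pi]
  have h1 : ∀ c : CC S, ENNReal.ofReal ((2 ^ (r c) * m c.1.1 c.1.2 + 2 ^ (r c - R c.1.1 c.1.2))
      - (2 ^ (r c) * m c.1.1 c.1.2 - 2 ^ (r c - R c.1.1 c.1.2)))
      = 2 * ENNReal.ofReal (2 ^ (r c - R c.1.1 c.1.2)) := by
    intro c
    rw [show (2:ℝ) ^ (r c) * m c.1.1 c.1.2 + 2 ^ (r c - R c.1.1 c.1.2)
      - (2 ^ (r c) * m c.1.1 c.1.2 - 2 ^ (r c - R c.1.1 c.1.2)) = 2 * 2 ^ (r c - R c.1.1 c.1.2)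
      by ring, ENNReal.ofReal_mul zero_le_two]
    simp
  simp_rw [h1]
  rw [Finset.prod_mul_distrib, Finset.prod_const, Finset.card_univ, kap,
    ENNReal.ofReal_mul (abs_nonneg _), ENNReal.ofReal_prod_of_nonneg (fun c _ => by positivity),
    ← ENNReal.inv_pow]
  rw [mul_left_comm, ← mul_assoc _ ((2 : ℝ≥0∞) ^ Fintype.card (CC S)),
    ENNReal.inv_mul_cancel (by positivity) (ENNReal.pow_ne_top (by simp)), one_mul]

/-- `h v(-s) - 1`. -/
theorem hv_sub (h : Mt n) (s : CC S → ℝ) :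
    h * (1 + nn S (-s)) - 1 = (h - 1) - nn S s - (h - 1) * nn S s := by
  rw [nn_neg]
  noncomm_ring

/-- the crossing constraint. -/
theorem cross_iff (h : Mt n) (θ : CC S → ℝ) :
    (∀ c : CC S, |(h * (1 + nn S (-(sc r θ))) - 1) c.1.1 c.1.2| ≤ 2 ^ (-(R c.1.1 c.1.2)))
      ↔ θ ∈ Q S R r (h - 1) := by
  unfold Q
  rw [Set.mem_preimage, Set.mem_Icc, Pi.le_def, Pi.le_def, ← forall_and]
  refine forall_congr' fun c => ?_
  rw [hv_sub, Matrix.sub_apply, Matrix.sub_apply, nn_cross, fh_apply]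
  have h1 : (2:ℝ) ^ (r c - R c.1.1 c.1.2) = 2 ^ (r c) * 2 ^ (-(R c.1.1 c.1.2)) := by
    rw [sub_eq_add_neg, Real.rpow_add two_pos]
  have h2 : sc r θ c = 2 ^ (-(r c)) * θ c := rfl
  have h3 : (0:ℝ) < 2 ^ (r c) := Real.rpow_pos_of_pos two_pos _
  have h4 : (2:ℝ) ^ (r c) * (2 ^ (-(r c)) * θ c) = θ c := by
    rw [← mul_assoc, two_rpow_mul_neg, one_mul]
  rw [h1, h2, abs_le]
  set x := (h - 1) c.1.1 c.1.2
  set y := ((h - 1) * nn S (sc r θ)) c.1.1 c.1.2
  set u := (2:ℝ) ^ (-(r c)) * θ c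
  set v := (2:ℝ) ^ (-(R c.1.1 c.1.2))
  set z := (2:ℝ) ^ (r c)
  rw [← h4]
  constructor
  · rintro ⟨e1, e2⟩
    constructor
    · have := mul_le_mul_of_nonneg_left e2 h3.le
      linarith
    · have := mul_le_mul_of_nonneg_left e1 h3.le
      linarith
  · rintro ⟨e1, e2⟩
    constructor
    · refine le_of_mul_le_mul_left ?_ h3
      linarith
    · refine le_of_mul_le_mul_left ?_ h3
      linarith

/-- the probability (over `s`) that `h v(-s)` lies in the box of `R`. -/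
def P (S : Finset (Fin n)) (R : Fin n → Fin n → ℝ) (r : CC S → ℝ) (h : Mt n) : ℝ≥0∞ :=
  uniC S {θ | h * (1 + nn S (-(sc r θ))) ∈ bx R}

theorem P_le (H : Hyp S R r w) {h : Mt n} {a δ : ℝ} (ha : 0 ≤ a) (hh : h ∈ bxc a (ovr S R r))
    (hδ : n * 2 ^ (-w) * a ≤ δ) (hδ1 : δ < 1) :
    P S R r h * ENNReal.ofReal ((1 - δ) ^ Fintype.card (CC S)) ≤ ENNReal.ofReal (kap S R r) := by
  have hδ0 : 0 ≤ δ := le_trans (by positivity) hδ
  have hf := fh_sub_le H (m := h - 1) ha hh hδ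
  obtain ⟨h1, h2, h3⟩ := lin_bounds hδ0 hδ1 hf
  have h4 : P S R r h ≤ ENNReal.ofReal (|(LinearMap.det (fh S r (h - 1)))⁻¹| * kap S R r) := by
    rw [← volume_Q h1]
    refine le_trans (measure_mono ?_) (uniC_le _)
    intro θ hθ
    exact (cross_iff h θ).1 fun c => hθ c.1.1 c.1.2
  have h5 : 0 ≤ (1 - δ) ^ Fintype.card (CC S) := pow_nonneg (by linarith) _
  calc P S R r h * ENNReal.ofReal ((1 - δ) ^ Fintype.card (CC S))
      ≤ ENNReal.ofReal (|(LinearMap.det (fh S r (h - 1)))⁻¹| * kap S R r)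
        * ENNReal.ofReal ((1 - δ) ^ Fintype.card (CC S)) := by gcongr
    _ = ENNReal.ofReal ((|(LinearMap.det (fh S r (h - 1)))⁻¹| * (1 - δ) ^ Fintype.card (CC S))
        * kap S R r) := by
        rw [← ENNReal.ofReal_mul (mul_nonneg (abs_nonneg _) kap_pos.le)]
        congr 1
        ring
    _ ≤ ENNReal.ofReal (kap S R r) := by
        refine ENNReal.ofReal_le_ofReal ?_
        exact mul_le_of_le_one_left kap_pos.le h2

theorem le_P (H : Hyp S R r w) {h : Mt n} {a δ : ℝ} (ha : 0 ≤ a) (hh : h ∈ bxc a (ovr S R r))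
    (hδ : n * 2 ^ (-w) * a ≤ δ) (hδ1 : δ < 1) (h1' : a + 2 ^ (-w) + δ ≤ 1) :
    ENNReal.ofReal (kap S R r) ≤ P S R r h * ENNReal.ofReal ((1 + δ) ^ Fintype.card (CC S)) := by
  have hδ0 : 0 ≤ δ := le_trans (by positivity) hδ
  have hf := fh_sub_le H (m := h - 1) ha hh hδ
  obtain ⟨h1, h2, h3⟩ := lin_bounds hδ0 hδ1 hf
  have hw0 : (0:ℝ) < 2 ^ (-w) := Real.rpow_pos_of_pos two_pos _
  -- the solutions are in the cube
  have hQn : ∀ θ ∈ Q S R r (h - 1), ‖θ‖ ≤ 1 := by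
    intro θ hθ
    have h4 : ‖fh S r (h - 1) θ‖ ≤ a + 2 ^ (-w) := by
      rw [pi_norm_le_iff_of_nonneg (by positivity)]
      intro c
      have h5 := hθ.1 c
      have h6 := hθ.2 c
      simp only at h5 h6
      have h7 := hh c.1.1 c.1.2
      rw [ovr_cross] at h7
      have h8 : |2 ^ (r c) * (h - 1) c.1.1 c.1.2| ≤ a := by
        rw [abs_mul, abs_of_pos (Real.rpow_pos_of_pos two_pos _)]
        calc (2:ℝ) ^ (r c) * |(h - 1) c.1.1 c.1.2| ≤ 2 ^ (r c) * (a * 2 ^ (-(r c))) :=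
              mul_le_mul_of_nonneg_left h7 (Real.rpow_nonneg two_pos.le _)
          _ = a * (2 ^ (r c) * 2 ^ (-(r c))) := by ring
          _ = a := by rw [two_rpow_mul_neg, mul_one]
      have h9 : (2:ℝ) ^ (r c - R c.1.1 c.1.2) ≤ 2 ^ (-w) :=
        Real.rpow_le_rpow_of_exponent_le one_le_two (by linarith [H.h1 c])
      rw [Real.norm_eq_abs, abs_le]
      rw [abs_le] at h8
      constructor <;> linarith [h8.1, h8.2]
    have h10 : (1 - δ) * ‖θ‖ ≤ 1 - δ := by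
      have e1 : ‖θ‖ ≤ ‖fh S r (h - 1) θ‖ + ‖fh S r (h - 1) θ - θ‖ := by
        have := norm_sub_le (fh S r (h - 1) θ) (fh S r (h - 1) θ - θ)
        rwa [sub_sub_cancel] at this
      linarith [hf θ]
    by_contra hcon
    push Not at hcon
    nlinarith
  have hsub : Q S R r (h - 1) ⊆ cube S := by
    intro θ hθ c _
    have := (norm_le_pi_norm θ c).trans (hQn θ hθ)
    exact abs_le.1 this
  have hsub2 : Q S R r (h - 1) ⊆ {θ | h * (1 + nn S (-(sc r θ))) ∈ bx R} := by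
    intro θ hθ i j
    by_cases hij : i ∈ S ∧ j ∉ S
    · exact (cross_iff h θ).2 hθ ⟨(i, j), hij⟩
    · rw [hv_sub, Matrix.sub_apply, Matrix.sub_apply, nn_apply, dif_neg hij, sub_zero]
      have h4 := hh i j
      rw [ovr_not R r hij] at h4
      have h5 := mul_nn_le H ha hh (norm_nonneg θ) (abs_sc_le (r := r) θ) i j
      rw [ovr_not R r hij] at h5
      have h6 := hQn θ hθ
      have h7 : (0:ℝ) < 2 ^ (-(R i j)) := Real.rpow_pos_of_pos two_pos _
      have h8 : n * 2 ^ (-w) * (a * ‖θ‖) ≤ δ := by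
        calc n * 2 ^ (-w) * (a * ‖θ‖) = (n * 2 ^ (-w) * a) * ‖θ‖ := by ring
          _ ≤ (n * 2 ^ (-w) * a) * 1 := mul_le_mul_of_nonneg_left h6 (by positivity)
          _ ≤ δ := by rw [mul_one]; exact hδ
      calc |(h - 1) i j - ((h - 1) * nn S (sc r θ)) i j|
          ≤ |(h - 1) i j| + |((h - 1) * nn S (sc r θ)) i j| := abs_sub _ _
        _ ≤ a * 2 ^ (-(R i j)) + δ * 2 ^ (-(R i j)) := by
            refine add_le_add h4 (h5.trans ?_)
            exact mul_le_mul_of_nonneg_right h8 h7.le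
        _ = (a + δ) * 2 ^ (-(R i j)) := by ring
        _ ≤ 1 * 2 ^ (-(R i j)) := by
            refine mul_le_mul_of_nonneg_right (by linarith) h7.le
        _ = _ := one_mul _
  have h4 : ENNReal.ofReal (|(LinearMap.det (fh S r (h - 1)))⁻¹| * kap S R r) ≤ P S R r h := by
    rw [← volume_Q h1, ← uniC_eq (measurableSet_Q _) hsub]
    exact measure_mono hsub2
  calc ENNReal.ofReal (kap S R r)
      ≤ ENNReal.ofReal ((|(LinearMap.det (fh S r (h - 1)))⁻¹| * (1 + δ) ^ Fintype.card (CC S))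
        * kap S R r) := by
        refine ENNReal.ofReal_le_ofReal ?_
        exact le_mul_of_one_le_left kap_pos.le h3
    _ = ENNReal.ofReal (|(LinearMap.det (fh S r (h - 1)))⁻¹| * kap S R r)
        * ENNReal.ofReal ((1 + δ) ^ Fintype.card (CC S)) := by
        rw [← ENNReal.ofReal_mul (mul_nonneg (abs_nonneg _) kap_pos.le)]
        congr 1
        ring
    _ ≤ _ := by gcongr


theorem measurable_sc : Measurable (sc r : (CC S → ℝ) → (CC S → ℝ)) := by
  unfold sc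
  fun_prop

theorem continuous_nn : Continuous (nn S : (CC S → ℝ) → Mt n) := by
  refine continuous_matrix fun a b => ?_
  simp only [nn_apply]
  split_ifs with h
  · exact continuous_apply _
  · exact continuous_const

theorem measurable_mul_aux {X : Type*} [MeasurableSpace X] {f g : X → Mt n} (hf : Measurable f)
    (hg : Measurable g) : Measurable fun x => f x * g x := by
  refine measurable_pi_iff.2 fun i => measurable_pi_iff.2 fun j => ?_
  have h : Measurable fun x => ∑ k, f x i k * g x k j := Finset.measurable_sum _ fun k _ =>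
    ((Nz_323.measurable_entry i k).comp hf).mul ((Nz_323.measurable_entry k j).comp hg)
  exact h

theorem measurable_mulv {s : (CC S → ℝ) → (CC S → ℝ)} (hs : Measurable s) :
    Measurable fun p : Mt n × (CC S → ℝ) => p.1 * (1 + nn S (s p.2)) := by
  have h1 : Measurable fun p : Mt n × (CC S → ℝ) => (1 : Mt n) + nn S (s p.2) := by
    have h2 : Continuous fun v : CC S → ℝ => (1 : Mt n) + nn S v :=
      continuous_const.add continuous_nn
    exact h2.measurable.comp (hs.comp measurable_snd)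
  exact measurable_mul_aux measurable_fst h1

/-- the law of `ζ_R v(s)` on matrices. -/
def lw (S : Finset (Fin n)) (R : Fin n → Fin n → ℝ) (r : CC S → ℝ) : Measure (Mt n) :=
  ((un R).prod (uniC S)).map fun p => p.1 * (1 + nn S (sc r p.2))

instance instSFiniteHaar : SFinite (haar n) := by unfold haar; infer_instance

theorem lw_apply {A : Set (Mt n)} (hA : MeasurableSet A) :
    lw S R r A = (haar n (bx R))⁻¹ * ∫⁻ h in A, P S R r h ∂(haar n) := by
  have hF : Measurable fun p : Mt n × (CC S → ℝ) => p.1 * (1 + nn S (sc r p.2)) :=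
    measurable_mulv measurable_sc
  have hG : Measurable fun p : Mt n × (CC S → ℝ) => p.1 * (1 + nn S (-(sc r p.2))) :=
    measurable_mulv (s := fun θ => -(sc r θ)) measurable_sc.neg
  set E : Set (Mt n × (CC S → ℝ)) := {p | p.1 ∈ A ∧ p.1 * (1 + nn S (-(sc r p.2))) ∈ bx R} with hEdef
  have hE : MeasurableSet E := (measurable_fst hA).inter (hG (Nz_323.measurableSet_bx R))
  have h1 : ∫⁻ h in A, P S R r h ∂(haar n) = ((haar n).prod (uniC S)) E := by
    rw [Measure.prod_apply hE, ← lintegral_indicator hA]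
    refine lintegral_congr fun h => ?_
    by_cases hh : h ∈ A
    · rw [Set.indicator_of_mem hh]
      unfold P
      congr 1
      ext θ
      simp [hEdef, hh]
    · rw [Set.indicator_of_notMem hh]
      have : Prod.mk h ⁻¹' E = ∅ := by
        ext θ
        simp [hEdef, hh]
      rw [this, measure_empty]
  unfold lw un
  rw [Measure.map_apply hF hA, Measure.prod_smul_left, Measure.smul_apply, smul_eq_mul]
  congr 1
  rw [h1, Measure.prod_apply_symm (hF hA), Measure.prod_apply_symm hE]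
  refine lintegral_congr fun θ => ?_
  have hv : 0 < (1 + nn S (sc r θ)).det := by rw [det_one_add_nn]; exact one_pos
  have hinv : (1 + nn S (sc r θ)) * (1 + nn S (-(sc r θ))) = 1 := by
    rw [one_add_mul, add_neg_cancel, nn_zero, add_zero]
  have hEs : MeasurableSet ((fun g : Mt n => (g, θ)) ⁻¹' E) := measurable_prodMk_right hE
  conv_rhs => rw [← Nz_323.haar_mul_right hv]
  rw [Measure.map_apply (Nz_323.measurable_mul_right _) hEs,
    Measure.restrict_apply (measurable_prodMk_right (hF hA))]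
  congr 1
  ext g
  have h2 : g * (1 + nn S (sc r θ)) * (1 + nn S (-(sc r θ))) = g := by
    rw [mul_assoc, hinv, mul_one]
  simp only [Set.mem_inter_iff, Set.mem_preimage, hEdef, Set.mem_ofPred_eq, h2]

theorem isProb_lw (hR : Adm R) : IsProbabilityMeasure (lw S R r) := by
  have := isProb_un hR
  exact Measure.isProbabilityMeasure_map (measurable_mulv measurable_sc).aemeasurable

/-- `ζ v(s)` is in the dilated box. -/
theorem mem_dilated (H : Hyp S R r w) {g : Mt n} (hg : g ∈ bx R) {θ : CC S → ℝ} (hθ : ‖θ‖ ≤ 1) :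
    g * (1 + nn S (sc r θ)) ∈ bxc (1 + (n + 1) * 2 ^ (-w)) (ovr S R r) := by
  have hw0 : (0:ℝ) < 2 ^ (-w) := Real.rpow_pos_of_pos two_pos _
  have hw1 : (2:ℝ) ^ (-w) ≤ 1 := Real.rpow_le_one_of_one_le_of_nonpos one_le_two (by linarith [H.hw])
  have hm : ∀ i j, |(g - 1) i j| ≤ 1 * 2 ^ (-(ovr S R r i j)) := by
    intro i j
    rw [one_mul]
    refine (hg i j).trans ?_
    refine Real.rpow_le_rpow_of_exponent_le one_le_two ?_
    by_cases hij : i ∈ S ∧ j ∉ S
    · have h1 : ovr S R r i j = r ⟨(i, j), hij⟩ := ovr_cross S R r ⟨(i, j), hij⟩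
      have h2 := H.h1 ⟨(i, j), hij⟩
      simp only at h2
      linarith [H.hw]
    · rw [ovr_not R r hij]
  intro i j
  have h0 : g * (1 + nn S (sc r θ)) - 1 = (g - 1) + nn S (sc r θ) + (g - 1) * nn S (sc r θ) := by
    noncomm_ring
  rw [h0, Matrix.add_apply, Matrix.add_apply]
  have h5 := mul_nn_le H zero_le_one hm (norm_nonneg θ) (abs_sc_le (r := r) θ) i j
  have h7 : (0:ℝ) < 2 ^ (-(ovr S R r i j)) := Real.rpow_pos_of_pos two_pos _
  have h8 : n * 2 ^ (-w) * (1 * ‖θ‖) ≤ n * 2 ^ (-w) := by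
    rw [one_mul]
    exact mul_le_of_le_one_right (by positivity) hθ
  have h9 : |((g - 1) * nn S (sc r θ)) i j| ≤ (n * 2 ^ (-w)) * 2 ^ (-(ovr S R r i j)) :=
    h5.trans (mul_le_mul_of_nonneg_right h8 h7.le)
  have h10 : |(g - 1) i j| + |nn S (sc r θ) i j| ≤ (1 + 2 ^ (-w)) * 2 ^ (-(ovr S R r i j)) := by
    by_cases hij : i ∈ S ∧ j ∉ S
    · have e1 : ovr S R r i j = r ⟨(i, j), hij⟩ := ovr_cross S R r ⟨(i, j), hij⟩
      have e2 := H.h1 ⟨(i, j), hij⟩
      simp only at e2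
      have e3 : |(g - 1) i j| ≤ 2 ^ (-w) * 2 ^ (-(ovr S R r i j)) := by
        refine (hg i j).trans ?_
        rw [← Real.rpow_add two_pos]
        exact Real.rpow_le_rpow_of_exponent_le one_le_two (by linarith)
      have e4 : |nn S (sc r θ) i j| ≤ 1 * 2 ^ (-(ovr S R r i j)) := by
        rw [nn_apply, dif_pos hij, e1]
        exact (abs_sc_le (r := r) θ ⟨(i, j), hij⟩).trans
          (mul_le_mul_of_nonneg_right hθ (Real.rpow_nonneg two_pos.le _))
      linarith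
    · rw [nn_apply, dif_neg hij, abs_zero, add_zero]
      have e1 := hm i j
      nlinarith
  calc |(g - 1) i j + nn S (sc r θ) i j + ((g - 1) * nn S (sc r θ)) i j|
      ≤ |(g - 1) i j| + |nn S (sc r θ) i j| + |((g - 1) * nn S (sc r θ)) i j| := abs_add_three _ _ _
    _ ≤ (1 + 2 ^ (-w)) * 2 ^ (-(ovr S R r i j)) + (n * 2 ^ (-w)) * 2 ^ (-(ovr S R r i j)) :=
        add_le_add h10 h9
    _ = _ := by ring

theorem uniC_cube_compl : uniC S (cube S)ᶜ = 0 := by
  rw [uniC_eq_restrict, Measure.smul_apply, Measure.restrict_apply measurableSet_cube.compl,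
    Set.compl_inter_self]
  simp

theorem norm_le_one_of_mem_cube {θ : CC S → ℝ} (h : θ ∈ cube S) : ‖θ‖ ≤ 1 := by
  rw [pi_norm_le_iff_of_nonneg zero_le_one]
  intro c
  exact abs_le.2 (h c (Set.mem_univ c))

/-- the dilated box, with control of the determinant. -/
def Bp (R : Fin n → Fin n → ℝ) (e : ℝ) : Set (Mt n) := bxc (1 + e) R ∩ {h | 1 / 2 ≤ h.det}

theorem measurableSet_Bp (R : Fin n → Fin n → ℝ) (e : ℝ) : MeasurableSet (Bp R e) :=
  (Nz_323.measurableSet_bxc _ _).inter (measurableSet_le measurable_const Nz_323.measurable_det)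

theorem P_eq_zero (H : Hyp S R r w) (hR : Adm R) {h : Mt n}
    (hh : h ∉ Bp (ovr S R r) ((n + 1) * 2 ^ (-w))) : P S R r h = 0 := by
  refine measure_mono_null ?_ (uniC_cube_compl (S := S))
  intro θ hθ hc
  refine hh ?_
  have hθ' : h * (1 + nn S (-(sc r θ))) ∈ bx R := hθ
  have hinv : (1 + nn S (-(sc r θ))) * (1 + nn S (sc r θ)) = 1 := by
    rw [one_add_mul, neg_add_cancel, nn_zero, add_zero]
  have h1 : h * (1 + nn S (-(sc r θ))) * (1 + nn S (sc r θ)) = h := by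
    rw [mul_assoc, hinv, mul_one]
  have h2 := mem_dilated H hθ' (norm_le_one_of_mem_cube hc)
  rw [h1] at h2
  refine ⟨h2, ?_⟩
  have h3 := (hR _ hθ').1
  rwa [Matrix.det_mul, det_one_add_nn, mul_one] at h3


/-- the constant of (L3). -/
def C3 (n : ℕ) : ℝ := 4 * n ^ 3 + 4 ^ n * (2 ^ (n ^ 2) + n ^ 2) * (n + 1)

theorem card_CC_le (S : Finset (Fin n)) : Fintype.card (CC S) ≤ n ^ 2 := by
  refine (Fintype.card_subtype_le _).trans ?_
  rw [Fintype.card_prod, Fintype.card_fin, sq]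

theorem haar_Bp_le {R : Fin n → Fin n → ℝ} (hR : Adm R) {e : ℝ} (he0 : 0 ≤ e) (he1 : e ≤ 1) :
    (haar n).real (Bp R e) ≤ (haar n).real (bx R) * (1 + 4 ^ n * 2 ^ (n ^ 2) * e) := by
  have hsub : Bp R e ⊆ bx R ∪ (Bp R e \ bx R) := fun x hx => by
    by_cases hxB : x ∈ bx R
    · exact Or.inl hxB
    · exact Or.inr ⟨hx, hxB⟩
  have hv := Nz_323.vb_pos R
  have hBsub : bx R ⊆ bxc (1 + e) R := by
    intro g hg i j
    refine (hg i j).trans ?_
    have : (0:ℝ) < (2:ℝ) ^ (-(R i j)) := by positivity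
    nlinarith
  have h7 : haar n (Bp R e \ bx R) ≤ ENNReal.ofReal ((2:ℝ) ^ n * (((1 + e) ^ (n ^ 2) - 1) * vb R)) := by
    unfold haar
    rw [withDensity_apply _ ((measurableSet_Bp R e).diff (Nz_323.measurableSet_bx R))]
    calc ∫⁻ g in Bp R e \ bx R, Nz_323.rho g ≤ ∫⁻ _ in Bp R e \ bx R, ENNReal.ofReal ((2:ℝ) ^ n) := by
          refine setLIntegral_mono measurable_const fun g hg => ?_
          have := Nz_323.rho_le_of_det (by norm_num : (0:ℝ) < 1 / 2) hg.1.2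
          simpa using this
      _ ≤ ENNReal.ofReal ((2:ℝ) ^ n) * volume (bxc (1 + e) R \ bx R) := by
          rw [setLIntegral_const]
          gcongr
          exact fun g hg => hg.1
      _ = ENNReal.ofReal ((2:ℝ) ^ n * (((1 + e) ^ (n ^ 2) - 1) * vb R)) := by
          rw [measure_sdiff hBsub (Nz_323.measurableSet_bx R).nullMeasurableSet ?_, Nz_323.bx_eq_bxc,
            Nz_323.volume_bxc (by linarith), Nz_323.volume_bxc (by norm_num), ← ENNReal.ofReal_sub,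
            ← ENNReal.ofReal_mul (by positivity)]
          · congr 1
            ring
          · positivity
          · rw [Nz_323.bx_eq_bxc, Nz_323.volume_bxc (by norm_num)]
            exact ENNReal.ofReal_ne_top
  have hpw : (1:ℝ) ≤ (1 + e) ^ (n ^ 2) := one_le_pow₀ (by linarith)
  have h8 : (haar n).real (Bp R e \ bx R) ≤ (2:ℝ) ^ n * (((1 + e) ^ (n ^ 2) - 1) * vb R) := by
    have := ENNReal.toReal_mono ENNReal.ofReal_ne_top h7
    rwa [ENNReal.toReal_ofReal] at this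
    have h9 : (0:ℝ) ≤ (1 + e) ^ (n ^ 2) - 1 := by linarith
    positivity
  have hfin : haar n (bx R ∪ (Bp R e \ bx R)) ≠ ⊤ :=
    ((measure_union_le _ _).trans_lt (ENNReal.add_lt_top.2
      ⟨Nz_323.haar_bx_lt_top hR, h7.trans_lt ENNReal.ofReal_lt_top⟩)).ne
  have h6 : (2:ℝ)⁻¹ ^ n * vb R ≤ (haar n).real (bx R) := by
    have := ENNReal.toReal_mono (Nz_323.haar_bx_lt_top hR).ne (Nz_323.le_haar_bx hR)
    rwa [ENNReal.toReal_ofReal (by positivity)] at this
  have h10 := Nz_323.one_add_pow_le he0 he1 (n ^ 2)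
  have h2n : (2:ℝ) ^ n * (2:ℝ)⁻¹ ^ n = 1 := by rw [← mul_pow]; simp
  have h4n : (4:ℝ) ^ n = 2 ^ n * 2 ^ n := by rw [← mul_pow]; norm_num
  calc (haar n).real (Bp R e) ≤ (haar n).real (bx R) + (haar n).real (Bp R e \ bx R) :=
        (measureReal_mono hsub hfin).trans (measureReal_union_le _ _)
    _ ≤ (haar n).real (bx R) + 2 ^ n * ((2 ^ (n ^ 2) * e) * vb R) := by
        refine add_le_add le_rfl (h8.trans ?_)
        gcongr
        nlinarith
    _ = (haar n).real (bx R) + (4 ^ n * 2 ^ (n ^ 2) * e) * ((2:ℝ)⁻¹ ^ n * vb R) := by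
        rw [h4n]
        linear_combination (-(2 ^ n * 2 ^ (n ^ 2) * e * vb R)) * h2n
    _ ≤ (haar n).real (bx R) + (4 ^ n * 2 ^ (n ^ 2) * e) * (haar n).real (bx R) := by gcongr
    _ = _ := by ring

theorem haar_Bm_ge {R : Fin n → Fin n → ℝ} (hR : Adm R) {e : ℝ} (he0 : 0 ≤ e) (he1 : e ≤ 1)
    (A : Set (Mt n)) :
    (haar n).real (A ∩ bx R) - 4 ^ n * n ^ 2 * e * (haar n).real (bx R)
      ≤ (haar n).real (A ∩ bxc (1 - e) R) := by
  have hv := Nz_323.vb_pos R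
  have hBsub : bxc (1 - e) R ⊆ bx R := by
    intro g hg i j
    refine (hg i j).trans ?_
    have : (0:ℝ) < (2:ℝ) ^ (-(R i j)) := by positivity
    nlinarith
  have hsub : A ∩ bx R ⊆ (A ∩ bxc (1 - e) R) ∪ (bx R \ bxc (1 - e) R) := fun x hx => by
    by_cases hxB : x ∈ bxc (1 - e) R
    · exact Or.inl ⟨hx.1, hxB⟩
    · exact Or.inr ⟨hx.2, hxB⟩
  have hfin0 : haar n (bx R) ≠ ⊤ := (Nz_323.haar_bx_lt_top hR).ne
  have h7 : haar n (bx R \ bxc (1 - e) R)
      ≤ ENNReal.ofReal ((2:ℝ) ^ n * ((1 - (1 - e) ^ (n ^ 2)) * vb R)) := by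
    unfold haar
    rw [withDensity_apply _ ((Nz_323.measurableSet_bx R).diff (Nz_323.measurableSet_bxc _ R))]
    calc ∫⁻ g in bx R \ bxc (1 - e) R, Nz_323.rho g
        ≤ ∫⁻ _ in bx R \ bxc (1 - e) R, ENNReal.ofReal ((2:ℝ) ^ n) := by
          refine setLIntegral_mono measurable_const fun g hg => ?_
          have := Nz_323.rho_le_of_det (by norm_num : (0:ℝ) < 1 / 2) (hR g hg.1).1
          simpa using this
      _ = ENNReal.ofReal ((2:ℝ) ^ n) * volume (bx R \ bxc (1 - e) R) := by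
          rw [setLIntegral_const]
      _ = ENNReal.ofReal ((2:ℝ) ^ n * ((1 - (1 - e) ^ (n ^ 2)) * vb R)) := by
          rw [measure_sdiff hBsub (Nz_323.measurableSet_bxc _ R).nullMeasurableSet ?_,
            Nz_323.bx_eq_bxc, Nz_323.volume_bxc zero_le_one, Nz_323.volume_bxc (by linarith),
            ← ENNReal.ofReal_sub, ← ENNReal.ofReal_mul (by positivity)]
          · congr 1
            ring
          · have : 0 ≤ 1 - e := by linarith
            positivity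
          · rw [Nz_323.volume_bxc (by linarith)]
            exact ENNReal.ofReal_ne_top
  have hpw : 1 - n ^ 2 * e ≤ (1 - e) ^ (n ^ 2) := by
    have := one_add_mul_le_pow (a := -e) (by linarith) (n ^ 2)
    push_cast at this
    calc 1 - n ^ 2 * e = 1 + n ^ 2 * -e := by ring
      _ ≤ (1 + -e) ^ (n ^ 2) := this
      _ = _ := by ring
  have hpw2 : (1 - e) ^ (n ^ 2) ≤ 1 := pow_le_one₀ (by linarith) (by linarith)
  have h8 : (haar n).real (bx R \ bxc (1 - e) R) ≤ (2:ℝ) ^ n * ((1 - (1 - e) ^ (n ^ 2)) * vb R) := by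
    have := ENNReal.toReal_mono ENNReal.ofReal_ne_top h7
    rwa [ENNReal.toReal_ofReal] at this
    have h9 : (0:ℝ) ≤ 1 - (1 - e) ^ (n ^ 2) := by linarith
    positivity
  have h6 : (2:ℝ)⁻¹ ^ n * vb R ≤ (haar n).real (bx R) := by
    have := ENNReal.toReal_mono hfin0 (Nz_323.le_haar_bx hR)
    rwa [ENNReal.toReal_ofReal (by positivity)] at this
  have h2n : (2:ℝ) ^ n * (2:ℝ)⁻¹ ^ n = 1 := by rw [← mul_pow]; simp
  have h4n : (4:ℝ) ^ n = 2 ^ n * 2 ^ n := by rw [← mul_pow]; norm_num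
  have hfin : haar n ((A ∩ bxc (1 - e) R) ∪ (bx R \ bxc (1 - e) R)) ≠ ⊤ := by
    refine ne_top_of_le_ne_top hfin0 (measure_mono ?_)
    rintro x (hx | hx)
    · exact hBsub hx.2
    · exact hx.1
  have h11 : (haar n).real (A ∩ bx R)
      ≤ (haar n).real (A ∩ bxc (1 - e) R) + (haar n).real (bx R \ bxc (1 - e) R) :=
    (measureReal_mono hsub hfin).trans (measureReal_union_le _ _)
  have h12 : (haar n).real (bx R \ bxc (1 - e) R) ≤ 4 ^ n * n ^ 2 * e * (haar n).real (bx R) := by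
    calc (haar n).real (bx R \ bxc (1 - e) R) ≤ 2 ^ n * ((1 - (1 - e) ^ (n ^ 2)) * vb R) := h8
      _ ≤ 2 ^ n * ((n ^ 2 * e) * vb R) := by
          gcongr
          linarith
      _ = (4 ^ n * n ^ 2 * e) * ((2:ℝ)⁻¹ ^ n * vb R) := by
          rw [h4n]
          linear_combination (-(2 ^ n * n ^ 2 * e * vb R)) * h2n
      _ ≤ (4 ^ n * n ^ 2 * e) * (haar n).real (bx R) := by gcongr
  linarith

theorem tvle_of_le {Y : Type*} [MeasurableSpace Y] {μ ν : Measure Y} [IsProbabilityMeasure μ]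
    [IsProbabilityMeasure ν] {c : ℝ} (h : ∀ A, MeasurableSet A → ν.real A ≤ μ.real A + c) :
    TVle μ ν c := by
  intro A hA
  have h1 := h A hA
  have h2 := h Aᶜ hA.compl
  rw [probReal_compl_eq_one_sub hA, probReal_compl_eq_one_sub hA] at h2
  rw [abs_le]
  constructor <;> linarith


theorem num_main {N : ℕ} {δ y z b t κ H0 L : ℝ} (hy0 : 0 ≤ y) (hH0p : 0 < H0) (ht0 : 0 ≤ t)
    (hzt : z = t * b) (hup : (1 - 2 * δ) ^ N * H0 ≤ κ * (b * (1 + y)))
    (hlow : κ * z ≤ (1 + δ) ^ N * (H0 * L)) :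
    (1 - 2 * δ) ^ N * t ≤ (1 + y) * (1 + δ) ^ N * L := by
  have e1 : (1 - 2 * δ) ^ N * H0 * t ≤ κ * (b * (1 + y)) * t :=
    mul_le_mul_of_nonneg_right hup ht0
  have e2 : κ * (b * (1 + y)) * t = (1 + y) * (κ * z) := by rw [hzt]; ring
  have e3 : (1 + y) * (κ * z) ≤ (1 + y) * ((1 + δ) ^ N * (H0 * L)) :=
    mul_le_mul_of_nonneg_left hlow (by linarith)
  have e4 : ((1 - 2 * δ) ^ N * t) * H0 ≤ ((1 + y) * (1 + δ) ^ N * L) * H0 := by
    calc ((1 - 2 * δ) ^ N * t) * H0 = (1 - 2 * δ) ^ N * H0 * t := by ring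
      _ ≤ (1 + y) * (κ * z) := e1.trans e2.le
      _ ≤ _ := e3
      _ = _ := by ring
  exact le_of_mul_le_mul_right e4 hH0p

theorem num_final {N : ℕ} {δ y t L : ℝ} (hδ0 : 0 ≤ δ) (hδ1 : 2 * δ < 1) (hy0 : 0 ≤ y)
    (hy1 : y ≤ 1) (hNδ : 2 * (N * δ) ≤ 1) (ht0 : 0 ≤ t) (ht1 : t ≤ 1) (hL0 : 0 ≤ L)
    (hmain : (1 - 2 * δ) ^ N * t ≤ (1 + y) * (1 + δ) ^ N * L) :
    t - (N * δ + y + N * (2 * δ)) ≤ L := by
  have hNδ0 : 0 ≤ N * δ := by positivity
  have hp1 : 1 - N * (2 * δ) ≤ (1 - 2 * δ) ^ N := by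
    have := one_add_mul_le_pow (a := -(2 * δ)) (by linarith) N
    calc 1 - N * (2 * δ) = 1 + N * -(2 * δ) := by ring
      _ ≤ (1 + -(2 * δ)) ^ N := this
      _ = _ := by ring
  have hp2 : 1 - N * δ ≤ (1 - δ) ^ N := by
    have := one_add_mul_le_pow (a := -δ) (by linarith) N
    calc 1 - N * δ = 1 + N * -δ := by ring
      _ ≤ (1 + -δ) ^ N := this
      _ = _ := by ring
  have hp3 : (1 - δ) ^ N * (1 + δ) ^ N ≤ 1 := by
    rw [← mul_pow]
    exact pow_le_one₀ (by nlinarith) (by nlinarith)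
  have hp4 : (1 - y) * (1 + y) ≤ 1 := by nlinarith
  have hδN0 : 0 ≤ (1 - δ) ^ N := pow_nonneg (by linarith) _
  have hfin : (1 - δ) ^ N * (1 - y) * ((1 - 2 * δ) ^ N * t) ≤ L := by
    calc (1 - δ) ^ N * (1 - y) * ((1 - 2 * δ) ^ N * t)
        ≤ (1 - δ) ^ N * (1 - y) * ((1 + y) * (1 + δ) ^ N * L) :=
          mul_le_mul_of_nonneg_left hmain (mul_nonneg hδN0 (by linarith))
      _ = ((1 - δ) ^ N * (1 + δ) ^ N) * (((1 - y) * (1 + y)) * L) := by ring
      _ ≤ 1 * (1 * L) := by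
          refine mul_le_mul hp3 (mul_le_mul_of_nonneg_right hp4 hL0) ?_ zero_le_one
          exact mul_nonneg (mul_nonneg (by linarith) (by linarith)) hL0
      _ = L := by ring
  have hprod : 1 - N * δ - y - N * (2 * δ) ≤ (1 - δ) ^ N * (1 - y) * (1 - 2 * δ) ^ N := by
    have a1 : 0 ≤ 1 - N * (2 * δ) := by linarith
    have a2 : 0 ≤ 1 - N * δ := by linarith
    have a3 : 0 ≤ 1 - y := by linarith
    have b1 : (1 - N * δ) * (1 - y) ≤ (1 - δ) ^ N * (1 - y) :=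
      mul_le_mul_of_nonneg_right hp2 a3
    have b2 : (1 - N * δ) * (1 - y) * (1 - N * (2 * δ)) ≤ (1 - δ) ^ N * (1 - y) * (1 - 2 * δ) ^ N :=
      mul_le_mul b1 hp1 a1 (mul_nonneg hδN0 a3)
    refine le_trans ?_ b2
    have c1 : 1 - N * δ - y ≤ (1 - N * δ) * (1 - y) := by nlinarith
    have c2 : (1 - N * δ) * (1 - y) ≤ 1 := by nlinarith
    nlinarith
  have hfin2 : (1 - N * δ - y - N * (2 * δ)) * t ≤ L := by
    refine le_trans (mul_le_mul_of_nonneg_right hprod ht0) (le_trans (le_of_eq ?_) hfin)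
    ring
  have : 0 ≤ N * δ + y + N * (2 * δ) := by positivity
  nlinarith

/-- **(L3)** on matrices. -/
theorem L3_mt (H : Hyp S R r w) (hR : Adm R) (hR' : Adm (ovr S R r)) :
    TVle (lw S R r) (un (ovr S R r)) (C3 n * 2 ^ (-w)) := by
  have := isProb_lw (S := S) (r := r) hR
  have := isProb_un hR'
  set R' := ovr S R r with hR'def
  set ε : ℝ := 2 ^ (-w) with hε
  have hε0 : 0 < ε := Real.rpow_pos_of_pos two_pos _
  refine tvle_of_le fun A hA => ?_
  rcases le_or_gt 1 (C3 n * ε) with hbig | hsmall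
  · have h1 : (un R').real A ≤ 1 := measureReal_le_one
    have h2 : 0 ≤ (lw S R r).real A := measureReal_nonneg
    linarith
  -- the small parameters
  set N := Fintype.card (CC S) with hN
  have hNn : (N : ℝ) ≤ n ^ 2 := by
    have := card_CC_le S
    exact_mod_cast this
  have hn0 : (0:ℝ) ≤ n := Nat.cast_nonneg n
  have h4 : (1:ℝ) ≤ 4 ^ n := one_le_pow₀ (by norm_num)
  have h2n : (1:ℝ) ≤ 2 ^ (n ^ 2) := one_le_pow₀ (by norm_num)
  have hC : C3 n * ε = 4 * n ^ 3 * ε + 4 ^ n * 2 ^ (n ^ 2) * ((n + 1) * ε)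
      + 4 ^ n * n ^ 2 * ((n + 1) * ε) := by unfold C3; ring
  set e : ℝ := (n + 1) * ε with he
  have he0 : 0 < e := by positivity
  set x : ℝ := 4 ^ n * n ^ 2 * e with hx
  set y : ℝ := 4 ^ n * 2 ^ (n ^ 2) * e with hy
  have hx0 : 0 ≤ x := by positivity
  have hy0 : 0 ≤ y := by positivity
  have hey : e ≤ y := by
    have : 1 * e ≤ (4 ^ n * 2 ^ (n ^ 2)) * e := by
      refine mul_le_mul_of_nonneg_right ?_ he0.le
      nlinarith
    linarith
  have hn3 : (n:ℝ) * ε ≤ n ^ 3 * ε := by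
    refine mul_le_mul_of_nonneg_right ?_ hε0.le
    rcases Nat.eq_zero_or_pos n with h0 | h0
    · rw [h0]; simp
    · have h1 : (1:ℝ) ≤ n := by exact_mod_cast h0
      exact le_self_pow₀ h1 (by norm_num)
  have hn3' : 0 ≤ (n:ℝ) ^ 3 * ε := by positivity
  have he1 : e ≤ 1 := by linarith
  have hy1 : y ≤ 1 := by linarith
  set δ : ℝ := n * ε with hδ
  have hδ0 : 0 ≤ δ := by positivity
  have hδ1 : 2 * δ < 1 := by linarith
  have hNδ : N * δ ≤ n ^ 3 * ε := by
    calc (N:ℝ) * δ ≤ n ^ 2 * δ := mul_le_mul_of_nonneg_right hNn hδ0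
      _ = n ^ 3 * ε := by rw [hδ]; ring
  -- measures
  have hBt : haar n (bx R) ≠ ⊤ := (Nz_323.haar_bx_lt_top hR).ne
  have hB0 : haar n (bx R) ≠ 0 := (Nz_323.haar_bx_pos hR).ne'
  have hB't : haar n (bx R') ≠ ⊤ := (Nz_323.haar_bx_lt_top hR').ne
  set H0 : ℝ := (haar n).real (bx R) with hH0
  set b : ℝ := (haar n).real (bx R') with hb
  have hH0p : 0 < H0 := ENNReal.toReal_pos hB0 hBt
  have hbp : 0 < b := ENNReal.toReal_pos (Nz_323.haar_bx_pos hR').ne' hB't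
  have hκ := kap_pos (S := S) (R := R) (r := r)
  set κ := kap S R r with hκdef
  -- upper bound
  have hup : (1 - 2 * δ) ^ N * H0 ≤ κ * (b * (1 + y)) := by
    have h1 : lw S R r Set.univ = 1 := measure_univ
    rw [lw_apply MeasurableSet.univ, Measure.restrict_univ] at h1
    have h2 : haar n (bx R) = ∫⁻ h, P S R r h ∂(haar n) := by
      rw [mul_comm, ← div_eq_mul_inv, ENNReal.div_eq_one_iff hB0 hBt] at h1
      exact h1.symm
    have hBpm := measurableSet_Bp R' e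
    have h3 : haar n (bx R) * ENNReal.ofReal ((1 - 2 * δ) ^ N) ≤
        ENNReal.ofReal κ * haar n (Bp R' e) := by
      rw [h2, ← lintegral_mul_const']
      · calc ∫⁻ h, P S R r h * ENNReal.ofReal ((1 - 2 * δ) ^ N) ∂(haar n)
            ≤ ∫⁻ h, (Bp R' e).indicator (fun _ => ENNReal.ofReal κ) h ∂(haar n) := by
              refine lintegral_mono fun h => ?_
              by_cases hh : h ∈ Bp R' e
              · rw [Set.indicator_of_mem hh]
                refine P_le H (a := 1 + e) (by linarith) hh.1 ?_ hδ1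
                calc n * 2 ^ (-w) * (1 + e) ≤ n * 2 ^ (-w) * 2 :=
                      mul_le_mul_of_nonneg_left (by linarith) (by positivity)
                  _ = 2 * δ := by rw [hδ, hε]; ring
              · rw [P_eq_zero H hR hh, zero_mul]
                exact zero_le
          _ = ENNReal.ofReal κ * haar n (Bp R' e) := by
              rw [lintegral_indicator hBpm, setLIntegral_const]
      · exact ENNReal.ofReal_ne_top
    have hBpt : haar n (Bp R' e) ≠ ⊤ := by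
      have hsub : Bp R' e ⊆ bxc (1 + e) R' := fun g hg => hg.1
      have h5 : haar n (Bp R' e) ≤ ENNReal.ofReal ((2:ℝ) ^ n) * volume (bxc (1 + e) R') := by
        unfold haar
        rw [withDensity_apply _ hBpm]
        calc ∫⁻ g in Bp R' e, Nz_323.rho g ≤ ∫⁻ _ in Bp R' e, ENNReal.ofReal ((2:ℝ) ^ n) := by
              refine setLIntegral_mono measurable_const fun g hg => ?_
              have := Nz_323.rho_le_of_det (by norm_num : (0:ℝ) < 1 / 2) hg.2
              simpa using this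
          _ ≤ _ := by
              rw [setLIntegral_const]
              gcongr
      refine ne_top_of_le_ne_top ?_ h5
      rw [Nz_323.volume_bxc (by linarith)]
      exact ENNReal.mul_ne_top ENNReal.ofReal_ne_top ENNReal.ofReal_ne_top
    have h4' := ENNReal.toReal_mono (ENNReal.mul_ne_top ENNReal.ofReal_ne_top hBpt) h3
    rw [ENNReal.toReal_mul, ENNReal.toReal_mul, ENNReal.toReal_ofReal hκ.le,
      ENNReal.toReal_ofReal (pow_nonneg (by linarith) _)] at h4'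
    have h5 := haar_Bp_le hR' he0.le he1
    calc (1 - 2 * δ) ^ N * H0 = H0 * (1 - 2 * δ) ^ N := mul_comm _ _
      _ ≤ κ * (haar n).real (Bp R' e) := h4'
      _ ≤ κ * (b * (1 + y)) := by
          refine mul_le_mul_of_nonneg_left h5 hκ.le
  -- lower bound
  set Bm : Set (Mt n) := bxc (1 - e) R' with hBm
  have hBmm : MeasurableSet Bm := Nz_323.measurableSet_bxc _ _
  have hBmB' : Bm ⊆ bx R' := by
    intro g hg i j
    refine (hg i j).trans ?_
    have : (0:ℝ) < (2:ℝ) ^ (-(R' i j)) := by positivity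
    nlinarith
  set z : ℝ := (haar n).real (A ∩ Bm) with hz
  have hz0 : 0 ≤ z := measureReal_nonneg
  have hzb : z ≤ b := measureReal_mono (fun g hg => hBmB' hg.2) hB't
  have hlow : κ * z ≤ (1 + δ) ^ N * (H0 * (lw S R r).real A) := by
    have h3 : ENNReal.ofReal κ * haar n (A ∩ Bm) ≤
        ENNReal.ofReal ((1 + δ) ^ N) * (haar n (bx R) * lw S R r A) := by
      rw [lw_apply hA, ← mul_assoc (haar n (bx R)), ENNReal.mul_inv_cancel hB0 hBt, one_mul,
        mul_comm (ENNReal.ofReal ((1 + δ) ^ N)), ← lintegral_mul_const']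
      · calc ENNReal.ofReal κ * haar n (A ∩ Bm) = ∫⁻ _ in A ∩ Bm, ENNReal.ofReal κ ∂(haar n) := by
              rw [setLIntegral_const]
          _ ≤ ∫⁻ h in A ∩ Bm, P S R r h * ENNReal.ofReal ((1 + δ) ^ N) ∂(haar n) := by
              refine setLIntegral_mono' (hA.inter hBmm) fun h hh => ?_
              refine le_P H (a := 1 - e) (by linarith) hh.2 ?_ (by linarith) ?_
              · calc n * 2 ^ (-w) * (1 - e) ≤ n * 2 ^ (-w) * 1 :=
                      mul_le_mul_of_nonneg_left (by linarith) (by positivity)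
                  _ = δ := by rw [hδ, hε]; ring
              · have : e = δ + ε := by rw [he, hδ]; ring
                rw [← hε]
                linarith
          _ ≤ ∫⁻ h in A, P S R r h * ENNReal.ofReal ((1 + δ) ^ N) ∂(haar n) :=
              lintegral_mono_set Set.inter_subset_left
      · exact ENNReal.ofReal_ne_top
    have h4' := ENNReal.toReal_mono (ENNReal.mul_ne_top ENNReal.ofReal_ne_top
      (ENNReal.mul_ne_top hBt (measure_ne_top _ _))) h3
    rwa [ENNReal.toReal_mul, ENNReal.toReal_mul, ENNReal.toReal_mul, ENNReal.toReal_ofReal hκ.le,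
      ENNReal.toReal_ofReal (pow_nonneg (by linarith) _)] at h4'
  -- the other law
  have hzA : (haar n).real (A ∩ bx R') - x * b ≤ z := by
    have := haar_Bm_ge hR' he0.le he1 A
    exact this
  have hun : (un R').real A = (haar n).real (A ∩ bx R') / b := Nz_323.un_real R' hA
  -- conclusion
  set t : ℝ := z / b with ht
  have ht0 : 0 ≤ t := div_nonneg hz0 hbp.le
  have ht1 : t ≤ 1 := (div_le_one hbp).2 hzb
  have hzt : z = t * b := by rw [ht, div_mul_cancel₀ _ hbp.ne']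
  have htA : (un R').real A - x ≤ t := by
    rw [hun, ht, sub_le_iff_le_add, ← sub_le_iff_le_add', div_sub_div_same, div_le_iff₀ hbp]
    linarith
  set L : ℝ := (lw S R r).real A with hL
  have hL0 : 0 ≤ L := measureReal_nonneg
  have hmain : (1 - 2 * δ) ^ N * t ≤ (1 + y) * (1 + δ) ^ N * L :=
    num_main hy0 hH0p ht0 hzt hup hlow
  have hfin3 := num_final hδ0 hδ1 hy0 hy1 (by linarith) ht0 ht1 hL0 hmain
  rw [hC]
  linarith

/-- the law of `v(s)`, `s` uniform in the box of radii `2^(-r)`. -/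
def vl (S : Finset (Fin n)) (r : CC S → ℝ) : Measure (SLR n) := (uniC S).map fun θ => vv S (sc r θ)

theorem measurable_vl : Measurable fun θ : CC S → ℝ => (vv S (sc r θ) : SLR n) :=
  (measurable_vv S).comp measurable_sc

instance instProbVl : IsProbabilityMeasure (vl S r) :=
  Measure.isProbabilityMeasure_map measurable_vl.aemeasurable

theorem cv_vl (hR : Adm R) : cv (zt R) (vl S r) = (lw S R r).map toSL := by
  have := isProb_un hR
  unfold cv zt vl lw
  rw [Measure.map_prod_map _ _ measurable_toSL measurable_vl,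
    Measure.map_map measurable_mul₂ (measurable_toSL.prodMap measurable_vl),
    Measure.map_map measurable_toSL (measurable_mulv measurable_sc)]
  refine Measure.map_congr ?_
  have h1 : ∀ᵐ p ∂((un R).prod (uniC S)), p.1 ∈ bx R := by
    have := (Measure.quasiMeasurePreserving_fst (μ := un R) (ν := uniC S)).ae (un_ae (R := R))
    exact this
  filter_upwards [h1] with p hp
  simp only [Function.comp_apply, Prod.map_fst, Prod.map_snd]
  have hd : 0 < (1 + nn S (sc r p.2)).det := by rw [det_one_add_nn]; exact one_pos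
  rw [toSL_mul (det_pos_of_adm hR hp) hd]
  congr 1
  exact (toSL_coe (vv S (sc r p.2))).symm

/-- **(L3)**. -/
theorem L3' (H : Hyp S R r w) (hR : Adm R) (hR' : Adm (ovr S R r)) :
    TVle (cv (zt R) (vl S r)) (zt (ovr S R r)) (C3 n * 2 ^ (-w)) := by
  rw [cv_vl hR]
  exact (L3_mt H hR hR').map measurable_toSL

/-- **(L3)**, with the hypotheses spelled out. -/
theorem L3 (hw : 0 ≤ w) (hR : Adm R) (hR' : Adm (ovr S R r))
    (h1 : ∀ c : CC S, r c + w ≤ R c.1.1 c.1.2)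
    (h2 : ∀ (k i j : Fin n) (hk : k ∈ S) (hi : i ∈ S) (hj : j ∉ S),
      r ⟨(k, j), hk, hj⟩ + w ≤ R k i + r ⟨(i, j), hi, hj⟩)
    (h3 : ∀ (i k j : Fin n) (hi : i ∈ S) (_ : k ∉ S) (hj : j ∉ S),
      R k j + w ≤ R k i + r ⟨(i, j), hi, hj⟩) :
    TVle (cv (zt R) ((uniC S).map fun θ => vv S fun c => 2 ^ (-r c) * θ c)) (zt (ovr S R r))
      (C3 n * 2 ^ (-w)) := L3' ⟨hw, h1, h2, h3⟩ hR hR'

end Crest.Agent.R014.L3_884
end
end

-- ▼ part R014/L3b_884
section

/-!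
Row 14, block D: (L3) in the literal form `StepQ_870.L3St` (helper884).
-/

set_option autoImplicit false

noncomputable section

namespace Crest.Agent.R014.L3_884

theorem C3_nonneg (n : ℕ) : 0 ≤ C3 n := by
  unfold C3
  positivity

/-- **(L3)** in the form consumed by `StepQ`. -/
theorem l3st (n : ℕ) : StepQ_870.L3St n (C3 n) := by
  intro S R r w hw hR hR' h1 h2 h3
  exact L3 hw hR hR' h1 h2 fun i k j hi hk hj => h3 k i j hk hi hj

end Crest.Agent.R014.L3_884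
end
end

-- ▼ part R014/Base_373
section

/-!
# Row 14, block D: the base windows (helper373)

`core`: slab_avg + comparison with the spread functions; `base_of`: `Q3f_433.Base` for
`PSr`, `Fr`, window constant `12000`, from (L3).
-/

set_option autoImplicit false

open MeasureTheory Filter Topology
open Crest.NumberTheoryR.Packets
open Crest.Agent.R014.Iface_792
open Crest.Agent.R014.Nd_837
open Crest.Agent.R014.DSkel_792
open Crest.Agent.R014.NScD_395 Crest.Agent.R014.NScE_395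
open Crest.Agent.R014.Ms_667
open Crest.Agent.R014.AsmB_460
open Crest.Agent.R014.AsmB2_460
open Crest.Agent.R014.NScH_395 (c1N noiseFam NC PZ PZ_eq)
open Crest.Agent.R014.NS_373
open Crest.Agent.R014.StepQ_870 (L3St Rs stepq_kapc adm_Rs Rs_ge Rs_cross Rs_le)
open scoped ENNReal

noncomputable section

namespace Crest.Agent.R014.Base_373

variable {n : ℕ}

/-- sum over the crossing roots -/
theorem sum_CC (S : Finset (Fin n)) (f : Fin n → Fin n → ℝ) :
    ∑ c : CC S, f c.1.1 c.1.2 = ∑ i ∈ S, ∑ j ∈ Sᶜ, f i j := by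
  classical
  rw [← Finset.sum_product' S Sᶜ f]
  refine (Finset.sum_subtype (S ×ˢ Sᶜ) (fun p => ?_) (fun p : Fin n × Fin n => f p.1 p.2)).symm
  simp [Finset.mem_product, Finset.mem_compl]

theorem card_CC_le (S : Finset (Fin n)) : (Fintype.card (CC S) : ℝ) ≤ (n : ℝ) ^ 2 := by
  have h : Fintype.card (CC S) ≤ Fintype.card (Fin n × Fin n) := Fintype.card_subtype_le _
  rw [Fintype.card_prod, Fintype.card_fin] at h
  have : (Fintype.card (CC S) : ℝ) ≤ ((n * n : ℕ) : ℝ) := by exact_mod_cast h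
  rw [pow_two]
  exact_mod_cast h

theorem KS_two_le (S : Finset (Fin n)) : KS S 2 ≤ 2 ^ (n ^ 2) := by
  have h : Fintype.card (CC S) ≤ n ^ 2 := by
    have := card_CC_le S
    exact_mod_cast this
  unfold KS
  have h1 : (((2 : ℕ) : ℝ) / 2) = 1 := by norm_num
  rw [h1, Real.sqrt_one, mul_one, Fintype.card_fun, Fintype.card_fin]
  push_cast
  exact pow_le_pow_right₀ (by norm_num) h

section Core

variable (S : Finset (Fin n)) (μ : Measure (ModSpace n)) [IsProbabilityMeasure μ]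
  (κ : Measure (SLR n)) [IsProbabilityMeasure κ]

/-- the bad set of one window. -/
theorem core {T : ℕ} (hT : 0 < T) {G : Set (ModSpace n)} (hG : MeasurableSet G)
    (lam : Measure (ModSpace n)) [IsFiniteMeasure lam] {M : ℝ} (hM : 0 ≤ M)
    (h : ∀ w, rho (μ.restrict G) κ S 2 T w ≤ ENNReal.ofReal M • lam) {τ : ℝ} (hτ : 0 < τ)
    {c₁ : ℝ} (hc : 0 < c₁) {P : Fin n → Fin n → ℕ → ModSpace n → ℝ}
    (hPm : ∀ i j r, Measurable (P i j r)) (hP0 : ∀ i j r x, 0 ≤ P i j r x)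
    (hP2 : ∀ i j r x, P i j r x ≤ 2) {es : ℝ}
    (hq : ∀ (c : CC S) (i : ℕ), i ≤ T →
      ∫ x, |Acv μ (kapc κ S 2 i c) c.ne ((i : ℝ) * Real.logb 2 ((2:ℕ):ℝ)) 2 x -
        P c.1.1 c.1.2 i x| ∂μ ≤ es) {E g : ℝ}
    (hE : τ⁻¹ * (M * lam.real Set.univ) + √τ * Real.exp (KS S 2 * √(T * (c₁ * T))) ≤ E)
    (hg : μ.real Gᶜ ≤ g) :
    μ.real {x | ∑ r ∈ Finset.range T, ∑ i ∈ S, ∑ j ∈ Sᶜ, P i j r x < c₁ / 2 * T} ≤
      2 * g + 2 * E + 2 * (Fintype.card (CC S) : ℝ) / c₁ * (es + 16 * g) := by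
  set A : Set (ModSpace n) :=
    {x | ∑ r ∈ Finset.range T, ∑ i ∈ S, ∑ j ∈ Sᶜ, P i j r x < c₁ / 2 * T} with hA
  have hAm : MeasurableSet A := by
    refine measurableSet_lt ?_ measurable_const
    exact Finset.measurable_fun_sum _ fun r _ => Finset.measurable_fun_sum _ fun i _ =>
      Finset.measurable_fun_sum _ fun j _ => hPm i j r
  have hTr : (0 : ℝ) < T := by exact_mod_cast hT
  have h1 := slab_avg (b := 2) (by norm_num) S μ κ T hG A lam hM h hτ hc.le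
  have hPi : ∀ i j r, Integrable (P i j r) μ := fun i j r =>
    bdd_integrable (hPm i j r) (M := 2) fun x => by
      rw [abs_of_nonneg (hP0 i j r x)]; exact hP2 i j r x
  have hAi : ∀ (c : CC S) (i : ℕ), Integrable (Acv μ (kapc κ S 2 i c) c.ne
      ((i : ℝ) * Real.logb 2 ((2:ℕ):ℝ)) 2) μ := fun c i =>
    bdd_integrable (measurable_Av _ _) (M := 2) fun x =>
      abs_le.2 ⟨le_trans (by norm_num) (Av_nonneg _ _ _), Av_le _ _ _⟩
  have h2 : ∀ (i : Fin T) (c : CC S),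
      ∫ x in A, Acv μ (cv κ (ovl S 2 i c)) c.ne (i * Real.logb 2 ((2:ℕ):ℝ)) 2 x ∂μ ≤
      ∫ x in A, P c.1.1 c.1.2 i x ∂μ + es := by
    intro i c
    have h3 := hq c i i.isLt.le
    have h4 : ∫ x in A, (Acv μ (kapc κ S 2 i c) c.ne ((i : ℝ) * Real.logb 2 ((2:ℕ):ℝ)) 2 x -
        P c.1.1 c.1.2 i x) ∂μ ≤ es := by
      refine le_trans ?_ (le_trans (setIntegral_le_integral (s := A)
        ((hAi c i).sub (hPi c.1.1 c.1.2 i)).abs
        (Filter.Eventually.of_forall fun x => abs_nonneg _)) h3)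
      refine integral_mono ((hAi c i).sub (hPi c.1.1 c.1.2 i)).integrableOn
        ((hAi c i).sub (hPi c.1.1 c.1.2 i)).abs.integrableOn fun x => le_abs_self _
    rw [integral_sub (hAi c i).integrableOn (hPi c.1.1 c.1.2 i).integrableOn] at h4
    linarith
  have h5 : ∑ i : Fin T, ∑ c : CC S, ∫ x in A, P c.1.1 c.1.2 i x ∂μ ≤
      c₁ / 2 * T * μ.real A := by
    have h6 : ∑ i : Fin T, ∑ c : CC S, ∫ x in A, P c.1.1 c.1.2 i x ∂μ =
        ∫ x in A, ∑ r ∈ Finset.range T, ∑ i ∈ S, ∑ j ∈ Sᶜ, P i j r x ∂μ := by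
      rw [integral_finsetSum _ fun r _ => integrable_finsetSum _ fun i _ =>
        integrable_finsetSum _ fun j _ => (hPi i j r).integrableOn]
      rw [Fin.sum_univ_eq_sum_range (fun r => ∑ c : CC S, ∫ x in A, P c.1.1 c.1.2 r x ∂μ) T]
      refine Finset.sum_congr rfl fun r _ => ?_
      rw [integral_finsetSum _ fun i _ => integrable_finsetSum _ fun j _ =>
        (hPi i j r).integrableOn]
      rw [sum_CC S fun i j => ∫ x in A, P i j r x ∂μ]
      refine Finset.sum_congr rfl fun i _ => ?_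
      rw [integral_finsetSum _ fun j _ => (hPi i j r).integrableOn]
    rw [h6]
    have h7 : ∫ x in A, ∑ r ∈ Finset.range T, ∑ i ∈ S, ∑ j ∈ Sᶜ, P i j r x ∂μ ≤
        ∫ x in A, (c₁ / 2 * T) ∂μ := by
      refine setIntegral_mono_on ?_ (integrableOn_const) hAm fun x hx => ?_
      · exact (integrable_finsetSum _ fun r _ => integrable_finsetSum _ fun i _ =>
          integrable_finsetSum _ fun j _ => (hPi i j r)).integrableOn
      · exact (show _ < _ from hx).le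
    refine h7.trans (le_of_eq ?_)
    rw [setIntegral_const, smul_eq_mul, mul_comm]
  have h8 : ∑ i : Fin T, ∑ c : CC S, (∫ x in A, Acv μ (cv κ (ovl S 2 i c)) c.ne
      (i * Real.logb 2 ((2:ℕ):ℝ)) 2 x ∂μ + 16 * μ.real Gᶜ) ≤
      c₁ / 2 * T * μ.real A + T * (Fintype.card (CC S) * (es + 16 * g)) := by
    calc _ ≤ ∑ i : Fin T, ∑ c : CC S, (∫ x in A, P c.1.1 c.1.2 i x ∂μ + (es + 16 * g)) := by
          refine Finset.sum_le_sum fun i _ => Finset.sum_le_sum fun c _ => ?_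
          have := h2 i c
          linarith
      _ = ∑ i : Fin T, ∑ c : CC S, ∫ x in A, P c.1.1 c.1.2 i x ∂μ +
          T * (Fintype.card (CC S) * (es + 16 * g)) := by
          simp only [Finset.sum_add_distrib, Finset.sum_const, Finset.card_univ,
            Fintype.card_fin, nsmul_eq_mul]
          ring
      _ ≤ _ := by linarith
  have h9 : μ.real A ≤ μ.real (A ∩ G) + g := by
    have : μ.real A ≤ μ.real (A ∩ G) + μ.real Gᶜ := by
      refine le_trans (measureReal_mono (fun x hx => ?_) (measure_ne_top _ _))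
        (measureReal_union_le _ _)
      by_cases hxG : x ∈ G
      · exact Or.inl ⟨hx, hxG⟩
      · exact Or.inr hxG
    linarith
  have h10 : c₁ * T * (μ.real (A ∩ G) - E) ≤
      c₁ / 2 * T * μ.real A + T * (Fintype.card (CC S) * (es + 16 * g)) := by
    refine le_trans ?_ (h1.trans h8)
    refine mul_le_mul_of_nonneg_left ?_ (by positivity)
    linarith
  have h11 : c₁ * (μ.real (A ∩ G) - E) ≤
      c₁ / 2 * μ.real A + (Fintype.card (CC S) * (es + 16 * g)) := by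
    have : (T : ℝ) * (c₁ * (μ.real (A ∩ G) - E)) ≤
        T * (c₁ / 2 * μ.real A + (Fintype.card (CC S) * (es + 16 * g))) := by
      linarith
    exact le_of_mul_le_mul_left this hTr
  have h12 : c₁ * μ.real A ≤ c₁ * (2 * g + 2 * E +
      2 * (Fintype.card (CC S) : ℝ) / c₁ * (es + 16 * g)) := by
    have h13 : c₁ * (2 * (Fintype.card (CC S) : ℝ) / c₁ * (es + 16 * g)) =
        2 * (Fintype.card (CC S) * (es + 16 * g)) := by field_simp
    have h14 : c₁ * μ.real A ≤ c₁ * (μ.real (A ∩ G) + g) := mul_le_mul_of_nonneg_left h9 hc.le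
    rw [mul_add, h13]
    nlinarith
  exact le_of_mul_le_mul_left h12 hc

end Core

/-! ### the constants -/

/-- the constant of the mass bound -/
def A0 (n : ℕ) : ℝ :=
  2 ^ n * (8 + 32 * n) * (2 ^ n * ((50 * (n : ℝ) ^ 3) * 2 ^ (n ^ 2)) ^ (n ^ 2))

theorem A0_nonneg (n : ℕ) : 0 ≤ A0 n := by unfold A0; positivity

theorem lam_real_le (hn : 0 < n) {X : ℝ} (hX : 1 ≤ X) :
    (Nm_884.lamM n X⁻¹).real Set.univ ≤
      2 ^ n * (((50 * (n : ℝ) ^ 3) * 2 ^ (n ^ 2)) ^ (n ^ 2) * X ^ (n ^ 3)) := by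
  have hX0 : 0 < X := by linarith
  have hn1 : (1 : ℝ) ≤ n := by exact_mod_cast hn
  have h1 : (Nm_884.lamM n X⁻¹).real Set.univ ≤
      2 ^ n * (2 * (2 * Nm_884.KB n X⁻¹ + 1)) ^ (n ^ 2) := by
    have h2 : 0 ≤ Nm_884.KB n X⁻¹ := by
      have := Nm_884.B0_nonneg (n := n) (inv_pos.2 hX0)
      unfold Nm_884.KB; positivity
    exact ENNReal.toReal_le_of_le_ofReal (by positivity) (Nm_884.lamM_univ_le hn (inv_pos.2 hX0))
  refine h1.trans (mul_le_mul_of_nonneg_left ?_ (by positivity))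
  set Y : ℝ := 2 ^ n * X with hY
  have hY1 : 1 ≤ Y := by
    have : (1 : ℝ) ≤ 2 ^ n := one_le_pow₀ (by norm_num)
    nlinarith
  have h3 : Nm_884.KB n X⁻¹ = 12 * (n : ℝ) ^ 3 * Y ^ (n - 1) := by
    unfold Nm_884.KB Nm_884.B0
    rw [div_inv_eq_mul]
    ring
  have h4 : Y ^ (n - 1) ≤ Y ^ n := pow_le_pow_right₀ hY1 (Nat.sub_le _ _)
  have h5 : 1 ≤ Y ^ n := one_le_pow₀ hY1
  have hn3 : (1 : ℝ) ≤ (n : ℝ) ^ 3 := one_le_pow₀ hn1
  have h6 : 2 * (2 * Nm_884.KB n X⁻¹ + 1) ≤ 50 * (n : ℝ) ^ 3 * Y ^ n := by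
    rw [h3]
    have h7 : (n : ℝ) ^ 3 * Y ^ (n - 1) ≤ (n : ℝ) ^ 3 * Y ^ n :=
      mul_le_mul_of_nonneg_left h4 (by positivity)
    have h8 : 1 ≤ (n : ℝ) ^ 3 * Y ^ n := by nlinarith
    linarith
  have h9 : 0 ≤ 2 * (2 * Nm_884.KB n X⁻¹ + 1) := by
    rw [h3]; positivity
  refine (pow_le_pow_left₀ h9 h6 (n ^ 2)).trans (le_of_eq ?_)
  rw [hY, mul_pow, mul_pow, mul_pow, mul_pow, mul_pow, mul_pow, ← pow_mul, ← pow_mul, ← pow_mul,
    ← pow_mul, ← pow_mul]
  have e1 : n * (n * n ^ 2) = n ^ 2 * n ^ 2 := by ring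
  have e2 : n * n ^ 2 = n ^ 3 := by ring
  rw [e1, e2]
  ring

theorem mass_le (hn : 0 < n) {D C e u : ℝ} (hD : 1 ≤ D) (he : 0 < e) (hC : 0 ≤ C) (hu : 0 ≤ u)
    (heu : e * Real.log D ≤ u) (T : ℝ) :
    (2 ^ n * (8 + 32 * n)) * 2 ^ ((n : ℝ) ^ 2 * (30 * u)) * D ^ (C * e) * 2 ^ (-(T / 2)) *
      (Nm_884.lamM n (D ^ (-e))).real Set.univ ≤
      A0 n * (Real.exp ((30 * (n : ℝ) ^ 2 + C + (n : ℝ) ^ 3) * u) *
        Real.exp (-(Real.log 2 * (T / 2)))) := by
  have hD0 : 0 < D := by linarith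
  have hlog : 0 ≤ Real.log D := Real.log_nonneg hD
  have hX : 1 ≤ D ^ e := Real.one_le_rpow hD he.le
  have h1 := lam_real_le hn hX
  rw [← Real.rpow_neg hD0.le] at h1
  have h2 : (D ^ e) ^ (n ^ 3) ≤ Real.exp ((n : ℝ) ^ 3 * u) := by
    rw [← Real.rpow_natCast, ← Real.rpow_mul hD0.le, Real.rpow_def_of_pos hD0]
    refine Real.exp_le_exp.2 ?_
    push_cast
    have : (n : ℝ) ^ 3 * (e * Real.log D) ≤ (n : ℝ) ^ 3 * u :=
      mul_le_mul_of_nonneg_left heu (by positivity)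
    linarith
  have h3 : D ^ (C * e) ≤ Real.exp (C * u) := by
    rw [Real.rpow_def_of_pos hD0]
    refine Real.exp_le_exp.2 ?_
    have : C * (e * Real.log D) ≤ C * u := mul_le_mul_of_nonneg_left heu hC
    linarith
  have h4 : (2 : ℝ) ^ ((n : ℝ) ^ 2 * (30 * u)) ≤ Real.exp (30 * (n : ℝ) ^ 2 * u) := by
    rw [Real.rpow_def_of_pos two_pos]
    refine Real.exp_le_exp.2 ?_
    have hl : Real.log 2 ≤ 1 := by
      have := Real.log_two_lt_d9; linarith
    have : Real.log 2 * ((n : ℝ) ^ 2 * (30 * u)) ≤ 1 * ((n : ℝ) ^ 2 * (30 * u)) :=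
      mul_le_mul_of_nonneg_right hl (by positivity)
    linarith
  have h5 : (2 : ℝ) ^ (-(T / 2)) = Real.exp (-(Real.log 2 * (T / 2))) := by
    rw [Real.rpow_def_of_pos two_pos]
    congr 1; ring
  rw [h5]
  calc _ ≤ (2 ^ n * (8 + 32 * n)) * Real.exp (30 * (n : ℝ) ^ 2 * u) * Real.exp (C * u) *
        Real.exp (-(Real.log 2 * (T / 2))) *
        (2 ^ n * (((50 * (n : ℝ) ^ 3) * 2 ^ (n ^ 2)) ^ (n ^ 2) * Real.exp ((n : ℝ) ^ 3 * u))) := by
        have h6 : (Nm_884.lamM n (D ^ (-e))).real Set.univ ≤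
            2 ^ n * (((50 * (n : ℝ) ^ 3) * 2 ^ (n ^ 2)) ^ (n ^ 2) * Real.exp ((n : ℝ) ^ 3 * u)) :=
          h1.trans (by gcongr)
        gcongr
    _ = _ := by
        have : (30 * (n : ℝ) ^ 2 + C + (n : ℝ) ^ 3) * u =
            30 * (n : ℝ) ^ 2 * u + C * u + (n : ℝ) ^ 3 * u := by ring
        rw [this, Real.exp_add, Real.exp_add, A0]
        ring

/-- the error term of `slab_avg`. -/
theorem err_le (hn : 0 < n) (S : Finset (Fin n)) {D C e u K : ℝ} (hD : 1 ≤ D) (he : 0 < e)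
    (hC : 0 ≤ C) (hu : 0 ≤ u) (heu : e * Real.log D ≤ u) (hK : 0 < K) (hKS : KS S 2 ≤ K) {T : ℕ}
    (hT : (30 * (n : ℝ) ^ 2 + C + (n : ℝ) ^ 3) * u ≤ T / 16) :
    (Real.exp (-(Real.log 2 * (T / 8))))⁻¹ *
      ((2 ^ n * (8 + 32 * n)) * 2 ^ ((n : ℝ) ^ 2 * (30 * u)) * D ^ (C * e) * 2 ^ (-((T : ℝ) / 2)) *
        (Nm_884.lamM n (D ^ (-e))).real Set.univ) +
      √(Real.exp (-(Real.log 2 * (T / 8)))) *
        Real.exp (KS S 2 * √(T * ((Real.log 2 / (32 * K)) ^ 2 * T))) ≤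
      (A0 n + 1) * Real.exp (-(Real.log 2 * (T / 32))) := by
  have hT0 : (0 : ℝ) ≤ T := Nat.cast_nonneg _
  have hl : 0 < Real.log 2 := Real.log_pos (by norm_num)
  have hl2 : 1 / 2 ≤ Real.log 2 := by
    have := Real.log_two_gt_d9; linarith
  have h1 := mass_le hn hD he hC hu heu (T : ℝ)
  have h2 : (Real.exp (-(Real.log 2 * (T / 8))))⁻¹ *
      ((2 ^ n * (8 + 32 * n)) * 2 ^ ((n : ℝ) ^ 2 * (30 * u)) * D ^ (C * e) * 2 ^ (-((T : ℝ) / 2)) *
        (Nm_884.lamM n (D ^ (-e))).real Set.univ) ≤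
      A0 n * Real.exp (-(Real.log 2 * (T / 32))) := by
    rw [← Real.exp_neg]
    refine (mul_le_mul_of_nonneg_left h1 (Real.exp_pos _).le).trans ?_
    rw [mul_left_comm, ← Real.exp_add, ← Real.exp_add]
    refine mul_le_mul_of_nonneg_left (Real.exp_le_exp.2 ?_) (A0_nonneg n)
    nlinarith
  have h3 : √(Real.exp (-(Real.log 2 * (T / 8)))) *
      Real.exp (KS S 2 * √(T * ((Real.log 2 / (32 * K)) ^ 2 * T))) ≤
      Real.exp (-(Real.log 2 * (T / 32))) := by
    rw [← Real.exp_half, ← Real.exp_add]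
    refine Real.exp_le_exp.2 ?_
    have h4 : √(T * ((Real.log 2 / (32 * K)) ^ 2 * T)) = Real.log 2 / (32 * K) * T := by
      rw [show (T : ℝ) * ((Real.log 2 / (32 * K)) ^ 2 * T) = (Real.log 2 / (32 * K) * T) ^ 2 by ring]
      exact Real.sqrt_sq (by positivity)
    rw [h4]
    have h5 : KS S 2 * (Real.log 2 / (32 * K) * T) ≤ K * (Real.log 2 / (32 * K) * T) :=
      mul_le_mul_of_nonneg_right hKS (by positivity)
    have h6 : K * (Real.log 2 / (32 * K) * T) = Real.log 2 * (T / 32) := by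
      field_simp
    linarith
  linarith

/-- `Gᶜ` is small. -/
theorem gc_le (hn : 2 ≤ n) {D e η g : ℝ} (he : 0 < e) (hη : 0 < η) (hg : 0 < g)
    (h1 : (3 / g) ^ (1 / η) ≤ D) (h2 : (3 / g) ^ (1 / e) ≤ D) (hD : 1 ≤ D) {μ : Measure (ModSpace n)}
    {G : Set (ModSpace n)}
    (h : μ Gᶜ ≤ ENNReal.ofReal (D ^ (-η)) + 2 * ENNReal.ofReal (D ^ e * (D ^ (-e)) ^ n)) :
    μ.real Gᶜ ≤ g := by
  have hD0 : 0 < D := by linarith
  have key : ∀ s : ℝ, 0 < s → (3 / g) ^ (1 / s) ≤ D → D ^ (-s) ≤ g / 3 := by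
    intro s hs h3
    have h4 : 3 / g ≤ D ^ s := by
      have := Real.rpow_le_rpow (by positivity) h3 hs.le
      rwa [← Real.rpow_mul (by positivity), one_div_mul_cancel hs.ne', Real.rpow_one] at this
    rw [Real.rpow_neg hD0.le]
    calc (D ^ s)⁻¹ ≤ (3 / g)⁻¹ := inv_anti₀ (by positivity) h4
      _ = g / 3 := by rw [inv_div]
  have h3 := key η hη h1
  have h4 := key e he h2
  have h5 : D ^ e * (D ^ (-e)) ^ n ≤ D ^ (-e) := by
    have h6 : D ^ (-e) ≤ 1 := Real.rpow_le_one_of_one_le_of_nonpos hD (by linarith)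
    have h7 : 0 < D ^ (-e) := Real.rpow_pos_of_pos hD0 _
    have h8 : (D ^ (-e)) ^ n ≤ (D ^ (-e)) ^ 2 := pow_le_pow_of_le_one h7.le h6 hn
    have h9 : D ^ e * (D ^ (-e)) ^ 2 = D ^ (-e) := by
      rw [pow_two, ← mul_assoc, ← Real.rpow_add hD0]
      simp
    calc _ ≤ D ^ e * (D ^ (-e)) ^ 2 :=
          mul_le_mul_of_nonneg_left h8 (Real.rpow_pos_of_pos hD0 _).le
      _ = _ := h9
  have h6 : ENNReal.ofReal (D ^ (-η)) + 2 * ENNReal.ofReal (D ^ e * (D ^ (-e)) ^ n) ≤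
      ENNReal.ofReal g := by
    have h7 : (2 : ℝ≥0∞) = ENNReal.ofReal 2 := by simp
    rw [h7, ← ENNReal.ofReal_mul (by norm_num), ← ENNReal.ofReal_add (by positivity) (by positivity)]
    refine ENNReal.ofReal_le_ofReal ?_
    linarith
  exact ENNReal.toReal_le_of_le_ofReal hg.le (h.trans h6)

theorem two_le_of_proper {S : Finset (Fin n)} (hS : S.Nonempty) (hS' : S ≠ Finset.univ) : 2 ≤ n := by
  obtain ⟨i, hi⟩ := hS
  have h : ∃ j, j ∉ S := by
    by_contra h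
    push Not at h
    exact hS' (Finset.eq_univ_iff_forall.2 h)
  obtain ⟨j, hj⟩ := h
  have hij : i ≠ j := fun h => hj (h ▸ hi)
  have h1 := i.isLt
  have h2 := j.isLt
  have h3 : (i : ℕ) ≠ j := fun h => hij (Fin.ext h)
  omega

set_option maxHeartbeats 1000000 in
/-- **BASE WINDOWS**: `Q3f_433.Base` for `PSr`, `Fr`, window constant `12000`. -/
theorem base_of {C3 : ℝ} (hC3 : 0 ≤ C3) (hL3 : L3St n C3) :
    ∀ κ C : ℝ, 0 < κ → 0 < C → ∃ c₃ : ℝ, 0 < c₃ ∧ ∀ ε₀ δ' : ℝ, 0 < ε₀ → 0 < δ' →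
    ∃ (B : Finset ℕ) (η d₀ U C' c' : ℝ) (D₀ : ℝ → ℝ → ℝ), 0 < η ∧ 0 < d₀ ∧ 0 < C' ∧ 0 < c' ∧
    ∀ μ : Measure (ModSpace n), IsProbabilityMeasure μ → AInv μ →
    ∀ u₁ u₂ : ℝ, Reg Fr B η d₀ U μ u₁ u₂ → ∀ e η' D : ℝ, 0 < e → 0 < η' → D₀ e η' ≤ D →
      SlabBd μ D κ C e η' → C' * e * Real.log D ≤ u₁ → u₂ ≤ c' * Real.log D →
      ∀ w : ℕ, δ' * u₂ ≤ w → (w : ℝ) ≤ u₂ / 12000 →
      ∀ S : Finset (Fin n), S.Nonempty → S ≠ Finset.univ →
        μ.real {x | ∑ r ∈ Finset.range w, ∑ i ∈ S, ∑ j ∈ Sᶜ,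
          PSr μ u₁ 2 i j (tz (Pi.single i (r : ℤ)) x) < c₃ * w} ≤ ε₀ := by
  intro κ C hκ hC
  have hlog2 : 0 < Real.log 2 := Real.log_pos (by norm_num)
  have hlog2' : 1 / 2 ≤ Real.log 2 := by
    have := Real.log_two_gt_d9; linarith
  have hlog2'' : Real.log 2 ≤ 1 := by
    have := Real.log_two_lt_d9; linarith
  set K : ℝ := 2 ^ (n ^ 2) with hK
  have hK0 : 0 < K := by positivity
  set c₁ : ℝ := (Real.log 2 / (32 * K)) ^ 2 with hc₁
  have hc₁0 : 0 < c₁ := by positivity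
  refine ⟨c₁ / 2, by positivity, fun ε₀ δ' hε₀ hδ' => ?_⟩
  set N₀ : ℝ := (n : ℝ) ^ 2 with hN₀
  have hN₀0 : 0 ≤ N₀ := by positivity
  set es : ℝ := c₁ * ε₀ / (8 * (N₀ + 1)) with hes
  have hes0 : 0 < es := by positivity
  set g : ℝ := ε₀ / (8 * (1 + 16 * N₀ / c₁)) with hg
  have hg0 : 0 < g := by positivity
  obtain ⟨η, U, hη, hU, hUc, hq⟩ := stepq_kapc (n := n) hC3 hL3 hes0
  set E₁ : ℝ := 30 * (n : ℝ) ^ 2 + C + (n : ℝ) ^ 3 with hE₁
  have hE₁0 : 0 < E₁ := by positivity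
  set m : ℝ := min (ε₀ / (8 * (A0 n + 1))) (1 / (8 + 32 * n)) with hm
  have hA0 := A0_nonneg n
  have hm0 : 0 < m := lt_min (by positivity) (by positivity)
  set W₀ : ℝ := 32 / (Real.log 2 * m) with hW₀
  have hW₀0 : 0 < W₀ := by positivity
  have hW : ∀ W : ℝ, W₀ ≤ W → Real.exp (-(Real.log 2 * (W / 32))) ≤ m := by
    intro W hW
    have h1 : 1 / m ≤ Real.log 2 * (W / 32) := by
      rw [hW₀, div_le_iff₀ (by positivity)] at hW
      rw [div_le_iff₀ hm0]
      linarith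
    have h2 : 1 / m ≤ Real.exp (Real.log 2 * (W / 32)) := by
      have := Real.add_one_le_exp (Real.log 2 * (W / 32)); linarith
    rw [Real.exp_neg]
    calc _ ≤ (1 / m)⁻¹ := inv_anti₀ (by positivity) h2
      _ = m := by rw [one_div, inv_inv]
  refine ⟨{2}, η, min (1 / 100000) (δ' / (16 * E₁)), max U (max (W₀ / δ') n), 1, κ * 12000,
    fun e η' => max (16 ^ (1 / e)) (max ((3 / g) ^ (1 / η')) ((3 / g) ^ (1 / e))), hη,
    lt_min (by norm_num) (by positivity), one_pos, by positivity, ?_⟩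
  intro μ hμp hμ u₁ u₂ hReg e η' D he hη' hD hSl hu₁ hu₂ w hw1 hw2 S hS hS'
  have hn2 : 2 ≤ n := two_le_of_proper hS hS'
  have hn : 0 < n := by omega
  have hn1 : (1 : ℝ) ≤ n := by exact_mod_cast hn
  obtain ⟨hR1, hR2, hR3⟩ := hReg
  have hUu : U ≤ u₁ := (le_max_left _ _).trans hR1
  have hWu : W₀ / δ' ≤ u₁ := ((le_max_left _ _).trans (le_max_right _ _)).trans hR1
  have hnu : (n : ℝ) ≤ u₁ := ((le_max_right _ _).trans (le_max_right _ _)).trans hR1
  have hu0 : 0 < u₁ := hU.trans_le hUu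
  have hu2 : 0 < u₂ := by
    by_contra h
    push Not at h
    have h1 : 0 < min (1 / 100000 : ℝ) (δ' / (16 * E₁)) := lt_min (by norm_num) (by positivity)
    have := mul_nonpos_of_nonneg_of_nonpos h1.le h
    linarith
  have hd1 : u₁ ≤ 1 / 100000 * u₂ :=
    hR2.trans (mul_le_mul_of_nonneg_right (min_le_left _ _) hu2.le)
  have hd2 : u₁ ≤ δ' / (16 * E₁) * u₂ :=
    hR2.trans (mul_le_mul_of_nonneg_right (min_le_right _ _) hu2.le)
  have hwW : W₀ ≤ w := by
    rw [div_le_iff₀ hδ'] at hWu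
    have : δ' * u₁ ≤ δ' * u₂ := mul_le_mul_of_nonneg_left (by linarith) hδ'.le
    linarith
  have hw0 : 0 < w := by
    have : (0 : ℝ) < w := hW₀0.trans_le hwW
    exact_mod_cast this
  have hT : E₁ * u₁ ≤ w / 16 := by
    have h1 : E₁ * u₁ ≤ E₁ * (δ' / (16 * E₁) * u₂) := mul_le_mul_of_nonneg_left hd2 hE₁0.le
    have h2 : E₁ * (δ' / (16 * E₁) * u₂) = δ' * u₂ / 16 := by field_simp
    linarith
  have h16 : (16 : ℝ) ^ (1 / e) ≤ D := (le_max_left _ _).trans hD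
  have hD1 : 1 ≤ D := (Real.one_le_rpow (by norm_num) (by positivity)).trans h16
  have hD0 : 0 < D := by linarith
  have hD16 : 16 ≤ D ^ e := by
    have := Real.rpow_le_rpow (by positivity) h16 he.le
    rwa [← Real.rpow_mul (by norm_num), one_div_mul_cancel he.ne', Real.rpow_one] at this
  have heu : e * Real.log D ≤ u₁ := by linarith
  have hTr : (w : ℝ) = w * Real.logb 2 ((2 : ℕ) : ℝ) := by
    simp [Real.logb_self_eq_one]
  have h2w : (2 : ℝ) ^ (-((w : ℝ) / 2)) = Real.exp (-(Real.log 2 * (w / 2))) := by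
    rw [Real.rpow_def_of_pos two_pos]
    congr 1; ring
  have hδ0 : D ^ (-κ) ≤ (8 + 32 * n) * 2 ^ (-((w : ℝ) / 2)) := by
    have h1 : (w : ℝ) ≤ κ * Real.log D := by
      have : u₂ / 12000 ≤ κ * Real.log D := by
        rw [div_le_iff₀ (by norm_num)]; linarith
      linarith
    have h2 : D ^ (-κ) ≤ Real.exp (-(Real.log 2 * (w / 2))) := by
      rw [Real.rpow_def_of_pos hD0]
      refine Real.exp_le_exp.2 ?_
      have : Real.log 2 * (w / 2) ≤ 1 * (w : ℝ) := by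
        refine mul_le_mul hlog2'' (by linarith [(Nat.cast_nonneg w : (0 : ℝ) ≤ w)]) (by positivity)
          one_pos.le
      linarith
    rw [h2w]
    have h3 := Real.exp_pos (-(Real.log 2 * ((w : ℝ) / 2)))
    nlinarith
  have hδ1 : (8 + 32 * n) * (2 : ℝ) ^ (-((w : ℝ) / 2)) ≤ 1 := by
    rw [h2w]
    have h1 : Real.exp (-(Real.log 2 * ((w : ℝ) / 2))) ≤ 1 / (8 + 32 * n) := by
      refine le_trans (Real.exp_le_exp.2 ?_) ((hW w hwW).trans (min_le_right _ _))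
      have h2 : (w : ℝ) / 32 ≤ w / 2 := by linarith [(Nat.cast_nonneg w : (0 : ℝ) ≤ w)]
      linarith [mul_le_mul_of_nonneg_left h2 hlog2.le]
    rw [le_div_iff₀ (by positivity)] at h1
    linarith
  obtain ⟨G, hGm, hGμ, hGr⟩ := Nm_884.mass_final hn μ hμ hD1 he.le hSl hD16 (le_refl 2) hTr S hS hS'
    hδ0 hδ1
  have hgr : μ.real Gᶜ ≤ g := gc_le hn2 he hη' hg0
    (((le_max_left _ _).trans (le_max_right _ _)).trans hD)
    (((le_max_right _ _).trans (le_max_right _ _)).trans hD) hD1 hGμ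
  have hc1u : c1N n ≤ 5 * u₁ := by linarith
  have hadm : Nz_323.Adm (Rs S u₁ w) := adm_Rs (noiseFam n) S hu0.le (Nat.cast_nonneg w) hc1u
  have hn5 : (n : ℝ) * 2 ^ (-(5 * u₁)) ≤ 1 / 2 := by
    have h1 : 2 * (n : ℝ) ≤ 2 ^ (5 * u₁) := by
      rw [Real.rpow_def_of_pos two_pos]
      have h2 := Real.add_one_le_exp (Real.log 2 * (5 * u₁))
      have h3 : 1 / 2 * (5 * u₁) ≤ Real.log 2 * (5 * u₁) :=
        mul_le_mul_of_nonneg_right hlog2' (by positivity)
      linarith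
    rw [Real.rpow_neg two_pos.le, ← div_eq_mul_inv, div_le_iff₀ (by positivity)]
    linarith
  have hrho := hGr (Rs S u₁ w) (5 * u₁) (30 * u₁) hadm (by linarith) hn5
    (fun i j => Rs_ge hu0.le (Nat.cast_nonneg w) i j) (fun c => (Rs_cross c).ge)
    (fun c => by rw [Rs_cross c]; linarith) (fun i j h => Rs_le hu0.le i j h)
  have hprob : IsProbabilityMeasure (zt (Rs S u₁ (w : ℝ))) := isProb_zt hadm
  have hfin : IsFiniteMeasure (Nm_884.lamM n (D ^ (-e))) :=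
    Nm_884.isFiniteMeasure_lamM hn (Real.rpow_pos_of_pos hD0 _)
  have hU0 : U0 n ≤ u₁ := max_le (by linarith) hu0.le
  have hwin : 2 * (w : ℝ) + 4 * u₁ ≤ u₂ / 3000 := by linarith
  have hcore := core S μ (zt (Rs S u₁ (w : ℝ))) hw0 hGm (Nm_884.lamM n (D ^ (-e)))
    (M := (2 ^ n * (8 + 32 * n)) * 2 ^ ((n : ℝ) ^ 2 * (30 * u₁)) * D ^ (C * e) *
      2 ^ (-((w : ℝ) / 2))) (by positivity) hrho
    (Real.exp_pos (-(Real.log 2 * ((w : ℝ) / 8)))) hc₁0
    (P := fun i j r x => PSr μ u₁ 2 i j (tz (Pi.single i (r : ℤ)) x))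
    (fun i j r => (measurable_psr μ u₁ 2 i j).comp (measurable_tz _))
    (fun i j r x => psr_nonneg μ u₁ 2 i j _) (fun i j r x => psr_le μ u₁ 2 i j _)
    (es := es) (fun c i hi => by
      have h1 := hq μ hμp hμ u₁ u₂ hUu hd1 (nCst_to hR3) S c w i hi hwin
      simp only [psr_eq hU0 (b := 2) (by norm_num)]
      exact h1)
    (err_le hn S hD1 he hC.le hu0.le heu hK0 (KS_two_le S) hT) hgr
  refine hcore.trans ?_
  have hE : (A0 n + 1) * Real.exp (-(Real.log 2 * ((w : ℝ) / 32))) ≤ ε₀ / 8 := by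
    have h1 : Real.exp (-(Real.log 2 * ((w : ℝ) / 32))) ≤ ε₀ / (8 * (A0 n + 1)) :=
      (hW w hwW).trans (min_le_left _ _)
    have h2 := mul_le_mul_of_nonneg_left h1 (by linarith : 0 ≤ A0 n + 1)
    refine h2.trans (le_of_eq ?_)
    field_simp
  have hN := card_CC_le S
  have hNn : (0 : ℝ) ≤ Fintype.card (CC S) := Nat.cast_nonneg _
  have hA : 2 * (Fintype.card (CC S) : ℝ) / c₁ * (es + 16 * g) ≤ 2 * N₀ / c₁ * (es + 16 * g) := by
    have : 2 * (Fintype.card (CC S) : ℝ) / c₁ ≤ 2 * N₀ / c₁ := by gcongr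
    exact mul_le_mul_of_nonneg_right this (by positivity)
  have hB1 : 2 * N₀ / c₁ * es ≤ ε₀ / 4 := by
    have : 2 * N₀ / c₁ * es = ε₀ / 4 * (N₀ / (N₀ + 1)) := by
      rw [hes]; field_simp; ring
    rw [this]
    have h1 : N₀ / (N₀ + 1) ≤ 1 := by rw [div_le_one (by linarith)]; linarith
    have := mul_le_mul_of_nonneg_left h1 (by positivity : 0 ≤ ε₀ / 4)
    linarith
  have hB2 : 2 * g + 2 * N₀ / c₁ * (16 * g) = ε₀ / 4 := by
    rw [hg]; field_simp; ring
  nlinarith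

/-- **BASE WINDOWS**, unconditional. -/
theorem base :
    ∀ κ C : ℝ, 0 < κ → 0 < C → ∃ c₃ : ℝ, 0 < c₃ ∧ ∀ ε₀ δ' : ℝ, 0 < ε₀ → 0 < δ' →
    ∃ (B : Finset ℕ) (η d₀ U C' c' : ℝ) (D₀ : ℝ → ℝ → ℝ), 0 < η ∧ 0 < d₀ ∧ 0 < C' ∧ 0 < c' ∧
    ∀ μ : Measure (ModSpace n), IsProbabilityMeasure μ → AInv μ →
    ∀ u₁ u₂ : ℝ, Reg Fr B η d₀ U μ u₁ u₂ → ∀ e η' D : ℝ, 0 < e → 0 < η' → D₀ e η' ≤ D →
      SlabBd μ D κ C e η' → C' * e * Real.log D ≤ u₁ → u₂ ≤ c' * Real.log D →
      ∀ w : ℕ, δ' * u₂ ≤ w → (w : ℝ) ≤ u₂ / 12000 →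
      ∀ S : Finset (Fin n), S.Nonempty → S ≠ Finset.univ →
        μ.real {x | ∑ r ∈ Finset.range w, ∑ i ∈ S, ∑ j ∈ Sᶜ,
          PSr μ u₁ 2 i j (tz (Pi.single i (r : ℤ)) x) < c₃ * w} ≤ ε₀ :=
  base_of (L3_884.C3_nonneg n) (L3_884.l3st n)

end Crest.Agent.R014.Base_373
end
end

-- ▼ part R014/Q3c_433
section

/-!
R014 / Q3c_433 (row 14, block D): from positive density of the crossing roots in ONE base window
`[0, w)` to positive density in all windows of length `≥ δ L` (input (Q3) of the chain).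

Abstract part: `τ` a measure preserving action of `Fin n → ℤ`.
* `crS Psi S r x`: sum of `Psi i j` over the crossing roots at depth `r`;
* `shift_bad`: windows `[a, a + w)`;
* `sum_windows`: all windows of length `≥ δ L` in `[-L, L]`;
* `p3_of_sum`, `p3_of_base`: the form `P3` of `DSkel_792`.
-/

set_option autoImplicit false

open MeasureTheory Filter Topology

noncomputable section

namespace Crest.Agent.R014.Q3c_433

variable {n : ℕ} {Ω : Type*} [MeasurableSpace Ω]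

/-- the crossing roots of `S` at depth `r` -/
def crS (τ : (Fin n → ℤ) → Ω → Ω) (Psi : Fin n → Fin n → Ω → ℝ) (S : Finset (Fin n)) (r : ℤ)
    (x : Ω) : ℝ := ∑ i ∈ S, ∑ j ∈ Sᶜ, Psi i j (τ (Pi.single i r) x)

/-- the sum over the block `[a, a + w)` -/
def blk (τ : (Fin n → ℤ) → Ω → Ω) (Psi : Fin n → Fin n → Ω → ℝ) (S : Finset (Fin n)) (a : ℤ)
    (w : ℕ) (x : Ω) : ℝ := ∑ r ∈ Finset.range w, crS τ Psi S (a + r) x

/-- `a` on `S`, `0` off `S` -/
def sv (S : Finset (Fin n)) (a : ℤ) : Fin n → ℤ := fun l => if l ∈ S then a else 0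

/-- `L¹` form of near invariance under `ker (ij)` -/
def Q1 (μ : Measure Ω) (τ : (Fin n → ℤ) → Ω → Ω) (Psi : Fin n → Fin n → Ω → ℝ) (L : ℕ) (e : ℝ) :
    Prop :=
  ∀ i j : Fin n, i ≠ j → ∀ z : Fin n → ℤ, z i = z j → (∀ l, |z l| ≤ (L : ℤ)) →
    ∫ x, |Psi i j (τ z x) - Psi i j x| ∂μ ≤ e

variable {μ : Measure Ω} [IsProbabilityMeasure μ] {τ : (Fin n → ℤ) → Ω → Ω}
  {Psi : Fin n → Fin n → Ω → ℝ} {M : ℝ}

omit [MeasurableSpace Ω] in
theorem crS_nonneg (h0 : ∀ i j x, 0 ≤ Psi i j x) (S : Finset (Fin n)) (r : ℤ) (x : Ω) :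
    0 ≤ crS τ Psi S r x :=
  Finset.sum_nonneg fun _ _ => Finset.sum_nonneg fun _ _ => h0 _ _ _

theorem measurable_crS (hτ : ∀ z, MeasurePreserving (τ z) μ μ) (hm : ∀ i j, Measurable (Psi i j))
    (S : Finset (Fin n)) (r : ℤ) : Measurable (crS τ Psi S r) :=
  Finset.measurable_fun_sum _ fun i _ => Finset.measurable_fun_sum _ fun j _ =>
    (hm i j).comp (hτ _).measurable

theorem measurable_blk (hτ : ∀ z, MeasurePreserving (τ z) μ μ) (hm : ∀ i j, Measurable (Psi i j))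
    (S : Finset (Fin n)) (a : ℤ) (w : ℕ) : Measurable (blk τ Psi S a w) :=
  Finset.measurable_fun_sum _ fun r _ => measurable_crS hτ hm S _

theorem integrable_diff (hτ : ∀ z, MeasurePreserving (τ z) μ μ)
    (hm : ∀ i j, Measurable (Psi i j)) (h0 : ∀ i j x, 0 ≤ Psi i j x)
    (hM : ∀ i j x, Psi i j x ≤ M) (i j : Fin n) (z z' : Fin n → ℤ) :
    Integrable (fun x => |Psi i j (τ z x) - Psi i j (τ z' x)|) μ := by
  refine Integrable.of_bound (C := M) ?_ (Eventually.of_forall fun x => ?_)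
  · exact (((hm i j).comp (hτ z).measurable).sub
      ((hm i j).comp (hτ z').measurable)).abs.aestronglyMeasurable
  · rw [Real.norm_eq_abs, abs_abs, abs_le]
    have h1 := h0 i j (τ z x)
    have h2 := h0 i j (τ z' x)
    have h3 := hM i j (τ z x)
    have h4 := hM i j (τ z' x)
    constructor <;> linarith

theorem integral_shift (hτ : ∀ z, MeasurePreserving (τ z) μ μ)
    (hadd : ∀ z w x, τ (z + w) x = τ z (τ w x)) (hm : ∀ i j, Measurable (Psi i j))
    (i j : Fin n) (z z' : Fin n → ℤ) :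
    ∫ x, |Psi i j (τ (z + z') x) - Psi i j (τ z' x)| ∂μ = ∫ x, |Psi i j (τ z x) - Psi i j x| ∂μ := by
  have h1 : Measurable fun x => |Psi i j (τ z x) - Psi i j x| :=
    (((hm i j).comp (hτ z).measurable).sub (hm i j)).abs
  conv_rhs => rw [← (hτ z').map_eq]
  rw [integral_map (hτ z').measurable.aemeasurable h1.aestronglyMeasurable]
  simp only [hadd]

theorem card_mul_card_compl_le (S : Finset (Fin n)) : (S.card : ℝ) * (Sᶜ.card : ℝ) ≤ n ^ 2 := by
  have h1 : (S.card : ℝ) ≤ n := by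
    have := S.card_le_univ
    rw [Fintype.card_fin] at this
    exact_mod_cast this
  have h2 : (Sᶜ.card : ℝ) ≤ n := by
    have := Sᶜ.card_le_univ
    rw [Fintype.card_fin] at this
    exact_mod_cast this
  rw [sq]
  exact mul_le_mul h1 h2 (by positivity) (by positivity)

/-- the shifted block sum against the base block sum -/
theorem blk_shift (hτ : ∀ z, MeasurePreserving (τ z) μ μ)
    (hadd : ∀ z w x, τ (z + w) x = τ z (τ w x)) (hm : ∀ i j, Measurable (Psi i j))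
    (h0 : ∀ i j x, 0 ≤ Psi i j x) (hM : ∀ i j x, Psi i j x ≤ M) {L : ℕ} {e : ℝ} (he : 0 ≤ e)
    (hQ : Q1 μ τ Psi L e) (S : Finset (Fin n)) (a : ℤ) (ha : |a| ≤ (L : ℤ)) (w : ℕ) :
    ∃ F : Ω → ℝ, Integrable F μ ∧ (∀ x, 0 ≤ F x) ∧ ∫ x, F x ∂μ ≤ w * (n ^ 2 * e) ∧
      ∀ x, |blk τ Psi S a w x - blk τ Psi S 0 w (τ (sv S a) x)| ≤ F x := by
  set G : ℕ → Fin n → Fin n → Ω → ℝ := fun r i j x =>
    |Psi i j (τ ((sv S a - Pi.single i a) + Pi.single i (a + r)) x)
      - Psi i j (τ (Pi.single i (a + r)) x)| with hG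
  have hint : ∀ (r : ℕ) (i j : Fin n), Integrable (G r i j) μ :=
    fun r i j => integrable_diff hτ hm h0 hM i j _ _
  have hint2 : ∀ (r : ℕ) (i : Fin n), Integrable (fun x => ∑ j ∈ Sᶜ, G r i j x) μ :=
    fun r i => integrable_finsetSum _ fun j _ => hint r i j
  have hint3 : ∀ (r : ℕ), Integrable (fun x => ∑ i ∈ S, ∑ j ∈ Sᶜ, G r i j x) μ :=
    fun r => integrable_finsetSum _ fun i _ => hint2 r i
  have hterm : ∀ (r : ℕ), ∀ i ∈ S, ∀ j ∈ Sᶜ, ∫ x, G r i j x ∂μ ≤ e := by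
    intro r i hi j hj
    have hij : i ≠ j := fun h => (Finset.mem_compl.1 hj) (h ▸ hi)
    have hj' : j ∉ S := Finset.mem_compl.1 hj
    have h1 := hQ i j hij (sv S a - Pi.single i a) (by
      simp [sv, hi, hj', Pi.single_eq_of_ne (Ne.symm hij)]) (by
      intro l
      simp only [Pi.sub_apply, sv]
      by_cases hl : l = i
      · subst hl; simp [hi]
      · rw [Pi.single_eq_of_ne hl, sub_zero]
        split_ifs
        · exact ha
        · simp)
    rw [hG]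
    rw [integral_shift hτ hadd hm i j]
    exact h1
  refine ⟨fun x => ∑ r ∈ Finset.range w, ∑ i ∈ S, ∑ j ∈ Sᶜ, G r i j x,
    integrable_finsetSum _ fun r _ => hint3 r, ?_, ?_, ?_⟩
  · intro x
    exact Finset.sum_nonneg fun _ _ => Finset.sum_nonneg fun _ _ =>
      Finset.sum_nonneg fun _ _ => abs_nonneg _
  · have h1 : ∫ x, ∑ r ∈ Finset.range w, ∑ i ∈ S, ∑ j ∈ Sᶜ, G r i j x ∂μ
        = ∑ r ∈ Finset.range w, ∑ i ∈ S, ∑ j ∈ Sᶜ, ∫ x, G r i j x ∂μ := by
      rw [integral_finsetSum _ fun r _ => hint3 r]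
      refine Finset.sum_congr rfl fun r _ => ?_
      rw [integral_finsetSum _ fun i _ => hint2 r i]
      refine Finset.sum_congr rfl fun i _ => ?_
      rw [integral_finsetSum _ fun j _ => hint r i j]
    rw [h1]
    calc ∑ r ∈ Finset.range w, ∑ i ∈ S, ∑ j ∈ Sᶜ, ∫ x, G r i j x ∂μ
        ≤ ∑ _r ∈ Finset.range w, ∑ _i ∈ S, ∑ _j ∈ Sᶜ, e :=
          Finset.sum_le_sum fun r _ => Finset.sum_le_sum fun i hi =>
            Finset.sum_le_sum fun j hj => hterm r i hi j hj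
      _ = w * ((S.card : ℝ) * (Sᶜ.card : ℝ) * e) := by
          simp only [Finset.sum_const, Finset.card_range, nsmul_eq_mul]
          ring
      _ ≤ w * (n ^ 2 * e) := by
          have := card_mul_card_compl_le S
          gcongr
  · intro x
    have h2 : ∀ i ∈ S, ∀ r : ℕ, τ (Pi.single i ((0 : ℤ) + r)) (τ (sv S a) x)
        = τ ((sv S a - Pi.single i a) + Pi.single i (a + r)) x := by
      intro i hi r
      rw [← hadd]
      congr 1
      funext l
      simp only [Pi.add_apply, Pi.sub_apply]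
      by_cases hl : l = i
      · subst hl
        simp only [Pi.single_eq_same]
        ring
      · simp [Pi.single_eq_of_ne hl]
    unfold blk crS
    rw [← Finset.sum_sub_distrib]
    refine (Finset.abs_sum_le_sum_abs _ _).trans (Finset.sum_le_sum fun r _ => ?_)
    rw [← Finset.sum_sub_distrib]
    refine (Finset.abs_sum_le_sum_abs _ _).trans (Finset.sum_le_sum fun i hi => ?_)
    rw [← Finset.sum_sub_distrib]
    refine (Finset.abs_sum_le_sum_abs _ _).trans (Finset.sum_le_sum fun j _ => ?_)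
    rw [h2 i hi r, hG, abs_sub_comm]

/-- all windows `[a, a + w)` from the base window -/
theorem shift_bad (hτ : ∀ z, MeasurePreserving (τ z) μ μ)
    (hadd : ∀ z w x, τ (z + w) x = τ z (τ w x)) (hm : ∀ i j, Measurable (Psi i j))
    (h0 : ∀ i j x, 0 ≤ Psi i j x) (hM : ∀ i j x, Psi i j x ≤ M) {L : ℕ} {e c₃ ε₀ : ℝ} (he : 0 ≤ e)
    (hc : 0 < c₃) (hQ : Q1 μ τ Psi L e) (S : Finset (Fin n)) (a : ℤ) (ha : |a| ≤ (L : ℤ)) {w : ℕ}
    (hw : 0 < w) (hb : μ.real {x | blk τ Psi S 0 w x < c₃ * w} ≤ ε₀) :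
    μ.real {x | blk τ Psi S a w x < c₃ / 2 * w} ≤ ε₀ + 2 * n ^ 2 * e / c₃ := by
  obtain ⟨F, hFi, hF0, hFe, hFd⟩ := blk_shift hτ hadd hm h0 hM he hQ S a ha w
  have hw' : (0 : ℝ) < w := by exact_mod_cast hw
  have hsub : {x | blk τ Psi S a w x < c₃ / 2 * w}
      ⊆ (τ (sv S a)) ⁻¹' {x | blk τ Psi S 0 w x < c₃ * w} ∪ {x | c₃ / 2 * w ≤ F x} := by
    intro x hx
    by_contra hne
    rw [Set.mem_union, not_or] at hne
    have h1 : c₃ * w ≤ blk τ Psi S 0 w (τ (sv S a) x) := not_lt.1 hne.1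
    have h2 : F x < c₃ / 2 * w := not_le.1 hne.2
    have h3 := (abs_le.1 (hFd x)).1
    have hx' : blk τ Psi S a w x < c₃ / 2 * w := hx
    linarith
  have hms : MeasurableSet {x | blk τ Psi S 0 w x < c₃ * w} :=
    measurableSet_lt (measurable_blk hτ hm S 0 w) measurable_const
  have h4 : μ.real ((τ (sv S a)) ⁻¹' {x | blk τ Psi S 0 w x < c₃ * w}) ≤ ε₀ := by
    rw [Measure.real, (hτ _).measure_preimage hms.nullMeasurableSet]
    exact hb
  have h5 : μ.real {x | c₃ / 2 * w ≤ F x} ≤ 2 * n ^ 2 * e / c₃ := by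
    have h6 := mul_meas_ge_le_integral_of_nonneg (Eventually.of_forall hF0) hFi (c₃ / 2 * w)
    have h7 : c₃ / 2 * w * μ.real {x | c₃ / 2 * w ≤ F x} ≤ w * (n ^ 2 * e) := h6.trans hFe
    rw [le_div_iff₀ hc]
    have h8 : w * (c₃ * μ.real {x | c₃ / 2 * w ≤ F x}) ≤ w * (2 * n ^ 2 * e) := by linarith
    have h9 := le_of_mul_le_mul_left h8 hw'
    linarith
  calc μ.real {x | blk τ Psi S a w x < c₃ / 2 * w}
      ≤ μ.real ((τ (sv S a)) ⁻¹' {x | blk τ Psi S 0 w x < c₃ * w} ∪ {x | c₃ / 2 * w ≤ F x}) :=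
        measureReal_mono hsub (measure_ne_top _ _)
    _ ≤ _ := measureReal_union_le _ _
    _ ≤ _ := add_le_add h4 h5

/-- a run of good blocks -/
theorem run_blocks (f : ℤ → ℝ) {w : ℕ} {t : ℝ} (k : ℤ) (m : ℕ)
    (h : ∀ l : ℕ, l < m → t ≤ ∑ r ∈ Finset.range w, f ((k + l) * w + r)) :
    m * t ≤ ∑ r ∈ Finset.Ico (k * w) ((k + m) * w), f r := by
  induction m with
  | zero => simp
  | succ m ih =>
    have h1 := ih fun l hl => h l (Nat.lt_succ_of_lt hl)
    have h2 := h m (Nat.lt_succ_self m)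
    have h3 : ∑ r ∈ Finset.Ico (k * w) ((k + (m + 1 : ℕ)) * w), f r
        = ∑ r ∈ Finset.Ico (k * w) ((k + m) * w), f r
          + ∑ r ∈ Finset.Ico ((k + m) * w) ((k + (m + 1 : ℕ)) * w), f r := by
      rw [← Finset.sum_union]
      · congr 1
        rw [Finset.Ico_union_Ico_eq_Ico]
        · have : (0 : ℤ) ≤ m * w := by positivity
          linarith
        · push_cast
          have : (0 : ℤ) ≤ w := by positivity
          linarith
      · exact Finset.Ico_disjoint_Ico_consecutive _ _ _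
    have h4 : ∑ r ∈ Finset.Ico ((k + m) * (w : ℤ)) ((k + (m + 1 : ℕ)) * w), f r
        = ∑ r ∈ Finset.range w, f ((k + m) * w + r) := by
      have h5 : Finset.Ico ((k + m) * (w : ℤ)) ((k + (m + 1 : ℕ)) * w)
          = (Finset.range w).image (fun r : ℕ => (k + m) * (w : ℤ) + r) := by
        ext r
        rw [Finset.mem_Ico, Finset.mem_image]
        constructor
        · rintro ⟨ha, hb⟩
          have h6 : r - (k + m) * w < w := by
            push_cast at hb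
            linarith
          have h7 : 0 ≤ r - (k + m) * w := by linarith
          refine ⟨(r - (k + m) * w).toNat, ?_, ?_⟩
          · rw [Finset.mem_range]
            omega
          · rw [Int.toNat_of_nonneg h7]
            ring
        · rintro ⟨s, hs, rfl⟩
          rw [Finset.mem_range] at hs
          have h6 : (s : ℤ) < w := by exact_mod_cast hs
          have h7 : (0 : ℤ) ≤ s := by positivity
          constructor
          · linarith
          · push_cast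
            linarith
      rw [h5, Finset.sum_image]
      intro a _ b _ hab
      have : (a : ℤ) = b := by
        have h8 : (k + m) * (w : ℤ) + a = (k + m) * (w : ℤ) + b := hab
        linarith
      exact_mod_cast this
    rw [h3, h4]
    push_cast
    linarith

/-- sums over windows from sums over the blocks of a grid -/
theorem window_ge (f : ℤ → ℝ) (hf : ∀ r, 0 ≤ f r) {w : ℕ} (hw : 0 < w) {c₃ : ℝ} (hc : 0 ≤ c₃)
    {L : ℕ} (h : ∀ k : ℤ, -(L : ℤ) ≤ k * w → (k + 1) * w ≤ (L : ℤ) →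
      c₃ / 2 * w ≤ ∑ r ∈ Finset.range w, f (k * w + r)) {a b : ℤ} (ha : -(L : ℤ) ≤ a)
    (hb : b ≤ (L : ℤ)) (hab : 4 * (w : ℤ) ≤ b - a) :
    c₃ / 4 * ((b - a : ℤ) : ℝ) ≤ ∑ r ∈ Finset.Ico a b, f r := by
  have hw' : (0 : ℤ) < w := by exact_mod_cast hw
  set k₀ : ℤ := -((-a) / w) with hk₀
  set k₁ : ℤ := b / w with hk₁
  have e1 : (-a) / (w : ℤ) * w ≤ -a := Int.ediv_mul_le _ hw'.ne'
  have e2 : -a < ((-a) / (w : ℤ) + 1) * w := Int.lt_ediv_add_one_mul_self _ hw'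
  have e3 : b / (w : ℤ) * w ≤ b := Int.ediv_mul_le _ hw'.ne'
  have e4 : b < (b / (w : ℤ) + 1) * w := Int.lt_ediv_add_one_mul_self _ hw'
  have g1 : a ≤ k₀ * w := by rw [hk₀, neg_mul]; linarith
  have g2 : k₀ * w < a + w := by rw [hk₀, neg_mul]; linarith
  have g3 : k₁ * w ≤ b := e3
  have g4 : b < k₁ * w + w := by rw [add_mul, one_mul] at e4; exact e4
  have g5 : b - a - 2 * w < (k₁ - k₀) * w := by rw [sub_mul]; linarith
  have g6 : 0 ≤ k₁ - k₀ := by
    by_contra hneg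
    push Not at hneg
    have : (k₁ - k₀) * (w : ℤ) ≤ 0 := mul_nonpos_of_nonpos_of_nonneg hneg.le hw'.le
    linarith
  obtain ⟨m, hm⟩ := Int.eq_ofNat_of_zero_le g6
  have hk₁' : k₁ = k₀ + m := by linarith
  have hrun := run_blocks f (w := w) (t := c₃ / 2 * w) k₀ m (by
    intro l hl
    refine h (k₀ + l) ?_ ?_
    · have : (0 : ℤ) ≤ l * w := by positivity
      rw [add_mul]
      linarith
    · have h1 : (k₀ + l + 1) * (w : ℤ) ≤ k₁ * w := by
        refine mul_le_mul_of_nonneg_right ?_ hw'.le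
        have : (l : ℤ) + 1 ≤ m := by exact_mod_cast hl
        linarith
      linarith)
  rw [← hk₁'] at hrun
  have hsub : Finset.Ico (k₀ * w) (k₁ * w) ⊆ Finset.Ico a b := by
    intro r hr
    rw [Finset.mem_Ico] at hr ⊢
    exact ⟨g1.trans hr.1, hr.2.trans_le g3⟩
  have h2 : ∑ r ∈ Finset.Ico (k₀ * w) (k₁ * w), f r ≤ ∑ r ∈ Finset.Ico a b, f r :=
    Finset.sum_le_sum_of_subset_of_nonneg hsub fun r _ _ => hf r
  refine le_trans ?_ (hrun.trans h2)
  have h3 : (b - a : ℤ) ≤ 2 * (m * w) := by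
    have : (k₁ - k₀) = (m : ℤ) := hm
    rw [this] at g5
    linarith
  have h4 : ((b - a : ℤ) : ℝ) ≤ 2 * (m * w) := by exact_mod_cast h3
  calc c₃ / 4 * ((b - a : ℤ) : ℝ) ≤ c₃ / 4 * (2 * (m * w)) :=
        mul_le_mul_of_nonneg_left h4 (by positivity)
    _ = m * (c₃ / 2 * w) := by ring

/-- the exceptional set: some block of the grid is bad for some proper `S` -/
def badSet (τ : (Fin n → ℤ) → Ω → Ω) (Psi : Fin n → Fin n → Ω → ℝ) (c₃ : ℝ) (L w : ℕ) : Set Ω :=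
  ⋃ S ∈ (Finset.univ : Finset (Finset (Fin n))).filter (fun S => S.Nonempty ∧ S ≠ Finset.univ),
    ⋃ k ∈ (Finset.Icc (-(L / w : ℕ) : ℤ) (L / w : ℕ)),
      {x | blk τ Psi S (k * w) w x < c₃ / 2 * w}

theorem badSet_le (hτ : ∀ z, MeasurePreserving (τ z) μ μ)
    (hadd : ∀ z w x, τ (z + w) x = τ z (τ w x)) (hm : ∀ i j, Measurable (Psi i j))
    (h0 : ∀ i j x, 0 ≤ Psi i j x) (hM : ∀ i j x, Psi i j x ≤ M) {L : ℕ} {e c₃ ε₀ : ℝ} (he : 0 ≤ e)
    (hε₀ : 0 ≤ ε₀) (hc : 0 < c₃) (hQ : Q1 μ τ Psi L e) {w : ℕ} (hw : 0 < w)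
    (hb : ∀ S : Finset (Fin n), S.Nonempty → S ≠ Finset.univ →
      μ.real {x | blk τ Psi S 0 w x < c₃ * w} ≤ ε₀) :
    μ.real (badSet τ Psi c₃ L w) ≤ 2 ^ n * ((2 * (L / w : ℕ) + 1) * (ε₀ + 2 * n ^ 2 * e / c₃)) := by
  have hE : 0 ≤ ε₀ + 2 * n ^ 2 * e / c₃ := by positivity
  unfold badSet
  refine (measureReal_biUnion_finset_le _ _).trans ?_
  calc ∑ S ∈ (Finset.univ : Finset (Finset (Fin n))).filter
        (fun S => S.Nonempty ∧ S ≠ Finset.univ), μ.real (⋃ k ∈ (Finset.Icc (-(L / w : ℕ) : ℤ)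
          (L / w : ℕ)), {x | blk τ Psi S (k * w) w x < c₃ / 2 * w})
      ≤ ∑ S ∈ (Finset.univ : Finset (Finset (Fin n))).filter
        (fun S => S.Nonempty ∧ S ≠ Finset.univ),
          ((2 * (L / w : ℕ) + 1) * (ε₀ + 2 * n ^ 2 * e / c₃)) := by
        refine Finset.sum_le_sum fun S hS => ?_
        rw [Finset.mem_filter] at hS
        refine (measureReal_biUnion_finset_le _ _).trans ?_
        calc ∑ k ∈ Finset.Icc (-(L / w : ℕ) : ℤ) (L / w : ℕ),
              μ.real {x | blk τ Psi S (k * w) w x < c₃ / 2 * w}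
            ≤ ∑ _k ∈ Finset.Icc (-(L / w : ℕ) : ℤ) (L / w : ℕ), (ε₀ + 2 * n ^ 2 * e / c₃) := by
              refine Finset.sum_le_sum fun k hk => ?_
              rw [Finset.mem_Icc] at hk
              refine shift_bad hτ hadd hm h0 hM he hc hQ S (k * w) ?_ hw (hb S hS.2.1 hS.2.2)
              have h1 : |k| ≤ ((L / w : ℕ) : ℤ) := abs_le.2 ⟨by linarith [hk.1], hk.2⟩
              rw [abs_mul]
              calc |k| * |(w : ℤ)| ≤ ((L / w : ℕ) : ℤ) * (w : ℤ) := by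
                    rw [Nat.abs_cast]
                    exact mul_le_mul_of_nonneg_right h1 (by positivity)
                _ ≤ L := by
                    exact_mod_cast Nat.div_mul_le_self L w
          _ = (2 * (L / w : ℕ) + 1) * (ε₀ + 2 * n ^ 2 * e / c₃) := by
              rw [Finset.sum_const, Int.card_Icc, nsmul_eq_mul]
              congr 1
              have h2 : (((L / w : ℕ) : ℤ) + 1 - -((L / w : ℕ) : ℤ)).toNat = 2 * (L / w) + 1 := by
                omega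
              rw [h2]
              push_cast
              ring
    _ ≤ ∑ _S : Finset (Fin n), ((2 * (L / w : ℕ) + 1) * (ε₀ + 2 * n ^ 2 * e / c₃)) :=
        Finset.sum_le_sum_of_subset_of_nonneg (Finset.filter_subset _ _) fun _ _ _ => by positivity
    _ = 2 ^ n * ((2 * (L / w : ℕ) + 1) * (ε₀ + 2 * n ^ 2 * e / c₃)) := by
        rw [Finset.sum_const, Finset.card_univ, Fintype.card_finset, Fintype.card_fin,
          nsmul_eq_mul]
        push_cast
        ring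

omit [MeasurableSpace Ω] in
/-- off the exceptional set: all windows of length `≥ 4 w` in `[-L, L]` (sum form) -/
theorem window_of_notMem (h0 : ∀ i j x, 0 ≤ Psi i j x) {L : ℕ} {c₃ : ℝ} (hc : 0 ≤ c₃) {w : ℕ}
    (hw : 0 < w) {x : Ω} (hx : x ∉ badSet τ Psi c₃ L w) {S : Finset (Fin n)} (hS : S.Nonempty)
    (hS' : S ≠ Finset.univ) {a b : ℤ} (ha : -(L : ℤ) ≤ a) (hb : b ≤ (L : ℤ))
    (hab : 4 * (w : ℤ) ≤ b - a) :
    c₃ / 4 * ((b - a : ℤ) : ℝ) ≤ ∑ r ∈ Finset.Ico a b, crS τ Psi S r x := by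
  have hw' : (0 : ℤ) < w := by exact_mod_cast hw
  refine window_ge (fun r => crS τ Psi S r x) (fun r => crS_nonneg h0 S r x) hw hc ?_ ha hb hab
  intro k hk1 hk2
  by_contra hlt
  push Not at hlt
  refine hx ?_
  unfold badSet
  rw [Set.mem_iUnion₂]
  refine ⟨S, Finset.mem_filter.2 ⟨Finset.mem_univ _, hS, hS'⟩, ?_⟩
  rw [Set.mem_iUnion₂]
  refine ⟨k, ?_, hlt⟩
  rw [Finset.mem_Icc]
  have h1 : k ≤ (L : ℤ) / w := by
    rw [Int.le_ediv_iff_mul_le hw']
    rw [add_mul, one_mul] at hk2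
    linarith
  have h2 : -k ≤ (L : ℤ) / w := by
    rw [Int.le_ediv_iff_mul_le hw', neg_mul]
    linarith
  push_cast
  exact ⟨by linarith, h1⟩

/-- the total of `V` over all roots and all depths in `[-L, L)` -/
def totV (τ : (Fin n → ℤ) → Ω → Ω) (V : Fin n → Fin n → Ω → ℝ) (L : ℕ) (x : Ω) : ℝ :=
  ∑ r ∈ Finset.Ico (-(L : ℤ)) L, ∑ i : Fin n, ∑ j : Fin n, V i j (τ (Pi.single i r) x)

theorem totV_bad (hτ : ∀ z, MeasurePreserving (τ z) μ μ) {V : Fin n → Fin n → Ω → ℝ}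
    (hVi : ∀ i j, Integrable (V i j) μ) (hV0 : ∀ i j x, 0 ≤ V i j x) {v : ℝ}
    (hv : ∀ i j, ∫ x, V i j x ∂μ ≤ v) {L : ℕ} {t : ℝ} (ht : 0 < t) :
    μ.real {x | t ≤ totV τ V L x} ≤ 2 * L * n ^ 2 * v / t := by
  have h1 : ∀ (r : ℤ) (i j : Fin n), Integrable (fun x => V i j (τ (Pi.single i r) x)) μ :=
    fun r i j => (hτ _).integrable_comp_of_integrable (hVi i j)
  have h2 : ∀ (r : ℤ) (i : Fin n), Integrable
      (fun x => ∑ j : Fin n, V i j (τ (Pi.single i r) x)) μ :=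
    fun r i => integrable_finsetSum _ fun j _ => h1 r i j
  have h3 : ∀ (r : ℤ), Integrable
      (fun x => ∑ i : Fin n, ∑ j : Fin n, V i j (τ (Pi.single i r) x)) μ :=
    fun r => integrable_finsetSum _ fun i _ => h2 r i
  have h4 : Integrable (totV τ V L) μ := integrable_finsetSum _ fun r _ => h3 r
  have h5 : ∀ (r : ℤ) (i j : Fin n), ∫ x, V i j (τ (Pi.single i r) x) ∂μ = ∫ x, V i j x ∂μ := by
    intro r i j
    have h6 := integral_map (μ := μ) (hτ (Pi.single i r)).measurable.aemeasurable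
      (f := V i j) (by rw [(hτ _).map_eq]; exact (hVi i j).aestronglyMeasurable)
    rw [(hτ _).map_eq] at h6
    exact h6.symm
  have h7 : ∫ x, totV τ V L x ∂μ ≤ 2 * L * n ^ 2 * v := by
    have h8 : ∫ x, totV τ V L x ∂μ = ∑ r ∈ Finset.Ico (-(L : ℤ)) L, ∑ i : Fin n, ∑ j : Fin n,
        ∫ x, V i j (τ (Pi.single i r) x) ∂μ := by
      unfold totV
      rw [integral_finsetSum _ fun r _ => h3 r]
      refine Finset.sum_congr rfl fun r _ => ?_
      rw [integral_finsetSum _ fun i _ => h2 r i]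
      refine Finset.sum_congr rfl fun i _ => ?_
      rw [integral_finsetSum _ fun j _ => h1 r i j]
    rw [h8]
    calc ∑ r ∈ Finset.Ico (-(L : ℤ)) L, ∑ i : Fin n, ∑ j : Fin n,
        ∫ x, V i j (τ (Pi.single i r) x) ∂μ
        ≤ ∑ _r ∈ Finset.Ico (-(L : ℤ)) L, ∑ _i : Fin n, ∑ _j : Fin n, v :=
          Finset.sum_le_sum fun r _ => Finset.sum_le_sum fun i _ =>
            Finset.sum_le_sum fun j _ => (h5 r i j).le.trans (hv i j)
      _ = 2 * L * n ^ 2 * v := by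
          simp only [Finset.sum_const, Finset.card_univ, Fintype.card_fin, nsmul_eq_mul,
            Int.card_Ico]
          have h9 : ((L : ℤ) - -(L : ℤ)).toNat = 2 * L := by omega
          rw [h9]
          push_cast
          ring
  have h10 := mul_meas_ge_le_integral_of_nonneg (μ := μ) (Eventually.of_forall fun x =>
    Finset.sum_nonneg fun r _ => Finset.sum_nonneg fun i _ => Finset.sum_nonneg fun j _ =>
      hV0 i j (τ (Pi.single i r) x)) h4 t
  rw [le_div_iff₀ ht, mul_comm]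
  exact h10.trans h7

omit [MeasurableSpace Ω] in
/-- counting: from the sums of `Psi` to the number of depths with `Phi ≥ τ₀` -/
theorem count_of_sum (h0 : ∀ i j x, 0 ≤ Psi i j x) (hM0 : 0 < M) (hM : ∀ i j x, Psi i j x ≤ M)
    {Phi V : Fin n → Fin n → Ω → ℝ} (hV0 : ∀ i j x, 0 ≤ V i j x) {A τ₀ c₃ δ : ℝ} (hA : 0 ≤ A)
    (hτ₀ : 0 ≤ τ₀) (hc : 0 < c₃) (hcmp : ∀ i j, i ≠ j → ∀ x, Psi i j x ≤ A * Phi i j x + V i j x)
    (hAτ : n ^ 2 * (A * τ₀) ≤ c₃ / 16) {L : ℕ} {x : Ω}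
    (hx : totV τ V L x < c₃ / 8 * (δ * L)) {S : Finset (Fin n)} {a b : ℤ} (ha : -(L : ℤ) ≤ a)
    (hb : b ≤ (L : ℤ)) (hab : δ * L ≤ ((b - a : ℤ) : ℝ)) (hab0 : a ≤ b)
    (hsum : c₃ / 4 * ((b - a : ℤ) : ℝ) ≤ ∑ r ∈ Finset.Ico a b, crS τ Psi S r x) :
    c₃ / (16 * M) * ((b - a : ℤ) : ℝ) ≤ ∑ i ∈ S, ∑ j ∈ Sᶜ,
      (((Finset.Ico a b).filter fun r => τ₀ ≤ Phi i j (τ (Pi.single i r) x)).card : ℝ) := by
  classical
  have hlen : (0 : ℝ) ≤ ((b - a : ℤ) : ℝ) := by exact_mod_cast sub_nonneg.2 hab0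
  have hpt : ∀ i ∈ S, ∀ j ∈ Sᶜ, ∀ r : ℤ, Psi i j (τ (Pi.single i r) x)
      ≤ M * (if τ₀ ≤ Phi i j (τ (Pi.single i r) x) then 1 else 0) + A * τ₀
        + V i j (τ (Pi.single i r) x) := by
    intro i hi j hj r
    have hij : i ≠ j := fun h => (Finset.mem_compl.1 hj) (h ▸ hi)
    have h1 := hcmp i j hij (τ (Pi.single i r) x)
    have h2 := hV0 i j (τ (Pi.single i r) x)
    have h3 := hM i j (τ (Pi.single i r) x)
    split_ifs with h
    · have : 0 ≤ A * τ₀ := mul_nonneg hA hτ₀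
      linarith
    · have h4 : A * Phi i j (τ (Pi.single i r) x) ≤ A * τ₀ :=
        mul_le_mul_of_nonneg_left (not_le.1 h).le hA
      linarith
  have h5 : ∑ r ∈ Finset.Ico a b, crS τ Psi S r x
      ≤ M * (∑ i ∈ S, ∑ j ∈ Sᶜ,
        (((Finset.Ico a b).filter fun r => τ₀ ≤ Phi i j (τ (Pi.single i r) x)).card : ℝ))
        + n ^ 2 * (A * τ₀) * ((b - a : ℤ) : ℝ) + totV τ V L x := by
    have e1 : ∑ r ∈ Finset.Ico a b, crS τ Psi S r x
        ≤ ∑ r ∈ Finset.Ico a b, ∑ i ∈ S, ∑ j ∈ Sᶜ,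
          (M * (if τ₀ ≤ Phi i j (τ (Pi.single i r) x) then 1 else 0) + A * τ₀
            + V i j (τ (Pi.single i r) x)) :=
      Finset.sum_le_sum fun r _ => Finset.sum_le_sum fun i hi => Finset.sum_le_sum fun j hj =>
        hpt i hi j hj r
    refine e1.trans ?_
    simp only [Finset.sum_add_distrib]
    refine add_le_add (add_le_add ?_ ?_) ?_
    · refine le_of_eq ?_
      rw [Finset.sum_comm, Finset.mul_sum]
      refine Finset.sum_congr rfl fun i _ => ?_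
      rw [Finset.sum_comm, Finset.mul_sum]
      refine Finset.sum_congr rfl fun j _ => ?_
      rw [← Finset.mul_sum, Finset.sum_boole]
    · have h6 : ((Finset.Ico a b).card : ℝ) = ((b - a : ℤ) : ℝ) := by
        rw [Int.card_Ico]
        have : (((b - a).toNat : ℤ) : ℝ) = ((b - a : ℤ) : ℝ) := by
          rw [Int.toNat_of_nonneg (sub_nonneg.2 hab0)]
        rw [← this]
        exact (Int.cast_natCast _).symm
      simp only [Finset.sum_const, nsmul_eq_mul]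
      rw [h6]
      have h7 := card_mul_card_compl_le S
      have h8 : 0 ≤ A * τ₀ := mul_nonneg hA hτ₀
      calc ((b - a : ℤ) : ℝ) * ((S.card : ℝ) * ((Sᶜ.card : ℝ) * (A * τ₀)))
          = ((S.card : ℝ) * (Sᶜ.card : ℝ)) * (A * τ₀) * ((b - a : ℤ) : ℝ) := by ring
        _ ≤ n ^ 2 * (A * τ₀) * ((b - a : ℤ) : ℝ) := by gcongr
    · unfold totV
      calc ∑ r ∈ Finset.Ico a b, ∑ i ∈ S, ∑ j ∈ Sᶜ, V i j (τ (Pi.single i r) x)
          ≤ ∑ r ∈ Finset.Ico a b, ∑ i : Fin n, ∑ j : Fin n, V i j (τ (Pi.single i r) x) := by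
            refine Finset.sum_le_sum fun r _ => ?_
            refine (Finset.sum_le_sum fun i _ => Finset.sum_le_sum_of_subset_of_nonneg
              (Finset.subset_univ Sᶜ) fun j _ _ => hV0 i j _).trans ?_
            exact Finset.sum_le_sum_of_subset_of_nonneg (Finset.subset_univ S) fun i _ _ =>
              Finset.sum_nonneg fun j _ => hV0 i j _
        _ ≤ _ := by
            refine Finset.sum_le_sum_of_subset_of_nonneg ?_ fun r _ _ =>
              Finset.sum_nonneg fun i _ => Finset.sum_nonneg fun j _ => hV0 i j _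
            exact Finset.Ico_subset_Ico ha hb
  have h9 : c₃ / 8 * (δ * L) ≤ c₃ / 8 * ((b - a : ℤ) : ℝ) :=
    mul_le_mul_of_nonneg_left hab (by positivity)
  have h10 : n ^ 2 * (A * τ₀) * ((b - a : ℤ) : ℝ) ≤ c₃ / 16 * ((b - a : ℤ) : ℝ) :=
    mul_le_mul_of_nonneg_right hAτ hlen
  have h11 : c₃ / 16 * ((b - a : ℤ) : ℝ) ≤ M * (∑ i ∈ S, ∑ j ∈ Sᶜ,
        (((Finset.Ico a b).filter fun r => τ₀ ≤ Phi i j (τ (Pi.single i r) x)).card : ℝ)) := by
    linarith
  have h12 : c₃ / (16 * M) * ((b - a : ℤ) : ℝ) = (c₃ / 16 * ((b - a : ℤ) : ℝ)) / M := by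
    field_simp
  rw [h12, div_le_iff₀ hM0]
  linarith

open Crest.NumberTheoryR.Packets Crest.Agent.R014.Nd_837 Crest.Agent.R014.DSkel_792 in
/-- **the consumer of (Q3)**: positive density of the crossing roots for `Psi` in one base window,
near invariance of `Psi` under `ker (ij)`, comparison `Psi ≤ A Phi + V` with `∫ V ≤ v`
give `P3` for `Phi`. -/
theorem p3_of_base {μ : Measure (ModSpace n)} [IsProbabilityMeasure μ] (hA : AInv μ)
    {Psi Phi V : Fin n → Fin n → ModSpace n → ℝ} {M A τ₀ c₃ δ v e ε₀ : ℝ}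
    (hm : ∀ i j, Measurable (Psi i j)) (h0 : ∀ i j x, 0 ≤ Psi i j x) (hM0 : 0 < M)
    (hM : ∀ i j x, Psi i j x ≤ M) (hVi : ∀ i j, Integrable (V i j) μ)
    (hV0 : ∀ i j x, 0 ≤ V i j x) (hv : ∀ i j, ∫ x, V i j x ∂μ ≤ v) (hA0 : 0 ≤ A)
    (hτ₀ : 0 ≤ τ₀) (hc : 0 < c₃) (hcmp : ∀ i j, i ≠ j → ∀ x, Psi i j x ≤ A * Phi i j x + V i j x)
    (hAτ : n ^ 2 * (A * τ₀) ≤ c₃ / 16) (he : 0 ≤ e) (hε₀ : 0 ≤ ε₀) (hδ : 0 < δ) {L w : ℕ}
    (hw : 0 < w) (hwL : 4 * (w : ℝ) ≤ δ * L) (hQ : Q1 μ tz Psi L e)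
    (hb : ∀ S : Finset (Fin n), S.Nonempty → S ≠ Finset.univ →
      μ.real {x | blk tz Psi S 0 w x < c₃ * w} ≤ ε₀) :
    P3 μ Phi L δ (c₃ / (16 * M)) τ₀
      (2 ^ n * ((2 * (L / w : ℕ) + 1) * (ε₀ + 2 * n ^ 2 * e / c₃)) + 16 * n ^ 2 * v / (c₃ * δ)) := by
  have hw' : (0 : ℝ) < w := by exact_mod_cast hw
  have hLpos : 0 < δ * L := by linarith
  have hL0 : (0 : ℝ) < L := by
    by_contra hneg
    push Not at hneg
    have : δ * L ≤ 0 := mul_nonpos_of_nonneg_of_nonpos hδ.le hneg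
    linarith
  have hτ : ∀ z : Fin n → ℤ, MeasurePreserving (tz z) μ μ := fun z => measurePreserving_tz hA z
  have hbad := badSet_le hτ tz_add hm h0 hM he hε₀ hc hQ hw hb
  have ht : 0 < c₃ / 8 * (δ * L) := by positivity
  have hbad2 := totV_bad (L := L) hτ hVi hV0 hv ht
  set Bs : Set (ModSpace n) := badSet tz Psi c₃ L w ∪ {x | c₃ / 8 * (δ * L) ≤ totV tz V L x}
    with hBs
  refine ⟨toMeasurable μ Bs, measurableSet_toMeasurable _ _, ?_, ?_⟩
  · rw [measureReal_def, measure_toMeasurable, ← measureReal_def]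
    refine (measureReal_union_le _ _).trans (add_le_add hbad (hbad2.trans (le_of_eq ?_)))
    field_simp
    ring
  · intro x hx a b ha hb' hab S hS hS'
    have hx' : x ∉ Bs := fun h => hx (subset_toMeasurable _ _ h)
    rw [hBs, Set.mem_union, not_or] at hx'
    obtain ⟨hn1, hn2⟩ := hx'
    have hn2' : totV tz V L x < c₃ / 8 * (δ * L) := not_le.1 hn2
    have h4w : 4 * (w : ℤ) ≤ b - a := by
      have : 4 * (w : ℝ) ≤ ((b - a : ℤ) : ℝ) := hwL.trans hab
      exact_mod_cast this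
    have hab0 : a ≤ b := by
      have : (0 : ℤ) < w := by exact_mod_cast hw
      linarith
    have hs := window_of_notMem h0 hc.le hw hn1 hS hS' ha hb' h4w
    exact count_of_sum (τ := tz) h0 hM0 hM hV0 hA0 hτ₀ hc hcmp hAτ hn2' ha hb' hab hab0 hs

end Crest.Agent.R014.Q3c_433
end
end

-- ▼ part R014/Q3f_433

/-!
# Row 14, block D: input (Q3) of level 2 from the one window statement `Base` (helper433)

`Base`: positive density of the crossing roots in every base window `[0, w)`, digit size `2`;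
`Conv`: conversion of the digit size `2` to `2 ^ K`;
`q3_of_base : Q1 PS F k₀ → Base PS F k₂ → Conv PS → Q3 PS F k₁`, `k₁ ≥ k₀, k₂`.
-/

set_option autoImplicit false

open MeasureTheory Filter Topology
open Crest.NumberTheoryR.Packets
open Crest.Agent.R014.Iface_792
open Crest.Agent.R014.Nd_837
open Crest.Agent.R014.DSkel_792
open Crest.Agent.R014.AsmB_460

namespace Crest.Agent.R014.Q3f_433

variable {n : ℕ}

/-- **(BASE)**: the slab bound gives positive density of the crossing roots in base windows. -/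
def Base (PS : Measure (ModSpace n) → ℝ → ℕ → Fin n → Fin n → ModSpace n → ℝ)
    (F : Measure (ModSpace n) → ℝ → ℕ → Fin n → Fin n → ℝ) (k₂ : ℝ) : Prop :=
  ∀ κ C : ℝ, 0 < κ → 0 < C → ∃ c₃ : ℝ, 0 < c₃ ∧ ∀ ε₀ δ' : ℝ, 0 < ε₀ → 0 < δ' →
    ∃ (B : Finset ℕ) (η d₀ U C' c' : ℝ) (D₀ : ℝ → ℝ → ℝ), 0 < η ∧ 0 < d₀ ∧ 0 < C' ∧ 0 < c' ∧
    ∀ μ : Measure (ModSpace n), IsProbabilityMeasure μ → AInv μ →
    ∀ u₁ u₂ : ℝ, Reg F B η d₀ U μ u₁ u₂ → ∀ e η' D : ℝ, 0 < e → 0 < η' → D₀ e η' ≤ D →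
      SlabBd μ D κ C e η' → C' * e * Real.log D ≤ u₁ → u₂ ≤ c' * Real.log D →
      ∀ w : ℕ, δ' * u₂ ≤ w → (w : ℝ) ≤ u₂ / k₂ →
      ∀ S : Finset (Fin n), S.Nonempty → S ≠ Finset.univ →
        μ.real {x | Q3c_433.blk tz (PS μ u₁ 2) S 0 w x < c₃ * w} ≤ ε₀

/-- **(CONV)**: from digit size `2` to digit size `2 ^ K`. -/
def Conv (PS : Measure (ModSpace n) → ℝ → ℕ → Fin n → Fin n → ModSpace n → ℝ) : Prop :=
  ∀ q : ℕ, ∃ (K₀ : ℕ) (U : ℝ), ∀ K : ℕ, K₀ ≤ K → ∀ μ : Measure (ModSpace n),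
    IsProbabilityMeasure μ → AInv μ → ∀ u : ℝ, U ≤ u → ∀ i j : Fin n, i ≠ j →
      ∃ V : ModSpace n → ℝ, Integrable V μ ∧ (∀ x, 0 ≤ V x) ∧ ∫ x, V x ∂μ ≤ (1 / 2) ^ q ∧
        ∀ᵐ x ∂μ, PS μ u 2 i j x ≤ 2 ^ q * PS μ u (2 ^ K) i j x + V x

/-- **(CONV)**, general constants. -/
def ConvG (PS : Measure (ModSpace n) → ℝ → ℕ → Fin n → Fin n → ModSpace n → ℝ) : Prop :=
  ∀ v : ℝ, 0 < v → ∃ (A : ℝ) (K₀ : ℕ) (U : ℝ), 0 ≤ A ∧ ∀ K : ℕ, K₀ ≤ K →
    ∀ μ : Measure (ModSpace n), IsProbabilityMeasure μ → AInv μ → ∀ u : ℝ, U ≤ u →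
    ∀ i j : Fin n, i ≠ j →
      ∃ V : ModSpace n → ℝ, Integrable V μ ∧ (∀ x, 0 ≤ V x) ∧ ∫ x, V x ∂μ ≤ v ∧
        ∀ᵐ x ∂μ, PS μ u 2 i j x ≤ A * PS μ u (2 ^ K) i j x + V x

theorem Conv.gen {PS : Measure (ModSpace n) → ℝ → ℕ → Fin n → Fin n → ModSpace n → ℝ}
    (h : Conv PS) : ConvG PS := by
  intro v hv
  obtain ⟨q, hq⟩ := exists_pow_lt_of_lt_one hv (show (1 / 2 : ℝ) < 1 by norm_num)
  obtain ⟨K₀, U, h⟩ := h q
  refine ⟨2 ^ q, K₀, U, by positivity, fun K hK μ hprob hA u hu i j hij => ?_⟩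
  obtain ⟨V, h1, h2, h3, h4⟩ := h K hK μ hprob hA u hu i j hij
  exact ⟨V, h1, h2, h3.trans hq.le, h4⟩

/-- `P3` is monotone in the window parameter. -/
theorem P3.mono_delta {μ : Measure (ModSpace n)}
    {Psi : Fin n → Fin n → ModSpace n → ℝ} {L : ℕ} {δ δ' c τ₀ ε : ℝ} (h : δ' ≤ δ)
    (h3 : P3 μ Psi L δ' c τ₀ ε) : P3 μ Psi L δ c τ₀ ε := by
  obtain ⟨B, hB, hμ, hx⟩ := h3
  exact ⟨B, hB, hμ, fun x hxB a b ha hb hab =>
    hx x hxB a b ha hb ((mul_le_mul_of_nonneg_right h (Nat.cast_nonneg _)).trans hab)⟩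

/-- `P3` is monotone in the error. -/
theorem P3.mono_eps {μ : Measure (ModSpace n)}
    {Psi : Fin n → Fin n → ModSpace n → ℝ} {L : ℕ} {δ c τ₀ ε ε' : ℝ} (h : ε ≤ ε')
    (h3 : P3 μ Psi L δ c τ₀ ε) : P3 μ Psi L δ c τ₀ ε' := by
  obtain ⟨B, hB, hμ, hx⟩ := h3
  exact ⟨B, hB, hμ.trans h, hx⟩

/-- the conversion, everywhere and for all pairs at once -/
theorem conv_all {μ : Measure (ModSpace n)} {Psi Phi : Fin n → Fin n → ModSpace n → ℝ} {A v : ℝ}
    (hv : 0 ≤ v) (h : ∀ i j : Fin n, i ≠ j →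
      ∃ V : ModSpace n → ℝ, Integrable V μ ∧ (∀ x, 0 ≤ V x) ∧ ∫ x, V x ∂μ ≤ v ∧
        ∀ᵐ x ∂μ, Psi i j x ≤ A * Phi i j x + V x) :
    ∃ V : Fin n → Fin n → ModSpace n → ℝ, (∀ i j, Integrable (V i j) μ) ∧ (∀ i j x, 0 ≤ V i j x) ∧
      (∀ i j, ∫ x, V i j x ∂μ ≤ v) ∧ ∀ i j, i ≠ j → ∀ x, Psi i j x ≤ A * Phi i j x + V i j x := by
  have key : ∀ i j : Fin n, ∃ V : ModSpace n → ℝ, Integrable V μ ∧ (∀ x, 0 ≤ V x) ∧
      ∫ x, V x ∂μ ≤ v ∧ (i ≠ j → ∀ x, Psi i j x ≤ A * Phi i j x + V x) := by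
    intro i j
    by_cases hij : i = j
    · refine ⟨fun _ => 0, integrable_zero _ _ _, fun _ => le_rfl, ?_, fun h' => absurd hij h'⟩
      simpa using hv
    · obtain ⟨V, hVi, hV0, hVv, hVc⟩ := h i j hij
      have hae : (fun x => max (V x) (Psi i j x - A * Phi i j x)) =ᵐ[μ] V := by
        filter_upwards [hVc] with x hx
        exact max_eq_left (by linarith)
      refine ⟨fun x => max (V x) (Psi i j x - A * Phi i j x), hVi.congr hae.symm,
        fun x => (hV0 x).trans (le_max_left _ _), ?_, fun _ x => ?_⟩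
      · rw [integral_congr_ae hae]
        exact hVv
      · have := le_max_right (V x) (Psi i j x - A * Phi i j x)
        linarith
  choose V h1 h2 h3 h4 using key
  exact ⟨V, h1, h2, h3, h4⟩

set_option maxHeartbeats 1000000 in
/-- **(Q3)** from (BASE), (Q1), (CONV), general form. -/
theorem q3_of_baseG {PS : Measure (ModSpace n) → ℝ → ℕ → Fin n → Fin n → ModSpace n → ℝ}
    {F : Measure (ModSpace n) → ℝ → ℕ → Fin n → Fin n → ℝ}
    (hm : ∀ μ : Measure (ModSpace n), IsProbabilityMeasure μ → ∀ u b i j,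
      Measurable (PS μ u b i j))
    (h0 : ∀ μ u b i j x, 0 ≤ PS μ u b i j x) (h2 : ∀ μ u b i j x, PS μ u b i j x ≤ 2)
    {k₀ k₁ k₂ : ℝ} (hk₀ : 0 < k₀) (hk₂ : 0 < k₂) (h01 : k₀ ≤ k₁) (h21 : k₂ ≤ k₁)
    (hQ1 : AsmB_460.Q1 PS F k₀) (hB : Base PS F k₂) (hC : ConvG PS) : AsmB_460.Q3 PS F k₁ := by
  have hk₁ : 0 < k₁ := hk₀.trans_le h01
  intro κ C hκ hCpos
  obtain ⟨c₃, hc₃, hB⟩ := hB κ C hκ hCpos
  refine ⟨c₃ / (16 * 2), by positivity, ?_⟩
  intro ε δ hε hδ
  set δ₁ : ℝ := min δ 1 with hδ₁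
  have hδ₁pos : 0 < δ₁ := lt_min hδ one_pos
  have hδ₁1 : δ₁ ≤ 1 := min_le_right _ _
  have hδ₁δ : δ₁ ≤ δ := min_le_left _ _
  -- number of blocks
  set N : ℝ := 16 / δ₁ + 1 with hN
  have hNpos : 0 < N := by positivity
  set ε₀ : ℝ := ε / (4 * 2 ^ n * N) with hε₀
  have hε₀pos : 0 < ε₀ := by positivity
  set e₁ : ℝ := c₃ * ε₀ / (2 * (n : ℝ) ^ 2 + 1) with he₁
  have he₁pos : 0 < e₁ := by positivity
  have he₁le : 2 * (n : ℝ) ^ 2 * e₁ / c₃ ≤ ε₀ := by
    rw [he₁, div_le_iff₀ hc₃, mul_div_assoc', div_le_iff₀ (by positivity)]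
    nlinarith [mul_pos hc₃ hε₀pos]
  set v : ℝ := ε * c₃ * δ₁ / (32 * ((n : ℝ) ^ 2 + 1)) with hv
  have hvpos : 0 < v := by positivity
  have hvle : 16 * (n : ℝ) ^ 2 * v / (c₃ * δ₁) ≤ ε / 2 := by
    have h3 : v * (32 * ((n : ℝ) ^ 2 + 1)) = ε * c₃ * δ₁ := by
      rw [hv]
      field_simp
    rw [div_le_iff₀ (by positivity)]
    nlinarith
  obtain ⟨A, K₀, U₀, hA0, hC⟩ := hC v hvpos
  set τ₀ : ℝ := min 1 (c₃ / (16 * ((n : ℝ) ^ 2 + 1) * (A + 1))) with hτ₀
  have hτ₀pos : 0 < τ₀ := lt_min one_pos (by positivity)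
  have hAτ : (n : ℝ) ^ 2 * (A * τ₀) ≤ c₃ / 16 := by
    have h3 : τ₀ ≤ c₃ / (16 * ((n : ℝ) ^ 2 + 1) * (A + 1)) := min_le_right _ _
    rw [le_div_iff₀ (by positivity)] at h3
    have h4 : 0 ≤ A * τ₀ := by positivity
    have h5 : 0 ≤ (n : ℝ) ^ 2 * τ₀ := by positivity
    nlinarith
  refine ⟨τ₀, K₀, hτ₀pos, min_le_left _ _, ?_⟩
  intro K hK
  set δ' : ℝ := δ₁ / (16 * k₁) with hδ'
  have hδ'pos : 0 < δ' := by positivity
  obtain ⟨B₃, η₃, d₃, U₃, C', c', D₀, hη₃, hd₃, hC', hc', hB⟩ := hB ε₀ δ' hε₀pos hδ'pos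
  obtain ⟨B₁, η₁, d₁, U₁, hη₁, hd₁, hQ1⟩ := hQ1 1 e₁ he₁pos
  set U : ℝ := max (max U₃ U₁) (max U₀ (8 * k₁ / δ₁)) with hU
  set d₀ : ℝ := min (min d₃ d₁) 1 with hd₀
  have hd₀pos : 0 < d₀ := lt_min (lt_min hd₃ hd₁) one_pos
  refine ⟨B₃ ∪ B₁, min η₃ η₁, d₀, U, C', c', D₀, lt_min hη₃ hη₁, hd₀pos, hC', hc', ?_⟩
  intro μ hprob hA u₁ u₂ hReg e η' D he hη' hD hslab hu₁ hu₂
  have := hprob
  have hUpos : 0 < U := by
    have h3 : 0 < 8 * k₁ / δ₁ := by positivity
    exact h3.trans_le ((le_max_right _ _).trans (le_max_right _ _))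
  have hUu : U ≤ u₁ := hReg.1
  have hu₂pos : 0 < u₂ := by
    have h3 : 0 < d₀ * u₂ := (hUpos.trans_le hUu).trans_le hReg.2.1
    exact pos_of_mul_pos_right h3 hd₀pos.le
  have hu12 : u₁ ≤ u₂ := by
    refine hReg.2.1.trans ?_
    calc d₀ * u₂ ≤ 1 * u₂ := mul_le_mul_of_nonneg_right (min_le_right _ _) hu₂pos.le
      _ = u₂ := one_mul _
  have hReg₃ : Reg F B₃ η₃ d₃ U₃ μ u₁ u₂ :=
    hReg.mono Finset.subset_union_left (min_le_left _ _)
      ((min_le_left _ _).trans (min_le_left _ _)) ((le_max_left _ _).trans (le_max_left _ _))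
      hUpos.le hd₀pos
  have hReg₁ : Reg F B₁ η₁ d₁ U₁ μ u₁ u₂ :=
    hReg.mono Finset.subset_union_right (min_le_right _ _)
      ((min_le_left _ _).trans (min_le_right _ _)) ((le_max_right _ _).trans (le_max_left _ _))
      hUpos.le hd₀pos
  have hU₀u : U₀ ≤ u₁ := ((le_max_left _ _).trans (le_max_right _ _)).trans hUu
  have h8 : 8 * k₁ / δ₁ ≤ u₂ :=
    (((le_max_right _ _).trans (le_max_right _ _)).trans hUu).trans hu12
  -- the depth unit
  set L : ℕ := ⌊u₂ / k₁⌋₊ with hL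
  have hLle : (L : ℝ) ≤ u₂ / k₁ := Nat.floor_le (by positivity)
  have hLgt : u₂ / k₁ < L + 1 := Nat.lt_floor_add_one _
  have h8' : 8 * k₁ ≤ u₂ * δ₁ := (div_le_iff₀ hδ₁pos).1 h8
  have h8'' : 8 / δ₁ ≤ u₂ / k₁ := by
    rw [div_le_div_iff₀ hδ₁pos hk₁]
    exact h8'
  have h8δ : 8 ≤ 8 / δ₁ := by
    rw [le_div_iff₀ hδ₁pos]
    linarith
  have hL2 : u₂ / (2 * k₁) ≤ L := by
    have h3 : u₂ / (2 * k₁) = (u₂ / k₁) / 2 := by field_simp
    rw [h3]
    linarith
  have hL1 : 8 / δ₁ / 2 ≤ (L : ℝ) := by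
    have h3 : u₂ / (2 * k₁) = (u₂ / k₁) / 2 := by field_simp
    rw [h3] at hL2
    linarith
  have hδL : 4 ≤ δ₁ * L := by
    have h3 : δ₁ * (8 / δ₁ / 2) ≤ δ₁ * L := mul_le_mul_of_nonneg_left hL1 hδ₁pos.le
    have h4 : δ₁ * (8 / δ₁ / 2) = 4 := by
      field_simp
      norm_num
    linarith
  set w : ℕ := ⌊δ₁ * L / 4⌋₊ with hw
  have hwle : (w : ℝ) ≤ δ₁ * L / 4 := Nat.floor_le (by positivity)
  have hwgt : δ₁ * L / 4 < w + 1 := Nat.lt_floor_add_one _
  have hw0 : 0 < w := Nat.floor_pos.2 (by linarith)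
  have hw1 : (1 : ℝ) ≤ w := by exact_mod_cast hw0
  have hw8 : δ₁ * L / 8 ≤ w := by
    linarith
  have hwlow : δ' * u₂ ≤ w := by
    refine le_trans ?_ hw8
    have h3 : δ' * u₂ = δ₁ * (u₂ / (2 * k₁)) / 8 := by
      rw [hδ']
      field_simp
      norm_num
    rw [h3]
    have h4 := mul_le_mul_of_nonneg_left hL2 hδ₁pos.le
    linarith
  have hwup : (w : ℝ) ≤ u₂ / k₂ := by
    have h3 : δ₁ * L / 4 ≤ L := by
      have h4 : (0 : ℝ) ≤ L := Nat.cast_nonneg _
      nlinarith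
    have h5 : u₂ / k₁ ≤ u₂ / k₂ := div_le_div_of_nonneg_left hu₂pos.le hk₂ h21
    linarith
  have hbase := hB μ hprob hA u₁ u₂ hReg₃ e η' D he hη' hD hslab hu₁ hu₂ w hwlow hwup
  have hQ1' : Q3c_433.Q1 μ tz (PS μ u₁ 2) L e₁ := by
    intro i j hij z hz hzl
    have h3 := hQ1 μ hprob hA u₁ u₂ hReg₁ i j hij z hz (by
      intro l
      have h4 : |(z l : ℝ)| ≤ L := by
        have := hzl l
        exact_mod_cast this
      have h5 : u₂ / k₁ ≤ u₂ / k₀ := div_le_div_of_nonneg_left hu₂pos.le hk₀ h01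
      linarith)
    rwa [pow_one] at h3
  obtain ⟨V, hVi, hV0, hVv, hVc⟩ := conv_all (μ := μ) (Psi := PS μ u₁ 2)
    (Phi := PS μ u₁ (2 ^ K)) (A := A) (v := v) hvpos.le
    (fun i j hij => hC K hK μ hprob hA u₁ hU₀u i j hij)
  have hP3 := Q3c_433.p3_of_base (μ := μ) hA (Psi := PS μ u₁ 2) (Phi := PS μ u₁ (2 ^ K)) (V := V)
    (M := 2) (A := A) (τ₀ := τ₀) (c₃ := c₃) (δ := δ₁) (v := v) (e := e₁) (ε₀ := ε₀)
    (fun i j => hm μ hprob u₁ 2 i j) (fun i j x => h0 μ u₁ 2 i j x) two_pos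
    (fun i j x => h2 μ u₁ 2 i j x) hVi hV0 hVv hA0 hτ₀pos.le hc₃ hVc hAτ he₁pos.le
    hε₀pos.le hδ₁pos (L := L) (w := w) hw0 (by linarith) hQ1' hbase
  refine P3.mono_delta hδ₁δ (P3.mono_eps ?_ hP3)
  have hcount : ((2 * (L / w : ℕ) + 1 : ℝ)) ≤ N := by
    have h3 : ((L / w : ℕ) : ℝ) ≤ (L : ℝ) / w := Nat.cast_div_le
    have h4 : (L : ℝ) / w ≤ 8 / δ₁ := by
      rw [div_le_div_iff₀ (by linarith) hδ₁pos]
      linarith
    have h5 : 16 / δ₁ = 2 * (8 / δ₁) := by ring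
    rw [hN, h5]
    linarith
  have hfirst : 2 ^ n * ((2 * (L / w : ℕ) + 1) * (ε₀ + 2 * (n : ℝ) ^ 2 * e₁ / c₃)) ≤ ε / 2 := by
    calc (2 : ℝ) ^ n * ((2 * (L / w : ℕ) + 1) * (ε₀ + 2 * (n : ℝ) ^ 2 * e₁ / c₃))
        ≤ 2 ^ n * (N * (ε₀ + ε₀)) := by
          gcongr
      _ = ε / 2 := by
          rw [hε₀]
          field_simp
          norm_num
  linarith

/-- **(Q3)** from (BASE), (Q1), (CONV). -/
theorem q3_of_base {PS : Measure (ModSpace n) → ℝ → ℕ → Fin n → Fin n → ModSpace n → ℝ}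
    {F : Measure (ModSpace n) → ℝ → ℕ → Fin n → Fin n → ℝ}
    (hm : ∀ μ : Measure (ModSpace n), IsProbabilityMeasure μ → ∀ u b i j,
      Measurable (PS μ u b i j))
    (h0 : ∀ μ u b i j x, 0 ≤ PS μ u b i j x) (h2 : ∀ μ u b i j x, PS μ u b i j x ≤ 2)
    {k₀ k₁ k₂ : ℝ} (hk₀ : 0 < k₀) (hk₂ : 0 < k₂) (h01 : k₀ ≤ k₁) (h21 : k₂ ≤ k₁)
    (hQ1 : AsmB_460.Q1 PS F k₀) (hB : Base PS F k₂) (hC : Conv PS) : AsmB_460.Q3 PS F k₁ :=
  q3_of_baseG hm h0 h2 hk₀ hk₂ h01 h21 hQ1 hB hC.gen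

end Crest.Agent.R014.Q3f_433
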