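import Mathlib
import Crest.Agent.R014.Conv_792
import Crest.Agent.R014.AsmB2_460

-- ▼ part R014/RAs_460
section

/-!
# Row 14, block D, (R): the product space step (helper460)

`prod_step`: a one-sided inequality in the mean on `X × Q` gives the one-sided inequality for the
averages over `Q`.  `final_ineq`: the inequality between the reference functions from the
integrated Heisenberg lemma and the two comparisons of #5017.
-/

set_option autoImplicit false

open MeasureTheory Filter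

namespace Crest.Agent.R014.RAs_460

variable {X Q : Type*} [MeasurableSpace X] [MeasurableSpace Q]

theorem bdd_int {Y : Type*} [MeasurableSpace Y] {ν : Measure Y} [IsFiniteMeasure ν] {f : Y → ℝ}
    (hf : Measurable f) {M : ℝ} (hM : ∀ y, |f y| ≤ M) : Integrable f ν :=
  Integrable.of_bound hf.aestronglyMeasurable M (Eventually.of_forall hM)

theorem measurable_avg {ν : Measure Q} [SFinite ν] {A : X × Q → ℝ} (hA : Measurable A) :
    Measurable fun x => ∫ q, A (x, q) ∂ν :=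
  (hA.stronglyMeasurable.integral_prod_right').measurable

omit [MeasurableSpace X] in
theorem abs_avg_le {ν : Measure Q} [IsProbabilityMeasure ν] {A : X × Q → ℝ} {M : ℝ}
    (hM : ∀ p, |A p| ≤ M) (x : X) : |∫ q, A (x, q) ∂ν| ≤ M := by
  have h := norm_integral_le_of_norm_le_const (μ := ν) (C := M) (f := fun q => A (x, q))
    (Eventually.of_forall fun q => by rw [Real.norm_eq_abs]; exact hM _)
  simpa using h

/-- Jensen for the positive part, fibrewise. -/
theorem prod_step {μ : Measure X} {ν : Measure Q} [IsProbabilityMeasure μ]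
    [IsProbabilityMeasure ν] {A B : X × Q → ℝ} (hA : Measurable A) (hB : Measurable B) {M : ℝ}
    (hAM : ∀ p, |A p| ≤ M) (hBM : ∀ p, |B p| ≤ M) :
    ∫ x, max 0 (∫ q, A (x, q) ∂ν - ∫ q, B (x, q) ∂ν) ∂μ ≤
      ∫ p, max 0 (A p - B p) ∂(μ.prod ν) := by
  have hM0 : ∀ p : X × Q, 0 ≤ M := fun p => (abs_nonneg _).trans (hAM p)
  set G : X × Q → ℝ := fun p => max 0 (A p - B p) with hG
  have hGm : Measurable G := measurable_const.max (hA.sub hB)
  have hGb : ∀ p, |G p| ≤ 2 * M := by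
    intro p
    rw [hG]
    simp only
    rw [abs_of_nonneg (le_max_left _ _)]
    have h1 := (abs_le.1 (hAM p)).2
    have h2 := (abs_le.1 (hBM p)).1
    exact max_le (by linarith [hM0 p]) (by linarith)
  have hGi : Integrable G (μ.prod ν) := bdd_int hGm hGb
  rw [integral_prod _ hGi]
  refine integral_mono_of_nonneg (Eventually.of_forall fun x => le_max_left _ _) ?_
    (Eventually.of_forall fun x => ?_)
  · exact bdd_int (measurable_avg hGm) fun x => abs_avg_le hGb x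
  · simp only
    have hAi : Integrable (fun q => A (x, q)) ν :=
      bdd_int (hA.comp measurable_prodMk_left) fun q => hAM _
    have hBi : Integrable (fun q => B (x, q)) ν :=
      bdd_int (hB.comp measurable_prodMk_left) fun q => hBM _
    have hGi' : Integrable (fun q => G (x, q)) ν :=
      bdd_int (hGm.comp measurable_prodMk_left) fun q => hGb _
    refine max_le (integral_nonneg fun q => le_max_left _ _) ?_
    rw [← integral_sub hAi hBi]
    exact integral_mono (hAi.sub hBi) hGi' fun q => le_max_right _ _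

/-- replacing the two functions by close ones. -/
theorem close_step {μ : Measure X} [IsProbabilityMeasure μ] {f₁ f₂ F₁ F₂ : X → ℝ}
    (h₁ : Measurable f₁) (h₂ : Measurable f₂) (H₁ : Measurable F₁) (H₂ : Measurable F₂) {M : ℝ}
    (b₁ : ∀ x, |f₁ x| ≤ M) (b₂ : ∀ x, |f₂ x| ≤ M) (B₁ : ∀ x, |F₁ x| ≤ M) (B₂ : ∀ x, |F₂ x| ≤ M) :
    ∫ x, max 0 (f₁ x - f₂ x) ∂μ ≤
      ∫ x, max 0 (F₁ x - F₂ x) ∂μ + (∫ x, |F₁ x - f₁ x| ∂μ + ∫ x, |F₂ x - f₂ x| ∂μ) := by
  have i1 : Integrable (fun x => max 0 (F₁ x - F₂ x)) μ := by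
    refine bdd_int (measurable_const.max (H₁.sub H₂)) (M := 2 * M) fun x => ?_
    have hM0 : 0 ≤ M := (abs_nonneg _).trans (b₁ x)
    rw [abs_of_nonneg (le_max_left _ _)]
    exact max_le (by linarith) (by linarith [(abs_le.1 (B₁ x)).2, (abs_le.1 (B₂ x)).1])
  have i2 : Integrable (fun x => |F₁ x - f₁ x|) μ := by
    refine bdd_int (H₁.sub h₁).abs (M := 2 * M) fun x => ?_
    rw [abs_abs]
    have := abs_sub (F₁ x) (f₁ x)
    linarith [B₁ x, b₁ x]
  have i3 : Integrable (fun x => |F₂ x - f₂ x|) μ := by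
    refine bdd_int (H₂.sub h₂).abs (M := 2 * M) fun x => ?_
    rw [abs_abs]
    have := abs_sub (F₂ x) (f₂ x)
    linarith [B₂ x, b₂ x]
  have i23 : Integrable (fun x => |F₁ x - f₁ x| + |F₂ x - f₂ x|) μ := i2.add i3
  rw [← integral_add i2 i3, ← integral_add i1 i23]
  refine integral_mono_of_nonneg (Eventually.of_forall fun x => le_max_left _ _) (i1.add i23)
    (Eventually.of_forall fun x => ?_)
  simp only
  have h3 := le_max_left 0 (F₁ x - F₂ x)
  have h4 := le_max_right 0 (F₁ x - F₂ x)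
  refine max_le (by positivity) ?_
  have h5 := neg_abs_le (F₁ x - f₁ x)
  have h6 := le_abs_self (F₂ x - f₂ x)
  linarith

/-- **the last inequality of (R)**: `S T` the product of the two posterior mean distances, `R` the
posterior mean distance of the third coordinate, `a, b, c` the reference functions;
`F₁ = E [S T | x]` close to `σ * (a b)`, `F₂ = E [R | x]` close to `ρ * c`. -/
theorem final_ineq {μ : Measure X} {ν : Measure Q} [IsProbabilityMeasure μ]
    [IsProbabilityMeasure ν] {ST R : X × Q → ℝ} (hST : Measurable ST) (hR : Measurable R) {M : ℝ}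
    (bST : ∀ p, |ST p| ≤ M) (bR : ∀ p, |R p| ≤ M) {g c : X → ℝ} (hg : Measurable g)
    (hc : Measurable c) (bg : ∀ x, |g x| ≤ M) (bc : ∀ x, |c x| ≤ M) {θ σ ρ E e₁ e₂ : ℝ}
    (hθ : 0 ≤ θ) (hσ : 0 ≤ σ) (hρ : 0 < ρ)
    (hG : ∫ p, max 0 (θ * ST p - R p) ∂(μ.prod ν) ≤ E)
    (h₁ : ∫ x, |∫ q, ST (x, q) ∂ν - σ * g x| ∂μ ≤ e₁)
    (h₂ : ∫ x, |∫ q, R (x, q) ∂ν - ρ * c x| ∂μ ≤ e₂) :
    ∫ x, max 0 (θ * σ / ρ * g x - c x) ∂μ ≤ (E + θ * e₁ + e₂) / ρ := by
  have h3 : ∫ x, max 0 (∫ q, (θ * ST (x, q)) ∂ν - ∫ q, R (x, q) ∂ν) ∂μ ≤ E := by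
    refine le_trans ?_ hG
    refine prod_step (A := fun p => θ * ST p) (hST.const_mul θ) hR (M := max (θ * M) M) ?_ ?_
    · intro p
      rw [abs_mul, abs_of_nonneg hθ]
      exact (mul_le_mul_of_nonneg_left (bST p) hθ).trans (le_max_left _ _)
    · intro p
      exact (bR p).trans (le_max_right _ _)
  have hF1m : Measurable fun x => ∫ q, (θ * ST (x, q)) ∂ν :=
    measurable_avg (A := fun p => θ * ST p) (hST.const_mul θ)
  have hF2m : Measurable fun x => ∫ q, R (x, q) ∂ν := measurable_avg hR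
  set M' : ℝ := (θ + θ * σ + ρ + 1) * |M| with hM'
  have hMM : ∀ t : ℝ, |t| ≤ M → |t| ≤ |M| := fun t ht => ht.trans (le_abs_self M)
  have hM0 : 0 ≤ |M| := abs_nonneg M
  have h4 := close_step (μ := μ) (f₁ := fun x => θ * σ * g x) (f₂ := fun x => ρ * c x)
    (F₁ := fun x => ∫ q, (θ * ST (x, q)) ∂ν) (F₂ := fun x => ∫ q, R (x, q) ∂ν) (M := M')
    (hg.const_mul _) (hc.const_mul _) hF1m hF2m
    (fun x => by
      rw [abs_mul, abs_of_nonneg (mul_nonneg hθ hσ), hM']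
      have := mul_le_mul_of_nonneg_left (hMM _ (bg x)) (mul_nonneg hθ hσ)
      nlinarith [mul_nonneg hθ hM0, mul_nonneg hρ.le hM0])
    (fun x => by
      rw [abs_mul, abs_of_pos hρ, hM']
      have := mul_le_mul_of_nonneg_left (hMM _ (bc x)) hρ.le
      nlinarith [mul_nonneg hθ hM0, mul_nonneg (mul_nonneg hθ hσ) hM0])
    (fun x => by
      refine (abs_avg_le (A := fun p => θ * ST p) (M := θ * |M|) (fun p => ?_) x).trans ?_
      · rw [abs_mul, abs_of_nonneg hθ]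
        exact mul_le_mul_of_nonneg_left (hMM _ (bST p)) hθ
      · rw [hM']
        nlinarith [mul_nonneg hρ.le hM0, mul_nonneg (mul_nonneg hθ hσ) hM0])
    (fun x => by
      refine (abs_avg_le (M := |M|) (fun p => hMM _ (bR p)) x).trans ?_
      rw [hM']
      nlinarith [mul_nonneg hρ.le hM0, mul_nonneg (mul_nonneg hθ hσ) hM0, mul_nonneg hθ hM0])
  have h5 : ∫ x, |∫ q, (θ * ST (x, q)) ∂ν - θ * σ * g x| ∂μ ≤ θ * e₁ := by
    have e : ∀ x, |∫ q, (θ * ST (x, q)) ∂ν - θ * σ * g x| =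
        θ * |∫ q, ST (x, q) ∂ν - σ * g x| := by
      intro x
      rw [integral_const_mul, mul_assoc, ← mul_sub, abs_mul, abs_of_nonneg hθ]
    simp_rw [e]
    rw [integral_const_mul]
    exact mul_le_mul_of_nonneg_left h₁ hθ
  have h6 : ∀ x, max 0 (θ * σ / ρ * g x - c x) = ρ⁻¹ * max 0 (θ * σ * g x - ρ * c x) := by
    intro x
    rw [mul_max_of_nonneg _ _ (inv_nonneg.2 hρ.le), mul_zero]
    congr 1
    field_simp
  simp_rw [h6]
  rw [integral_const_mul, div_eq_inv_mul]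
  refine mul_le_mul_of_nonneg_left ?_ (inv_nonneg.2 hρ.le)
  linarith

end Crest.Agent.R014.RAs_460
end

-- ▼ part R014/Res_460
section

/-!
# Row 14, block D: change of the resolution of the digits (helper460)

For the same window and the same noise the spread functions with `c` and with `c * m` digits differ
by at most `2 / c`, almost everywhere (`psi_res`); `psr_res`: two powers of two.
-/

set_option autoImplicit false
set_option linter.unusedSectionVars false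
set_option linter.style.haveILetI false

open MeasureTheory Finset Crest.NumberTheoryR.Packets
open Crest.Agent.R014.Nd_837 Crest.Agent.R014.Ne1_567 Crest.Agent.R014.NScC_395
open Crest.Agent.R014.NScD_395 Crest.Agent.R014.Ms_667
open Crest.Agent.R014.Ne3_567 (pv measurable_pv pv_nonneg sum_pv pv_le_one pv_eq integral_pv_mul)
open scoped ENNReal

noncomputable section

namespace Crest.Agent.R014.Res_460

variable {n : ℕ}

section
variable (μ : Measure (ModSpace n)) (κ : Measure (SLR n)) [IsProbabilityMeasure μ]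
  [IsProbabilityMeasure κ] {i j : Fin n} (hij : i ≠ j) (r : ℝ)

theorem tot_eq {c m : ℕ} (hc : 0 < c) (hm : 0 < m) :
    tot (lab μ κ hij r (c * m)) = tot (lab μ κ hij r c) := by
  rw [NScD_395.tot_lab_eq μ κ hij r (Nat.mul_pos hc hm), NScD_395.tot_lab_eq μ κ hij r hc]

theorem pr_coarse {c m : ℕ} (hm : 0 < m) (a : Fin c) :
    ∀ᵐ y ∂(tot (lab μ κ hij r (c * m))), pr (lab μ κ hij r c) a y
      = ∑ k : Fin m, pr (lab μ κ hij r (c * m)) (finProdFinEquiv (a, k)) y := by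
  have h1 := Conv_792.rnDeriv_finset_sum Finset.univ
    (fun k : Fin m => lab μ κ hij r (c * m) (finProdFinEquiv (a, k))) (tot (lab μ κ hij r (c * m)))
  rw [sum_lab_mul μ κ hij r hm a] at h1
  have h2 : ∀ k : Fin m, ∀ᵐ y ∂(tot (lab μ κ hij r (c * m))),
      (lab μ κ hij r (c * m) (finProdFinEquiv (a, k))).rnDeriv (tot (lab μ κ hij r (c * m))) y ≠ ∞ :=
    fun k => (Measure.rnDeriv_lt_top _ _).mono fun y hy => hy.ne
  have h3 := Filter.eventually_all.2 h2
  filter_upwards [h1, h3] with y hy1 hy2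
  unfold pr
  rw [← tot_eq μ κ hij r a.pos hm, hy1, ENNReal.toReal_sum fun k _ => hy2 k]

/-- the posterior of the coarse digit is the sum of the posteriors of the fine digits -/
theorem pv_coarse {c m : ℕ} (hm : 0 < m) :
    ∀ᵐ y ∂(tot (lab μ κ hij r (c * m))), ∀ a : Fin c, pv (lab μ κ hij r c) a y
      = ∑ k : Fin m, pv (lab μ κ hij r (c * m)) (finProdFinEquiv (a, k)) y := by
  rcases Nat.eq_zero_or_pos c with hc | hc
  · subst hc
    exact Filter.Eventually.of_forall fun y a => a.elim0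
  have h1 := Filter.eventually_all.2 fun a : Fin c => pr_coarse μ κ hij r hm a
  have h2 := pv_eq (lab μ κ hij r (c * m))
  have h3 := pv_eq (lab μ κ hij r c)
  rw [← tot_eq μ κ hij r hc hm] at h3
  filter_upwards [h1, h2, h3] with y hy1 hy2 hy3 a
  rw [hy3 a, hy1 a]
  exact Finset.sum_congr rfl fun k _ => (hy2 _).symm

end

/-! ### the pointwise inequality -/

theorem abs_cen_le_one {m : ℕ} (k : Fin m) : |cen m k| ≤ 1 := by
  have hm : (0 : ℝ) < m := by exact_mod_cast k.pos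
  have hk : ((k : ℕ) : ℝ) + 1 ≤ m := by exact_mod_cast k.2
  have hk0 : (0 : ℝ) ≤ ((k : ℕ) : ℝ) := by positivity
  unfold cen
  rw [abs_le]
  constructor
  · have : 0 ≤ (2 * ((k : ℕ) : ℝ) + 1) / m := by positivity
    linarith
  · have : (2 * ((k : ℕ) : ℝ) + 1) / m ≤ 2 := by
      rw [div_le_iff₀ hm]; linarith
    linarith

theorem pointwise {c m : ℕ} (p : Fin (c * m) → ℝ) (h0 : ∀ d, 0 ≤ p d) (h1 : ∑ d, p d = 1) :
    |spr (cen c) (fun a => ∑ k : Fin m, p (finProdFinEquiv (a, k))) - spr (cen (c * m)) p|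
      ≤ 2 / c := by
  have hdist : ∀ d d' : Fin c × Fin m,
      |(|cen c d.1 - cen c d'.1| - |cen (c * m) (finProdFinEquiv d)
        - cen (c * m) (finProdFinEquiv d')|)| ≤ 2 / c := by
    rintro ⟨a, k⟩ ⟨a', k'⟩
    have hc : (0 : ℝ) < c := by exact_mod_cast a.pos
    refine (abs_abs_sub_abs_le_abs_sub _ _).trans ?_
    rw [cen_mul, cen_mul]
    have e1 : cen c a - cen c a' - (cen c a + cen m k / c - (cen c a' + cen m k' / c)) =
        (cen m k' - cen m k) / c := by ring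
    rw [e1, abs_div, abs_of_pos hc]
    refine div_le_div_of_nonneg_right ?_ hc.le
    have h2 := abs_cen_le_one k
    have h3 := abs_cen_le_one k'
    rw [abs_le] at h2 h3 ⊢
    constructor <;> linarith
  have e1 : spr (cen c) (fun a => ∑ k : Fin m, p (finProdFinEquiv (a, k))) =
      ∑ d : Fin c × Fin m, ∑ d' : Fin c × Fin m, p (finProdFinEquiv d) * p (finProdFinEquiv d') *
        |cen c d.1 - cen c d'.1| := by
    unfold spr
    simp_rw [Fintype.sum_prod_type]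
    refine Finset.sum_congr rfl fun a _ => ?_
    rw [Finset.sum_comm]
    refine Finset.sum_congr rfl fun a' _ => ?_
    rw [Finset.sum_mul_sum, Finset.sum_mul]
    refine Finset.sum_congr rfl fun k _ => ?_
    rw [Finset.sum_mul]
  have e2 : spr (cen (c * m)) p =
      ∑ d : Fin c × Fin m, ∑ d' : Fin c × Fin m, p (finProdFinEquiv d) * p (finProdFinEquiv d') *
        |cen (c * m) (finProdFinEquiv d) - cen (c * m) (finProdFinEquiv d')| := by
    unfold spr
    rw [← (finProdFinEquiv (m := c) (n := m)).sum_comp]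
    refine Finset.sum_congr rfl fun d _ => ?_
    rw [← (finProdFinEquiv (m := c) (n := m)).sum_comp]
  have hsum : ∑ d : Fin c × Fin m, ∑ d' : Fin c × Fin m,
      p (finProdFinEquiv d) * p (finProdFinEquiv d') * (2 / (c : ℝ)) = 2 / c := by
    simp_rw [← Finset.sum_mul, ← Finset.mul_sum]
    have h2 : ∑ d : Fin c × Fin m, p (finProdFinEquiv d) = 1 := by
      rw [(finProdFinEquiv (m := c) (n := m)).sum_comp]; exact h1
    rw [← Finset.sum_mul, h2]
    ring
  rw [e1, e2, ← Finset.sum_sub_distrib, ← hsum]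
  refine (Finset.abs_sum_le_sum_abs _ _).trans (Finset.sum_le_sum fun d _ => ?_)
  rw [← Finset.sum_sub_distrib]
  refine (Finset.abs_sum_le_sum_abs _ _).trans (Finset.sum_le_sum fun d' _ => ?_)
  rw [← mul_sub, abs_mul, abs_of_nonneg (mul_nonneg (h0 _) (h0 _))]
  exact mul_le_mul_of_nonneg_left (hdist d d') (mul_nonneg (h0 _) (h0 _))

section
variable (μ : Measure (ModSpace n)) (κ : Measure (SLR n)) [IsProbabilityMeasure μ]
  [IsProbabilityMeasure κ] {i j : Fin n} (hij : i ≠ j) (r : ℝ)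

/-- the posterior spreads at one observation -/
theorem ps_res {c m : ℕ} (hc : 0 < c) (hm : 0 < m) :
    ∀ᵐ y ∂(tot (lab μ κ hij r (c * m))),
      |ps (lab μ κ hij r c) y - ps (lab μ κ hij r (c * m)) y| ≤ 2 / c := by
  haveI : NeZero (c * m) := ⟨(Nat.mul_pos hc hm).ne'⟩
  filter_upwards [pv_coarse μ κ hij r hm] with y hy
  have h := pointwise (fun d => pv (lab μ κ hij r (c * m)) d y) (fun d => pv_nonneg _ d y)
    (sum_pv _ y)
  unfold ps
  have e : (fun a => ∑ k : Fin m, pv (lab μ κ hij r (c * m)) (finProdFinEquiv (a, k)) y) =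
      fun a => pv (lab μ κ hij r c) a y := by
    funext a; exact (hy a).symm
  rw [e] at h
  exact h

/-- **change of the resolution** -/
theorem psi_res {c m : ℕ} (hc : 0 < c) (hm : 0 < m) :
    ∀ᵐ x ∂μ, |Psi μ κ hij r c x - Psi μ κ hij r (c * m) x| ≤ 2 / c := by
  haveI : NeZero (c * m) := ⟨(Nat.mul_pos hc hm).ne'⟩
  haveI : NeZero c := ⟨hc.ne'⟩
  have h1 := ps_res μ κ hij r hc hm
  rw [NScD_395.tot_lab_eq μ κ hij r (Nat.mul_pos hc hm), stp] at h1
  have h2 := ae_of_ae_map measurable_act₂.aemeasurable h1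
  have h3 := Measure.ae_ae_of_ae_prod h2
  filter_upwards [h3] with x hx
  have hi1 : Integrable (fun g => ps (lab μ κ hij r c) (act x g)) (cv κ (dl hij r)) :=
    bdd_integrable ((measurable_ps _).comp (measurable_act₂.comp measurable_prodMk_left))
      (M := 2) fun g => abs_ps_le _ _
  have hi2 : Integrable (fun g => ps (lab μ κ hij r (c * m)) (act x g)) (cv κ (dl hij r)) :=
    bdd_integrable ((measurable_ps _).comp (measurable_act₂.comp measurable_prodMk_left))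
      (M := 2) fun g => abs_ps_le _ _
  show |∫ g, ps (lab μ κ hij r c) (act x g) ∂(cv κ (dl hij r)) -
    ∫ g, ps (lab μ κ hij r (c * m)) (act x g) ∂(cv κ (dl hij r))| ≤ 2 / c
  rw [← integral_sub hi1 hi2]
  have h4 := norm_integral_le_of_norm_le_const (μ := cv κ (dl hij r)) (C := 2 / c)
    (f := fun g => ps (lab μ κ hij r c) (act x g) - ps (lab μ κ hij r (c * m)) (act x g)) (by
      filter_upwards [hx] with g hg
      rw [Real.norm_eq_abs]
      exact hg)
  simpa using h4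


end

/-! ### powers of two -/

open Crest.Agent.R014.NScH_395 (PZ c1N)
open Crest.Agent.R014.AsmB2_460 (PSr U0 psr_eq)

/-- **change of the resolution** for the reference functions: `K ≤ K'`. -/
theorem pz_res {μ : Measure (ModSpace n)} [IsProbabilityMeasure μ] {u : ℝ} (hu : U0 n ≤ u)
    {K K' : ℕ} (h : K ≤ K') (i j : Fin n) :
    ∀ᵐ x ∂μ, |PZ μ u (2 ^ K) i j x - PZ μ u (2 ^ K') i j x| ≤ 2 / 2 ^ K := by
  by_cases hij : i = j
  · subst hij
    refine Filter.Eventually.of_forall fun x => ?_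
    have : ∀ b, PZ μ u b i i x = 0 := fun b => by simp [PZ, NScG_395.PS]
    rw [this, this, sub_self, abs_zero]
    positivity
  · obtain ⟨l, rfl⟩ := Nat.exists_eq_add_of_le h
    have := isProb_zt (NScH_395.adm_rho (i := i) (j := j) ((le_max_left _ _).trans hu)
      ((le_max_right _ _).trans hu))
    have h1 := psi_res μ (zt (u • NScA_395.rho i j)) hij 0 (c := 2 ^ K) (m := 2 ^ l)
      (by positivity) (by positivity)
    rw [← pow_add] at h1
    filter_upwards [h1] with x hx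
    rw [NScH_395.PZ_eq hij, NScH_395.PZ_eq hij]
    refine hx.trans (le_of_eq ?_)
    push_cast
    rfl

theorem pz_res' {μ : Measure (ModSpace n)} [IsProbabilityMeasure μ] {u : ℝ} (hu : U0 n ≤ u)
    {K₀ K K' : ℕ} (h : K₀ ≤ K) (h' : K₀ ≤ K') (i j : Fin n) :
    ∀ᵐ x ∂μ, |PZ μ u (2 ^ K) i j x - PZ μ u (2 ^ K') i j x| ≤ 2 / 2 ^ K₀ := by
  have key : ∀ {K K' : ℕ}, K₀ ≤ K → K ≤ K' →
      ∀ᵐ x ∂μ, |PZ μ u (2 ^ K) i j x - PZ μ u (2 ^ K') i j x| ≤ 2 / 2 ^ K₀ := by
    intro K K' hK hKK'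
    filter_upwards [pz_res hu hKK' i j] with x hx
    refine hx.trans ?_
    exact div_le_div_of_nonneg_left (by norm_num) (by positivity)
      (pow_le_pow_right₀ (by norm_num) hK)
  rcases le_total K K' with hKK | hKK
  · exact key h hKK
  · filter_upwards [key h' hKK] with x hx
    rw [abs_sub_comm]
    exact hx

end Crest.Agent.R014.Res_460
end
end

-- ▼ part R014/Q2c_460
section

/-!
# Row 14, block D: the last step of (Q2) (helper460)

`shift_ev`: the spread functions at two points `x a^t`, `x a^t'` of the same depth are close in `L¹`.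
`HR c₂ A B C`: the analytic form of (R): the three functions at depths `A`, `B`, `C` and with their
own numbers of digits.  `q2_of_hr : HR c₂ A B C → Q2 PZ Fr c₂ q₀`, `q₀ = A + B - C`.
-/

set_option autoImplicit false

open MeasureTheory Filter Topology
open Crest.NumberTheoryR.Packets
open Crest.Agent.R014.Iface_792
open Crest.Agent.R014.Nd_837
open Crest.Agent.R014.DSkel_792
open Crest.Agent.R014.AsmB_460
open Crest.Agent.R014.AsmB2_460
open Crest.Agent.R014.NScH_395 (PZ NC c1N)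

namespace Crest.Agent.R014.Q2c_460

variable {n : ℕ}

/-- change of variables by the diagonal group. -/
theorem integral_aT {μ : Measure (ModSpace n)} (hA : AInv μ) (t : Fin n → ℝ)
    {F : ModSpace n → ℝ} (hF : Measurable F) :
    ∫ x, F (act x (aT t)) ∂μ = ∫ x, F x ∂μ := by
  have h1 : Measurable fun x : ModSpace n => act x (aT t) := Top1_458.measurable_act _
  conv_rhs => rw [← hA t]
  rw [integral_map h1.aemeasurable hF.aestronglyMeasurable]

theorem act_aT_add (x : ModSpace n) (s t : Fin n → ℝ) :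
    act x (aT (s + t)) = act (act x (aT s)) (aT t) := by
  rw [aT_add, Top1_458.act_mul]

theorem tz_eq (z : Fin n → ℤ) (x : ModSpace n) : tz z x = act x (aT fun i => -(z i : ℝ)) := rfl

/-- **same depth, different base points**. -/
theorem shift_ev {b : ℕ} (hb : 0 < b) {e₁ : ℝ} (he₁ : 0 < e₁) :
    Ev (n := n) Fr fun μ u₁ u₂ => ∀ i j : Fin n, i ≠ j → ∀ t t' : Fin n → ℝ,
      t i - t j = t' i - t' j → (∀ l, |t l| ≤ u₂ / 6000) → (∀ l, |t' l| ≤ u₂ / 6000) →
      ∫ x, |PZ μ u₁ b i j (act x (aT t)) - PZ μ u₁ b i j (act x (aT t'))| ∂μ ≤ e₁ := by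
  obtain ⟨η, U, hη, hU, h⟩ := NScH_395.q1Z (n := n) hb he₁
  refine ev_of ⟨{b}, η, 1 / 100000, max U (U0 n), hη, by norm_num, ?_⟩
  intro μ hp hA u₁ u₂ hU1 h2 hN i j hij t t' htt ht ht'
  have hU' : U ≤ u₁ := (le_max_left _ _).trans hU1
  have hU0 : U0 n ≤ u₁ := (le_max_right _ _).trans hU1
  have hne : NeZero b := ⟨hb.ne'⟩
  have hm : Measurable (PZ μ u₁ b i j) :=
    NScH_395.measurable_PZ ((le_max_left _ _).trans hU0) ((le_max_right _ _).trans hU0) b i j
  set s : Fin n → ℝ := t - t' with hs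
  have hs1 : s i = s j := by
    simp only [hs, Pi.sub_apply]; linarith
  have hs2 : ∀ l, |s l| ≤ u₂ / 3000 := by
    intro l
    simp only [hs, Pi.sub_apply]
    have := abs_sub (t l) (t' l)
    linarith [ht l, ht' l]
  have h5 := h μ hp hA u₁ u₂ hU' h2 hN i j hij s hs1 hs2
  have h6 : ∀ x : ModSpace n, |PZ μ u₁ b i j (act x (aT t)) - PZ μ u₁ b i j (act x (aT t'))| =
      (fun y => |PZ μ u₁ b i j (act y (aT s)) - PZ μ u₁ b i j y|) (act x (aT t')) := by
    intro x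
    simp only
    rw [← act_aT_add]
    have : t' + s = t := by rw [hs]; abel
    rw [this]
  simp_rw [h6]
  rw [integral_aT hA t' (F := fun y => |PZ μ u₁ b i j (act y (aT s)) - PZ μ u₁ b i j y|)
    ((hm.comp (Top1_458.measurable_act _)).sub hm).abs]
  exact h5

/-- the analytic form of (R), depths `A`, `B`, `C`, each function with its own number of digits. -/
def HR (n : ℕ) (c₂ A B C : ℝ) : Prop :=
  ∀ e₁ : ℝ, 0 < e₁ → ∀ K₀ : ℕ, ∃ K₁ K₂ K₃ : ℕ, K₀ ≤ K₁ ∧ K₀ ≤ K₂ ∧ K₀ ≤ K₃ ∧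
    Ev (n := n) Fr fun μ u₁ u₂ => ∀ i j k : Fin n, i ≠ j → j ≠ k → i ≠ k →
      ∃ t₁ t₂ t₃ : Fin n → ℝ, t₁ i - t₁ j = -A ∧ t₂ j - t₂ k = -B ∧ t₃ i - t₃ k = -C ∧
        (∀ l, |t₁ l| ≤ u₂ / 10000) ∧ (∀ l, |t₂ l| ≤ u₂ / 10000) ∧ (∀ l, |t₃ l| ≤ u₂ / 10000) ∧
        ∫ x, max 0 (c₂ * PZ μ u₁ (2 ^ K₁) i j (act x (aT t₁)) *
          PZ μ u₁ (2 ^ K₂) j k (act x (aT t₂)) - PZ μ u₁ (2 ^ K₃) i k (act x (aT t₃))) ∂μ ≤ e₁

/-- Lipschitz bound for the integrand. -/
theorem lip {c a a' b b' d d' : ℝ} (hc : 0 ≤ c) (ha' : 0 ≤ a') (ha2' : a' ≤ 2)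
    (hb : 0 ≤ b) (hb2 : b ≤ 2) :
    max 0 (c * a * b - d) ≤ max 0 (c * a' * b' - d') + (2 * c * (|a - a'| + |b - b'|) + |d - d'|) := by
  refine max_le (by positivity) ?_
  have h1 : c * a * b - c * a' * b' ≤ 2 * c * (|a - a'| + |b - b'|) := by
    have e : c * a * b - c * a' * b' = c * ((a - a') * b + a' * (b - b')) := by ring
    rw [e]
    have h2 : (a - a') * b ≤ 2 * |a - a'| := by
      have := mul_le_mul_of_nonneg_right (le_abs_self (a - a')) hb
      nlinarith [abs_nonneg (a - a')]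
    have h3 : a' * (b - b') ≤ 2 * |b - b'| := by
      have := mul_le_mul_of_nonneg_left (le_abs_self (b - b')) ha'
      nlinarith [abs_nonneg (b - b')]
    nlinarith [mul_le_mul_of_nonneg_left (add_le_add h2 h3) hc]
  have h4 := neg_abs_le (d - d')
  have h5 := le_max_right 0 (c * a' * b' - d')
  linarith

theorem int_split {μ : Measure (ModSpace n)} {f g₁ g₂ g₃ : ModSpace n → ℝ} (c : ℝ)
    (hf : Integrable f μ) (h₁ : Integrable g₁ μ) (h₂ : Integrable g₂ μ) (h₃ : Integrable g₃ μ) :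
    ∫ x, (f x + (c * (g₁ x + g₂ x) + g₃ x)) ∂μ =
      ∫ x, f x ∂μ + (c * (∫ x, g₁ x ∂μ + ∫ x, g₂ x ∂μ) + ∫ x, g₃ x ∂μ) := by
  have h12 : Integrable (fun x => g₁ x + g₂ x) μ := h₁.add h₂
  have hc : Integrable (fun x => c * (g₁ x + g₂ x)) μ := h12.const_mul c
  have h4 : Integrable (fun x => c * (g₁ x + g₂ x) + g₃ x) μ := hc.add h₃
  rw [integral_add hf h4, integral_add hc h₃, integral_const_mul, integral_add h₁ h₂]

/-- **(Q2)** from (R). -/
theorem q2_of_hr {c₂ A B C : ℝ} (hc₂ : 0 < c₂) {q₀ : ℕ} (hq : A + B - C = q₀)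
    (h : HR n c₂ A B C) : Q2 (n := n) PZ Fr c₂ q₀ := by
  intro e₁ he₁
  -- error for one comparison
  set e : ℝ := e₁ / (16 * (c₂ + 1)) with he
  have hepos : 0 < e := by positivity
  obtain ⟨K₀, hK₀⟩ := exists_nat_gt (2 / e)
  have hres : (2 : ℝ) / 2 ^ K₀ ≤ e := by
    have h1 : (K₀ : ℝ) ≤ 2 ^ K₀ := by
      exact_mod_cast (Nat.lt_two_pow_self (n := K₀)).le
    rw [div_le_iff₀ (by positivity)]
    rw [div_lt_iff₀ hepos] at hK₀
    nlinarith
  obtain ⟨K₁, K₂, K₃, hK₁, hK₂, hK₃, hR⟩ := h (e₁ / 4) (by positivity) K₀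
  refine ⟨K₀, fun K hK => ?_⟩
  set T' : ℝ := |A| + |B| + |C| + q₀ + 1 with hT'
  have hs₁ := shift_ev (n := n) (b := 2 ^ K) (by positivity) hepos
  have hs₂ : Ev (n := n) Fr fun _ u₁ u₂ => u₁ ≤ 1 / 100000 * u₂ :=
    ev_of ⟨∅, 1, 1 / 100000, 0, one_pos, by norm_num, fun _ _ _ _ _ _ h2 _ => h2⟩
  refine Ev.mono (Ev.and hR (Ev.and hs₁ hs₂)) (max (U0 n) T') ?_
  rintro μ hp hA u₁ u₂ hUU ⟨hR, hS, hu12⟩ i j k hij hjk hik
  have hU : U0 n ≤ u₁ := (le_max_left _ _).trans hUU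
  have hT'u : T' ≤ u₁ := (le_max_right _ _).trans hUU
  have hT'pos : 0 < T' := by positivity
  have hT'2 : u₂ / 10000 + T' ≤ u₂ / 6000 := by linarith
  obtain ⟨t₁, t₂, t₃, h₁, h₂, h₃, hb₁, hb₂, hb₃, hI⟩ := hR i j k hij hjk hik
  have hc1 : 20 * c1N n ≤ u₁ := (le_max_left _ _).trans hU
  have hu0 : 0 ≤ u₁ := (le_max_right _ _).trans hU
  have hm : ∀ (K : ℕ) (i j : Fin n), Measurable (PZ μ u₁ (2 ^ K) i j) := fun K i j => by
    have : NeZero (2 ^ K) := ⟨by positivity⟩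
    exact NScH_395.measurable_PZ hc1 hu0 _ i j
  have h0 : ∀ (K : ℕ) (i j : Fin n) x, 0 ≤ PZ μ u₁ (2 ^ K) i j x := fun K i j x => by
    have : NeZero (2 ^ K) := ⟨by positivity⟩
    exact NScH_395.PZ_nonneg hc1 hu0 _ i j x
  have h2 : ∀ (K : ℕ) (i j : Fin n) x, PZ μ u₁ (2 ^ K) i j x ≤ 2 := fun K i j x => by
    have : NeZero (2 ^ K) := ⟨by positivity⟩
    exact NScH_395.PZ_le hc1 hu0 _ i j x
  have hact : ∀ t : Fin n → ℝ, Measurable fun x : ModSpace n => act x (aT t) := fun t =>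
    Top1_458.measurable_act _
  have hact' : ∀ t : Fin n → ℝ, MeasurePreserving (fun x : ModSpace n => act x (aT t)) μ μ :=
    fun t => ⟨hact t, hA t⟩
  -- the base shift
  set s : Fin n → ℝ := fun l => if l = i then A - q₀ else if l = k then -(B - q₀) else 0 with hsdef
  have hsi : s i = A - q₀ := by simp [hsdef]
  have hsk : s k = -(B - q₀) := by simp [hsdef, hik.symm]
  have hsj : s j = 0 := by simp [hsdef, hij.symm, hjk]
  have hsb : ∀ l, |s l| ≤ |A| + |B| + q₀ := by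
    intro l
    have hq0 : (0 : ℝ) ≤ q₀ := Nat.cast_nonneg _
    simp only [hsdef]
    split_ifs
    · have := abs_sub A (q₀ : ℝ)
      rw [abs_of_nonneg hq0] at this
      linarith [abs_nonneg B]
    · rw [abs_neg]
      have := abs_sub B (q₀ : ℝ)
      rw [abs_of_nonneg hq0] at this
      linarith [abs_nonneg A]
    · rw [abs_zero]; positivity
  -- single shift
  have hcast : ∀ (a : Fin n), (fun l => -(((Pi.single a (q₀ : ℤ) : Fin n → ℤ) l : ℤ) : ℝ)) =
      fun l => if l = a then -(q₀ : ℝ) else 0 := by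
    intro a
    funext l
    by_cases hl : l = a
    · subst hl; simp
    · simp [hl]
  have hu2pos : 0 ≤ u₂ := by linarith
  have hqb : ∀ (a l : Fin n), |(fun l => if l = a then -(q₀ : ℝ) else 0) l| ≤ u₂ / 6000 := by
    intro a l
    have hq0 : (0 : ℝ) ≤ q₀ := Nat.cast_nonneg _
    simp only
    split_ifs
    · rw [abs_neg, abs_of_nonneg hq0]
      linarith [abs_nonneg A, abs_nonneg B, abs_nonneg C]
    · rw [abs_zero]; positivity
  have hstb : ∀ t : Fin n → ℝ, (∀ l, |t l| ≤ u₂ / 10000) → ∀ l, |(s + t) l| ≤ u₂ / 6000 := by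
    intro t ht l
    rw [Pi.add_apply]
    have h3 := abs_add_le (s l) (t l)
    have hq0 : (0 : ℝ) ≤ q₀ := Nat.cast_nonneg _
    linarith [hsb l, ht l, abs_nonneg A, abs_nonneg B, abs_nonneg C]
  -- comparison of one function
  have hcmp : ∀ (K' : ℕ), K₀ ≤ K' → ∀ (a b : Fin n), a ≠ b → ∀ t : Fin n → ℝ,
      (∀ l, |t l| ≤ u₂ / 10000) → (s + t) a - (s + t) b = -(q₀ : ℝ) →
      ∫ x, |atq q₀ (PZ μ u₁ (2 ^ K)) a b x - PZ μ u₁ (2 ^ K') a b (act x (aT (s + t)))| ∂μ
        ≤ 2 * e := by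
    intro K' hK' a b hab t ht htab
    have h3 := hS a b hab (fun l => if l = a then -(q₀ : ℝ) else 0) (s + t)
      (by rw [htab]; simp [hab.symm]) (hqb a) (hstb t ht)
    have h4 : ∀ x : ModSpace n, atq q₀ (PZ μ u₁ (2 ^ K)) a b x =
        PZ μ u₁ (2 ^ K) a b (act x (aT fun l => if l = a then -(q₀ : ℝ) else 0)) := by
      intro x
      unfold atq
      rw [tz_eq, hcast a]
    have h5 : ∀ᵐ x ∂μ, |PZ μ u₁ (2 ^ K) a b (act x (aT (s + t))) -
        PZ μ u₁ (2 ^ K') a b (act x (aT (s + t)))| ≤ e := by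
      have h6 := Res_460.pz_res' (μ := μ) hU hK hK' a b
      have h7 := (hact' (s + t)).quasiMeasurePreserving.ae h6
      filter_upwards [h7] with x hx
      exact hx.trans hres
    have hi : Integrable (fun x => |PZ μ u₁ (2 ^ K) a b
        (act x (aT fun l => if l = a then -(q₀ : ℝ) else 0)) -
        PZ μ u₁ (2 ^ K) a b (act x (aT (s + t)))|) μ := by
      refine Integrable.of_bound ((((hm K a b).comp (hact _)).sub
        ((hm K a b).comp (hact _))).abs).aestronglyMeasurable 2 (Eventually.of_forall fun x => ?_)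
      rw [Real.norm_eq_abs, abs_abs, abs_le]
      constructor <;> linarith [h0 K a b (act x (aT fun l => if l = a then -(q₀ : ℝ) else 0)),
        h2 K a b (act x (aT fun l => if l = a then -(q₀ : ℝ) else 0)),
        h0 K a b (act x (aT (s + t))), h2 K a b (act x (aT (s + t)))]
    have h8 : ∫ x, |atq q₀ (PZ μ u₁ (2 ^ K)) a b x - PZ μ u₁ (2 ^ K') a b (act x (aT (s + t)))| ∂μ
        ≤ ∫ x, (|PZ μ u₁ (2 ^ K) a b (act x (aT fun l => if l = a then -(q₀ : ℝ) else 0)) -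
          PZ μ u₁ (2 ^ K) a b (act x (aT (s + t)))| + e) ∂μ := by
      refine integral_mono_of_nonneg (Eventually.of_forall fun x => abs_nonneg _)
        (hi.add (integrable_const _)) ?_
      filter_upwards [h5] with x hx
      rw [h4]
      exact (abs_sub_le _ _ _).trans (add_le_add le_rfl hx)
    refine h8.trans ?_
    rw [integral_add hi (integrable_const _)]
    have h9 : ∫ _ : ModSpace n, e ∂μ = e := by simp
    rw [h9]
    linarith
  have e1 := hcmp K₁ hK₁ i j hij t₁ hb₁ (by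
    simp only [Pi.add_apply, hsi, hsj]; linarith)
  have e2 := hcmp K₂ hK₂ j k hjk t₂ hb₂ (by
    simp only [Pi.add_apply, hsk, hsj]; linarith)
  have e3 := hcmp K₃ hK₃ i k hik t₃ hb₃ (by
    simp only [Pi.add_apply, hsi, hsk]; linarith)
  -- the integral of (R) at the shifted point
  have hmI : Measurable fun x => max 0 (c₂ * PZ μ u₁ (2 ^ K₁) i j (act x (aT t₁)) *
      PZ μ u₁ (2 ^ K₂) j k (act x (aT t₂)) - PZ μ u₁ (2 ^ K₃) i k (act x (aT t₃))) :=
    measurable_const.max (((measurable_const.mul ((hm _ _ _).comp (hact _))).mul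
      ((hm _ _ _).comp (hact _))).sub ((hm _ _ _).comp (hact _)))
  have hI' : ∫ x, max 0 (c₂ * PZ μ u₁ (2 ^ K₁) i j (act x (aT (s + t₁))) *
      PZ μ u₁ (2 ^ K₂) j k (act x (aT (s + t₂))) - PZ μ u₁ (2 ^ K₃) i k (act x (aT (s + t₃)))) ∂μ
        ≤ e₁ / 4 := by
    have h3 : ∫ x, max 0 (c₂ * PZ μ u₁ (2 ^ K₁) i j (act (act x (aT s)) (aT t₁)) *
        PZ μ u₁ (2 ^ K₂) j k (act (act x (aT s)) (aT t₂)) -
        PZ μ u₁ (2 ^ K₃) i k (act (act x (aT s)) (aT t₃))) ∂μ =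
        ∫ x, max 0 (c₂ * PZ μ u₁ (2 ^ K₁) i j (act x (aT t₁)) *
          PZ μ u₁ (2 ^ K₂) j k (act x (aT t₂)) - PZ μ u₁ (2 ^ K₃) i k (act x (aT t₃))) ∂μ :=
      integral_aT hA s hmI
    simp only [act_aT_add]
    rw [h3]
    exact hI
  -- integrability
  have hia : ∀ (K' : ℕ) (a b : Fin n) (t : Fin n → ℝ), Integrable (fun x =>
      |atq q₀ (PZ μ u₁ (2 ^ K)) a b x - PZ μ u₁ (2 ^ K') a b (act x (aT (s + t)))|) μ := by
    intro K' a b t
    have hma : Measurable (atq q₀ (PZ μ u₁ (2 ^ K)) a b) := (hm K a b).comp (measurable_tz _)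
    refine Integrable.of_bound ((hma.sub ((hm K' a b).comp (hact _))).abs).aestronglyMeasurable 2
      (Eventually.of_forall fun x => ?_)
    rw [Real.norm_eq_abs, abs_abs, abs_le]
    unfold atq
    constructor <;> linarith [h0 K a b (tz (Pi.single a (q₀ : ℤ)) x),
      h2 K a b (tz (Pi.single a (q₀ : ℤ)) x), h0 K' a b (act x (aT (s + t))),
      h2 K' a b (act x (aT (s + t)))]
  have hib : Integrable (fun x => max 0 (c₂ * PZ μ u₁ (2 ^ K₁) i j (act x (aT (s + t₁))) *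
      PZ μ u₁ (2 ^ K₂) j k (act x (aT (s + t₂))) -
      PZ μ u₁ (2 ^ K₃) i k (act x (aT (s + t₃))))) μ := by
    have hmm : Measurable fun x => max 0 (c₂ * PZ μ u₁ (2 ^ K₁) i j (act x (aT (s + t₁))) *
        PZ μ u₁ (2 ^ K₂) j k (act x (aT (s + t₂))) -
        PZ μ u₁ (2 ^ K₃) i k (act x (aT (s + t₃)))) :=
      measurable_const.max (((measurable_const.mul ((hm _ _ _).comp (hact _))).mul
        ((hm _ _ _).comp (hact _))).sub ((hm _ _ _).comp (hact _)))
    refine Integrable.of_bound hmm.aestronglyMeasurable (c₂ * 4 + 2)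
      (Eventually.of_forall fun x => ?_)
    rw [Real.norm_eq_abs, abs_of_nonneg (le_max_left _ _)]
    have g1 := h0 K₁ i j (act x (aT (s + t₁)))
    have g2 := h2 K₁ i j (act x (aT (s + t₁)))
    have g3 := h0 K₂ j k (act x (aT (s + t₂)))
    have g4 := h2 K₂ j k (act x (aT (s + t₂)))
    have g5 := h0 K₃ i k (act x (aT (s + t₃)))
    refine max_le (by positivity) ?_
    have h6 : c₂ * PZ μ u₁ (2 ^ K₁) i j (act x (aT (s + t₁))) *
        PZ μ u₁ (2 ^ K₂) j k (act x (aT (s + t₂))) ≤ c₂ * 4 := by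
      rw [mul_assoc]
      refine mul_le_mul_of_nonneg_left ?_ hc₂.le
      nlinarith
    linarith
  -- conclusion
  have hfin : ∫ x, max 0 (c₂ * atq q₀ (PZ μ u₁ (2 ^ K)) i j x * atq q₀ (PZ μ u₁ (2 ^ K)) j k x -
      atq q₀ (PZ μ u₁ (2 ^ K)) i k x) ∂μ ≤
      ∫ x, (max 0 (c₂ * PZ μ u₁ (2 ^ K₁) i j (act x (aT (s + t₁))) *
        PZ μ u₁ (2 ^ K₂) j k (act x (aT (s + t₂))) - PZ μ u₁ (2 ^ K₃) i k (act x (aT (s + t₃)))) +
        (2 * c₂ * (|atq q₀ (PZ μ u₁ (2 ^ K)) i j x - PZ μ u₁ (2 ^ K₁) i j (act x (aT (s + t₁)))| +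
          |atq q₀ (PZ μ u₁ (2 ^ K)) j k x - PZ μ u₁ (2 ^ K₂) j k (act x (aT (s + t₂)))|) +
          |atq q₀ (PZ μ u₁ (2 ^ K)) i k x - PZ μ u₁ (2 ^ K₃) i k (act x (aT (s + t₃)))|)) ∂μ := by
    refine integral_mono_of_nonneg (Eventually.of_forall fun x => le_max_left _ _)
      (hib.add ((((hia K₁ i j t₁).add (hia K₂ j k t₂)).const_mul _).add (hia K₃ i k t₃)))
      (Eventually.of_forall fun x => ?_)
    exact lip hc₂.le (h0 _ _ _ _) (h2 _ _ _ _) (h0 _ _ _ _) (h2 _ _ _ _)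
  refine hfin.trans ?_
  rw [int_split (2 * c₂) hib (hia K₁ i j t₁) (hia K₂ j k t₂) (hia K₃ i k t₃)]
  have h10 : 16 * (c₂ + 1) * e = e₁ := by rw [he]; field_simp
  have h11 := mul_le_mul_of_nonneg_left (add_le_add e1 e2) (mul_nonneg zero_le_two hc₂.le)
  nlinarith [hc₂.le, hepos.le, h11, hI', e3]

end Crest.Agent.R014.Q2c_460
end

-- ▼ part R014/RAs2_460

/-!
# Row 14, block D, (R): from the three inequalities of #5017 to (Q2) (helper460)

`RInp n`: for every error and number of digits, along the nearly constant scales, a noise space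
`(Q, ν)` with the functions `ST`, `R` on `ModSpace n × Q` such that (A) the Heisenberg inequality in
the mean, (B) `E [ST | x]` close to `2⁻⁸ Ψ_ij Ψ_jk`, (C) `E [R | x]` close to `2⁻⁴ Ψ_ik`, all three
windows at depth `4`.  `q2_of_inp : RInp n → Q2 PZ Fr (2⁻¹⁰) 4`.
-/

set_option autoImplicit false

open MeasureTheory Filter Topology
open Crest.NumberTheoryR.Packets
open Crest.Agent.R014.Iface_792
open Crest.Agent.R014.Nd_837
open Crest.Agent.R014.DSkel_792
open Crest.Agent.R014.AsmB_460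
open Crest.Agent.R014.AsmB2_460
open Crest.Agent.R014.Q2c_460
open Crest.Agent.R014.NScH_395 (PZ NC c1N)

namespace Crest.Agent.R014.RAs2_460

/-- the three inequalities for one measure, one triple of indices, one pair of scales. -/
def Inp {n : ℕ} (μ : Measure (ModSpace n)) (u₁ u₂ e : ℝ) (K₁ K₂ K₃ : ℕ) (i j k : Fin n) : Prop :=
  ∃ t₁ t₂ t₃ : Fin n → ℝ, t₁ i - t₁ j = -4 ∧ t₂ j - t₂ k = -4 ∧ t₃ i - t₃ k = -4 ∧
    (∀ l, |t₁ l| ≤ u₂ / 10000) ∧ (∀ l, |t₂ l| ≤ u₂ / 10000) ∧ (∀ l, |t₃ l| ≤ u₂ / 10000) ∧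
    ∃ (Q : Type) (_ : MeasurableSpace Q) (ν : Measure Q) (ST R : ModSpace n × Q → ℝ),
      IsProbabilityMeasure ν ∧ Measurable ST ∧ Measurable R ∧ (∀ p, |ST p| ≤ 4) ∧ (∀ p, |R p| ≤ 4) ∧
      ∫ p, max 0 (1 / 64 * ST p - R p) ∂(μ.prod ν) ≤ e ∧
      ∫ x, |∫ q, ST (x, q) ∂ν - (1 / 2 ^ 8) * (PZ μ u₁ (2 ^ K₁) i j (act x (aT t₁)) *
        PZ μ u₁ (2 ^ K₂) j k (act x (aT t₂)))| ∂μ ≤ e ∧
      ∫ x, |∫ q, R (x, q) ∂ν - (1 / 2 ^ 4) * PZ μ u₁ (2 ^ K₃) i k (act x (aT t₃))| ∂μ ≤ e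

/-- the input. -/
def RInp (n : ℕ) : Prop :=
  ∀ e : ℝ, 0 < e → ∀ K₀ : ℕ, ∃ K₁ K₂ K₃ : ℕ, K₀ ≤ K₁ ∧ K₀ ≤ K₂ ∧ K₀ ≤ K₃ ∧
    Ev (n := n) Fr fun μ u₁ u₂ => ∀ i j k : Fin n, i ≠ j → j ≠ k → i ≠ k →
      Inp μ u₁ u₂ e K₁ K₂ K₃ i j k

theorem hr_of_inp {n : ℕ} (h : RInp n) : HR n (1 / 2 ^ 10) 4 4 4 := by
  intro e₁ he₁ K₀
  obtain ⟨K₁, K₂, K₃, h₁, h₂, h₃, hE⟩ := h (e₁ / 64) (by positivity) K₀
  refine ⟨K₁, K₂, K₃, h₁, h₂, h₃, Ev.mono hE (U0 n) ?_⟩
  intro μ hp hA u₁ u₂ hU hI i j k hij hjk hik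
  obtain ⟨t₁, t₂, t₃, a₁, a₂, a₃, b₁, b₂, b₃, Q, mQ, ν, ST, R, hν, mST, mR, bST, bR, iA, iB, iC⟩ :=
    hI i j k hij hjk hik
  refine ⟨t₁, t₂, t₃, a₁, a₂, a₃, b₁, b₂, b₃, ?_⟩
  have hc1 : 20 * c1N n ≤ u₁ := (le_max_left _ _).trans hU
  have hu0 : 0 ≤ u₁ := (le_max_right _ _).trans hU
  have hm : ∀ (K : ℕ) (i j : Fin n), Measurable (PZ μ u₁ (2 ^ K) i j) := fun K i j => by
    have : NeZero (2 ^ K) := ⟨by positivity⟩
    exact NScH_395.measurable_PZ hc1 hu0 _ i j
  have h0 : ∀ (K : ℕ) (i j : Fin n) x, 0 ≤ PZ μ u₁ (2 ^ K) i j x := fun K i j x => by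
    have : NeZero (2 ^ K) := ⟨by positivity⟩
    exact NScH_395.PZ_nonneg hc1 hu0 _ i j x
  have h2 : ∀ (K : ℕ) (i j : Fin n) x, PZ μ u₁ (2 ^ K) i j x ≤ 2 := fun K i j x => by
    have : NeZero (2 ^ K) := ⟨by positivity⟩
    exact NScH_395.PZ_le hc1 hu0 _ i j x
  have hact : ∀ t : Fin n → ℝ, Measurable fun x : ModSpace n => act x (aT t) := fun t =>
    Top1_458.measurable_act _
  have key := RAs_460.final_ineq (μ := μ) (ν := ν) (ST := ST) (R := R) mST mR (M := 4) bST bR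
    (g := fun x => PZ μ u₁ (2 ^ K₁) i j (act x (aT t₁)) * PZ μ u₁ (2 ^ K₂) j k (act x (aT t₂)))
    (c := fun x => PZ μ u₁ (2 ^ K₃) i k (act x (aT t₃)))
    (((hm _ _ _).comp (hact _)).mul ((hm _ _ _).comp (hact _))) ((hm _ _ _).comp (hact _))
    (fun x => by
      rw [abs_mul, abs_of_nonneg (h0 _ _ _ _), abs_of_nonneg (h0 _ _ _ _)]
      have g1 := h0 K₁ i j (act x (aT t₁))
      have g2 := h2 K₁ i j (act x (aT t₁))
      have g3 := h0 K₂ j k (act x (aT t₂))
      have g4 := h2 K₂ j k (act x (aT t₂))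
      nlinarith)
    (fun x => by
      rw [abs_of_nonneg (h0 _ _ _ _)]
      linarith [h2 K₃ i k (act x (aT t₃))])
    (θ := 1 / 64) (σ := 1 / 2 ^ 8) (ρ := 1 / 2 ^ 4) (by norm_num) (by norm_num) (by norm_num)
    iA iB iC
  have e1 : ∀ x : ModSpace n, 1 / 2 ^ 10 * PZ μ u₁ (2 ^ K₁) i j (act x (aT t₁)) *
      PZ μ u₁ (2 ^ K₂) j k (act x (aT t₂)) = 1 / 64 * (1 / 2 ^ 8) / (1 / 2 ^ 4) *
      (PZ μ u₁ (2 ^ K₁) i j (act x (aT t₁)) * PZ μ u₁ (2 ^ K₂) j k (act x (aT t₂))) := by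
    intro x
    ring
  simp_rw [e1]
  refine key.trans ?_
  rw [div_le_iff₀ (by norm_num)]
  linarith

/-- **(Q2) from the three inequalities**. -/
theorem q2_of_inp {n : ℕ} (h : RInp n) : Q2 (n := n) PZ Fr (1 / 2 ^ 10) 4 :=
  q2_of_hr (by norm_num) (by norm_num) (hr_of_inp h)

end Crest.Agent.R014.RAs2_460
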