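import Crest.Agent.R014.Conv2_792
import Crest.Agent.R014.AsmB2_460
import Crest.Agent.R014.DEnd6b_71
import Crest.Agent.R014.Gap_640
import Crest.Agent.R014.Nh4_849
import Crest.Agent.R014.HSp_599
import Crest.Agent.R014.HR3s2_108
import Crest.Agent.R014.ClF3_599
import Crest.Agent.R014.Nh2_849
import Crest.Agent.R014.NScC_395
import Crest.Agent.R014.NScD_395
import Crest.Agent.R014.Sw1_640
import Crest.Agent.R014.Prod3_108
import Crest.Agent.R014.RAs2_460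

-- ▼ part R014/Conv3_792
section

/-!
# Row 14, block D, board item D10 (helper792): CONV for helper460's `AsmB2_460.PSr`
-/

set_option autoImplicit false

open MeasureTheory Crest.NumberTheoryR.Packets
open Crest.Agent.R014.Iface_792 Crest.Agent.R014.AsmB2_460 Crest.Agent.R014.Nd_837
open Crest.Agent.R014.NScH_395

noncomputable section

namespace Crest.Agent.R014.Conv3_792

variable {n : ℕ}

/-- **CONV** for `PSr`: the literal shape `Q3f_433.Conv PSr`. -/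
theorem conv_psr (q : ℕ) :
    ∃ (K₀ : ℕ) (U : ℝ), ∀ K : ℕ, K₀ ≤ K → ∀ μ : Measure (ModSpace n), IsProbabilityMeasure μ →
      AInv μ → ∀ u : ℝ, U ≤ u → ∀ i j : Fin n, i ≠ j → ∃ V : ModSpace n → ℝ, Integrable V μ ∧
        (∀ x, 0 ≤ V x) ∧ ∫ x, V x ∂μ ≤ (1 / 2) ^ q ∧
        ∀ᵐ x ∂μ, PSr μ u 2 i j x ≤ 2 ^ q * PSr μ u (2 ^ K) i j x + V x := by
  obtain ⟨K₀, U, h⟩ := Conv2_792.conv_PS (noiseFam n) q
  refine ⟨K₀, max U (U0 n), fun K hK μ hμ hA u hu i j hij => ?_⟩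
  have hu1 : U ≤ u := (le_max_left _ _).trans hu
  have hu2 : U0 n ≤ u := (le_max_right _ _).trans hu
  rw [psr_eq hu2 two_pos, psr_eq hu2 (pow_pos two_pos K)]
  exact h K hK μ hμ hA u hu1 i j hij

end Crest.Agent.R014.Conv3_792
end
end

-- ▼ part R014/DEnd6c_71
section

/-!
# Row 14, block D, END, final form (helper71): `AsmB_460.End' PZ Fr` and `End' PSr Fr`
-/

set_option autoImplicit false

open MeasureTheory
open Crest.NumberTheoryR.Packets

namespace Crest.Agent.R014.DEnd6_71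

theorem gapSt (n : ℕ) : GapSt n := by
  intro b hb η' hη'
  obtain ⟨η, U, D0, hη, _, _, h⟩ := Gap_640.gap (n := n) hb hb hη'
  refine ⟨η, U, D0, hη, fun μ hp hA u1 u2 M W h1 h2 h3 hN j k l hjk hkl hjl γ hγ hD => ?_⟩
  have hN' : NScH_395.NC μ u1 u2 {b, b} η := by
    rw [Finset.pair_eq_singleton]; exact hN
  have hW : 0 ≤ W := (abs_nonneg γ).trans hγ
  exact h μ hp hA u1 u2 M W h1 h2 h3 hN' j k l hjk hkl hjl 0 0 γ (by rw [abs_zero]; exact hW)
    (by rw [abs_zero]; exact hW) hγ (by linarith)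

/-- **END.** -/
theorem endZ {n : ℕ} (hn : 3 ≤ n) : AsmB_460.End' (n := n) NScH_395.PZ AsmB2_460.Fr :=
  end_st hn (gapSt n)

/-- **END**, in the form consumed by `AsmB2_460.thmB_of`. -/
theorem endR {n : ℕ} (hn : 3 ≤ n) : AsmB_460.End' (n := n) AsmB2_460.PSr AsmB2_460.Fr :=
  AsmB2_460.end_of (endZ hn)

end Crest.Agent.R014.DEnd6_71
end

-- ▼ part R014/Nh5_849
section

/-!
Row 14, block D (noise formalism), section 4: input (A) of `RAs2_460.Inp` on the space of `HSp_599`.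
-/

set_option autoImplicit false
set_option linter.unusedSectionVars false

namespace Crest.Agent.R014.Nh5_849

open MeasureTheory Finset Crest.NumberTheoryR.Packets
open scoped ENNReal
open Crest.Agent.R014.Ne1_567 Crest.Agent.R014.Ne2_567 Crest.Agent.R014.Ne3_567
open Crest.Agent.R014.Ne4_567 Crest.Agent.R014.Nh2_849 Crest.Agent.R014.Nh4_849
open Crest.Agent.R014.Nd_837 (cen uni)
open Crest.Agent.R014.NScC_395 (spr spr_nonneg spr_le)
open Crest.Agent.R014.HSp_599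

noncomputable section

variable {n : ℕ} {j k l : Fin n}

/-! ### a.e. ranges -/

section ae

variable (μ : Measure (ModSpace n)) (κ : Measure (SLR n)) [IsProbabilityMeasure μ]
  [IsProbabilityMeasure κ]

theorem ae_tt : ∀ᵐ ω ∂PM μ κ, -1 ≤ tt ω ∧ tt ω < 1 :=
  Measure.quasiMeasurePreserving_snd.ae (Measure.quasiMeasurePreserving_snd.ae
    (Measure.quasiMeasurePreserving_fst.ae uni_ae_lt))

theorem ae_ss : ∀ᵐ ω ∂PM μ κ, -1 ≤ ss ω ∧ ss ω < 1 :=
  Measure.quasiMeasurePreserving_snd.ae (Measure.quasiMeasurePreserving_snd.ae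
    (Measure.quasiMeasurePreserving_snd.ae (Measure.quasiMeasurePreserving_fst.ae uni_ae_lt)))

theorem ae_rr : ∀ᵐ ω ∂PM μ κ, -1 ≤ rr ω ∧ rr ω < 1 :=
  Measure.quasiMeasurePreserving_snd.ae (Measure.quasiMeasurePreserving_snd.ae
    (Measure.quasiMeasurePreserving_snd.ae (Measure.quasiMeasurePreserving_snd.ae uni_ae_lt)))

end ae

/-! ### the two functions -/

section defs

variable (μ : Measure (ModSpace n)) (κ : Measure (SLR n)) (hjk : j ≠ k) (hkl : k ≠ l) (hjl : j ≠ l)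
  (γ : ℝ) (bs bt b N : ℕ) [NeZero bs] [NeZero bt] [NeZero b] [NeZero N]

/-- product of the mean distances of `2⁻⁴ s` and `2⁻⁴ t` under the posteriors given `z` -/
def ST (ω : Om n) : ℝ :=
  spr (fun c => 1 / 16 * cen bs c) (fun c => pv (rv (PM μ κ) (fun ω => dg bs (ss ω))
      (zz hjk hkl hjl 4 4 γ)) c (zz hjk hkl hjl 4 4 γ ω)) *
    spr (fun c => 1 / 16 * cen bt c) (fun c => pv (rv (PM μ κ) (fun ω => dg bt (tt ω))
      (zz hjk hkl hjl 4 4 γ)) c (zz hjk hkl hjl 4 4 γ ω))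

/-- mean distance of the fine part of `r` given `z`, the digit of `s`, the block -/
def RR (ω : Om n) : ℝ :=
  1 / 16 * spr (cen b) (fun c => pv (rv (PM μ κ) (fun ω => dg b (sb N (rr ω)))
      (fun ω => ((zz hjk hkl hjl 4 4 γ ω, dg bs (ss ω)), dg N (rr ω)))) c
      ((zz hjk hkl hjl 4 4 γ ω, dg bs (ss ω)), dg N (rr ω)))

end defs

theorem measurable_spr {A Y : Type*} [Fintype A] [MeasurableSpace Y] {w : Y → A → ℝ}
    (hw : ∀ a, Measurable fun y => w y a) (x : A → ℝ) : Measurable fun y => spr x (w y) :=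
  Nh3_849.measurable_mdist hw x

section props

variable (μ : Measure (ModSpace n)) (κ : Measure (SLR n)) (hjk : j ≠ k) (hkl : k ≠ l) (hjl : j ≠ l)
  (γ : ℝ) (bs bt b N : ℕ) [NeZero bs] [NeZero bt] [NeZero b] [NeZero N]

theorem measurable_ST : Measurable (ST μ κ hjk hkl hjl γ bs bt) := by
  have h1 : Measurable fun y => spr (fun c => 1 / 16 * cen bs c) (fun c => pv (rv (PM μ κ)
      (fun ω => dg bs (ss ω)) (zz hjk hkl hjl 4 4 γ)) c y) :=
    measurable_spr (fun c => measurable_pv _ c) _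
  have h2 : Measurable fun y => spr (fun c => 1 / 16 * cen bt c) (fun c => pv (rv (PM μ κ)
      (fun ω => dg bt (tt ω)) (zz hjk hkl hjl 4 4 γ)) c y) :=
    measurable_spr (fun c => measurable_pv _ c) _
  have h3 := (h1.comp (measurable_zz hjk hkl hjl 4 4 γ)).mul (h2.comp (measurable_zz hjk hkl hjl 4 4 γ))
  exact h3

theorem measurable_obs : Measurable fun ω : Om n =>
    ((zz hjk hkl hjl 4 4 γ ω, dg bs (ss ω)), dg N (rr ω)) :=
  ((measurable_zz hjk hkl hjl 4 4 γ).prodMk ((measurable_dg bs).comp measurable_ss)).prodMk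
    ((measurable_dg N).comp measurable_rr)

theorem measurable_RR : Measurable (RR μ κ hjk hkl hjl γ bs b N) := by
  have h1 : Measurable fun y => spr (cen b) (fun c => pv (rv (PM μ κ) (fun ω => dg b (sb N (rr ω)))
      (fun ω => ((zz hjk hkl hjl 4 4 γ ω, dg bs (ss ω)), dg N (rr ω)))) c y) :=
    measurable_spr (fun c => measurable_pv _ c) _
  have h3 := (h1.comp (measurable_obs hjk hkl hjl γ bs N)).const_mul (1 / 16)
  exact h3

theorem spr_bd (m : ℕ) [NeZero m] {Y : Type*} [MeasurableSpace Y] (ρ : Fin m → Measure Y) (y : Y) :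
    0 ≤ spr (fun c => 1 / 16 * cen m c) (fun c => pv ρ c y) ∧
      spr (fun c => 1 / 16 * cen m c) (fun c => pv ρ c y) ≤ 1 / 8 := by
  refine ⟨spr_nonneg (fun c => pv_nonneg _ _ _), spr_le (fun c c' => ?_) (fun c => pv_nonneg _ _ _)
    (sum_pv _ _)⟩
  rw [← mul_sub, abs_mul, abs_of_pos (by norm_num : (0:ℝ) < 1 / 16)]
  have h1 := abs_cen_lt c
  have h2 := abs_cen_lt c'
  have h3 := abs_sub (cen m c) (cen m c')
  linarith

theorem abs_ST_le (ω : Om n) : |ST μ κ hjk hkl hjl γ bs bt ω| ≤ 4 := by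
  have h1 := spr_bd bs (rv (PM μ κ) (fun ω => dg bs (ss ω)) (zz hjk hkl hjl 4 4 γ)) (zz hjk hkl hjl 4 4 γ ω)
  have h2 := spr_bd bt (rv (PM μ κ) (fun ω => dg bt (tt ω)) (zz hjk hkl hjl 4 4 γ)) (zz hjk hkl hjl 4 4 γ ω)
  unfold ST
  rw [abs_mul, abs_of_nonneg h1.1, abs_of_nonneg h2.1]
  nlinarith [h1.1, h1.2, h2.1, h2.2]

theorem abs_RR_le (ω : Om n) : |RR μ κ hjk hkl hjl γ bs b N ω| ≤ 4 := by
  have h1 : 0 ≤ spr (cen b) (fun c => pv (rv (PM μ κ) (fun ω => dg b (sb N (rr ω)))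
      (fun ω => ((zz hjk hkl hjl 4 4 γ ω, dg bs (ss ω)), dg N (rr ω)))) c
      ((zz hjk hkl hjl 4 4 γ ω, dg bs (ss ω)), dg N (rr ω))) := spr_nonneg (fun c => pv_nonneg _ _ _)
  have h2 : spr (cen b) (fun c => pv (rv (PM μ κ) (fun ω => dg b (sb N (rr ω)))
      (fun ω => ((zz hjk hkl hjl 4 4 γ ω, dg bs (ss ω)), dg N (rr ω)))) c
      ((zz hjk hkl hjl 4 4 γ ω, dg bs (ss ω)), dg N (rr ω))) ≤ 2 := by
    refine spr_le (fun c c' => ?_) (fun c => pv_nonneg _ _ _) (sum_pv _ _)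
    have h1 := abs_cen_lt c
    have h2 := abs_cen_lt c'
    have h3 := abs_sub (cen b c) (cen b c')
    linarith
  unfold RR
  rw [abs_mul, abs_of_pos (by norm_num : (0:ℝ) < 1 / 16), abs_of_nonneg h1]
  linarith

end props

/-! ### (A) -/

section A

variable (μ : Measure (ModSpace n)) (κ : Measure (SLR n)) [IsProbabilityMeasure μ]
  [IsProbabilityMeasure κ] (hjk : j ≠ k) (hkl : k ≠ l) (hjl : j ≠ l)
  (w0 bs bt b : ℕ) [NeZero bs] [NeZero bt] [NeZero b]

/-- (A), from the two near independences given `z`. -/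
theorem inA (hbs : b ≤ bs) (hbt : b ≤ bt) {η1 η2 : ℝ}
    (hη1 : HH (PM μ κ) (fun ω => dg bt (tt ω)) (zz hjk hkl hjl 4 4 (-(w0:ℝ)))
      - HH (PM μ κ) (fun ω => dg bt (tt ω)) (fun ω => (zz hjk hkl hjl 4 4 (-(w0:ℝ)) ω, (ss ω, rr ω))) ≤ η1)
    (hη2 : HH (PM μ κ) (fun ω => dg bs (ss ω)) (zz hjk hkl hjl 4 4 (-(w0:ℝ)))
      - HH (PM μ κ) (fun ω => dg bs (ss ω)) (fun ω => (zz hjk hkl hjl 4 4 (-(w0:ℝ)) ω,
        (tt ω, rp 4 4 (-(w0:ℝ)) ω))) ≤ η2) :
    ∫ ω, max 0 (1 / 64 * ST μ κ hjk hkl hjl (-(w0:ℝ)) bs bt ω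
        - RR μ κ hjk hkl hjl (-(w0:ℝ)) bs b (2^(w0+4)) ω) ∂(PM μ κ)
      ≤ 1 / 32 * (√η1 + √η2) + 1 / (8 * b) := by
  have hb0 : 0 < b := NeZero.pos b
  have hb : (0:ℝ) < b := by exact_mod_cast hb0
  set N : ℕ := 2^(w0+4) with hN
  have hNr : (N:ℝ) = (2:ℝ)^(w0+4) := by rw [hN]; push_cast; rfl
  have hNpos : (0:ℝ) < N := by rw [hNr]; positivity
  set m : ℕ := 2 * N * b with hm
  have : NeZero m := ⟨by
    rw [hm]
    exact mul_ne_zero (mul_ne_zero two_ne_zero (NeZero.ne N)) (NeZero.ne b)⟩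
  set z := zz (n := n) hjk hkl hjl 4 4 (-(w0:ℝ)) with hz
  have mz : Measurable z := measurable_zz hjk hkl hjl 4 4 _
  have hpow : (2:ℝ)^(-(w0:ℝ) - 4 - 4) = (16 * (N:ℝ))⁻¹ := by
    rw [hNr, show (-(w0:ℝ) - 4 - 4) = -((w0:ℝ) + 8) by ring, Real.rpow_neg two_pos.le]
    congr 1
    rw [show ((w0:ℝ) + 8) = ((w0 + 8 : ℕ) : ℝ) by push_cast; ring, Real.rpow_natCast]
    rw [show (16:ℝ) = 2^4 by norm_num, ← pow_add]
    congr 1
    ring
  have hpow1 : (16 * (N:ℝ))⁻¹ ≤ 1 := by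
    refine inv_le_one_of_one_le₀ ?_
    have h1 : (1:ℝ) ≤ N := by
      rw [hNr]
      exact one_le_pow₀ (by norm_num)
    linarith
  have hrp : ∀ ω : Om n, rr ω = rp 4 4 (-(w0:ℝ)) ω + (16 * N : ℝ)⁻¹ * (ss ω * tt ω) := by
    intro ω
    unfold rp
    rw [hpow]
    ring
  have key := R2r (PM μ κ) (z := z) (dS := fun ω => dg bs (ss ω)) (dT := fun ω => dg bt (tt ω))
    (d := fun ω => dg b (sb N (rr ω))) (β := fun ω => dg N (rr ω))
    (e := fun ω => dg m (rp 4 4 (-(w0:ℝ)) ω / 2)) (s := ss) (t := tt) (r := rr)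
    (rp := rp 4 4 (-(w0:ℝ))) mz
    ((measurable_dg bs).comp measurable_ss) ((measurable_dg bt).comp measurable_tt)
    ((measurable_dg b).comp ((measurable_sb N).comp measurable_rr))
    ((measurable_dg N).comp measurable_rr)
    ((measurable_dg m).comp ((measurable_rp 4 4 _).div_const 2)) hbs hbt
    (by
      filter_upwards [ae_ss μ κ] with ω hω
      have h1 : |ss ω| ≤ 1 := abs_le.2 ⟨hω.1, hω.2.le⟩
      exact ⟨h1, dg_spec h1⟩)
    (by
      filter_upwards [ae_tt μ κ] with ω hω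
      have h1 : |tt ω| ≤ 1 := abs_le.2 ⟨hω.1, hω.2.le⟩
      exact ⟨h1, dg_spec h1⟩)
    (by
      filter_upwards [ae_rr μ κ] with ω hω
      have h1 : |rr ω| ≤ 1 := abs_le.2 ⟨hω.1, hω.2.le⟩
      have h2 := dg_spec (b := b) (abs_sb_le (N := N) h1)
      have h3 : rr ω - (cen N (dg N (rr ω)) + cen b (dg b (sb N (rr ω))) / N)
          = (sb N (rr ω) - cen b (dg b (sb N (rr ω)))) / N := by
        have h4 := eq_cen_add (N := N) (rr ω)
        linear_combination h4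
      rw [h3, abs_div, abs_of_pos hNpos, mul_comm (N:ℝ), ← div_div]
      exact div_le_div_of_nonneg_right h2 hNpos.le)
    (by
      filter_upwards [ae_rr μ κ, ae_ss μ κ, ae_tt μ κ] with ω h1 h2 h3
      have g1 : |rr ω| ≤ 1 := abs_le.2 ⟨h1.1, h1.2.le⟩
      have g2 : |ss ω| ≤ 1 := abs_le.2 ⟨h2.1, h2.2.le⟩
      have g3 : |tt ω| ≤ 1 := abs_le.2 ⟨h3.1, h3.2.le⟩
      have g4 : |rp 4 4 (-(w0:ℝ)) ω / 2| ≤ 1 := by
        have g5 : |rp 4 4 (-(w0:ℝ)) ω| ≤ 2 := by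
          unfold rp
          rw [hpow]
          refine (abs_sub _ _).trans ?_
          have g6 : |(16 * (N:ℝ))⁻¹ * (ss ω * tt ω)| ≤ 1 := by
            rw [abs_mul, abs_of_pos (by positivity), abs_mul]
            have g7 : |ss ω| * |tt ω| ≤ 1 := mul_le_one₀ g2 (abs_nonneg _) g3
            exact mul_le_one₀ hpow1 (by positivity) g7
          linarith
        rw [abs_div, abs_of_pos (two_pos : (0:ℝ) < 2), div_le_one two_pos]
        exact g5
      exact dg_spec g4)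
    (le_of_eq hm.symm) (Filter.Eventually.of_forall hrp) (η1 := η1) (η2 := η2)
    (by
      refine le_trans ?_ hη1
      refine sub_le_sub_left ?_ _
      exact HH_le_comp (PM μ κ) (d := fun ω => dg bt (tt ω)) (Yv := fun ω => (z ω, (ss ω, rr ω)))
        (K := fun y : ModSpace n × (ℝ × ℝ) => (y.1, ((dg N y.2.2, dg b (sb N y.2.2)), dg bs y.2.1)))
        (measurable_fst.prodMk ((((measurable_dg N).comp (measurable_snd.comp measurable_snd)).prodMk
          ((measurable_dg b).comp ((measurable_sb N).comp (measurable_snd.comp measurable_snd)))).prodMk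
          ((measurable_dg bs).comp (measurable_fst.comp measurable_snd))))
        (mz.prodMk (measurable_ss.prodMk measurable_rr)))
    (by
      refine le_trans ?_ hη2
      refine sub_le_sub_left ?_ _
      exact HH_le_comp (PM μ κ) (d := fun ω => dg bs (ss ω))
        (Yv := fun ω => (z ω, (tt ω, rp 4 4 (-(w0:ℝ)) ω)))
        (K := fun y : ModSpace n × (ℝ × ℝ) => (y.1, (dg bt y.2.1, dg m (y.2.2 / 2))))
        (measurable_fst.prodMk (((measurable_dg bt).comp (measurable_fst.comp measurable_snd)).prodMk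
          ((measurable_dg m).comp ((measurable_snd.comp measurable_snd).div_const 2))))
        (mz.prodMk (measurable_tt.prodMk (measurable_rp 4 4 _))))
  refine le_trans (le_of_eq ?_) key
  refine integral_congr_ae (Filter.Eventually.of_forall fun ω => ?_)
  simp only
  unfold ST RR
  rw [max_comm]
  congr 1
  ring

end A

end

end Crest.Agent.R014.Nh5_849
end

-- ▼ part R014/HR3s3_108
section

/-!
Row 14, block D, section 4, helper108: input (B) of `RAs2_460.Inp` with the function `ST` of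
`Nh5_849`.
-/

set_option autoImplicit false

open MeasureTheory Finset Filter Topology Crest.NumberTheoryR.Packets
open Crest.Agent.R014.Nd_837 Crest.Agent.R014.Ne1_567 Crest.Agent.R014.Ne3_567
open Crest.Agent.R014.Ne4_567
open Crest.Agent.R014.NScC_395 (spr spr_nonneg spr_le spr_lip)
open Crest.Agent.R014.NScD_395 Crest.Agent.R014.NScE_395 Crest.Agent.R014.NScG_395
open Crest.Agent.R014.NScH_395 Crest.Agent.R014.Ms_667
open Crest.Agent.R014.NScG_458 (RN RN_ge)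
open Crest.Agent.R014.Prod_108 Crest.Agent.R014.HSp_599 Crest.Agent.R014.Nh5_849
open scoped ENNReal

noncomputable section

namespace Crest.Agent.R014.HR3s_108

variable {n : ℕ}

theorem ST_eq (μ : Measure (ModSpace n)) (κ : Measure (SLR n)) {j k l : Fin n} (hjk : j ≠ k)
    (hkl : k ≠ l) (hjl : j ≠ l) (γ : ℝ) (bs bt : ℕ) [NeZero bs] [NeZero bt] (ω : Om n) :
    ST μ κ hjk hkl hjl γ bs bt ω =
      1 / 2 ^ 8 * (spS μ κ hjk hkl hjl 4 4 γ bs ω * spT μ κ hjk hkl hjl 4 4 γ bt ω) := by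
  have h1 : ∀ {b : ℕ} (p : Fin b → ℝ), spr (fun c => 1 / 16 * cen b c) p =
      1 / 16 * spr (cen b) p := fun {b} p =>
    mdist_smul p (cen b) (by norm_num : (0:ℝ) ≤ 1 / 16)
  unfold Nh5_849.ST spS spT
  rw [h1, h1]
  ring

/-- **(B)**. -/
theorem inB (bs bt : ℕ) [NeZero bs] [NeZero bt] {e : ℝ} (he : 0 < e) :
    ∃ η U : ℝ, 0 < η ∧ 0 < U ∧ ∀ μ : Measure (ModSpace n), IsProbabilityMeasure μ → AInv μ →
      ∀ u1 u2 M W : ℝ, U ≤ u1 → 100 * (u1 + W) ≤ M → 2 * M ≤ u2 / 20 →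
      NC μ u1 u2 {bs, bt} η → 4 ≤ W → ∀ (j k l : Fin n) (hjk : j ≠ k) (hkl : k ≠ l)
      (hjl : j ≠ l) (γ m gS gT : ℝ),
      HH (PM μ (zt (RN j k l M))) (fun ω => dg bs (ss ω)) (y1 hjk 4) - m
        ≤ HH (PM μ (zt (RN j k l M))) (fun ω => dg bs (ss ω))
          (fun ω => (zz hjk hkl hjl 4 4 γ ω, (tt ω, rp 4 4 γ ω))) →
      HH (PM μ (zt (RN j k l M))) (fun ω => dg bt (tt ω)) (y2 hkl 4)
        ≤ HH (PM μ (zt (RN j k l M))) (fun ω => dg bt (tt ω))
          (fun ω => (zz hjk hkl hjl 4 4 γ ω, (ss ω, rr ω))) →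
      HH (PM μ (zt (RN j k l M))) (fun ω => dg bs (ss ω)) (zz hjk hkl hjl 4 4 γ)
        - HH (PM μ (zt (RN j k l M))) (fun ω => dg bs (ss ω)) (y1 hjk 4) ≤ gS →
      HH (PM μ (zt (RN j k l M))) (fun ω => dg bt (tt ω)) (zz hjk hkl hjl 4 4 γ)
        - HH (PM μ (zt (RN j k l M))) (fun ω => dg bt (tt ω)) (y2 hkl 4) ≤ gT →
      ∫ x, |(∫ q, ST μ (zt (RN j k l M)) hjk hkl hjl γ bs bt (x, q)
            ∂((zt (RN j k l M)).prod (uni.prod (uni.prod uni))))
          - 1 / 2 ^ 8 * (PZ μ u1 bs j k (act x (aT (tI j 4)))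
            * PZ μ u1 bt k l (act x (aT (tI k 4))))| ∂μ
        ≤ 1 / 2 ^ 8 * (16 * (√(gS + m) + √m) + 16 * √gT + e) := by
  obtain ⟨η, U, hη, hU, h⟩ := prod_RN (n := n) (NeZero.pos bs) (NeZero.pos bt) he
  refine ⟨η, max U (20 * |c1N n| + 1), hη, lt_of_lt_of_le hU (le_max_left _ _), ?_⟩
  intro μ hμp hμ u1 u2 M W h1 h2 h3 hN hW j k l hjk hkl hjl γ m gS gT g1 g2 g3 g4
  have hU1 : U ≤ u1 := le_trans (le_max_left _ _) h1
  have hc : 20 * |c1N n| + 1 ≤ u1 := le_trans (le_max_right _ _) h1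
  have hc0 := abs_nonneg (c1N n)
  have hc1 := le_abs_self (c1N n)
  have hu1 : 0 ≤ u1 := by linarith
  have hadm : Nz_323.Adm (RN j k l M) := (noiseFam n).adm_of _ fun p q => by
    have h5 := RN_ge (j := j) (k := k) (l := l) (M := M) (by linarith) p q
    linarith
  have := isProb_zt hadm
  set κ := zt (RN j k l M) with hκ
  have key := h μ hμp hμ u1 u2 M W hU1 h2 h3 hN j k l hjk hkl hjl 4 4
    (by rw [abs_of_pos (by norm_num : (0:ℝ) < 4)]; exact hW)
    (by rw [abs_of_pos (by norm_num : (0:ℝ) < 4)]; exact hW)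
  rw [← hκ] at key
  have k2 := R3s μ κ hjk hkl hjl 4 4 γ bs bt g1 g2
  -- the three functions
  set J : ModSpace n → ℝ := J2 κ hjk hkl 4 4 (lab μ κ hjk 4 bs) (lab μ κ hkl 4 bt) with hJ
  set F : ModSpace n → ℝ := fun x => ∫ q, spS μ κ hjk hkl hjl 4 4 γ bs (x, q) *
    spT μ κ hjk hkl hjl 4 4 γ bt (x, q) ∂(κ.prod (uni.prod (uni.prod uni))) with hF
  set G : ModSpace n → ℝ := fun x => PZ μ u1 bs j k (act x (aT (tI j 4)))
    * PZ μ u1 bt k l (act x (aT (tI k 4))) with hG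
  have mF : Measurable F :=
    ((measurable_spS μ κ hjk hkl hjl 4 4 γ bs).mul
      (measurable_spT μ κ hjk hkl hjl 4 4 γ bt)).stronglyMeasurable.integral_prod_right'.measurable
  have mJ : Measurable J := measurable_J2 κ hjk hkl 4 4 _ _
  have hc20 : 20 * c1N n ≤ u1 := by linarith
  have mG : Measurable G :=
    ((measurable_PZ hc20 hu1 bs j k).comp (measurable_act _)).mul
      ((measurable_PZ hc20 hu1 bt k l).comp (measurable_act _))
  have bF : ∀ x, |F x| ≤ 4 := fun x => by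
    have h := norm_integral_le_of_norm_le_const (μ := κ.prod (uni.prod (uni.prod uni))) (C := 4)
      (f := fun q => spS μ κ hjk hkl hjl 4 4 γ bs (x, q) * spT μ κ hjk hkl hjl 4 4 γ bt (x, q))
      (Eventually.of_forall fun q => by
        rw [Real.norm_eq_abs, abs_mul, abs_of_nonneg (spS_nonneg μ κ hjk hkl hjl 4 4 γ bs _),
          abs_of_nonneg (spT_nonneg μ κ hjk hkl hjl 4 4 γ bt _)]
        have := mul_le_mul (spS_le μ κ hjk hkl hjl 4 4 γ bs (x, q))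
          (spT_le μ κ hjk hkl hjl 4 4 γ bt (x, q))
          (spT_nonneg μ κ hjk hkl hjl 4 4 γ bt (x, q)) (by norm_num)
        linarith)
    simpa using h
  have bJ : ∀ x, |J x| ≤ 4 := fun x => by
    rw [abs_of_nonneg (J2_nonneg κ hjk hkl 4 4 _ _ x)]
    exact J2_le κ hjk hkl 4 4 _ _ x
  have bG : ∀ x, |G x| ≤ 4 := fun x => by
    have a1 := PZ_nonneg (μ := μ) hc20 hu1 bs j k (act x (aT (tI j 4)))
    have a2 := PZ_nonneg (μ := μ) hc20 hu1 bt k l (act x (aT (tI k 4)))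
    have a3 := PZ_le (μ := μ) hc20 hu1 bs j k (act x (aT (tI j 4)))
    have a4 := PZ_le (μ := μ) hc20 hu1 bt k l (act x (aT (tI k 4)))
    rw [hG]
    simp only
    rw [abs_mul, abs_of_nonneg a1, abs_of_nonneg a2]
    have := mul_le_mul a3 a4 a2 (by norm_num)
    linarith
  have iF : Integrable F μ := integrable_bdd mF bF
  have iJ : Integrable J μ := integrable_bdd mJ bJ
  have iG : Integrable G μ := integrable_bdd mG bG
  have e1 : ∫ x, |(∫ q, ST μ κ hjk hkl hjl γ bs bt (x, q)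
            ∂(κ.prod (uni.prod (uni.prod uni)))) - 1 / 2 ^ 8 * G x| ∂μ
      = 1 / 2 ^ 8 * ∫ x, |F x - G x| ∂μ := by
    rw [← integral_const_mul]
    refine integral_congr_ae (Eventually.of_forall fun x => ?_)
    simp only [ST_eq]
    rw [integral_const_mul, ← mul_sub, abs_mul, abs_of_pos (by norm_num : (0:ℝ) < 1 / 2 ^ 8)]
  rw [e1]
  refine mul_le_mul_of_nonneg_left ?_ (by norm_num)
  have e2 : ∫ x, |F x - G x| ∂μ ≤ (∫ x, |F x - J x| ∂μ) + ∫ x, |J x - G x| ∂μ := by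
    have i1 : Integrable (fun x => |F x - J x|) μ := (iF.sub iJ).abs
    have i2 : Integrable (fun x => |J x - G x|) μ := (iJ.sub iG).abs
    rw [← integral_add i1 i2]
    exact integral_mono (iF.sub iG).abs (i1.add i2) fun x => abs_sub_le _ _ _
  have s1 : √(HH (PM μ κ) (fun ω => dg bs (ss ω)) (zz hjk hkl hjl 4 4 γ)
      - HH (PM μ κ) (fun ω => dg bs (ss ω)) (y1 hjk 4) + m) ≤ √(gS + m) :=
    Real.sqrt_le_sqrt (by linarith)
  have s2 : √(HH (PM μ κ) (fun ω => dg bt (tt ω)) (zz hjk hkl hjl 4 4 γ)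
      - HH (PM μ κ) (fun ω => dg bt (tt ω)) (y2 hkl 4)) ≤ √gT := Real.sqrt_le_sqrt g4
  linarith

end Crest.Agent.R014.HR3s_108
end
end

-- ▼ part R014/HSp2_599
section

set_option autoImplicit false

/-!
Row 14, block D, noise formalism, section 4, (4.3): entropies of the digits `d_s, d_t, D_r` given the
Heisenberg observation, in random variable form, in terms of the families `lab`.
-/

open MeasureTheory ProbabilityTheory Crest.NumberTheoryR.Packets
open scoped ENNReal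

namespace Crest.Agent.R014.HSp_599

open Ms_667 Ne1_567 Ne3_567 Ne4_567 Sw1_640 Sw3_640
open Nd_837 hiding uni_ae
open NScD_395 (dl)

/-! ### Measure preserving rearrangements -/

section Rearr

variable {X A B C D : Type*} [MeasurableSpace X] [MeasurableSpace A] [MeasurableSpace B]
  [MeasurableSpace C] [MeasurableSpace D]

theorem mp_push {μ : Measure X} {ν : Measure A} {ν' : Measure B} {τ : Measure C} [SFinite μ]
    [SFinite ν] [SFinite ν'] [SFinite τ] {g : A → B × C} (hg : MeasurePreserving g ν (ν'.prod τ)) :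
    MeasurePreserving (fun p : X × A => ((p.1, (g p.2).1), (g p.2).2)) (μ.prod ν)
      ((μ.prod ν').prod τ) := by
  have h1 : MeasurePreserving (MeasurableEquiv.prodAssoc : (X × B) × C ≃ᵐ X × B × C)
      ((μ.prod ν').prod τ) (μ.prod (ν'.prod τ)) :=
    ⟨MeasurableEquiv.prodAssoc.measurable, Measure.prodAssoc_prod⟩
  have h2 := (h1.symm).comp ((MeasurePreserving.id μ).prod hg)
  exact h2

theorem mp_swap (μ : Measure A) (ν : Measure B) [SFinite μ] [SFinite ν] :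
    MeasurePreserving (fun p : A × B => (p.2, p.1)) (μ.prod ν) (ν.prod μ) :=
  Measure.measurePreserving_swap

theorem mp_assoc (μ : Measure A) (ν : Measure B) (τ : Measure C) [SFinite μ] [SFinite ν]
    [SFinite τ] : MeasurePreserving (fun p : (A × B) × C => (p.1.1, (p.1.2, p.2)))
      ((μ.prod ν).prod τ) (μ.prod (ν.prod τ)) :=
  ⟨MeasurableEquiv.prodAssoc.measurable, Measure.prodAssoc_prod⟩

end Rearr

section Law

variable {n : ℕ} (μ : Measure (ModSpace n)) (κ : Measure (SLR n)) [IsProbabilityMeasure μ]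
  [IsProbabilityMeasure κ]

/-- `r` last -/
theorem mp_r : MeasurePreserving
    (fun ω : Om n => ((ω.1, (ω.2.1, (ω.2.2.1, ω.2.2.2.1))), ω.2.2.2.2)) (PM μ κ)
    ((μ.prod (κ.prod (uni.prod uni))).prod uni) := by
  have h1 : MeasurePreserving (fun p : ℝ × ℝ => (p.1, p.2)) (uni.prod uni) (uni.prod uni) :=
    MeasurePreserving.id _
  exact mp_push (mp_push (mp_push h1))

/-- `s` last -/
theorem mp_s : MeasurePreserving
    (fun ω : Om n => ((ω.1, (ω.2.1, (ω.2.2.1, ω.2.2.2.2))), ω.2.2.2.1)) (PM μ κ)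
    ((μ.prod (κ.prod (uni.prod uni))).prod uni) :=
  mp_push (mp_push (mp_push (mp_swap uni uni)))

/-- `t` last -/
theorem mp_t : MeasurePreserving
    (fun ω : Om n => ((ω.1, (ω.2.1, (ω.2.2.2.1, ω.2.2.2.2))), ω.2.2.1)) (PM μ κ)
    ((μ.prod (κ.prod (uni.prod uni))).prod uni) :=
  mp_push (mp_push (mp_swap uni (uni.prod uni)))

/-- `(s, r)` last -/
theorem mp_sr : MeasurePreserving
    (fun ω : Om n => ((ω.1, (ω.2.1, ω.2.2.1)), (ω.2.2.2.1, ω.2.2.2.2))) (PM μ κ)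
    ((μ.prod (κ.prod uni)).prod (uni.prod uni)) := by
  have h1 : MeasurePreserving (fun p : ℝ × (ℝ × ℝ) => (p.1, p.2)) (uni.prod (uni.prod uni))
      (uni.prod (uni.prod uni)) := MeasurePreserving.id _
  exact mp_push (mp_push h1)

/-- `(t, r)` last -/
theorem mp_tr : MeasurePreserving
    (fun ω : Om n => ((ω.1, (ω.2.1, ω.2.2.2.1)), (ω.2.2.1, ω.2.2.2.2))) (PM μ κ)
    ((μ.prod (κ.prod uni)).prod (uni.prod uni)) := by
  have h0 : MeasurePreserving (fun p : ℝ × (ℝ × ℝ) => ((p.1, p.2.1), p.2.2))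
      (uni.prod (uni.prod uni)) ((uni.prod uni).prod uni) :=
    mp_push (MeasurePreserving.id (uni.prod uni))
  have h1 : MeasurePreserving (fun p : (ℝ × ℝ) × ℝ => ((p.1.2, p.1.1), p.2))
      ((uni.prod uni).prod uni) ((uni.prod uni).prod uni) :=
    (mp_swap uni uni).prod (MeasurePreserving.id uni)
  have h2 := (mp_assoc uni uni uni).comp (h1.comp h0)
  exact mp_push (mp_push h2)

/-- `(t, s)` last -/
theorem mp_ts : MeasurePreserving
    (fun ω : Om n => ((ω.1, (ω.2.1, ω.2.2.2.2)), (ω.2.2.1, ω.2.2.2.1))) (PM μ κ)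
    ((μ.prod (κ.prod uni)).prod (uni.prod uni)) := by
  have h0 : MeasurePreserving (fun p : ℝ × (ℝ × ℝ) => ((p.1, p.2.1), p.2.2))
      (uni.prod (uni.prod uni)) ((uni.prod uni).prod uni) :=
    mp_push (MeasurePreserving.id (uni.prod uni))
  have h2 := (mp_swap (uni.prod uni) uni).comp h0
  exact mp_push (mp_push h2)

/-- Composition of a map of laws. -/
theorem map_of_mp {A B : Type*} [MeasurableSpace A] [MeasurableSpace B]
    {P : Measure (Om n)} {g : Om n → A} {τ : Measure A} (h : MeasurePreserving g P τ)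
    {F : A → B} (hF : Measurable F) : P.map (fun ω => F (g ω)) = τ.map F := by
  rw [← h.map_eq, Measure.map_map hF h.measurable]
  rfl

end Law

/-! ### Laws of points -/

section Pts

variable {n : ℕ} {j k l : Fin n}

theorem stp_map {A : Type*} [MeasurableSpace A] (μ : Measure (ModSpace n)) (ν : Measure A)
    [SFinite μ] [SFinite ν] {G : A → SLR n} (hG : Measurable G) :
    stp μ (ν.map G) = (μ.prod ν).map fun p => act p.1 (G p.2) := by
  unfold stp
  have h1 : μ.prod (ν.map G) = (μ.prod ν).map (Prod.map id G) := by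
    conv_lhs => rw [← Measure.map_id (μ := μ)]
    exact Measure.map_prod_map μ ν measurable_id hG
  rw [h1, Measure.map_map measurable_act₂ (measurable_id.prodMap hG)]
  rfl

theorem cv_dl (κ : Measure (SLR n)) [SFinite κ] {p q : Fin n} (h : p ≠ q) (β : ℝ) :
    cv κ (dl h β) = (κ.prod uni).map fun a => a.1 * uu h ((2 : ℝ) ^ (-β) * a.2) := by
  have hm := measurable_wn (n := n) h β
  rw [dl_eq_wn]
  unfold cv wn
  have h1 : κ.prod (uni.map fun θ => (uu h ((2 : ℝ) ^ (-β) * θ) : SLR n))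
      = (κ.prod uni).map (Prod.map id fun θ => (uu h ((2 : ℝ) ^ (-β) * θ) : SLR n)) := by
    conv_lhs => rw [← Measure.map_id (μ := κ)]
    exact Measure.map_prod_map κ uni measurable_id hm
  rw [h1, Measure.map_map measurable_mul₂ (measurable_id.prodMap hm)]
  rfl

theorem cv_dl_dl (κ : Measure (SLR n)) [IsProbabilityMeasure κ] {p q p' q' : Fin n} (h : p ≠ q)
    (h' : p' ≠ q') (β γ : ℝ) :
    cv (cv κ (dl h β)) (dl h' γ) = (κ.prod (uni.prod uni)).map fun a =>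
      a.1 * uu h ((2 : ℝ) ^ (-β) * a.2.1) * uu h' ((2 : ℝ) ^ (-γ) * a.2.2) := by
  have hm := measurable_wn (n := n) h β
  have hm' := measurable_wn (n := n) h' γ
  have m1 : Measurable fun a : SLR n × ℝ => a.1 * uu h ((2 : ℝ) ^ (-β) * a.2) :=
    measurable_fst.mul (hm.comp measurable_snd)
  rw [cv_dl κ h β]
  have : IsProbabilityMeasure ((κ.prod uni).map fun a : SLR n × ℝ =>
      a.1 * uu h ((2 : ℝ) ^ (-β) * a.2)) := Measure.isProbabilityMeasure_map m1.aemeasurable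
  rw [cv_dl _ h' γ]
  have m2 : Measurable fun a : SLR n × ℝ => a.1 * uu h' ((2 : ℝ) ^ (-γ) * a.2) :=
    measurable_fst.mul (hm'.comp measurable_snd)
  have h1 : ((κ.prod uni).map fun a : SLR n × ℝ => a.1 * uu h ((2 : ℝ) ^ (-β) * a.2)).prod uni
      = ((κ.prod uni).prod uni).map (Prod.map
        (fun a : SLR n × ℝ => a.1 * uu h ((2 : ℝ) ^ (-β) * a.2)) id) := by
    conv_lhs => enter [2]; rw [← Measure.map_id (μ := uni)]
    exact Measure.map_prod_map _ _ m1 measurable_id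
  rw [h1, Measure.map_map m2 (m1.prodMap measurable_id)]
  have m3 : Measurable fun a : SLR n × ℝ × ℝ =>
      a.1 * uu h ((2 : ℝ) ^ (-β) * a.2.1) * uu h' ((2 : ℝ) ^ (-γ) * a.2.2) :=
    (measurable_fst.mul (hm.comp (measurable_fst.comp measurable_snd))).mul
      (hm'.comp (measurable_snd.comp measurable_snd))
  rw [← (mp_assoc κ uni uni).map_eq, Measure.map_map m3 (mp_assoc κ uni uni).measurable]
  rfl

end Pts

/-! ### Digits of a uniform coordinate -/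

section Cells

variable {W Y : Type*} [MeasurableSpace W] [MeasurableSpace Y]

/-- **The family of a digit of an independent uniform variable.** -/
theorem rv_cell {b : ℕ} [NeZero b] (ρ : Measure W) [SFinite ρ] {F : W × ℝ → Y}
    (hF : Measurable F) (d : Fin b) :
    rv (ρ.prod uni) (fun p => dg b p.2) F d
      = (b : ℝ≥0∞)⁻¹ • (ρ.prod uni).map fun p => F (p.1, cen b d + p.2 / b) := by
  have hf : Measurable fun θ : ℝ => cen b d + θ / b := by fun_prop
  have h0 : (fun p : W × ℝ => dg b p.2) ⁻¹' {d} = Set.univ ×ˢ (dg b ⁻¹' {d}) := by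
    ext p; simp
  have h1 : (ρ.prod uni).restrict ((fun p : W × ℝ => dg b p.2) ⁻¹' {d})
      = (b : ℝ≥0∞)⁻¹ • (ρ.prod uni).map (Prod.map id fun θ : ℝ => cen b d + θ / b) := by
    rw [h0, ← Measure.prod_restrict, Measure.restrict_univ, restrict_cell,
      Measure.prod_smul_right]
    congr 1
    conv_lhs => rw [← Measure.map_id (μ := ρ)]
    exact Measure.map_prod_map ρ uni measurable_id hf
  unfold rv
  rw [h1, Measure.map_smul, Measure.map_map hF (measurable_id.prodMap hf)]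
  rfl

end Cells

section Lab

variable {n : ℕ} {Ω : Type*} [MeasurableSpace Ω] (P : Measure Ω) [IsProbabilityMeasure P]
  (μ : Measure (ModSpace n)) (κ : Measure (SLR n)) [IsProbabilityMeasure μ]
  [IsProbabilityMeasure κ]

/-- **Identification of `lab`.** -/
theorem rv_lab {b : ℕ} [NeZero b] {p q : Fin n} (hpq : p ≠ q) (r : ℝ) {Y0 : Ω → ModSpace n}
    {θ : Ω → ℝ} (hY0 : Measurable Y0) (hθ : Measurable θ)
    (h : P.map (fun ω => (Y0 ω, θ ω)) = (stp μ κ).prod uni) (d : Fin b) :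
    rv P (fun ω => dg b (θ ω)) (fun ω => act (Y0 ω) (uu hpq ((2 : ℝ) ^ (-r) * θ ω))) d
      = lab μ κ hpq r b d := by
  have mF : Measurable fun p : ModSpace n × ℝ => act p.1 (uu hpq ((2 : ℝ) ^ (-r) * p.2)) :=
    measurable_act₂.comp (measurable_fst.prodMk ((measurable_wn hpq r).comp measurable_snd))
  have md' : Measurable fun p : ModSpace n × ℝ => dg b p.2 :=
    (measurable_dg b).comp measurable_snd
  have mY : Measurable fun ω => act (Y0 ω) (uu hpq ((2 : ℝ) ^ (-r) * θ ω)) :=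
    measurable_act₂.comp (hY0.prodMk ((measurable_wn hpq r).comp hθ))
  have e1 : P.map (fun ω => (dg b (θ ω), act (Y0 ω) (uu hpq ((2 : ℝ) ^ (-r) * θ ω))))
      = ((stp μ κ).prod uni).map
        (fun p => (dg b p.2, act p.1 (uu hpq ((2 : ℝ) ^ (-r) * p.2)))) := by
    have e2 := Measure.map_map (μ := P) (md'.prodMk mF) (hY0.prodMk hθ)
    rw [h] at e2
    rw [e2, Function.comp_def]
  have h1 := rv_eq_of_law P ((measurable_dg b).comp hθ) mY md' mF e1 d
  have hd := measurable_dlaw (n := n) hpq r b d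
  have h2 := stp_map (stp μ κ) uni hd
  have h3 : rv P (fun ω => dg b (θ ω)) (fun ω => act (Y0 ω) (uu hpq ((2 : ℝ) ^ (-r) * θ ω))) d
      = rv ((stp μ κ).prod uni) (fun p => dg b p.2)
        (fun p => act p.1 (uu hpq ((2 : ℝ) ^ (-r) * p.2))) d := h1
  rw [h3, rv_cell (stp μ κ) mF d]
  unfold lab dlaw
  rw [h2]

theorem HH_lab {b : ℕ} [NeZero b] {p q : Fin n} (hpq : p ≠ q) (r : ℝ) {Y0 : Ω → ModSpace n}
    {θ : Ω → ℝ} (hY0 : Measurable Y0) (hθ : Measurable θ)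
    (h : P.map (fun ω => (Y0 ω, θ ω)) = (stp μ κ).prod uni) :
    HH P (fun ω => dg b (θ ω)) (fun ω => act (Y0 ω) (uu hpq ((2 : ℝ) ^ (-r) * θ ω)))
      = Hc (lab μ κ hpq r b) := by
  unfold HH
  congr 1
  funext d
  exact rv_lab P μ κ hpq r hY0 hθ h d

end Lab

end Crest.Agent.R014.HSp_599
end

-- ▼ part R014/HSp3_599
section

set_option autoImplicit false
set_option linter.unusedSectionVars false

/-!
Row 14, block D, noise formalism, section 4, (4.3): the entropies of the digits `d_s, d_t, D_r`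
given the Heisenberg observation and given its pieces.
-/

open MeasureTheory ProbabilityTheory Crest.NumberTheoryR.Packets
open scoped ENNReal

namespace Crest.Agent.R014.HSp_599

open Ms_667 Ne1_567 Ne3_567 Ne4_567 Sw1_640 Sw3_640
open Nd_837 hiding uni_ae
open NScD_395 (dl)

variable {n : ℕ} {j k l : Fin n} (μ : Measure (ModSpace n)) (κ : Measure (SLR n))
  [IsProbabilityMeasure μ] [IsProbabilityMeasure κ]

/-! ### The single observations -/

/-- law of `x ζ` and one coordinate -/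
theorem law_xz {θ : Om n → ℝ} {W : Type*} [MeasurableSpace W] {g : Om n → W} {τ : Measure W}
    [IsProbabilityMeasure τ]
    (h : MeasurePreserving (fun ω : Om n => ((ω.1, (ω.2.1, g ω)), θ ω)) (PM μ κ)
      ((μ.prod (κ.prod τ)).prod uni)) :
    (PM μ κ).map (fun ω => (act (xx ω) (ze ω), θ ω)) = (stp μ κ).prod uni := by
  have hF : Measurable fun p : (ModSpace n × (SLR n × W)) × ℝ => (act p.1.1 p.1.2.1, p.2) :=
    (measurable_act₂.comp ((measurable_fst.comp measurable_fst).prodMk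
      (measurable_fst.comp (measurable_snd.comp measurable_fst)))).prodMk measurable_snd
  have h1 := map_of_mp h hF
  have h2 : (μ.prod (κ.prod τ)).map (fun p : ModSpace n × (SLR n × W) => act p.1 p.2.1)
      = stp μ κ := by
    have e1 : (κ.prod τ).map (fun p : SLR n × W => p.1) = κ := by
      have := Measure.map_fst_prod (μ := κ) (ν := τ)
      rw [measure_univ, one_smul] at this
      exact this
    have e2 := stp_map μ (κ.prod τ) (G := fun p : SLR n × W => p.1) measurable_fst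
    rw [e1] at e2
    exact e2.symm
  have m1 : Measurable fun p : ModSpace n × (SLR n × W) => act p.1 p.2.1 :=
    measurable_act₂.comp (measurable_fst.prodMk (measurable_fst.comp measurable_snd))
  have h3 : ((μ.prod (κ.prod τ)).prod uni).map
      (fun p : (ModSpace n × (SLR n × W)) × ℝ => (act p.1.1 p.1.2.1, p.2))
      = (stp μ κ).prod uni := by
    have e3 := Measure.map_prod_map (μ.prod (κ.prod τ)) uni m1 measurable_id
    rw [h2, Measure.map_id] at e3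
    exact e3.symm
  rw [← h3]
  exact h1

theorem HH_y1 (hjk : j ≠ k) (α : ℝ) (b : ℕ) [NeZero b] :
    HH (PM μ κ) (fun ω => dg b (ss ω)) (y1 hjk α) = Hc (lab μ κ hjk α b) := by
  have h := HH_lab (PM μ κ) μ κ (b := b) hjk α (Y0 := fun ω => act (xx ω) (ze ω)) (θ := ss)
    (measurable_act₂.comp (measurable_xx.prodMk measurable_ze)) measurable_ss
    (law_xz μ κ (g := fun ω => (ω.2.2.1, ω.2.2.2.2)) (mp_s μ κ))
  rw [← h]
  congr 1
  funext ω
  unfold y1
  rw [act_act]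

theorem HH_y2 (hkl : k ≠ l) (β : ℝ) (b : ℕ) [NeZero b] :
    HH (PM μ κ) (fun ω => dg b (tt ω)) (y2 hkl β) = Hc (lab μ κ hkl β b) := by
  have h := HH_lab (PM μ κ) μ κ (b := b) hkl β (Y0 := fun ω => act (xx ω) (ze ω)) (θ := tt)
    (measurable_act₂.comp (measurable_xx.prodMk measurable_ze)) measurable_tt
    (law_xz μ κ (g := fun ω => (ω.2.2.2.1, ω.2.2.2.2)) (mp_t μ κ))
  rw [← h]
  congr 1
  funext ω
  unfold y2
  rw [act_act]

theorem HH_y3 (hjl : j ≠ l) (γ : ℝ) (b : ℕ) [NeZero b] :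
    HH (PM μ κ) (fun ω => dg b (rr ω)) (y3 hjl γ) = Hc (lab μ κ hjl γ b) := by
  have h := HH_lab (PM μ κ) μ κ (b := b) hjl γ (Y0 := fun ω => act (xx ω) (ze ω)) (θ := rr)
    (measurable_act₂.comp (measurable_xx.prodMk measurable_ze)) measurable_rr
    (law_xz μ κ (g := fun ω => (ω.2.2.1, ω.2.2.2.1)) (mp_r μ κ))
  rw [← h]
  congr 1
  funext ω
  unfold y3
  rw [act_act]

/-! ### The digits of one coordinate, the two others as noise -/

/-- law of `x ζ u(..) u(..)` and one coordinate -/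
theorem law_xzz {θ : Om n → ℝ} {g : Om n → ℝ × ℝ}
    (h : MeasurePreserving (fun ω : Om n => ((ω.1, (ω.2.1, g ω)), θ ω)) (PM μ κ)
      ((μ.prod (κ.prod (uni.prod uni))).prod uni)) {p q p' q' : Fin n} (h1 : p ≠ q) (h2 : p' ≠ q')
    (β γ : ℝ) :
    (PM μ κ).map (fun ω => (act (xx ω) (ze ω * uu h1 ((2 : ℝ) ^ (-β) * (g ω).1)
        * uu h2 ((2 : ℝ) ^ (-γ) * (g ω).2)), θ ω))
      = (stp μ (cv (cv κ (dl h1 β)) (dl h2 γ))).prod uni := by
  have mG : Measurable fun a : SLR n × ℝ × ℝ =>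
      a.1 * uu h1 ((2 : ℝ) ^ (-β) * a.2.1) * uu h2 ((2 : ℝ) ^ (-γ) * a.2.2) :=
    (measurable_fst.mul ((measurable_wn h1 β).comp (measurable_fst.comp measurable_snd))).mul
      ((measurable_wn h2 γ).comp (measurable_snd.comp measurable_snd))
  have m1 : Measurable fun a : ModSpace n × (SLR n × ℝ × ℝ) => act a.1
      (a.2.1 * uu h1 ((2 : ℝ) ^ (-β) * a.2.2.1) * uu h2 ((2 : ℝ) ^ (-γ) * a.2.2.2)) :=
    measurable_act₂.comp (measurable_fst.prodMk (mG.comp measurable_snd))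
  have hF : Measurable fun a : (ModSpace n × (SLR n × ℝ × ℝ)) × ℝ => (act a.1.1
      (a.1.2.1 * uu h1 ((2 : ℝ) ^ (-β) * a.1.2.2.1) * uu h2 ((2 : ℝ) ^ (-γ) * a.1.2.2.2)), a.2) :=
    (m1.comp measurable_fst).prodMk measurable_snd
  have e1 := map_of_mp h hF
  have e2 := stp_map μ (κ.prod (uni.prod uni)) mG
  rw [← cv_dl_dl κ h1 h2 β γ] at e2
  have e3 := Measure.map_prod_map (μ.prod (κ.prod (uni.prod uni))) uni m1 measurable_id
  rw [← e2, Measure.map_id] at e3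
  rw [e3]
  exact e1

theorem measurable_act3 {g : Om n → ℝ × ℝ} (hg : Measurable g) {p q p' q' : Fin n} (h1 : p ≠ q)
    (h2 : p' ≠ q') (β γ : ℝ) :
    Measurable fun ω : Om n => act (xx ω) (ze ω * uu h1 ((2 : ℝ) ^ (-β) * (g ω).1)
        * uu h2 ((2 : ℝ) ^ (-γ) * (g ω).2)) :=
  measurable_act₂.comp (measurable_xx.prodMk ((measurable_ze.mul
    ((measurable_wn h1 β).comp (measurable_fst.comp hg))).mul
      ((measurable_wn h2 γ).comp (measurable_snd.comp hg))))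

/-- `H(d_r | z)` -/
theorem HH_r (hjk : j ≠ k) (hkl : k ≠ l) (hjl : j ≠ l) (α β γ : ℝ) (b : ℕ) [NeZero b] :
    HH (PM μ κ) (fun ω => dg b (rr ω)) (zz hjk hkl hjl α β γ)
      = Hc (lab μ (cv (cv κ (dl hkl β)) (dl hjk α)) hjl γ b) := by
  have hg : Measurable fun ω : Om n => ((ω.2.2.1, ω.2.2.2.1) : ℝ × ℝ) :=
    measurable_tt.prodMk measurable_ss
  have h := HH_lab (PM μ κ) μ (cv (cv κ (dl hkl β)) (dl hjk α)) (b := b) hjl γ
    (θ := rr) (measurable_act3 hg hkl hjk β α) measurable_rr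
    (law_xzz μ κ (g := fun ω => (ω.2.2.1, ω.2.2.2.1)) (mp_r μ κ) hkl hjk β α)
  rw [← h]
  congr 1
  funext ω
  unfold zz
  rw [act_act]
  rfl

/-- `H(d_s | z)` -/
theorem HH_s (hjk : j ≠ k) (hkl : k ≠ l) (hjl : j ≠ l) (α β γ : ℝ) (b : ℕ) [NeZero b] :
    HH (PM μ κ) (fun ω => dg b (ss ω)) (zz hjk hkl hjl α β γ)
      = Hc (lab μ (cv (cv κ (dl hkl β)) (dl hjl γ)) hjk α b) := by
  have hg : Measurable fun ω : Om n => ((ω.2.2.1, ω.2.2.2.2) : ℝ × ℝ) :=
    measurable_tt.prodMk measurable_rr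
  have h := HH_lab (PM μ κ) μ (cv (cv κ (dl hkl β)) (dl hjl γ)) (b := b) hjk α
    (θ := ss) (measurable_act3 hg hkl hjl β γ) measurable_ss
    (law_xzz μ κ (g := fun ω => (ω.2.2.1, ω.2.2.2.2)) (mp_s μ κ) hkl hjl β γ)
  rw [← h]
  congr 1
  funext ω
  unfold zz
  rw [act_act, mul_assoc (ze ω * _), comm_jk_jl hjk hjl, ← mul_assoc]
  rfl

/-! ### Adding independent coordinates -/

/-- Adding an independent observation to `(d, Y)`. -/
theorem HH_add {ι A B Y : Type*} [Fintype ι] [MeasurableSpace ι] [MeasurableSingletonClass ι]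
    [MeasurableSpace A] [MeasurableSpace B] [MeasurableSpace Y]
    {g : Om n → A} {f : Om n → B} {ρ : Measure A} {τ : Measure B}
    [IsProbabilityMeasure ρ] [IsProbabilityMeasure τ]
    (h : MeasurePreserving (fun ω => (g ω, f ω)) (PM μ κ) (ρ.prod τ)) {d : A → ι} {Yv : A → Y}
    (hd : Measurable d) (hY : Measurable Yv) :
    HH (PM μ κ) (fun ω => d (g ω)) (fun ω => (Yv (g ω), f ω))
      = HH (PM μ κ) (fun ω => d (g ω)) (fun ω => Yv (g ω)) := by
  have hg : Measurable g := measurable_fst.comp h.measurable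
  have hf : Measurable f := measurable_snd.comp h.measurable
  refine HH_indep (PM μ κ) (hd.comp hg) (hY.comp hg) hf inferInstance ?_
  have h1 := indepFun_prod (μ := ρ) (ν := τ) (X := fun a => (d a, Yv a)) (Y := fun b : B => b)
    (hd.prodMk hY) measurable_id
  rw [← h.map_eq] at h1
  have m1 : Measurable fun p : A × B => (d p.1, Yv p.1) := (hd.prodMk hY).comp measurable_fst
  have m2 : Measurable fun p : A × B => p.2 := measurable_snd
  rw [indepFun_iff_map_prod_eq_prod_map_map m1.aemeasurable m2.aemeasurable] at h1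
  have m3 : Measurable fun ω => (d (g ω), Yv (g ω)) := (hd.comp hg).prodMk (hY.comp hg)
  refine (indepFun_iff_map_prod_eq_prod_map_map m3.aemeasurable hf.aemeasurable).2 ?_
  rw [Measure.map_map (m1.prodMk m2) h.measurable, Measure.map_map m1 h.measurable,
    Measure.map_map m2 h.measurable] at h1
  exact h1

/-- `H(D_r | z, t, s) = H(D_r | x ζ u_jl(r))` -/
theorem HH_r_ts (hjk : j ≠ k) (hkl : k ≠ l) (hjl : j ≠ l) (α β γ : ℝ) (b : ℕ) [NeZero b] :
    HH (PM μ κ) (fun ω => dg b (rr ω)) (fun ω => (zz hjk hkl hjl α β γ ω, (tt ω, ss ω)))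
      = HH (PM μ κ) (fun ω => dg b (rr ω)) (y3 hjl γ) := by
  have mY : Measurable fun p : ModSpace n × (SLR n × ℝ) =>
      act p.1 (p.2.1 * uu hjl ((2 : ℝ) ^ (-γ) * p.2.2)) :=
    measurable_act₂.comp (measurable_fst.prodMk ((measurable_fst.comp measurable_snd).mul
      ((measurable_wn hjl γ).comp (measurable_snd.comp measurable_snd))))
  have md : Measurable fun p : ModSpace n × (SLR n × ℝ) => dg b p.2.2 :=
    (measurable_dg b).comp (measurable_snd.comp measurable_snd)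
  have h1 := HH_add μ κ (mp_ts μ κ) md mY
  have h2 : HH (PM μ κ) (fun ω => dg b (rr ω)) (fun ω => (y3 hjl γ ω, (tt ω, ss ω)))
      = HH (PM μ κ) (fun ω => dg b (rr ω)) (y3 hjl γ) := h1
  rw [← h2]
  have mu2 : Measurable fun p : ℝ × ℝ =>
      (uu hkl ((2 : ℝ) ^ (-β) * p.1) * uu hjk ((2 : ℝ) ^ (-α) * p.2) : SLR n) :=
    ((measurable_wn hkl β).comp measurable_fst).mul ((measurable_wn hjk α).comp measurable_snd)
  have mK : Measurable fun p : ModSpace n × (ℝ × ℝ) =>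
      (act p.1 (uu hkl ((2 : ℝ) ^ (-β) * p.2.1) * uu hjk ((2 : ℝ) ^ (-α) * p.2.2))⁻¹, p.2) :=
    (measurable_act₂.comp (measurable_fst.prodMk (mu2.comp measurable_snd).inv)).prodMk
      measurable_snd
  have mL : Measurable fun p : ModSpace n × (ℝ × ℝ) =>
      (act p.1 (uu hkl ((2 : ℝ) ^ (-β) * p.2.1) * uu hjk ((2 : ℝ) ^ (-α) * p.2.2)), p.2) :=
    (measurable_act₂.comp (measurable_fst.prodMk (mu2.comp measurable_snd))).prodMk
      measurable_snd
  have mts : Measurable fun ω : Om n => (tt ω, ss ω) := measurable_tt.prodMk measurable_ss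
  have hz : ∀ ω : Om n, zz hjk hkl hjl α β γ ω = act (y3 hjl γ ω)
      (uu hkl ((2 : ℝ) ^ (-β) * tt ω) * uu hjk ((2 : ℝ) ^ (-α) * ss ω)) := by
    intro ω
    unfold zz y3
    rw [act_act]
    congr 1
    rw [mul_assoc (ze ω * _), comm_jk_jl hjk hjl, ← mul_assoc, mul_assoc (ze ω),
      comm_kl_jl hkl hjl]
    group
  refine HH_eq_of_comp (PM μ κ) mK mL ((measurable_zz hjk hkl hjl α β γ).prodMk mts)
    ((measurable_y3 hjl γ).prodMk mts) (Filter.Eventually.of_forall fun ω => ?_)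
    (Filter.Eventually.of_forall fun ω => ?_)
  · simp only
    rw [hz ω, act_act, mul_inv_cancel, act_one]
  · simp only
    rw [hz ω]

/-- `H(d_t | z, s, r) = H(d_t | x ζ u_kl(t))` -/
theorem HH_t_sr (hjk : j ≠ k) (hkl : k ≠ l) (hjl : j ≠ l) (α β γ : ℝ) (b : ℕ) [NeZero b] :
    HH (PM μ κ) (fun ω => dg b (tt ω)) (fun ω => (zz hjk hkl hjl α β γ ω, (ss ω, rr ω)))
      = HH (PM μ κ) (fun ω => dg b (tt ω)) (y2 hkl β) := by
  have mY : Measurable fun p : ModSpace n × (SLR n × ℝ) =>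
      act p.1 (p.2.1 * uu hkl ((2 : ℝ) ^ (-β) * p.2.2)) :=
    measurable_act₂.comp (measurable_fst.prodMk ((measurable_fst.comp measurable_snd).mul
      ((measurable_wn hkl β).comp (measurable_snd.comp measurable_snd))))
  have md : Measurable fun p : ModSpace n × (SLR n × ℝ) => dg b p.2.2 :=
    (measurable_dg b).comp (measurable_snd.comp measurable_snd)
  have h1 := HH_add μ κ (mp_sr μ κ) md mY
  have h2 : HH (PM μ κ) (fun ω => dg b (tt ω)) (fun ω => (y2 hkl β ω, (ss ω, rr ω)))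
      = HH (PM μ κ) (fun ω => dg b (tt ω)) (y2 hkl β) := h1
  rw [← h2]
  have mu2 : Measurable fun p : ℝ × ℝ =>
      (uu hjk ((2 : ℝ) ^ (-α) * p.1) * uu hjl ((2 : ℝ) ^ (-γ) * p.2) : SLR n) :=
    ((measurable_wn hjk α).comp measurable_fst).mul ((measurable_wn hjl γ).comp measurable_snd)
  have mK : Measurable fun p : ModSpace n × (ℝ × ℝ) =>
      (act p.1 (uu hjk ((2 : ℝ) ^ (-α) * p.2.1) * uu hjl ((2 : ℝ) ^ (-γ) * p.2.2))⁻¹, p.2) :=
    (measurable_act₂.comp (measurable_fst.prodMk (mu2.comp measurable_snd).inv)).prodMk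
      measurable_snd
  have mL : Measurable fun p : ModSpace n × (ℝ × ℝ) =>
      (act p.1 (uu hjk ((2 : ℝ) ^ (-α) * p.2.1) * uu hjl ((2 : ℝ) ^ (-γ) * p.2.2)), p.2) :=
    (measurable_act₂.comp (measurable_fst.prodMk (mu2.comp measurable_snd))).prodMk
      measurable_snd
  have mts : Measurable fun ω : Om n => (ss ω, rr ω) := measurable_ss.prodMk measurable_rr
  have hz : ∀ ω : Om n, zz hjk hkl hjl α β γ ω = act (y2 hkl β ω)
      (uu hjk ((2 : ℝ) ^ (-α) * ss ω) * uu hjl ((2 : ℝ) ^ (-γ) * rr ω)) := by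
    intro ω
    unfold zz y2
    rw [act_act]
    congr 1
    group
  refine HH_eq_of_comp (PM μ κ) mK mL ((measurable_zz hjk hkl hjl α β γ).prodMk mts)
    ((measurable_y2 hkl β).prodMk mts) (Filter.Eventually.of_forall fun ω => ?_)
    (Filter.Eventually.of_forall fun ω => ?_)
  · simp only
    rw [hz ω, act_act, mul_inv_cancel, act_one]
  · simp only
    rw [hz ω]

end Crest.Agent.R014.HSp_599
end

-- ▼ part R014/HSp4_599
section

set_option autoImplicit false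
set_option linter.unusedSectionVars false

/-!
Row 14, block D, noise formalism, section 4, (4.3): the inequalities (i), (ii), (iii) for the digits.
-/

open MeasureTheory ProbabilityTheory Crest.NumberTheoryR.Packets
open scoped ENNReal

namespace Crest.Agent.R014.HSp_599

open Ms_667 Ne1_567 Ne3_567 Ne4_567 Sw1_640 Sw3_640
open Nd_837 hiding uni_ae
open NScD_395 (dl)

variable {n : ℕ} {j k l : Fin n} (μ : Measure (ModSpace n)) (κ : Measure (SLR n))
  [IsProbabilityMeasure μ] [IsProbabilityMeasure κ]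

/-- Replacing `r` by `rp` costs `2^(γ - α - β) / 2` in total variation. -/
theorem tv_rp (α β γ : ℝ) {Z : Type*} [MeasurableSpace Z]
    {G : (ModSpace n × (SLR n × (ℝ × ℝ))) × ℝ → Z} (hG : Measurable G) :
    TVle ((PM μ κ).map fun ω => G ((ω.1, (ω.2.1, (ω.2.2.1, ω.2.2.2.1))), rp α β γ ω))
      ((PM μ κ).map fun ω => G ((ω.1, (ω.2.1, (ω.2.2.1, ω.2.2.2.1))), rr ω))
      ((2 : ℝ) ^ (γ - α - β) / 2) := by
  set c : ℝ := (2 : ℝ) ^ (γ - α - β) with hc
  have hc0 : 0 < c := Real.rpow_pos_of_pos two_pos _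
  have mF : Measurable fun p : (ModSpace n × (SLR n × (ℝ × ℝ))) × ℝ =>
      G (p.1, p.2 - c * (p.1.2.2.2 * p.1.2.2.1)) := by
    refine hG.comp (measurable_fst.prodMk ?_)
    fun_prop
  have e1 : (PM μ κ).map (fun ω => G ((ω.1, (ω.2.1, (ω.2.2.1, ω.2.2.2.1))), rp α β γ ω))
      = ((μ.prod (κ.prod (uni.prod uni))).prod uni).map
        fun p => G (p.1, p.2 - c * (p.1.2.2.2 * p.1.2.2.1)) :=
    map_of_mp (mp_r μ κ) mF
  have e2 : (PM μ κ).map (fun ω => G ((ω.1, (ω.2.1, (ω.2.2.1, ω.2.2.2.1))), rr ω))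
      = ((μ.prod (κ.prod (uni.prod uni))).prod uni).map fun p => G (p.1, p.2) :=
    map_of_mp (mp_r μ κ) hG
  rw [e1, e2]
  refine TVle.mix mF hG ?_
  have h1 : ∀ᵐ q ∂(uni.prod uni), |q.1| ≤ 1 ∧ |q.2| ≤ 1 := by
    have a1 : ∀ᵐ q ∂(uni.prod uni), |q.1| ≤ 1 :=
      Measure.quasiMeasurePreserving_fst.ae Sw1_640.uni_ae
    have a2 : ∀ᵐ q ∂(uni.prod uni), |q.2| ≤ 1 :=
      Measure.quasiMeasurePreserving_snd.ae Sw1_640.uni_ae
    filter_upwards [a1, a2] with q h1 h2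
    exact ⟨h1, h2⟩
  have h2 : ∀ᵐ q ∂(μ.prod (κ.prod (uni.prod uni))), |q.2.2.1| ≤ 1 ∧ |q.2.2.2| ≤ 1 :=
    Measure.quasiMeasurePreserving_snd.ae (Measure.quasiMeasurePreserving_snd.ae h1)
  filter_upwards [h2] with q hq
  have h3 := uni_shift (-(c * (q.2.2.2 * q.2.2.1)))
  have h4 : |(-(c * (q.2.2.2 * q.2.2.1)))| / 2 ≤ c / 2 := by
    rw [abs_neg, abs_mul, abs_of_pos hc0, abs_mul]
    have : |q.2.2.2| * |q.2.2.1| ≤ 1 := mul_le_one₀ hq.2 (abs_nonneg _) hq.1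
    have h5 : c * (|q.2.2.2| * |q.2.2.1|) ≤ c * 1 := mul_le_mul_of_nonneg_left this hc0.le
    linarith
  have mg : Measurable fun y : ℝ => G (q, y) := hG.comp measurable_prodMk_left
  have h5 := (h3.mono h4).map mg
  rw [Measure.map_map mg (by fun_prop)] at h5
  exact h5

/-- The same for entropies. -/
theorem HH_rp {ι Y : Type*} [Fintype ι] [Nonempty ι] [MeasurableSpace ι]
    [MeasurableSingletonClass ι] [MeasurableSpace Y] (α β γ : ℝ)
    {d : (ModSpace n × (SLR n × (ℝ × ℝ))) × ℝ → ι}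
    {Yv : (ModSpace n × (SLR n × (ℝ × ℝ))) × ℝ → Y} (hd : Measurable d) (hY : Measurable Yv)
    (he : (2 : ℝ) ^ (γ - α - β) / 2 ≤ 1) :
    |HH (PM μ κ) (fun ω => d ((ω.1, (ω.2.1, (ω.2.2.1, ω.2.2.2.1))), rp α β γ ω))
        (fun ω => Yv ((ω.1, (ω.2.1, (ω.2.2.1, ω.2.2.2.1))), rp α β γ ω))
      - HH (PM μ κ) (fun ω => d ((ω.1, (ω.2.1, (ω.2.2.1, ω.2.2.2.1))), rr ω))
        (fun ω => Yv ((ω.1, (ω.2.1, (ω.2.2.1, ω.2.2.2.1))), rr ω))|
      ≤ md (Fintype.card ι) ((2 : ℝ) ^ (γ - α - β) / 2) := by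
  have mrp : Measurable fun ω : Om n =>
      (((ω.1, (ω.2.1, (ω.2.2.1, ω.2.2.2.1))), rp α β γ ω) :
        (ModSpace n × (SLR n × (ℝ × ℝ))) × ℝ) :=
    (measurable_xx.prodMk (measurable_ze.prodMk (measurable_tt.prodMk measurable_ss))).prodMk
      (measurable_rp α β γ)
  have mrr : Measurable fun ω : Om n =>
      (((ω.1, (ω.2.1, (ω.2.2.1, ω.2.2.2.1))), rr ω) :
        (ModSpace n × (SLR n × (ℝ × ℝ))) × ℝ) :=
    (measurable_xx.prodMk (measurable_ze.prodMk (measurable_tt.prodMk measurable_ss))).prodMk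
      measurable_rr
  have htv := tv_rp μ κ α β γ (hd.prodMk hY)
  have m1 : Measurable fun ω : Om n => ((d ((ω.1, (ω.2.1, (ω.2.2.1, ω.2.2.2.1))), rp α β γ ω),
      Yv ((ω.1, (ω.2.1, (ω.2.2.1, ω.2.2.2.1))), rp α β γ ω)) : ι × Y) :=
    (hd.prodMk hY).comp mrp
  have m2 : Measurable fun ω : Om n => ((d ((ω.1, (ω.2.1, (ω.2.2.1, ω.2.2.2.1))), rr ω),
      Yv ((ω.1, (ω.2.1, (ω.2.2.1, ω.2.2.2.1))), rr ω)) : ι × Y) :=
    (hd.prodMk hY).comp mrr
  have key : ∀ A : Set (ι × Y), MeasurableSet A →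
      |(PM μ κ).real ((fun ω : Om n => (d ((ω.1, (ω.2.1, (ω.2.2.1, ω.2.2.2.1))), rp α β γ ω),
        Yv ((ω.1, (ω.2.1, (ω.2.2.1, ω.2.2.2.1))), rp α β γ ω))) ⁻¹' A)
      - (PM μ κ).real ((fun ω : Om n => (d ((ω.1, (ω.2.1, (ω.2.2.1, ω.2.2.2.1))), rr ω),
        Yv ((ω.1, (ω.2.1, (ω.2.2.1, ω.2.2.2.1))), rr ω))) ⁻¹' A)|
      ≤ (2 : ℝ) ^ (γ - α - β) / 2 := by
    intro A hA
    have h := htv A hA
    rwa [map_measureReal_apply m1 hA, map_measureReal_apply m2 hA] at h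
  have hP : (PM μ κ).real Set.univ ≤ 1 := by simp
  have u1 := HH_le_of_tv (PM μ κ) (P' := PM μ κ) hP (hd.comp mrp) (hY.comp mrp) (hd.comp mrr)
    (hY.comp mrr) (e := (2 : ℝ) ^ (γ - α - β) / 2) (fun A hA => by
      have h := (abs_le.1 (key A hA)).2
      have h' : (PM μ κ).real ((fun ω : Om n => (d ((ω.1, (ω.2.1, (ω.2.2.1, ω.2.2.2.1))),
        rp α β γ ω), Yv ((ω.1, (ω.2.1, (ω.2.2.1, ω.2.2.2.1))), rp α β γ ω))) ⁻¹' A)
        ≤ (PM μ κ).real ((fun ω : Om n => (d ((ω.1, (ω.2.1, (ω.2.2.1, ω.2.2.2.1))), rr ω),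
        Yv ((ω.1, (ω.2.1, (ω.2.2.1, ω.2.2.2.1))), rr ω))) ⁻¹' A)
          + (2 : ℝ) ^ (γ - α - β) / 2 := by linarith
      exact h') he
  have u2 := HH_le_of_tv (PM μ κ) (P' := PM μ κ) hP (hd.comp mrr) (hY.comp mrr) (hd.comp mrp)
    (hY.comp mrp) (e := (2 : ℝ) ^ (γ - α - β) / 2) (fun A hA => by
      have h := (abs_le.1 (key A hA)).1
      have h' : (PM μ κ).real ((fun ω : Om n => (d ((ω.1, (ω.2.1, (ω.2.2.1, ω.2.2.2.1))), rr ω),
        Yv ((ω.1, (ω.2.1, (ω.2.2.1, ω.2.2.2.1))), rr ω))) ⁻¹' A)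
        ≤ (PM μ κ).real ((fun ω : Om n => (d ((ω.1, (ω.2.1, (ω.2.2.1, ω.2.2.2.1))),
        rp α β γ ω), Yv ((ω.1, (ω.2.1, (ω.2.2.1, ω.2.2.2.1))), rp α β γ ω))) ⁻¹' A)
          + (2 : ℝ) ^ (γ - α - β) / 2 := by linarith
      exact h') he
  have v1 : HH (PM μ κ) (fun ω => d ((ω.1, (ω.2.1, (ω.2.2.1, ω.2.2.2.1))), rp α β γ ω))
        (fun ω => Yv ((ω.1, (ω.2.1, (ω.2.2.1, ω.2.2.2.1))), rp α β γ ω))
      ≤ HH (PM μ κ) (fun ω => d ((ω.1, (ω.2.1, (ω.2.2.1, ω.2.2.2.1))), rr ω))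
        (fun ω => Yv ((ω.1, (ω.2.1, (ω.2.2.1, ω.2.2.2.1))), rr ω))
        + md (Fintype.card ι) ((2 : ℝ) ^ (γ - α - β) / 2) := u1
  have v2 : HH (PM μ κ) (fun ω => d ((ω.1, (ω.2.1, (ω.2.2.1, ω.2.2.2.1))), rr ω))
        (fun ω => Yv ((ω.1, (ω.2.1, (ω.2.2.1, ω.2.2.2.1))), rr ω))
      ≤ HH (PM μ κ) (fun ω => d ((ω.1, (ω.2.1, (ω.2.2.1, ω.2.2.2.1))), rp α β γ ω))
        (fun ω => Yv ((ω.1, (ω.2.1, (ω.2.2.1, ω.2.2.2.1))), rp α β γ ω))
        + md (Fintype.card ι) ((2 : ℝ) ^ (γ - α - β) / 2) := u2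
  rw [abs_le]
  constructor <;> linarith

/-- **(ii)**: `H(d_s | z, t, r'') ≥ H(d_s | x ζ u_jk(s)) - md`. -/
theorem HH_s_trp (hjk : j ≠ k) (hkl : k ≠ l) (hjl : j ≠ l) (α β γ : ℝ) (b : ℕ) [NeZero b]
    (he : (2 : ℝ) ^ (γ - α - β) / 2 ≤ 1) :
    HH (PM μ κ) (fun ω => dg b (ss ω)) (y1 hjk α) - md b ((2 : ℝ) ^ (γ - α - β) / 2)
      ≤ HH (PM μ κ) (fun ω => dg b (ss ω))
        (fun ω => (zz hjk hkl hjl α β γ ω, (tt ω, rp α β γ ω))) := by
  -- the observation `(y1, (t, r))`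
  have mY : Measurable fun p : ModSpace n × (SLR n × ℝ) =>
      act p.1 (p.2.1 * uu hjk ((2 : ℝ) ^ (-α) * p.2.2)) :=
    measurable_act₂.comp (measurable_fst.prodMk ((measurable_fst.comp measurable_snd).mul
      ((measurable_wn hjk α).comp (measurable_snd.comp measurable_snd))))
  have md0 : Measurable fun p : ModSpace n × (SLR n × ℝ) => dg b p.2.2 :=
    (measurable_dg b).comp (measurable_snd.comp measurable_snd)
  have h1 : HH (PM μ κ) (fun ω => dg b (ss ω)) (fun ω => (y1 hjk α ω, (tt ω, rr ω)))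
      = HH (PM μ κ) (fun ω => dg b (ss ω)) (y1 hjk α) := HH_add μ κ (mp_tr μ κ) md0 mY
  -- change of `r` into `rp`
  have md1 : Measurable fun p : (ModSpace n × (SLR n × (ℝ × ℝ))) × ℝ => dg b p.1.2.2.2 :=
    (measurable_dg b).comp (by fun_prop)
  have mY1 : Measurable fun p : (ModSpace n × (SLR n × (ℝ × ℝ))) × ℝ =>
      ((act p.1.1 (p.1.2.1 * uu hjk ((2 : ℝ) ^ (-α) * p.1.2.2.2)), (p.1.2.2.1, p.2)) :
        ModSpace n × (ℝ × ℝ)) :=
    (measurable_act₂.comp ((measurable_fst.comp measurable_fst).prodMk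
      ((measurable_fst.comp (measurable_snd.comp measurable_fst)).mul
        ((measurable_wn hjk α).comp (by fun_prop))))).prodMk (by fun_prop)
  have h2 := HH_rp μ κ α β γ md1 mY1 he
  rw [Fintype.card_fin] at h2
  have h3 : |HH (PM μ κ) (fun ω => dg b (ss ω)) (fun ω => (y1 hjk α ω, (tt ω, rp α β γ ω)))
      - HH (PM μ κ) (fun ω => dg b (ss ω)) (fun ω => (y1 hjk α ω, (tt ω, rr ω)))|
      ≤ md b ((2 : ℝ) ^ (γ - α - β) / 2) := h2
  -- the observations `(z, t, rp)` and `(y1, t, rp)` determine each other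
  have mu2 : Measurable fun p : ℝ × ℝ =>
      (uu hkl ((2 : ℝ) ^ (-β) * p.1) * uu hjl ((2 : ℝ) ^ (-γ) * p.2) : SLR n) :=
    ((measurable_wn hkl β).comp measurable_fst).mul ((measurable_wn hjl γ).comp measurable_snd)
  have mK : Measurable fun p : ModSpace n × (ℝ × ℝ) =>
      (act p.1 (uu hkl ((2 : ℝ) ^ (-β) * p.2.1) * uu hjl ((2 : ℝ) ^ (-γ) * p.2.2))⁻¹, p.2) :=
    (measurable_act₂.comp (measurable_fst.prodMk (mu2.comp measurable_snd).inv)).prodMk
      measurable_snd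
  have mL : Measurable fun p : ModSpace n × (ℝ × ℝ) =>
      (act p.1 (uu hkl ((2 : ℝ) ^ (-β) * p.2.1) * uu hjl ((2 : ℝ) ^ (-γ) * p.2.2)), p.2) :=
    (measurable_act₂.comp (measurable_fst.prodMk (mu2.comp measurable_snd))).prodMk
      measurable_snd
  have mtr : Measurable fun ω : Om n => (tt ω, rp α β γ ω) :=
    measurable_tt.prodMk (measurable_rp α β γ)
  have hz : ∀ ω : Om n, zz hjk hkl hjl α β γ ω = act (y1 hjk α ω)
      (uu hkl ((2 : ℝ) ^ (-β) * tt ω) * uu hjl ((2 : ℝ) ^ (-γ) * rp α β γ ω)) := by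
    intro ω
    rw [zz_eq]
    unfold y1
    rw [act_act]
    congr 1
    group
  have h4 : HH (PM μ κ) (fun ω => dg b (ss ω))
        (fun ω => (zz hjk hkl hjl α β γ ω, (tt ω, rp α β γ ω)))
      = HH (PM μ κ) (fun ω => dg b (ss ω)) (fun ω => (y1 hjk α ω, (tt ω, rp α β γ ω))) := by
    refine HH_eq_of_comp (PM μ κ) mK mL ((measurable_zz hjk hkl hjl α β γ).prodMk mtr)
      ((measurable_y1 hjk α).prodMk mtr) (Filter.Eventually.of_forall fun ω => ?_)
      (Filter.Eventually.of_forall fun ω => ?_)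
    · simp only
      rw [hz ω, act_act, mul_inv_cancel, act_one]
    · simp only
      rw [hz ω]
  have h5 := (abs_le.1 h3).1
  rw [h4]
  linarith

/-- **(i)**: `H(d_t | z)` against the entropy for the other order. -/
theorem HH_t (hjk : j ≠ k) (hkl : k ≠ l) (hjl : j ≠ l) (α β γ : ℝ) (b : ℕ) [NeZero b]
    (he : (2 : ℝ) ^ (γ - α - β) / 2 ≤ 1) :
    |HH (PM μ κ) (fun ω => dg b (tt ω)) (zz hjk hkl hjl α β γ)
      - Hc (lab μ (cv (cv κ (dl hjk α)) (dl hjl γ)) hkl β b)|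
      ≤ md b ((2 : ℝ) ^ (γ - α - β) / 2) := by
  have md1 : Measurable fun p : (ModSpace n × (SLR n × (ℝ × ℝ))) × ℝ => dg b p.1.2.2.1 :=
    (measurable_dg b).comp (by fun_prop)
  have mY1 : Measurable fun p : (ModSpace n × (SLR n × (ℝ × ℝ))) × ℝ =>
      act p.1.1 (p.1.2.1 * uu hjk ((2 : ℝ) ^ (-α) * p.1.2.2.2)
        * uu hkl ((2 : ℝ) ^ (-β) * p.1.2.2.1) * uu hjl ((2 : ℝ) ^ (-γ) * p.2)) :=
    measurable_act₂.comp ((measurable_fst.comp measurable_fst).prodMk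
      ((((measurable_fst.comp (measurable_snd.comp measurable_fst)).mul
        ((measurable_wn hjk α).comp (by fun_prop))).mul
        ((measurable_wn hkl β).comp (by fun_prop))).mul
        ((measurable_wn hjl γ).comp (by fun_prop))))
  have h2 := HH_rp μ κ α β γ md1 mY1 he
  rw [Fintype.card_fin] at h2
  have hz : (fun ω : Om n => act ω.1 (ω.2.1 * uu hjk ((2 : ℝ) ^ (-α) * ω.2.2.2.1)
        * uu hkl ((2 : ℝ) ^ (-β) * ω.2.2.1) * uu hjl ((2 : ℝ) ^ (-γ) * rp α β γ ω)))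
      = zz hjk hkl hjl α β γ := by
    funext ω
    rw [zz_eq]
    rfl
  have hg : Measurable fun ω : Om n => ((ω.2.2.2.1, ω.2.2.2.2) : ℝ × ℝ) :=
    measurable_ss.prodMk measurable_rr
  have h := HH_lab (PM μ κ) μ (cv (cv κ (dl hjk α)) (dl hjl γ)) (b := b) hkl β
    (θ := tt) (measurable_act3 hg hjk hjl α γ) measurable_tt
    (law_xzz μ κ (g := fun ω => (ω.2.2.2.1, ω.2.2.2.2)) (mp_t μ κ) hjk hjl α γ)
  have h3 : (fun ω : Om n => act ω.1 (ω.2.1 * uu hjk ((2 : ℝ) ^ (-α) * ω.2.2.2.1)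
        * uu hkl ((2 : ℝ) ^ (-β) * ω.2.2.1) * uu hjl ((2 : ℝ) ^ (-γ) * rr ω)))
      = fun ω => act (act (xx ω) (ze ω * uu hjk ((2 : ℝ) ^ (-α) * ω.2.2.2.1)
        * uu hjl ((2 : ℝ) ^ (-γ) * ω.2.2.2.2))) (uu hkl ((2 : ℝ) ^ (-β) * tt ω)) := by
    funext ω
    rw [act_act, mul_assoc (ze ω * _), mul_assoc (ω.2.1 * _), comm_kl_jl hkl hjl]
    rfl
  rw [← h]
  simp only [hz] at h2
  rw [h3] at h2
  exact h2

theorem mp_sb (b : ℕ) [NeZero b] : MeasurePreserving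
    (fun ω : Om n => (((ω.1, (ω.2.1, (ω.2.2.1, ω.2.2.2.2))), sb b ω.2.2.2.1), dg b ω.2.2.2.1))
    (PM μ κ) (((μ.prod (κ.prod (uni.prod uni))).prod uni).prod (uf b)) := by
  have h1 : MeasurePreserving (fun θ : ℝ => (dg b θ, sb b θ)) uni ((uf b).prod uni) :=
    ⟨(measurable_dg b).prodMk (measurable_sb b), law_dg_sb b⟩
  have h2 := (mp_swap (uf b) uni).comp h1
  exact (mp_push h2).comp (mp_s μ κ)

/-- The observation with the fine part of `s`. -/
noncomputable def zf (hjk : j ≠ k) (hkl : k ≠ l) (hjl : j ≠ l) (α β γ : ℝ) (b : ℕ) [NeZero b]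
    (ω : Om n) : ModSpace n :=
  act (xx ω) (ze ω * uu hkl ((2 : ℝ) ^ (-β) * tt ω) * uu hjk ((2 : ℝ) ^ (-α) * sb b (ss ω))
    * uu hjl ((2 : ℝ) ^ (-γ) * rr ω))

theorem measurable_zf (hjk : j ≠ k) (hkl : k ≠ l) (hjl : j ≠ l) (α β γ : ℝ) (b : ℕ) [NeZero b] :
    Measurable (zf (n := n) hjk hkl hjl α β γ b) :=
  measurable_act₂.comp (measurable_xx.prodMk (((measurable_ze.mul (mu1 hkl measurable_tt β)).mul
    (mu1 hjk ((measurable_sb b).comp measurable_ss) α)).mul (mu1 hjl measurable_rr γ)))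

/-- the observation as a function of `((x, ζ, t, r), s)` -/
noncomputable def zg (hjk : j ≠ k) (hkl : k ≠ l) (hjl : j ≠ l) (α β γ : ℝ)
    (p : (ModSpace n × (SLR n × (ℝ × ℝ))) × ℝ) : ModSpace n :=
  act p.1.1 (p.1.2.1 * uu hkl ((2 : ℝ) ^ (-β) * p.1.2.2.1) * uu hjk ((2 : ℝ) ^ (-α) * p.2)
        * uu hjl ((2 : ℝ) ^ (-γ) * p.1.2.2.2))

theorem measurable_zg (hjk : j ≠ k) (hkl : k ≠ l) (hjl : j ≠ l) (α β γ : ℝ) :
    Measurable (zg (n := n) hjk hkl hjl α β γ) := by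
  have m1 : Measurable fun p : (ModSpace n × (SLR n × (ℝ × ℝ))) × ℝ => p.1.2.1 :=
    measurable_fst.comp (measurable_snd.comp measurable_fst)
  have m2 : Measurable fun p : (ModSpace n × (SLR n × (ℝ × ℝ))) × ℝ => p.1.2.2.1 := by fun_prop
  have m3 : Measurable fun p : (ModSpace n × (SLR n × (ℝ × ℝ))) × ℝ => p.1.2.2.2 := by fun_prop
  exact measurable_act₂.comp ((measurable_fst.comp measurable_fst).prodMk
      (((m1.mul ((measurable_wn hkl β).comp m2)).mul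
        ((measurable_wn hjk α).comp measurable_snd)).mul ((measurable_wn hjl γ).comp m3)))

theorem measurable_dgg (b' : ℕ) [NeZero b'] :
    Measurable fun p : (ModSpace n × (SLR n × (ℝ × ℝ))) × ℝ => dg b' p.1.2.2.2 := by
  have m3 : Measurable fun p : (ModSpace n × (SLR n × (ℝ × ℝ))) × ℝ => p.1.2.2.2 := by fun_prop
  exact (measurable_dg b').comp m3

theorem HH_zf1 (hjk : j ≠ k) (hkl : k ≠ l) (hjl : j ≠ l) (α β γ : ℝ) (b b' : ℕ) [NeZero b]
    [NeZero b'] :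
    HH (PM μ κ) (fun ω => dg b' (rr ω)) (fun ω => (zf hjk hkl hjl α β γ b ω, dg b (ss ω)))
      = HH (PM μ κ) (fun ω => dg b' (rr ω)) (zf hjk hkl hjl α β γ b) :=
  HH_add μ κ (mp_sb μ κ b) (measurable_dgg b') (measurable_zg hjk hkl hjl α β γ)

theorem HH_zf2 (hjk : j ≠ k) (hkl : k ≠ l) (hjl : j ≠ l) (α β γ : ℝ) (b b' : ℕ) [NeZero b]
    [NeZero b'] :
    HH (PM μ κ) (fun ω => dg b' (rr ω)) (zf hjk hkl hjl α β γ b)
      = HH (PM μ κ) (fun ω => dg b' (rr ω)) (zz hjk hkl hjl α β γ) := by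
  have hfst : MeasurePreserving
      (fun ω : Om n => ((ω.1, (ω.2.1, (ω.2.2.1, ω.2.2.2.2))), sb b ω.2.2.2.1))
      (PM μ κ) ((μ.prod (κ.prod (uni.prod uni))).prod uni) :=
    (measurePreserving_fst (μ := (μ.prod (κ.prod (uni.prod uni))).prod uni)
      (ν := uf b)).comp (mp_sb μ κ b)
  have mm := (measurable_dgg (n := n) b').prodMk (measurable_zg hjk hkl hjl α β γ)
  have e1 := map_of_mp hfst mm
  have e2 := map_of_mp (mp_s μ κ) mm
  have e3 : (PM μ κ).map (fun ω => (dg b' (rr ω), zf hjk hkl hjl α β γ b ω))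
      = (PM μ κ).map (fun ω => (dg b' (rr ω), zz hjk hkl hjl α β γ ω)) := e1.trans e2.symm
  exact HH_congr_law (PM μ κ) ((measurable_dg b').comp measurable_rr)
    (measurable_zf hjk hkl hjl α β γ b) ((measurable_dg b').comp measurable_rr)
    (measurable_zz hjk hkl hjl α β γ) e3

theorem zz_zf (hjk : j ≠ k) (hkl : k ≠ l) (hjl : j ≠ l) (α β γ : ℝ) (b : ℕ) [NeZero b]
    (ω : Om n) : zz hjk hkl hjl α β γ ω
      = act (zf hjk hkl hjl (α + Real.logb 2 b) β γ b ω)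
        (uu hjk ((2 : ℝ) ^ (-α) * cen b (dg b (ss ω)))) := by
  have hb : 0 < b := NeZero.pos b
  have e1 : (2 : ℝ) ^ (-α) * ss ω
      = (2 : ℝ) ^ (-(α + Real.logb 2 b)) * sb b (ss ω)
        + (2 : ℝ) ^ (-α) * cen b (dg b (ss ω)) := by
    rw [rpow_sub_logb hb]
    conv_lhs => rw [eq_cen_add (N := b) (ss ω)]
    ring
  have key : ∀ Z A B C D : SLR n, D * C = C * D → Z * A * (B * D) * C = Z * A * B * C * D := by
    intro Z A B C D h
    rw [mul_assoc (Z * A), mul_assoc B D C, h]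
    group
  unfold zz zf
  rw [act_act, e1, uu_add]
  congr 1
  exact key _ _ _ _ _ (comm_jk_jl hjk hjl _ _)

/-- **(iii)**: `H(D_r | z, d_s)`: the window of `s` becomes finer. -/
theorem HH_r_dS (hjk : j ≠ k) (hkl : k ≠ l) (hjl : j ≠ l) (α β γ : ℝ) (b b' : ℕ) [NeZero b]
    [NeZero b'] :
    HH (PM μ κ) (fun ω => dg b' (rr ω)) (fun ω => (zz hjk hkl hjl α β γ ω, dg b (ss ω)))
      = Hc (lab μ (cv (cv κ (dl hkl β)) (dl hjk (α + Real.logb 2 b))) hjl γ b') := by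
  rw [← HH_r μ κ hjk hkl hjl (α + Real.logb 2 b) β γ b', ← HH_zf2 μ κ hjk hkl hjl _ β γ b b',
    ← HH_zf1 μ κ hjk hkl hjl _ β γ b b']
  -- `(z, d_s)` and `(zf, d_s)` determine each other
  have mc : Measurable fun d : Fin b => (uu hjk ((2 : ℝ) ^ (-α) * cen b d) : SLR n) :=
    measurable_of_countable _
  have mK : Measurable fun p : ModSpace n × Fin b =>
      (act p.1 (uu hjk ((2 : ℝ) ^ (-α) * cen b p.2))⁻¹, p.2) :=
    (measurable_act₂.comp (measurable_fst.prodMk (mc.comp measurable_snd).inv)).prodMk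
      measurable_snd
  have mL : Measurable fun p : ModSpace n × Fin b =>
      (act p.1 (uu hjk ((2 : ℝ) ^ (-α) * cen b p.2)), p.2) :=
    (measurable_act₂.comp (measurable_fst.prodMk (mc.comp measurable_snd))).prodMk
      measurable_snd
  have mds : Measurable fun ω : Om n => dg b (ss ω) := (measurable_dg b).comp measurable_ss
  refine HH_eq_of_comp (PM μ κ) mK mL ((measurable_zz hjk hkl hjl α β γ).prodMk mds)
    ((measurable_zf hjk hkl hjl _ β γ b).prodMk mds) (Filter.Eventually.of_forall fun ω => ?_)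
    (Filter.Eventually.of_forall fun ω => ?_)
  · simp only
    rw [zz_zf hjk hkl hjl α β γ b ω, act_act, mul_inv_cancel, act_one]
  · simp only
    rw [zz_zf hjk hkl hjl α β γ b ω]

/-! ### The three gaps -/

/-- **(i)** -/
theorem gap_i (hjk : j ≠ k) (hkl : k ≠ l) (hjl : j ≠ l) (α β γ : ℝ) (bt : ℕ) [NeZero bt]
    (he : (2 : ℝ) ^ (γ - α - β) / 2 ≤ 1) :
    HH (PM μ κ) (fun ω => dg bt (tt ω)) (zz hjk hkl hjl α β γ)
      - HH (PM μ κ) (fun ω => dg bt (tt ω)) (fun ω => (zz hjk hkl hjl α β γ ω, (ss ω, rr ω)))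
      ≤ Hc (lab μ (cv (cv κ (dl hjk α)) (dl hjl γ)) hkl β bt) - Hc (lab μ κ hkl β bt)
        + md bt ((2 : ℝ) ^ (γ - α - β) / 2) := by
  rw [HH_t_sr μ κ hjk hkl hjl α β γ bt, HH_y2 μ κ hkl β bt]
  have h := (abs_le.1 (HH_t μ κ hjk hkl hjl α β γ bt he)).2
  linarith

/-- **(ii)** -/
theorem gap_ii (hjk : j ≠ k) (hkl : k ≠ l) (hjl : j ≠ l) (α β γ : ℝ) (bs : ℕ) [NeZero bs]
    (he : (2 : ℝ) ^ (γ - α - β) / 2 ≤ 1) :
    HH (PM μ κ) (fun ω => dg bs (ss ω)) (zz hjk hkl hjl α β γ)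
      - HH (PM μ κ) (fun ω => dg bs (ss ω))
        (fun ω => (zz hjk hkl hjl α β γ ω, (tt ω, rp α β γ ω)))
      ≤ Hc (lab μ (cv (cv κ (dl hkl β)) (dl hjl γ)) hjk α bs) - Hc (lab μ κ hjk α bs)
        + md bs ((2 : ℝ) ^ (γ - α - β) / 2) := by
  have h := HH_s_trp μ κ hjk hkl hjl α β γ bs he
  rw [HH_y1 μ κ hjk α bs] at h
  rw [HH_s μ κ hjk hkl hjl α β γ bs]
  linarith

/-- **(iii)** -/
theorem gap_iii (hjk : j ≠ k) (hkl : k ≠ l) (hjl : j ≠ l) (α β γ : ℝ) (bs b' : ℕ) [NeZero bs]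
    [NeZero b'] :
    HH (PM μ κ) (fun ω => dg b' (rr ω)) (fun ω => (zz hjk hkl hjl α β γ ω, dg bs (ss ω)))
      - HH (PM μ κ) (fun ω => dg b' (rr ω)) (fun ω => (zz hjk hkl hjl α β γ ω, (tt ω, ss ω)))
      = Hc (lab μ (cv (cv κ (dl hkl β)) (dl hjk (α + Real.logb 2 bs))) hjl γ b')
        - Hc (lab μ κ hjl γ b') := by
  rw [HH_r_ts μ κ hjk hkl hjl α β γ b', HH_y3 μ κ hjl γ b', HH_r_dS μ κ hjk hkl hjl α β γ bs b']

end Crest.Agent.R014.HSp_599
end

-- ▼ part R014/CFK_373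
section

set_option autoImplicit false

/-!
Row 14, block D, (R): CLAIM F for all digits of the `jl`-window `2 ^ K` at once, `2 ^ K` digits for
the `jk`-window (helper373, order of constants of #5111, #5238).
-/

open MeasureTheory Crest.NumberTheoryR.Packets
open scoped ENNReal

namespace Crest.Agent.R014.CFK_373

open Ms_667 Ne1_567 Ne3_567 Sw1_640 Sw3_640 Sw4_640 Sw5_640 ClF2_599 ClF3_599
open Nd_837 hiding uni_ae
open Nz_323 (Adm CN)
open NScA_395 (rho)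
open NScD_395 (dl)
open NScG_458 (RN)
open NScH_395 (NC c1N)

variable {n : ℕ}

theorem log_base_le (K K3 : ℕ) :
    Real.log ((2 ^ (K + 4) * 2 ^ K3 : ℕ) : ℝ) + 3 ≤ ((K + K3 + 7 : ℕ) : ℝ) := by
  have h1 : ((2 ^ (K + 4) * 2 ^ K3 : ℕ) : ℝ) = 2 ^ (K + 4 + K3) := by push_cast; ring
  rw [h1, Real.log_pow]
  have h2 : Real.log 2 ≤ 1 := by have := Real.log_two_lt_d9; linarith
  have h3 : ((K + 4 + K3 : ℕ) : ℝ) * Real.log 2 ≤ ((K + 4 + K3 : ℕ) : ℝ) * 1 :=
    mul_le_mul_of_nonneg_left h2 (Nat.cast_nonneg _)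
  push_cast at h3 ⊢
  linarith

/-- the modulus at the scale `2 ^ (K3 - K)` -/
theorem exists_K1 (K3 : ℕ) {ε : ℝ} (hε : 0 < ε) :
    ∃ K1 : ℕ, ∀ K : ℕ, K1 ≤ K → (2 : ℝ) ^ ((K3 : ℝ) - K - 3) ≤ 1 ∧
      ∀ x, 0 ≤ x → x ≤ (2 : ℝ) ^ ((K3 : ℝ) - K - 3) → md (2 ^ (K + 4) * 2 ^ K3) x ≤ ε := by
  have ht := tendsto_pow_const_div_const_pow_of_one_lt 2 (by norm_num : (1 : ℝ) < 2)
  have hpos : 0 < ε ^ 2 / 2 ^ (2 * K3 + 4) := by positivity
  obtain ⟨N, hN⟩ := Filter.eventually_atTop.1 (ht.eventually (gt_mem_nhds hpos))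
  refine ⟨max N K3, fun K hK => ?_⟩
  have hKN : N ≤ K := (le_max_left _ _).trans hK
  have hK3 : K3 ≤ K := (le_max_right _ _).trans hK
  have hKr : (K3 : ℝ) ≤ K := by exact_mod_cast hK3
  have hy1 : (2 : ℝ) ^ ((K3 : ℝ) - K - 3) ≤ 1 :=
    Real.rpow_le_one_of_one_le_of_nonpos (by norm_num) (by linarith)
  refine ⟨hy1, fun x hx0 hx => ?_⟩
  set m : ℕ := K + K3 + 7 with hm
  have h1 := hN m (by omega)
  have hy : (2 : ℝ) ^ ((K3 : ℝ) - K - 3) = 2 ^ (2 * K3 + 4) / 2 ^ m := by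
    rw [eq_div_iff (by positivity), ← Real.rpow_natCast, ← Real.rpow_natCast,
      ← Real.rpow_add two_pos]
    congr 1
    rw [hm]; push_cast; ring
  have hm0 : (0 : ℝ) ≤ m := Nat.cast_nonneg _
  have h2 : (m : ℝ) ^ 2 * x ≤ ε ^ 2 := by
    have h3 : (m : ℝ) ^ 2 * x ≤ (m : ℝ) ^ 2 * (2 ^ (2 * K3 + 4) / 2 ^ m) :=
      mul_le_mul_of_nonneg_left (hx.trans hy.le) (by positivity)
    refine h3.trans ?_
    have h4 : (m : ℝ) ^ 2 * (2 ^ (2 * K3 + 4) / 2 ^ m) =
        (m : ℝ) ^ 2 / 2 ^ m * 2 ^ (2 * K3 + 4) := by ring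
    rw [h4]
    have h5 := mul_le_mul_of_nonneg_right h1.le (by positivity : (0 : ℝ) ≤ 2 ^ (2 * K3 + 4))
    refine h5.trans (le_of_eq ?_)
    field_simp
  have h6 : (m : ℝ) * √x ≤ ε := by
    have h7 : (m : ℝ) * √x = √((m : ℝ) ^ 2 * x) := by
      rw [Real.sqrt_mul (by positivity), Real.sqrt_sq hm0]
    rw [h7]
    calc √((m : ℝ) ^ 2 * x) ≤ √(ε ^ 2) := Real.sqrt_le_sqrt h2
      _ = ε := Real.sqrt_sq hε.le
  calc md (2 ^ (K + 4) * 2 ^ K3) x
      ≤ (Real.log ((2 ^ (K + 4) * 2 ^ K3 : ℕ) : ℝ) + 3) * √x := md_le_sqrt _ hx0 (hx.trans hy1)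
    _ ≤ (m : ℝ) * √x := mul_le_mul_of_nonneg_right (log_base_le K K3) (Real.sqrt_nonneg _)
    _ ≤ ε := h6

/-- **(iii), constants.** All digits of the `jl`-window `2 ^ K` down to cells `2 ^ (-3 - K3)`, the
`jk`-variable known up to `2 ^ (-3 - K)`. -/
theorem claimFK (K3 : ℕ) {ε : ℝ} (hε : 0 < ε) :
    ∃ K1 : ℕ, ∀ K : ℕ, K1 ≤ K → ∃ η U : ℝ, 0 < η ∧ 0 < U ∧
      ∀ μ : Measure (ModSpace n), IsProbabilityMeasure μ → AInv μ →
      ∀ (u1 u2 M W : ℝ) (B : Finset ℕ), U ≤ u1 → 1000 * (u1 + W) ≤ M → 2 * M ≤ u2 / 20 →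
      2 ^ (K + 4) * 2 ^ K3 ∈ B → NC μ u1 u2 B η → (K : ℝ) + K3 + 8 ≤ W →
      ∀ (j k l : Fin n) (hjk : j ≠ k) (hkl : k ≠ l) (hjl : j ≠ l) (γ' : ℝ), |γ'| ≤ W →
      HR μ M hjk hkl hjl (4 + K) 4 (-K) (2 ^ (K + 4) * 2 ^ K3) ≤
        Hc (lab μ (zt (RN j k l M)) hjl γ' (2 ^ (K + 4) * 2 ^ K3)) + ε := by
  obtain ⟨K1, hK1⟩ := exists_K1 K3 (ε := ε / 20) (by positivity)
  refine ⟨K1, fun K hK => ?_⟩
  obtain ⟨hy1, hmd⟩ := hK1 K hK
  set b : ℕ := 2 ^ (K + 4) * 2 ^ K3 with hb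
  set y : ℝ := (2 : ℝ) ^ ((K3 : ℝ) - K - 3) with hy
  have hy0 : 0 < y := Real.rpow_pos_of_pos two_pos _
  have hb2 : 2 ≤ b := by
    have h1 : 2 ≤ 2 ^ (K + 4) := by
      calc 2 = 2 ^ 1 := rfl
        _ ≤ 2 ^ (K + 4) := Nat.pow_le_pow_right (by norm_num) (by omega)
    have h2 : 1 ≤ 2 ^ K3 := Nat.one_le_two_pow
    calc 2 = 2 * 1 := rfl
      _ ≤ 2 ^ (K + 4) * 2 ^ K3 := Nat.mul_le_mul h1 h2
  have hCN : (0 : ℝ) ≤ CN n := by unfold Nz_323.CN; positivity
  obtain ⟨w0, hw0, hw⟩ := rpow_neg_small hCN (δ := y / 12) (by positivity)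
  have hL1 : 1 ≤ Real.logb 2 b := logb_ge_one hb2
  refine ⟨ε / 20, max (20 * (w0 + Real.logb 2 b)) (20 * c1N n), by positivity,
    lt_of_lt_of_le (by positivity) (le_max_left _ _), ?_⟩
  intro μ hμp hμ u1 u2 M W B hU hM hu2 hbB hN hW j k l hjk hkl hjl γ' hγ'
  have hU1 : 20 * (w0 + Real.logb 2 b) ≤ u1 := (le_max_left _ _).trans hU
  have hU2 : 20 * c1N n ≤ u1 := (le_max_right _ _).trans hU
  have hu1 : 0 ≤ u1 := by linarith
  have hK0 : (0 : ℝ) ≤ K := Nat.cast_nonneg _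
  have hK30 : (0 : ℝ) ≤ K3 := Nat.cast_nonneg _
  have hW0 : 0 ≤ W := by linarith
  have h0 := e0_nonneg n (u1 / 20)
  have hadm : ((n.factorial : ℝ) + 1) * 2 ^ (n + 1) ≤ (2 : ℝ) ^ (u1 / 20) := by
    have h1 : c1N n ≤ u1 / 20 := by linarith
    unfold NScH_395.c1N at h1
    rwa [Real.logb_le_iff_le_rpow (by norm_num) (by positivity)] at h1
  have hRg : Rg n (M / 2) u1 u2 (u1 / 20)
      (W + 12 * u1 + 4 * (u1 / 20) + 4 * Real.logb 2 b) :=
    ⟨by positivity, le_rfl, by positivity, hadm, by linarith, by linarith⟩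
  have he0 : e0 n (u1 / 20) ≤ y / 12 := hw (u1 / 20) (by linarith)
  have hX : b * (2 : ℝ) ^ ((-(K : ℝ)) - (4 + K) - 4) / 2 = y / 4 := by
    rw [hb, hy]
    push_cast
    rw [← pow_add, ← Real.rpow_natCast, ← Real.rpow_add two_pos]
    have h1 : (2 : ℝ) ^ ((((K + 4 + K3 : ℕ) : ℝ)) + (-(K : ℝ) - (4 + K) - 4)) =
        (2 : ℝ) ^ ((K3 : ℝ) - K - 3) * 2 ^ (-1 : ℝ) := by
      rw [← Real.rpow_add two_pos]
      congr 1
      push_cast; ring
    rw [h1, Real.rpow_neg_one]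
    ring
  have key := claimF hμ (α := 4 + (K : ℝ)) (β := 4) (γ := -(K : ℝ)) (M := M / 2) (M' := M)
    hjk hkl hjl hb2 hRg hN hbB
    (by positivity) (by linarith) (abs_le.2 ⟨by linarith, by linarith⟩)
    (abs_le.2 ⟨by linarith, by linarith⟩) (abs_le.2 ⟨by linarith, by linarith⟩) le_rfl
    (by rw [hX]; linarith)
  have h1 := hmd (2 * (3 * e0 n (u1 / 20) + b * (2 : ℝ) ^ ((-(K : ℝ)) - (4 + K) - 4) / 2))
    (by positivity) (by rw [hX]; linarith)
  have h2 := hmd (4 * e0 n (u1 / 20)) (by positivity) (by linarith)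
  have h3 := near_Z hμ (rg_of hU2 hu1 hW0 (by linarith) hu2) hN hbB (by omega) (by positivity)
    hjk hkl hjl (Or.inr (Or.inr ⟨rfl, rfl⟩)) hjl hγ' (by linarith)
  have h4 := hmd (2 * e0 n (u1 / 20)) (by positivity) (by linarith)
  have h5 := (abs_le.1 h3).1
  linarith

end Crest.Agent.R014.CFK_373
end

-- ▼ part R014/Cst_832
section

set_option autoImplicit false

/-!
Row 14, block D, (R): constants (helper832).  The window of the `jl`-noise is `2 ^ K`, the number of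
digits of `s`, `t` is `2 ^ K`, the same `K`; all error terms tend to `0` as `K → ∞`.

* `md_pow_small` : `md (2 ^ (K + a)) (C * 2 ^ (-K)) → 0`;
* `nearK` : near constancy of the `jk`- and `kl`-digits (`α = β = 4`, `γ = -K`, base `2 ^ K`);
* `gapK` : the two entropy gaps of `Gap_640.gap`;
* `claimFK` : CLAIM F at `α = 4 + K`, `β = 4`, `γ = -K`, base `2 ^ (K + 4) * 2 ^ K3`.
-/

open MeasureTheory Crest.NumberTheoryR.Packets Filter Topology
open scoped ENNReal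

namespace Crest.Agent.R014.Cst_832

open Ms_667 Ne1_567 Ne3_567 Sw1_640 Sw3_640 Sw4_640 Sw5_640 ClF2_599 ClF3_599
open Gap_640 hiding rg_of
open Nd_837 hiding uni_ae
open Nz_323 (Adm CN)
open NScA_395 (rho)
open NScD_395 (dl)
open NScG_458 (RN)
open NScH_395 (NC c1N)
open DEnd4_935 (VV KK)

variable {n : ℕ}

theorem rpow_half (K : ℕ) : (2 : ℝ) ^ (-(K : ℝ)) = (1 / 2 : ℝ) ^ K := by
  rw [Real.rpow_neg two_pos.le, Real.rpow_natCast, one_div, inv_pow]

theorem md_pow_small {C : ℝ} (hC : 0 ≤ C) (a : ℕ) {ε : ℝ} (hε : 0 < ε) :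
    ∃ K1 : ℕ, ∀ K : ℕ, K1 ≤ K → C * (2 : ℝ) ^ (-(K : ℝ)) ≤ 1 ∧
      md (2 ^ (K + a)) (C * (2 : ℝ) ^ (-(K : ℝ))) ≤ ε := by
  have hq0 : (0 : ℝ) ≤ √(1 / 2) := Real.sqrt_nonneg _
  have hq1 : √(1 / 2 : ℝ) < 1 := by
    rw [Real.sqrt_lt' one_pos]
    norm_num
  have t1 : Tendsto (fun K : ℕ => (K : ℝ) * √(1 / 2 : ℝ) ^ K) atTop (𝓝 0) :=
    tendsto_self_mul_const_pow_of_lt_one hq0 hq1
  have t2 : Tendsto (fun K : ℕ => √(1 / 2 : ℝ) ^ K) atTop (𝓝 0) :=
    tendsto_pow_atTop_nhds_zero_of_lt_one hq0 hq1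
  have t3 : Tendsto (fun K : ℕ => (1 / 2 : ℝ) ^ K) atTop (𝓝 0) :=
    tendsto_pow_atTop_nhds_zero_of_lt_one (by norm_num) (by norm_num)
  have t4 : Tendsto (fun K : ℕ => √C * ((K : ℝ) * √(1 / 2 : ℝ) ^ K +
      ((a : ℝ) + 3) * √(1 / 2 : ℝ) ^ K)) atTop (𝓝 0) := by
    have := (t1.add (t2.const_mul ((a : ℝ) + 3))).const_mul (√C)
    simpa using this
  have t5 : Tendsto (fun K : ℕ => C * (1 / 2 : ℝ) ^ K) atTop (𝓝 0) := by
    simpa using t3.const_mul C
  have ev := (t4.eventually (gt_mem_nhds hε)).and (t5.eventually (gt_mem_nhds one_pos))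
  obtain ⟨K1, hK1⟩ := eventually_atTop.1 ev
  refine ⟨K1, fun K hK => ?_⟩
  obtain ⟨h1, h2⟩ := hK1 K hK
  rw [rpow_half]
  refine ⟨h2.le, ?_⟩
  have hx0 : 0 ≤ C * (1 / 2 : ℝ) ^ K := by positivity
  refine (md_le_sqrt _ hx0 h2.le).trans ?_
  have hs : √(C * (1 / 2 : ℝ) ^ K) = √C * √(1 / 2 : ℝ) ^ K := by
    rw [Real.sqrt_mul hC]
    congr 1
    have h3 : (1 / 2 : ℝ) ^ K = (√(1 / 2 : ℝ) ^ K) ^ 2 := by
      rw [← pow_mul, mul_comm, pow_mul, Real.sq_sqrt (by norm_num)]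
    rw [h3, Real.sqrt_sq (by positivity)]
  have hl : Real.log ((2 ^ (K + a) : ℕ) : ℝ) ≤ K + a := by
    push_cast
    rw [Real.log_pow]
    have : Real.log 2 ≤ 1 := by linarith [Real.log_two_lt_d9]
    push_cast
    have h0 : (0 : ℝ) ≤ K + a := by positivity
    nlinarith
  rw [hs]
  have hp : 0 ≤ √C * √(1 / 2 : ℝ) ^ K := by positivity
  calc (Real.log ((2 ^ (K + a) : ℕ) : ℝ) + 3) * (√C * √(1 / 2 : ℝ) ^ K)
      ≤ ((K + a) + 3) * (√C * √(1 / 2 : ℝ) ^ K) := mul_le_mul_of_nonneg_right (by linarith) hp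
    _ = √C * ((K : ℝ) * √(1 / 2 : ℝ) ^ K + ((a : ℝ) + 3) * √(1 / 2 : ℝ) ^ K) := by ring
    _ ≤ ε := h1.le

theorem rpow_m8 : (2 : ℝ) ^ ((-8 : ℤ) : ℝ) = 1 / 256 := by
  rw [Real.rpow_intCast]
  norm_num

/-- `e0 n w` against `δ` for large `w`, both factors used below. -/
theorem exists_e0' (n : ℕ) {δ : ℝ} (hδ : 0 < δ) : ∃ w1 : ℝ, 0 < w1 ∧ ∀ w, w1 ≤ w → e0 n w ≤ δ :=
  exists_e0 n hδ

/-- **near constancy** of the `jk`- and the `kl`-digits (base `2 ^ K`, windows `4`, `4`, `-K`). -/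
theorem nearK {ε : ℝ} (hε : 0 < ε) : ∃ K1 : ℕ, ∀ K : ℕ, K1 ≤ K → ∃ η U : ℝ, 0 < η ∧ 0 < U ∧
    ∀ μ : Measure (ModSpace n), IsProbabilityMeasure μ → AInv μ →
    ∀ (u1 u2 M W : ℝ) (B : Finset ℕ), U ≤ u1 → 100 * (u1 + W) ≤ M → 2 * M ≤ u2 / 20 → 4 ≤ W →
      (K : ℝ) ≤ W → 2 ^ K ∈ B → NC μ u1 u2 B η →
      ∀ (j k l : Fin n) (hjk : j ≠ k) (hkl : k ≠ l) (hjl : j ≠ l),
      |Hc (lab μ (cv (cv (zt (RN j k l M)) (dl hkl 4)) (dl hjl (-(K : ℝ)))) hjk 4 (2 ^ K))
        - Hc (lab μ (zt (RN j k l M)) hjk 4 (2 ^ K))| ≤ ε ∧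
      |Hc (lab μ (cv (cv (zt (RN j k l M)) (dl hjk 4)) (dl hjl (-(K : ℝ)))) hkl 4 (2 ^ K))
        - Hc (lab μ (zt (RN j k l M)) hkl 4 (2 ^ K))| ≤ ε := by
  obtain ⟨K1, hK1⟩ := md_pow_small (C := 1) zero_le_one 0 (ε := ε / 4) (by positivity)
  refine ⟨K1, fun K hK => ?_⟩
  obtain ⟨hC1, hC2⟩ := hK1 K hK
  rw [one_mul] at hC1 hC2
  rw [add_zero] at hC2
  have hx0 : (0 : ℝ) < (2 : ℝ) ^ (-(K : ℝ)) := Real.rpow_pos_of_pos two_pos _
  obtain ⟨w1, hw1, hw⟩ := exists_e0' n (δ := (2 : ℝ) ^ (-(K : ℝ)) / 100) (by positivity)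
  refine ⟨ε / 4, max (20 * w1) (20 * c1N n), by positivity,
    lt_of_lt_of_le (by positivity) (le_max_left _ _), ?_⟩
  intro μ hμp hμ u1 u2 M W B hU hM hu2 hW4 hWK hB hN j k l hjk hkl hjl
  have hUb : 20 * w1 ≤ u1 := (le_max_left _ _).trans hU
  have hUc : 20 * c1N n ≤ u1 := (le_max_right _ _).trans hU
  have hu1 : 0 ≤ u1 := by linarith
  have hR := rg_of hUc hu1 (by linarith : (0 : ℝ) ≤ W) hM hu2
  have h0 := e0_nonneg n (u1 / 20)
  have he0 : e0 n (u1 / 20) ≤ (2 : ℝ) ^ (-(K : ℝ)) / 100 := hw _ (by linarith)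
  have hg : (2 : ℝ) ^ (-(K : ℝ) - 4 - 4) / 2 ≤ (2 : ℝ) ^ (-(K : ℝ)) / 100 := by
    rw [show (-(K : ℝ) - 4 - 4) = -(K : ℝ) + ((-8 : ℤ) : ℝ) by push_cast; ring,
      Real.rpow_add two_pos, rpow_m8]
    linarith
  have hee : 3 * e0 n (u1 / 20) + (2 : ℝ) ^ (-(K : ℝ) - 4 - 4) / 2 ≤ (2 : ℝ) ^ (-(K : ℝ)) / 2 := by
    linarith
  have he : 2 * ((2 : ℝ) ^ (-(K : ℝ)) / 2) ≤ 1 := by linarith
  have hα : |(4 : ℝ)| ≤ W := by rw [abs_of_pos (by norm_num)]; exact hW4
  have hγ : |(-(K : ℝ))| ≤ W := by rw [abs_neg, Nat.abs_cast]; exact hWK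
  have hb0 : 0 < 2 ^ K := by positivity
  have hη : 0 ≤ ε / 4 := by positivity
  have hm : md (2 ^ K) (2 * ((2 : ℝ) ^ (-(K : ℝ)) / 2)) ≤ ε / 4 := by
    rwa [show 2 * ((2 : ℝ) ^ (-(K : ℝ)) / 2) = (2 : ℝ) ^ (-(K : ℝ)) by ring]
  have hm2 : md (2 ^ K) (2 * e0 n (u1 / 20)) ≤ ε / 4 :=
    (md_mono (2 ^ K) (by positivity) (by linarith) hC1).trans hC2
  have s1 := near_S hμ hR hN hB hb0 hη hjk hkl hjl (α := 4) (β := 4) (γ := -(K : ℝ)) hα hα hγ hee he
  have s2 := near_T hμ hR hN hB hb0 hη hjk hkl hjl (α := 4) (β := 4) (γ := -(K : ℝ)) hα hα hγ hee he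
  have z1 := near_Z hμ hR hN hB hb0 hη hjk hkl hjl (i := j) (i' := k)
    (Or.inl ⟨rfl, rfl⟩) hjk hα (by linarith)
  have z2 := near_Z hμ hR hN hB hb0 hη hjk hkl hjl (i := k) (i' := l)
    (Or.inr (Or.inl ⟨rfl, rfl⟩)) hkl hα (by linarith)
  rw [abs_le] at s1 s2 z1 z2
  constructor <;> rw [abs_le] <;> constructor <;> linarith [s1.1, s1.2, s2.1, s2.2, z1.1, z1.2, z2.1, z2.2]


/-- **CLAIM F** at `α = 4 + K`, `β = 4`, `γ = -K`, base `2 ^ (K + 4) * 2 ^ K3`: the digits of `s` have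
base `2 ^ K`, the window of `r` is `2 ^ K`, its blocks have `2 ^ K3` digits. -/
theorem claimFK (K3 : ℕ) {ε : ℝ} (hε : 0 < ε) : ∃ K1 : ℕ, ∀ K : ℕ, K1 ≤ K →
    ∃ η U : ℝ, 0 < η ∧ 0 < U ∧
    ∀ μ : Measure (ModSpace n), IsProbabilityMeasure μ → AInv μ →
    ∀ (u1 u2 M W : ℝ) (B : Finset ℕ), U ≤ u1 → 1000 * (u1 + W) ≤ M → 2 * M ≤ u2 / 20 →
      4 + (K : ℝ) ≤ W → 2 ^ (K + 4) * 2 ^ K3 ∈ B → NC μ u1 u2 B η →
      ∀ (j k l : Fin n) (hjk : j ≠ k) (hkl : k ≠ l) (hjl : j ≠ l), ∀ γ' : ℝ, |γ'| ≤ W →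
      HR μ M hjk hkl hjl (4 + (K : ℝ)) 4 (-(K : ℝ)) (2 ^ (K + 4) * 2 ^ K3)
        ≤ Hc (lab μ (zt (RN j k l M)) hjl γ' (2 ^ (K + 4) * 2 ^ K3)) + ε := by
  obtain ⟨K1, hK1⟩ := md_pow_small (C := 2 ^ K3) (by positivity) (4 + K3) (ε := ε / 20)
    (by positivity)
  refine ⟨K1, fun K hK => ?_⟩
  obtain ⟨hC1, hC2⟩ := hK1 K hK
  set X : ℝ := 2 ^ K3 * (2 : ℝ) ^ (-(K : ℝ)) with hX
  have hp : (2 : ℝ) ^ (-(K : ℝ)) ≤ X := by
    rw [hX]
    exact le_mul_of_one_le_left (Real.rpow_pos_of_pos two_pos _).le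
      (one_le_pow₀ (by norm_num))
  have hX0 : 0 < X := by positivity
  obtain ⟨b, hb⟩ : ∃ b : ℕ, b = 2 ^ (K + 4) * 2 ^ K3 := ⟨_, rfl⟩
  have hb' : b = 2 ^ (K + (4 + K3)) := by rw [hb, ← pow_add, add_assoc]
  rw [← hb'] at hC2
  rw [← hb]
  have hb2 : 2 ≤ b := by
    rw [hb']
    calc 2 = 2 ^ 1 := rfl
      _ ≤ 2 ^ (K + (4 + K3)) := Nat.pow_le_pow_right (by norm_num) (by omega)
  have hL : Real.logb 2 b = K + (4 + K3) := by
    rw [hb']
    push_cast
    rw [Real.logb_pow, Real.logb_self_eq_one (by norm_num), mul_one]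
    push_cast
    ring
  obtain ⟨w1, hw1, hw⟩ := exists_e0' n (δ := X / 100) (by positivity)
  refine ⟨ε / 20, max (20 * (w1 + (K + (4 + K3)))) (20 * c1N n), by positivity,
    lt_of_lt_of_le (by positivity) (le_max_left _ _), ?_⟩
  intro μ hμp hμ u1 u2 M W B hU hM hu2 hWK hbB hN j k l hjk hkl hjl γ' hγ'
  have hU1 : 20 * (w1 + (K + (4 + K3))) ≤ u1 := (le_max_left _ _).trans hU
  have hUc : 20 * c1N n ≤ u1 := (le_max_right _ _).trans hU
  have hK0 : (0 : ℝ) ≤ (K : ℝ) + (4 + K3) := by positivity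
  have hu1 : 0 ≤ u1 := by linarith
  have hKr : (0 : ℝ) ≤ K := by positivity
  have hW : 0 ≤ W := by linarith
  have h0 := e0_nonneg n (u1 / 20)
  have hadm : ((n.factorial : ℝ) + 1) * 2 ^ (n + 1) ≤ (2 : ℝ) ^ (u1 / 20) := by
    have h1 : c1N n ≤ u1 / 20 := by linarith
    unfold NScH_395.c1N at h1
    rwa [Real.logb_le_iff_le_rpow (by norm_num) (by positivity)] at h1
  have hRg : Rg n (M / 2) u1 u2 (u1 / 20)
      (W + 12 * u1 + 4 * (u1 / 20) + 4 * Real.logb 2 b) := by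
    rw [hL]
    exact ⟨by positivity, le_rfl, by positivity, hadm, by linarith, by linarith⟩
  have he0 : e0 n (u1 / 20) ≤ X / 100 := hw (u1 / 20) (by linarith)
  have hg : b * (2 : ℝ) ^ (-(K : ℝ) - (4 + (K : ℝ)) - 4) / 2 ≤ X / 30 := by
    have h1 : (2 : ℝ) ^ (-(K : ℝ) - (4 + (K : ℝ)) - 4)
        = (2 : ℝ) ^ (-(K : ℝ)) * ((2 : ℝ) ^ (-(K : ℝ)) * (1 / 256)) := by
      rw [← rpow_m8, ← Real.rpow_add two_pos, ← Real.rpow_add two_pos]
      congr 1
      push_cast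
      ring
    have h2 : (b : ℝ) * (2 : ℝ) ^ (-(K : ℝ)) = 2 ^ (4 + K3) := by
      rw [hb']
      push_cast
      rw [pow_add, mul_comm ((2 : ℝ) ^ K), mul_assoc, ← Real.rpow_natCast 2 K,
        ← Real.rpow_add two_pos, add_neg_cancel, Real.rpow_zero, mul_one]
    rw [h1, ← mul_assoc, h2, hX, pow_add]
    have h3 : (0 : ℝ) < 2 ^ K3 * (2 : ℝ) ^ (-(K : ℝ)) := by positivity
    nlinarith
  have hee : 3 * e0 n (u1 / 20) + b * (2 : ℝ) ^ (-(K : ℝ) - (4 + (K : ℝ)) - 4) / 2 ≤ X / 2 := by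
    linarith
  have he : 2 * (X / 2) ≤ 1 := by linarith
  have hα : |4 + (K : ℝ)| ≤ W := by rw [abs_of_nonneg (by positivity)]; exact hWK
  have hβ : |(4 : ℝ)| ≤ W := by rw [abs_of_pos (by norm_num)]; linarith
  have hγ : |(-(K : ℝ))| ≤ W := by rw [abs_neg, Nat.abs_cast]; linarith
  have key := claimF hμ (α := 4 + (K : ℝ)) (β := 4) (γ := -(K : ℝ)) (M := M / 2) (M' := M)
    hjk hkl hjl hb2 hRg hN hbB (by positivity) (by linarith) hα hβ hγ hee he
  have hm1 : md b (2 * (X / 2)) ≤ ε / 20 := by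
    rwa [show 2 * (X / 2) = X by ring]
  have hm2 : md b (4 * e0 n (u1 / 20)) ≤ ε / 20 :=
    (md_mono b (by positivity) (by linarith) hC1).trans hC2
  have hm3 : md b (2 * e0 n (u1 / 20)) ≤ ε / 20 :=
    (md_mono b (by positivity) (by linarith) hC1).trans hC2
  have hz := near_Z hμ (rg_of hUc hu1 hW (by linarith) hu2) hN hbB (by omega) (by positivity)
    hjk hkl hjl (Or.inr (Or.inr ⟨rfl, rfl⟩)) hjl hγ' (by linarith)
  have h5 := (abs_le.1 hz).1
  linarith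

end Crest.Agent.R014.Cst_832
end

-- ▼ part R014/HR3_792
section

/-!
Row 14, block D (noise formalism), section 4, (R3r), abstract part (helper792).
`(Ω, P)` probability; `β` (block), `d` (digit in the block), `z` (observation), `v` (the other
parameters), `y` (observation of the digit alone), `z = K (y, v, β)`, `y = L (z, v, β)`,
`(d, y)` independent of `(v, β)`; `g ∘ v` a coarser observation of `v`.
* `drop`: `H(d | z, g v, β) - H(d | y) ≤ H((β, d) | z, g v) - H((β, d) | z, v)`;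
* `pv_near`: `L¹` distance of the posteriors of `d` given `(z, g v, β)` and given `y`;
* `spr_near`: the same for the spreads.
-/

set_option autoImplicit false
set_option linter.unusedSectionVars false

namespace Crest.Agent.R014.HR3_792

open MeasureTheory Finset ProbabilityTheory
open scoped ENNReal
open Crest.Agent.R014.Ne1_567 Crest.Agent.R014.Ne2_567 Crest.Agent.R014.Ne3_567
open Crest.Agent.R014.Ne4_567 Crest.Agent.R014.Nh2_849
open Crest.Agent.R014.NScC_395 (spr spr_lip spr_nonneg spr_le)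

variable {Ω ι κ Y Z V W : Type*} [Fintype ι] [Fintype κ] [MeasurableSpace Ω] [MeasurableSpace Y]
  [MeasurableSpace Z] [MeasurableSpace V] [MeasurableSpace W]
  [MeasurableSpace ι] [MeasurableSingletonClass ι]
  [MeasurableSpace κ] [MeasurableSingletonClass κ]

variable (P : Measure Ω) [IsProbabilityMeasure P] {d : Ω → ι} {β : Ω → κ} {z : Ω → Z} {v : Ω → V}
  {y : Ω → Y} {g : V → W} {K : Y × V × κ → Z} {L : Z × V × κ → Y}

section
variable (hd : Measurable d) (hβ : Measurable β) (hz : Measurable z) (hv : Measurable v)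
  (hy : Measurable y) (hg : Measurable g) (hK : Measurable K) (hL : Measurable L)
  (hzK : ∀ ω, z ω = K (y ω, v ω, β ω)) (hyL : ∀ ω, y ω = L (z ω, v ω, β ω))
  (hi : IndepFun (fun ω => (d ω, y ω)) (fun ω => (v ω, β ω)) P)

include hd hβ hz hv hy hg hK hL hzK hyL hi

/-- the full observation carries the same information on `d` as `y`. -/
theorem HH_full : HH P d (fun ω => ((z ω, v ω), β ω)) = HH P d y := by
  rw [← HH_indep P hd hy (hv.prodMk hβ) inferInstance hi]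
  refine HH_eq_of_comp P (K := fun p => (L (p.1.1, p.1.2, p.2), p.1.2, p.2))
    (L := fun p => ((K (p.1, p.2.1, p.2.2), p.2.1), p.2.2)) ?_ ?_ ((hz.prodMk hv).prodMk hβ)
    (hy.prodMk (hv.prodMk hβ)) ?_ ?_
  · refine (hL.comp ?_).prodMk ?_
    · exact (measurable_fst.comp measurable_fst).prodMk
        ((measurable_snd.comp measurable_fst).prodMk measurable_snd)
    · exact (measurable_snd.comp measurable_fst).prodMk measurable_snd
  · refine ((hK.comp ?_).prodMk ?_).prodMk ?_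
    · exact measurable_fst.prodMk ((measurable_fst.comp measurable_snd).prodMk
        (measurable_snd.comp measurable_snd))
    · exact measurable_fst.comp measurable_snd
    · exact measurable_snd.comp measurable_snd
  · exact Filter.Eventually.of_forall fun ω => by
      simp only [← hyL ω]
  · exact Filter.Eventually.of_forall fun ω => by
      simp only [← hzK ω]

theorem drop : HH P d (fun ω => ((z ω, g (v ω)), β ω)) - HH P d y
    ≤ HH P (fun ω => (d ω, β ω)) (fun ω => (z ω, g (v ω)))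
      - HH P (fun ω => (d ω, β ω)) (fun ω => (z ω, v ω)) := by
  have h1 := HH_pair P hd hβ (hz.prodMk (hg.comp hv))
  have h2 := HH_pair P hd hβ (hz.prodMk hv)
  have h3 : HH P β (fun ω => (z ω, v ω)) ≤ HH P β (fun ω => (z ω, g (v ω))) :=
    HH_le_comp P (K := fun p : Z × V => (p.1, g p.2))
      (measurable_fst.prodMk (hg.comp measurable_snd)) (hz.prodMk hv)
  have h4 := HH_full P hd hβ hz hv hy hg hK hL hzK hyL hi
  simp only [Function.comp_def] at h1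
  rw [h1, h2, h4]
  linarith

theorem pv_near [Nonempty ι] :
    ∫ ω, ∑ c, |pv (rv P d (fun ω => ((z ω, g (v ω)), β ω))) c ((z ω, g (v ω)), β ω)
        - pv (rv P d y) c (y ω)| ∂P
      ≤ 2 * √(HH P (fun ω => (d ω, β ω)) (fun ω => (z ω, g (v ω)))
        - HH P (fun ω => (d ω, β ω)) (fun ω => (z ω, v ω))) := by
  have h := pin2 P (d := d) (Yv := fun ω => ((z ω, v ω), β ω))
    (K := fun p => ((p.1.1, g p.1.2), p.2)) (L := fun p => L (p.1.1, p.1.2, p.2)) hd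
    ((hz.prodMk hv).prodMk hβ)
    (((measurable_fst.comp measurable_fst).prodMk (hg.comp (measurable_snd.comp
      measurable_fst))).prodMk measurable_snd)
    (hL.comp ((measurable_fst.comp measurable_fst).prodMk
        ((measurable_snd.comp measurable_fst).prodMk measurable_snd)))
  simp only [← hyL] at h
  have h4 := HH_full P hd hβ hz hv hy hg hK hL hzK hyL hi
  rw [h4, sub_self, Real.sqrt_zero, mul_zero, add_zero] at h
  refine h.trans ?_
  have h5 := drop P hd hβ hz hv hy hg hK hL hzK hyL hi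
  gcongr

end

end Crest.Agent.R014.HR3_792
end

-- ▼ part R014/HR3b_792
section

/-!
Row 14, block D (noise formalism), section 4, (R3r), the product space (helper792).
`ω = (x, (ζ, (t, (s, r))))`, `PM μ κ = μ × κ × uni × uni × uni`; `dN` = block of `r`, `sb` = fine
part of `r`.
* `law_R`: joint law of `((x, (ζ, sb r)), ((t, s), dN r))`;
* `indep_R`: independence of the two halves.
-/

set_option autoImplicit false

open MeasureTheory Finset ProbabilityTheory Crest.NumberTheoryR.Packets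
open scoped ENNReal
open Crest.Agent.R014.Nd_837

noncomputable section

namespace Crest.Agent.R014.HR3_792

/-! ### rearrangement of the coordinates -/

section Law

variable {A B C D E F : Type*} [MeasurableSpace A] [MeasurableSpace B] [MeasurableSpace C]
  [MeasurableSpace D] [MeasurableSpace E] [MeasurableSpace F]
  (α : Measure A) (β : Measure B) (γ : Measure C) (δ : Measure D) (ε : Measure E) (φ : Measure F)
  [IsProbabilityMeasure α] [IsProbabilityMeasure β] [IsProbabilityMeasure γ]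
  [IsProbabilityMeasure δ] [IsProbabilityMeasure ε] [IsProbabilityMeasure φ]

/-- `(A × (B × F)) × ((C × D) × E) → A × (B × (C × (D × (E × F))))`. -/
theorem mp_rearr : MeasurePreserving
    (fun q : (A × (B × F)) × ((C × D) × E) =>
      (q.1.1, (q.1.2.1, (q.2.1.1, (q.2.1.2, (q.2.2, q.1.2.2))))))
    ((α.prod (β.prod φ)).prod ((γ.prod δ).prod ε))
    (α.prod (β.prod (γ.prod (δ.prod (ε.prod φ))))) := by
  have h1 : MeasurePreserving (MeasurableEquiv.prodAssoc : (A × (B × F)) × ((C × D) × E) ≃ᵐ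
      A × ((B × F) × ((C × D) × E))) ((α.prod (β.prod φ)).prod ((γ.prod δ).prod ε))
      (α.prod ((β.prod φ).prod ((γ.prod δ).prod ε))) := measurePreserving_prodAssoc _ _ _
  have h2 : MeasurePreserving (MeasurableEquiv.prodAssoc : (B × F) × ((C × D) × E) ≃ᵐ
      B × (F × ((C × D) × E))) ((β.prod φ).prod ((γ.prod δ).prod ε))
      (β.prod (φ.prod ((γ.prod δ).prod ε))) := measurePreserving_prodAssoc _ _ _
  have h3 : MeasurePreserving (Prod.swap : F × ((C × D) × E) → ((C × D) × E) × F)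
      (φ.prod ((γ.prod δ).prod ε)) (((γ.prod δ).prod ε).prod φ) := Measure.measurePreserving_swap
  have h4 : MeasurePreserving (MeasurableEquiv.prodAssoc : ((C × D) × E) × F ≃ᵐ
      (C × D) × (E × F)) (((γ.prod δ).prod ε).prod φ)
      ((γ.prod δ).prod (ε.prod φ)) := measurePreserving_prodAssoc _ _ _
  have h5 : MeasurePreserving (MeasurableEquiv.prodAssoc : (C × D) × (E × F) ≃ᵐ
      C × (D × (E × F))) ((γ.prod δ).prod (ε.prod φ))
      (γ.prod (δ.prod (ε.prod φ))) := measurePreserving_prodAssoc _ _ _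
  have h6 := (MeasurePreserving.id β).prod (h5.comp (h4.comp h3))
  have h7 := (MeasurePreserving.id α).prod (h6.comp h2)
  exact h7.comp h1

theorem mp_back : MeasurePreserving
    (fun q : A × (B × (C × (D × (E × F)))) =>
      ((q.1, (q.2.1, q.2.2.2.2.2)), ((q.2.2.1, q.2.2.2.1), q.2.2.2.2.1)))
    (α.prod (β.prod (γ.prod (δ.prod (ε.prod φ)))))
    ((α.prod (β.prod φ)).prod ((γ.prod δ).prod ε)) := by
  have hm : Measurable (fun q : A × (B × (C × (D × (E × F)))) =>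
      ((q.1, (q.2.1, q.2.2.2.2.2)), ((q.2.2.1, q.2.2.2.1), q.2.2.2.2.1))) := by fun_prop
  refine ⟨hm, ?_⟩
  have h := mp_rearr α β γ δ ε φ
  rw [← h.map_eq, Measure.map_map hm h.measurable]
  exact Measure.map_id

end Law

/-! ### the space -/

variable {n : ℕ}

/-- the space of `(x, (ζ, (t, (s, r))))` -/
abbrev Om (n : ℕ) : Type := ModSpace n × (SLR n × (ℝ × (ℝ × ℝ)))

/-- the law -/
abbrev PM (μ : Measure (ModSpace n)) (κ : Measure (SLR n)) : Measure (Om n) :=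
  μ.prod (κ.prod (uni.prod (uni.prod uni)))

section

variable (μ : Measure (ModSpace n)) (κ : Measure (SLR n)) [IsProbabilityMeasure μ]
  [IsProbabilityMeasure κ] {N : ℕ} {dN : ℝ → Fin N} {sb : ℝ → ℝ} {νN : Measure (Fin N)}
  [IsProbabilityMeasure νN] (hdN : Measurable dN) (hsb : Measurable sb)
  (hlaw : uni.map (fun θ => (dN θ, sb θ)) = νN.prod uni)

include hdN hsb hlaw

theorem law_R : (PM μ κ).map (fun ω : Om n => ((ω.1, (ω.2.1, sb ω.2.2.2.2)),
      ((ω.2.2.1, ω.2.2.2.1), dN ω.2.2.2.2)))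
    = (μ.prod (κ.prod uni)).prod ((uni.prod uni).prod νN) := by
  have h0 : MeasurePreserving (fun θ => (dN θ, sb θ)) uni (νN.prod uni) :=
    ⟨hdN.prodMk hsb, hlaw⟩
  have h1 := (MeasurePreserving.id uni).prod ((MeasurePreserving.id uni).prod h0)
  have h2 := (MeasurePreserving.id μ).prod ((MeasurePreserving.id κ).prod h1)
  exact ((mp_back μ κ uni uni νN uni).comp h2).map_eq

theorem indep_R : IndepFun (fun ω : Om n => (ω.1, (ω.2.1, sb ω.2.2.2.2)))
    (fun ω : Om n => ((ω.2.2.1, ω.2.2.2.1), dN ω.2.2.2.2)) (PM μ κ) := by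
  have hm1 : Measurable (fun ω : Om n => (ω.1, (ω.2.1, sb ω.2.2.2.2))) :=
    measurable_fst.prodMk ((measurable_fst.comp measurable_snd).prodMk (hsb.comp (by fun_prop)))
  have hm2 : Measurable (fun ω : Om n => ((ω.2.2.1, ω.2.2.2.1), dN ω.2.2.2.2)) :=
    Measurable.prodMk (by fun_prop) (hdN.comp (by fun_prop))
  have h := law_R μ κ hdN hsb hlaw
  rw [indepFun_iff_map_prod_eq_prod_map_map hm1.aemeasurable hm2.aemeasurable]
  have e1 : (PM μ κ).map (fun ω : Om n => (ω.1, (ω.2.1, sb ω.2.2.2.2)))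
      = μ.prod (κ.prod uni) := by
    have := congrArg (Measure.map Prod.fst) h
    rw [Measure.map_map measurable_fst (hm1.prodMk hm2), Measure.map_fst_prod,
      measure_univ, one_smul] at this
    exact this
  have e2 : (PM μ κ).map (fun ω : Om n => ((ω.2.2.1, ω.2.2.2.1), dN ω.2.2.2.2))
      = (uni.prod uni).prod νN := by
    have := congrArg (Measure.map Prod.snd) h
    rw [Measure.map_map measurable_snd (hm1.prodMk hm2), Measure.map_snd_prod,
      measure_univ, one_smul] at this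
    exact this
  rw [e1, e2]
  exact h

theorem law_R1 : (PM μ κ).map (fun ω : Om n => (ω.1, (ω.2.1, sb ω.2.2.2.2)))
    = μ.prod (κ.prod uni) := by
  have hm1 : Measurable (fun ω : Om n => (ω.1, (ω.2.1, sb ω.2.2.2.2))) :=
    measurable_fst.prodMk ((measurable_fst.comp measurable_snd).prodMk (hsb.comp (by fun_prop)))
  have hm2 : Measurable (fun ω : Om n => ((ω.2.2.1, ω.2.2.2.1), dN ω.2.2.2.2)) :=
    Measurable.prodMk (by fun_prop) (hdN.comp (by fun_prop))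
  have := congrArg (Measure.map Prod.fst) (law_R μ κ hdN hsb hlaw)
  rw [Measure.map_map measurable_fst (hm1.prodMk hm2), Measure.map_fst_prod,
    measure_univ, one_smul] at this
  exact this

end

/-! ### the observation of the fine part alone -/

open Crest.Agent.R014.Ne1_567 Crest.Agent.R014.Ne3_567 Crest.Agent.R014.Ne4_567
open Crest.Agent.R014.Ms_667 Crest.Agent.R014.NScC_395 Crest.Agent.R014.NScD_395
open Crest.Agent.R014.Nh2_849

variable {j k l : Fin n}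

theorem meas_act {X : Type*} [MeasurableSpace X] {f : X → ModSpace n} {g : X → SLR n}
    (hf : Measurable f) (hg : Measurable g) : Measurable fun ω => act (f ω) (g ω) :=
  measurable_act₂.comp (hf.prodMk hg)

theorem meas_mul {X : Type*} [MeasurableSpace X] {f g : X → SLR n}
    (hf : Measurable f) (hg : Measurable g) : Measurable fun ω => f ω * g ω := hf.mul hg

theorem meas_inv {X : Type*} [MeasurableSpace X] {f : X → SLR n}
    (hf : Measurable f) : Measurable fun ω => (f ω)⁻¹ := hf.inv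

theorem meas_uu {X : Type*} [MeasurableSpace X] {f : X → ℝ} (hij : j ≠ l) (r : ℝ)
    (hf : Measurable f) : Measurable fun ω => (uu hij ((2 : ℝ) ^ (-r) * f ω) : SLR n) :=
  (measurable_uuw hij r).comp hf

/-- `x ζ u_jl(2^(-r0) sb r)`. -/
def yf (hjl : j ≠ l) (r0 : ℝ) (sb : ℝ → ℝ) (ω : Om n) : ModSpace n :=
  act ω.1 (ω.2.1 * uu hjl ((2 : ℝ) ^ (-r0) * sb ω.2.2.2.2))

/-- the full observation (order `kl`, `jk`, `jl`). -/
def zf (hjk : j ≠ k) (hkl : k ≠ l) (hjl : j ≠ l) (a b c : ℝ) (ω : Om n) : ModSpace n :=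
  act ω.1 (ω.2.1 * uu hkl ((2 : ℝ) ^ (-b) * ω.2.2.1) * uu hjk ((2 : ℝ) ^ (-a) * ω.2.2.2.1)
    * uu hjl ((2 : ℝ) ^ (-c) * ω.2.2.2.2))

theorem measurable_yf (hjl : j ≠ l) (r0 : ℝ) {sb : ℝ → ℝ} (hsb : Measurable sb) :
    Measurable (yf (n := n) hjl r0 sb) := by
  refine meas_act measurable_fst (meas_mul (measurable_fst.comp measurable_snd) (meas_uu _ _ ?_))
  exact hsb.comp (by fun_prop)

theorem measurable_zf (hjk : j ≠ k) (hkl : k ≠ l) (hjl : j ≠ l) (a b c : ℝ) :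
    Measurable (zf (n := n) hjk hkl hjl a b c) := by
  refine meas_act measurable_fst (meas_mul (meas_mul (meas_mul (measurable_fst.comp
    measurable_snd) (meas_uu _ _ ?_)) (meas_uu _ _ ?_)) (meas_uu _ _ ?_)) <;> fun_prop

theorem measurable_y0 (hjl : j ≠ l) (r : ℝ) : Measurable (fun p : ModSpace n × (SLR n × ℝ) =>
      act p.1 (p.2.1 * uu hjl ((2 : ℝ) ^ (-r) * p.2.2))) :=
  meas_act measurable_fst (meas_mul (measurable_fst.comp measurable_snd)
    (meas_uu _ _ (measurable_snd.comp measurable_snd)))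

/-- the family of the digit and of `x ζ u(2^(-r) θ)` on `μ × κ × uni` is `lab`. -/
theorem rv_lab0 (μ : Measure (ModSpace n)) (κ : Measure (SLR n)) [IsProbabilityMeasure μ]
    [IsProbabilityMeasure κ] (hjl : j ≠ l) (r : ℝ) {b : ℕ} {db : ℝ → Fin b}
    (hcell : ∀ c, uni.restrict (db ⁻¹' {c}) = (b : ℝ≥0∞)⁻¹ • uni.map (fun θ => cen b c + θ / b)) :
    rv (μ.prod (κ.prod uni)) (fun p : ModSpace n × (SLR n × ℝ) => db p.2.2)
      (fun p => act p.1 (p.2.1 * uu hjl ((2 : ℝ) ^ (-r) * p.2.2))) = lab μ κ hjl r b := by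
  funext c
  unfold rv lab
  have hb : (b : ℝ≥0∞)⁻¹ ≠ ∞ := by
    have : 0 < b := c.pos
    simp [this.ne']
  have e1 : (μ.prod (κ.prod uni)).restrict ((fun p : ModSpace n × (SLR n × ℝ) => db p.2.2) ⁻¹' {c})
      = μ.prod (κ.prod (uni.restrict (db ⁻¹' {c}))) := by
    have h1 : ((fun p : ModSpace n × (SLR n × ℝ) => db p.2.2) ⁻¹' {c})
        = Set.univ ×ˢ (Set.univ ×ˢ (db ⁻¹' {c})) := by
      ext p
      simp
    rw [h1, ← Measure.prod_restrict, ← Measure.prod_restrict, Measure.restrict_univ,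
      Measure.restrict_univ]
  rw [e1, hcell c]
  have hm := measurable_y0 (n := n) hjl r
  have hcm : Measurable (fun θ : ℝ => cen b c + θ / b) := by fun_prop
  have hu : Measurable fun θ : ℝ => (uu hjl ((2 : ℝ) ^ (-r) * (cen b c + θ / b)) : SLR n) :=
    (measurable_uuw hjl r).comp hcm
  have : IsProbabilityMeasure (uni.map (fun θ : ℝ => cen b c + θ / b)) :=
    Measure.isProbabilityMeasure_map hcm.aemeasurable
  rw [Measure.prod_smul_right, Measure.prod_smul_right, Measure.map_smul]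
  congr 1
  unfold dlaw
  have e2 : stp (stp μ κ) (uni.map fun θ : ℝ => (uu hjl ((2 : ℝ) ^ (-r) * (cen b c + θ / b)) : SLR n))
      = ((μ.prod κ).prod uni).map
        (fun q => act (act q.1.1 q.1.2) (uu hjl ((2 : ℝ) ^ (-r) * (cen b c + q.2 / b)))) := by
    unfold stp
    rw [Measure.map_prod_map _ _ measurable_act₂ hu,
      Measure.map_map measurable_act₂ (measurable_act₂.prodMap hu)]
    rfl
  have e3 : μ.prod (κ.prod (uni.map (fun θ : ℝ => cen b c + θ / b)))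
      = ((μ.prod κ).prod uni).map (fun q => (q.1.1, (q.1.2, cen b c + q.2 / b))) := by
    have h3 : MeasurePreserving (fun θ : ℝ => cen b c + θ / b) uni
      (uni.map (fun θ : ℝ => cen b c + θ / b)) := ⟨hcm, rfl⟩
    have h4 := (MeasurePreserving.id μ).prod ((MeasurePreserving.id κ).prod h3)
    have h5 := h4.comp (measurePreserving_prodAssoc μ κ uni)
    exact h5.map_eq.symm
  rw [e2, e3, Measure.map_map hm (by fun_prop)]
  congr 1
  funext q
  simp only [Function.comp_apply, act_act]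

end Crest.Agent.R014.HR3_792
end
end

-- ▼ part R014/HR3c_792
section

/-!
Row 14, block D (noise formalism), section 4, (R3r), final form (helper792).
`r3r`: the mean spread of the posterior of the fine digit of `r`, given `(z, g (t, s), block)`, is
`L¹(μ)` close to `Acv μ κ hjl r0 b`, with error `8 √(H((d, β) | z, g (t, s)) - H((d, β) | z, t, s))`.
-/

set_option autoImplicit false
set_option linter.style.haveILetI false

open MeasureTheory Finset ProbabilityTheory Crest.NumberTheoryR.Packets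
open scoped ENNReal
open Crest.Agent.R014.Nd_837
open Crest.Agent.R014.Ne1_567 Crest.Agent.R014.Ne3_567 Crest.Agent.R014.Ne4_567
open Crest.Agent.R014.Ms_667 Crest.Agent.R014.NScC_395 Crest.Agent.R014.NScD_395
open Crest.Agent.R014.Nh2_849 Crest.Agent.R014.Sw1_640

noncomputable section

namespace Crest.Agent.R014.HR3_792

variable {n : ℕ} {j k l : Fin n}

section Alg

variable (hjk : j ≠ k) (hkl : k ≠ l) (hjl : j ≠ l) (a b' c r0 : ℝ)

/-- the noise in front of the fine part, for given `(t, s)` and block centre. -/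
def nf (N : ℕ) (p : (ℝ × ℝ) × Fin N) : SLR n :=
  uu hkl ((2 : ℝ) ^ (-b') * p.1.1) * uu hjk ((2 : ℝ) ^ (-a) * p.1.2)
    * uu hjl ((2 : ℝ) ^ (-c) * cen N p.2)

theorem measurable_nf (N : ℕ) : Measurable (nf (n := n) hjk hkl hjl a b' c N) := by
  have hc : Measurable (fun p : (ℝ × ℝ) × Fin N => cen N p.2) :=
    (measurable_of_countable (cen N)).comp measurable_snd
  exact meas_mul (meas_mul (meas_uu _ _ (by fun_prop)) (meas_uu _ _ (by fun_prop)))
    (meas_uu _ _ hc)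

theorem zf_eq {N : ℕ} (hN : 0 < N) (h0 : (2 : ℝ) ^ (-c) = N * (2 : ℝ) ^ (-r0)) {dN : ℝ → Fin N}
    {sb : ℝ → ℝ} (hval : ∀ θ, θ = cen N (dN θ) + sb θ / N) (ω : Om n) :
    zf hjk hkl hjl a b' c ω = act (yf hjl r0 sb ω)
      (nf hjk hkl hjl a b' c N ((ω.2.2.1, ω.2.2.2.1), dN ω.2.2.2.2)) := by
  have hN' : (N : ℝ) ≠ 0 := by exact_mod_cast hN.ne'
  unfold zf yf nf
  rw [act_act]
  congr 1
  have h1 : (2 : ℝ) ^ (-c) * ω.2.2.2.2
      = (2 : ℝ) ^ (-r0) * sb ω.2.2.2.2 + (2 : ℝ) ^ (-c) * cen N (dN ω.2.2.2.2) := by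
    conv_lhs => rw [hval ω.2.2.2.2]
    rw [mul_add, h0]
    field_simp
    ring
  rw [h1, uu_add]
  simp only [mul_assoc]
  congr 1
  set A : SLR n := uu hkl ((2 : ℝ) ^ (-b') * ω.2.2.1)
  set B : SLR n := uu hjk ((2 : ℝ) ^ (-a) * ω.2.2.2.1)
  set F : SLR n := uu hjl ((2 : ℝ) ^ (-r0) * sb ω.2.2.2.2)
  set E : SLR n := uu hjl ((2 : ℝ) ^ (-c) * cen N (dN ω.2.2.2.2))
  have c1 : A * F = F * A := comm_kl_jl hkl hjl _ _
  have c2 : B * F = F * B := comm_jk_jl hjk hjl _ _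
  rw [← mul_assoc B F E, c2, mul_assoc F B E, ← mul_assoc A F, c1, mul_assoc]

end Alg

section Main

variable (μ : Measure (ModSpace n)) (κ : Measure (SLR n)) [IsProbabilityMeasure μ]
  [IsProbabilityMeasure κ] (hjk : j ≠ k) (hkl : k ≠ l) (hjl : j ≠ l) {a b' c r0 : ℝ}
  {N b : ℕ} [NeZero b] (hN : 0 < N) (h0 : (2 : ℝ) ^ (-c) = N * (2 : ℝ) ^ (-r0))
  {dN : ℝ → Fin N} {db : ℝ → Fin b} {sb : ℝ → ℝ} {νN : Measure (Fin N)}
  [IsProbabilityMeasure νN] (hdN : Measurable dN) (hdb : Measurable db) (hsb : Measurable sb)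
  (hlaw : uni.map (fun θ => (dN θ, sb θ)) = νN.prod uni)
  (hval : ∀ θ, θ = cen N (dN θ) + sb θ / N)
  (hcell : ∀ c, uni.restrict (db ⁻¹' {c}) = (b : ℝ≥0∞)⁻¹ • uni.map (fun θ => cen b c + θ / b))
  {W : Type*} [MeasurableSpace W] {g : ℝ × ℝ → W} (hg : Measurable g)

/-- the fine digit of `r` -/
def dd (db : ℝ → Fin b) (sb : ℝ → ℝ) (ω : Om n) : Fin b := db (sb ω.2.2.2.2)

/-- the block of `r` -/
def bt (dN : ℝ → Fin N) (ω : Om n) : Fin N := dN ω.2.2.2.2

/-- the pair `(t, s)` -/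
def ts (ω : Om n) : ℝ × ℝ := (ω.2.2.1, ω.2.2.2.1)

theorem measurable_ts : Measurable (ts (n := n)) := by unfold ts; fun_prop

include hdN hdb hsb hlaw hcell in
theorem rv_yf : rv (PM μ κ) (dd db sb) (yf hjl r0 sb) = lab μ κ hjl r0 b := by
  rw [← rv_lab0 μ κ hjl r0 hcell]
  funext c
  have hm1 : Measurable (fun ω : Om n => (ω.1, (ω.2.1, sb ω.2.2.2.2))) :=
    measurable_fst.prodMk ((measurable_fst.comp measurable_snd).prodMk (hsb.comp (by fun_prop)))
  have hm2 := measurable_y0 (n := n) hjl r0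
  have hd2 : Measurable (fun p : ModSpace n × (SLR n × ℝ) => db p.2.2) :=
    hdb.comp (measurable_snd.comp measurable_snd)
  have hd1 : Measurable (dd (n := n) db sb) := hdb.comp (hsb.comp (by fun_prop))
  refine rv_eq_of_law (PM μ κ) hd1 (measurable_yf hjl r0 hsb) hd2 hm2 ?_ c
  rw [← law_R1 μ κ hdN hsb hlaw, Measure.map_map (hd2.prodMk hm2) hm1]
  rfl

variable (a b') in
include hN h0 hdN hdb hsb hlaw hval hg in
/-- the posteriors of the fine digit. -/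
theorem pv_r : ∫ ω, ∑ c', |pv (rv (PM μ κ) (dd db sb) (fun ω => ((zf hjk hkl hjl a b' c ω,
          g (ts ω)), bt dN ω))) c' ((zf hjk hkl hjl a b' c ω, g (ts ω)), bt dN ω)
        - pv (rv (PM μ κ) (dd db sb) (yf hjl r0 sb)) c' (yf hjl r0 sb ω)| ∂(PM μ κ)
      ≤ 2 * √(HH (PM μ κ) (fun ω => (dd db sb ω, bt dN ω))
            (fun ω => (zf hjk hkl hjl a b' c ω, g (ts ω)))
          - HH (PM μ κ) (fun ω => (dd db sb ω, bt dN ω))
            (fun ω => (zf hjk hkl hjl a b' c ω, ts ω))) := by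
  have hmd : Measurable (dd (n := n) db sb) := hdb.comp (hsb.comp (by fun_prop))
  have hmb : Measurable (bt (n := n) dN) := hdN.comp (by fun_prop)
  have hmz := measurable_zf (n := n) hjk hkl hjl a b' c
  have hmy := measurable_yf (n := n) hjl r0 hsb
  have hmn := measurable_nf (n := n) hjk hkl hjl a b' c N
  have hmK : Measurable (fun p : ModSpace n × ((ℝ × ℝ) × Fin N) =>
      act p.1 (nf hjk hkl hjl a b' c N p.2)) :=
    meas_act measurable_fst (hmn.comp measurable_snd)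
  have hmL : Measurable (fun p : ModSpace n × ((ℝ × ℝ) × Fin N) =>
      act p.1 (nf hjk hkl hjl a b' c N p.2)⁻¹) :=
    meas_act measurable_fst (meas_inv (hmn.comp measurable_snd))
  have hzK : ∀ ω : Om n, zf hjk hkl hjl a b' c ω = (fun p : ModSpace n × ((ℝ × ℝ) × Fin N) =>
      act p.1 (nf hjk hkl hjl a b' c N p.2)) (yf hjl r0 sb ω, ts ω, bt dN ω) :=
    fun ω => zf_eq hjk hkl hjl a b' c r0 hN h0 hval ω
  have hyL : ∀ ω : Om n, yf hjl r0 sb ω = (fun p : ModSpace n × ((ℝ × ℝ) × Fin N) =>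
      act p.1 (nf hjk hkl hjl a b' c N p.2)⁻¹) (zf hjk hkl hjl a b' c ω, ts ω, bt dN ω) := by
    intro ω
    rw [hzK ω]
    show _ = act (act _ _) _
    rw [act_act, mul_inv_cancel, act_one]
  have hi : IndepFun (fun ω : Om n => (dd db sb ω, yf hjl r0 sb ω))
      (fun ω => (ts ω, bt dN ω)) (PM μ κ) := by
    have h := indep_R μ κ hdN hsb hlaw
    have hφ : Measurable (fun p : ModSpace n × (SLR n × ℝ) =>
        (db p.2.2, act p.1 (p.2.1 * uu hjl ((2 : ℝ) ^ (-r0) * p.2.2)))) :=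
      (hdb.comp (measurable_snd.comp measurable_snd)).prodMk (measurable_y0 hjl r0)
    exact h.comp hφ measurable_id
  exact pv_near (PM μ κ) hmd hmb hmz measurable_ts hmy hg hmK hmL hzK hyL hi

end Main

end Crest.Agent.R014.HR3_792
end
end

-- ▼ part R014/HR3d_792
section

/-!
Row 14, block D (noise formalism), section 4, (C) = (R3r) on the space of `HSp_599` (helper792).
-/

set_option autoImplicit false
set_option linter.unusedSectionVars false

open MeasureTheory Finset ProbabilityTheory Crest.NumberTheoryR.Packets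
open scoped ENNReal
open Crest.Agent.R014.Nd_837
open Crest.Agent.R014.Ne1_567 Crest.Agent.R014.Ne3_567 Crest.Agent.R014.Ne4_567
open Crest.Agent.R014.Ms_667 Crest.Agent.R014.NScC_395 Crest.Agent.R014.NScD_395
open Crest.Agent.R014.Nh2_849 Crest.Agent.R014.HSp_599 Crest.Agent.R014.Nh5_849

noncomputable section

namespace Crest.Agent.R014.HR3_792

/-! ### labels -/

section Label

variable {Ω ι κ Y : Type*} [Fintype ι] [Fintype κ] [MeasurableSpace Ω] [MeasurableSpace Y]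
  [MeasurableSpace ι] [MeasurableSingletonClass ι] [MeasurableSpace κ] [MeasurableSingletonClass κ]

theorem HH_label_ae (P : Measure Ω) {d d' : Ω → ι} {Yv : Ω → Y} (h : d =ᵐ[P] d') :
    HH P d Yv = HH P d' Yv := by
  unfold HH
  congr 1
  funext c
  unfold rv
  have h1 : (d ⁻¹' {c} : Set Ω) =ᵐ[P] (d' ⁻¹' {c} : Set Ω) := by
    filter_upwards [h] with ω hω
    apply propext
    show d ω ∈ ({c} : Set ι) ↔ d' ω ∈ ({c} : Set ι)
    rw [hω]
  rw [Measure.restrict_congr_set h1]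

theorem HH_label_equiv (P : Measure Ω) [IsFiniteMeasure P] {d : Ω → ι} {Yv : Ω → Y}
    (hd : Measurable d) (hY : Measurable Yv) (e : ι ≃ κ) :
    HH P (fun ω => e (d ω)) Yv = HH P d Yv := by
  refine le_antisymm (HH_label_le P (g := e) hd hY) ?_
  have he : Measurable fun ω => e (d ω) := (measurable_of_countable e).comp hd
  have h := HH_label_le P (d := fun ω => e (d ω)) (g := e.symm) he hY
  simpa using h

end Label

variable {n : ℕ} {j k l : Fin n}

section Main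

variable (μ : Measure (ModSpace n)) (κ : Measure (SLR n)) [IsProbabilityMeasure μ]
  [IsProbabilityMeasure κ] (hjk : j ≠ k) (hkl : k ≠ l) (hjl : j ≠ l)

theorem HH_cells (N b : ℕ) [NeZero N] [NeZero b] [NeZero (N * b)] {Y : Type*} [MeasurableSpace Y]
    {Yv : HSp_599.Om n → Y} (hY : Measurable Yv) :
    HH (HSp_599.PM μ κ) (fun ω => dg (N * b) (rr ω)) Yv
      = HH (HSp_599.PM μ κ) (fun ω => (dg b (HSp_599.sb N (rr ω)), dg N (rr ω))) Yv := by
  have h1 : (fun ω : HSp_599.Om n => dg (N * b) (rr ω)) =ᵐ[HSp_599.PM μ κ]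
      fun ω => finProdFinEquiv (dg N (rr ω), dg b (HSp_599.sb N (rr ω))) := by
    filter_upwards [ae_rr μ κ] with ω hω
    exact dg_mul hω.1 hω.2
  have hm : Measurable fun ω : HSp_599.Om n => (dg b (HSp_599.sb N (rr ω)), dg N (rr ω)) :=
    ((measurable_dg b).comp ((HSp_599.measurable_sb N).comp measurable_rr)).prodMk
      ((measurable_dg N).comp measurable_rr)
  rw [HH_label_ae _ h1]
  exact HH_label_equiv (HSp_599.PM μ κ) hm hY ((Equiv.prodComm _ _).trans finProdFinEquiv)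

/-- mean over the noise of the spread of the posterior of the fine digit -/
theorem avg_yf (r0 : ℝ) (b : ℕ) [NeZero b] (N : ℕ) [NeZero N] (x : ModSpace n) :
    ∫ q, ps (lab μ κ hjl r0 b) (yf hjl r0 (HSp_599.sb N) (x, q))
      ∂(κ.prod (uni.prod (uni.prod uni))) = Acv μ κ hjl r0 b x := by
  have hm1 : Measurable fun q : SLR n × (ℝ × (ℝ × ℝ)) => (q.1, HSp_599.sb N q.2.2.2) :=
    measurable_fst.prodMk ((HSp_599.measurable_sb N).comp (by fun_prop))
  have h1 : (κ.prod (uni.prod (uni.prod uni))).map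
      (fun q : SLR n × (ℝ × (ℝ × ℝ)) => (q.1, HSp_599.sb N q.2.2.2)) = κ.prod uni := by
    have h2 : MeasurePreserving (HSp_599.sb N) uni uni := by
      refine ⟨HSp_599.measurable_sb N, ?_⟩
      have h3 := congrArg (Measure.map Prod.snd) (law_dg_sb N)
      rw [Measure.map_map measurable_snd ((measurable_dg N).prodMk (HSp_599.measurable_sb N)),
        Measure.map_snd_prod, measure_univ, one_smul] at h3
      exact h3
    have h4 : MeasurePreserving (fun q : ℝ × (ℝ × ℝ) => HSp_599.sb N q.2.2)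
        (uni.prod (uni.prod uni)) uni :=
      h2.comp (measurePreserving_snd.comp measurePreserving_snd)
    exact ((MeasurePreserving.id κ).prod h4).map_eq
  have hm2 : Measurable fun p : SLR n × ℝ => p.1 * uu hjl ((2 : ℝ) ^ (-r0) * p.2) :=
    meas_mul measurable_fst (meas_uu hjl r0 measurable_snd)
  have h5 : cv κ (dl hjl r0) = (κ.prod (uni.prod (uni.prod uni))).map
      (fun q => q.1 * uu hjl ((2 : ℝ) ^ (-r0) * HSp_599.sb N q.2.2.2)) := by
    have e1 : cv κ (dl hjl r0) = (κ.prod uni).map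
        fun p : SLR n × ℝ => p.1 * uu hjl ((2 : ℝ) ^ (-r0) * p.2) := by
      unfold cv dl
      have h := Measure.map_prod_map κ uni measurable_id (measurable_uuw hjl r0)
      rw [Measure.map_id] at h
      rw [h, Measure.map_map measurable_mul₂ (measurable_id.prodMap (measurable_uuw hjl r0))]
      rfl
    rw [e1, ← h1, Measure.map_map hm2 hm1]
    rfl
  unfold Acv Av
  rw [h5, integral_map]
  · rfl
  · exact (hm2.comp hm1).aemeasurable
  · have hps : Measurable (ps (lab μ κ hjl r0 b)) := measurable_ps _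
    exact (hps.comp (meas_act measurable_const measurable_id)).aestronglyMeasurable

/-- **(C)**, entropy form. -/
theorem r3r (w0 bs b : ℕ) [NeZero bs] [NeZero b] [NeZero (2 ^ (w0 + 4) * b)] {gR : ℝ}
    (hg : HH (HSp_599.PM μ κ) (fun ω => dg (2 ^ (w0 + 4) * b) (rr ω))
        (fun ω => (zz hjk hkl hjl 4 4 (-(w0 : ℝ)) ω, dg bs (ss ω)))
      - HH (HSp_599.PM μ κ) (fun ω => dg (2 ^ (w0 + 4) * b) (rr ω))
        (fun ω => (zz hjk hkl hjl 4 4 (-(w0 : ℝ)) ω, (tt ω, ss ω))) ≤ gR) :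
    ∫ x, |(∫ q, RR μ κ hjk hkl hjl (-(w0 : ℝ)) bs b (2 ^ (w0 + 4)) (x, q)
        ∂(κ.prod (uni.prod (uni.prod uni)))) - 1 / 2 ^ 4 * Acv μ κ hjl 4 b x| ∂μ
      ≤ 1 / 2 ^ 4 * (8 * √gR) := by
  set ν := κ.prod (uni.prod (uni.prod uni)) with hν
  set N : ℕ := 2 ^ (w0 + 4) with hNdef
  have hN : 0 < N := by positivity
  have h0 : (2 : ℝ) ^ (-(-(w0 : ℝ))) = N * (2 : ℝ) ^ (-(4 : ℝ)) := by
    rw [neg_neg, hNdef]
    push_cast
    rw [Real.rpow_natCast, Real.rpow_neg (by norm_num)]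
    rw [show ((4 : ℝ)) = ((4 : ℕ) : ℝ) by norm_num, Real.rpow_natCast, pow_add]
    field_simp
  set F : HSp_599.Om n → ℝ := fun ω => spr (cen b) (fun c => pv (rv (HSp_599.PM μ κ)
      (fun ω => dg b (HSp_599.sb N (rr ω)))
      (fun ω => ((zz hjk hkl hjl 4 4 (-(w0 : ℝ)) ω, dg bs (ss ω)), dg N (rr ω)))) c
      ((zz hjk hkl hjl 4 4 (-(w0 : ℝ)) ω, dg bs (ss ω)), dg N (rr ω))) with hF
  set G : HSp_599.Om n → ℝ := fun ω => ps (lab μ κ hjl 4 b) (yf hjl 4 (HSp_599.sb N) ω) with hG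
  have hFm : Measurable F := by
    have h1 : Measurable fun y => spr (cen b) (fun c => pv (rv (HSp_599.PM μ κ)
        (fun ω => dg b (HSp_599.sb N (rr ω)))
        (fun ω => ((zz hjk hkl hjl 4 4 (-(w0 : ℝ)) ω, dg bs (ss ω)), dg N (rr ω)))) c y) :=
      measurable_spr (fun c => measurable_pv _ c) _
    exact h1.comp (measurable_obs hjk hkl hjl (-(w0 : ℝ)) bs N)
  have hGm : Measurable G := (measurable_ps _).comp (measurable_yf hjl 4 (HSp_599.measurable_sb N))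
  have hF0 : ∀ ω, 0 ≤ F ω ∧ F ω ≤ 2 := fun ω =>
    ⟨spr_nonneg fun c => pv_nonneg _ _ _, spr_le cen_dist (fun c => pv_nonneg _ _ _) (sum_pv _ _)⟩
  have hG0 : ∀ ω, 0 ≤ G ω ∧ G ω ≤ 2 := fun ω => ⟨ps_nonneg _ _, ps_le _ _⟩
  have hFGb : ∀ ω, |F ω - G ω| ≤ 2 := by
    intro ω
    rw [abs_le]
    constructor <;> linarith [(hF0 ω).1, (hF0 ω).2, (hG0 ω).1, (hG0 ω).2]
  -- the posteriors
  have hpv := pv_r μ κ hjk hkl hjl (4 : ℝ) (4 : ℝ) (c := -(w0 : ℝ)) (r0 := 4) hN h0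
    (measurable_dg N) (measurable_dg b) (HSp_599.measurable_sb N) (law_dg_sb N) eq_cen_add
    (g := fun p : ℝ × ℝ => dg bs p.2) ((measurable_dg bs).comp measurable_snd)
  have hlab := rv_yf μ κ hjl (r0 := 4) (measurable_dg N) (measurable_dg b)
    (HSp_599.measurable_sb N) (law_dg_sb N) (b := b) restrict_cell
  rw [hlab] at hpv
  have hmz : Measurable fun ω : HSp_599.Om n => (zz hjk hkl hjl 4 4 (-(w0 : ℝ)) ω, dg bs (ss ω)) :=
    (measurable_zz hjk hkl hjl 4 4 _).prodMk ((measurable_dg bs).comp measurable_ss)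
  have hmv : Measurable fun ω : HSp_599.Om n => (zz hjk hkl hjl 4 4 (-(w0 : ℝ)) ω, (tt ω, ss ω)) :=
    (measurable_zz hjk hkl hjl 4 4 _).prodMk (measurable_tt.prodMk measurable_ss)
  rw [HH_cells μ κ N b hmz, HH_cells μ κ N b hmv] at hg
  have hgap : ∫ ω, ∑ c', |pv (rv (HSp_599.PM μ κ) (fun ω => dg b (HSp_599.sb N (rr ω)))
      (fun ω => ((zz hjk hkl hjl 4 4 (-(w0 : ℝ)) ω, dg bs (ss ω)), dg N (rr ω)))) c'
      ((zz hjk hkl hjl 4 4 (-(w0 : ℝ)) ω, dg bs (ss ω)), dg N (rr ω))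
      - pv (lab μ κ hjl 4 b) c' (yf hjl 4 (HSp_599.sb N) ω)| ∂(HSp_599.PM μ κ) ≤ 2 * √gR := by
    refine hpv.trans ?_
    have := Real.sqrt_le_sqrt hg
    exact mul_le_mul_of_nonneg_left this (by norm_num)
  set Sg : HSp_599.Om n → ℝ := fun ω => ∑ c', |pv (rv (HSp_599.PM μ κ)
      (fun ω => dg b (HSp_599.sb N (rr ω)))
      (fun ω => ((zz hjk hkl hjl 4 4 (-(w0 : ℝ)) ω, dg bs (ss ω)), dg N (rr ω)))) c'
      ((zz hjk hkl hjl 4 4 (-(w0 : ℝ)) ω, dg bs (ss ω)), dg N (rr ω))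
      - pv (lab μ κ hjl 4 b) c' (yf hjl 4 (HSp_599.sb N) ω)| with hSg
  have hSm : Measurable Sg := by
    refine Finset.measurable_sum _ fun c' _ => Measurable.abs (Measurable.sub ?_ ?_)
    · exact (measurable_pv _ c').comp (measurable_obs hjk hkl hjl (-(w0 : ℝ)) bs N)
    · exact (measurable_pv _ c').comp (measurable_yf hjl 4 (HSp_599.measurable_sb N))
  have hSb : ∀ ω, |Sg ω| ≤ 2 := by
    intro ω
    rw [abs_of_nonneg (Finset.sum_nonneg fun c _ => abs_nonneg _)]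
    exact sum_abs_le_two _ _ _ _
  have hlip : ∀ ω, |F ω - G ω| ≤ 4 * Sg ω := by
    intro ω
    have h := spr_lip (x := cen b) (D := 2) cen_dist
      (fun c => pv_nonneg (rv (HSp_599.PM μ κ)
      (fun ω => dg b (HSp_599.sb N (rr ω)))
      (fun ω => ((zz hjk hkl hjl 4 4 (-(w0 : ℝ)) ω, dg bs (ss ω)), dg N (rr ω)))) c
      ((zz hjk hkl hjl 4 4 (-(w0 : ℝ)) ω, dg bs (ss ω)), dg N (rr ω))) (sum_pv _ _)
      (fun c => pv_nonneg (lab μ κ hjl 4 b) c (yf hjl 4 (HSp_599.sb N) ω)) (sum_pv _ _)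
    refine h.trans (le_of_eq ?_)
    rw [hSg]
    norm_num
  have iS : Integrable Sg (HSp_599.PM μ κ) :=
    Integrable.of_bound hSm.aestronglyMeasurable 2 (Filter.Eventually.of_forall hSb)
  have iFG : Integrable (fun ω => |F ω - G ω|) (HSp_599.PM μ κ) :=
    Integrable.of_bound (hFm.sub hGm).abs.aestronglyMeasurable 2
      (Filter.Eventually.of_forall fun ω => by rw [Real.norm_eq_abs, abs_abs]; exact hFGb ω)
  have hP : ∫ ω, |F ω - G ω| ∂(HSp_599.PM μ κ) ≤ 8 * √gR := by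
    have h1 : ∫ ω, |F ω - G ω| ∂(HSp_599.PM μ κ) ≤ ∫ ω, 4 * Sg ω ∂(HSp_599.PM μ κ) :=
      integral_mono iFG (iS.const_mul 4) hlip
    rw [integral_const_mul] at h1
    linarith
  -- fibres
  have hfib : ∀ x, |(∫ q, RR μ κ hjk hkl hjl (-(w0 : ℝ)) bs b N (x, q) ∂ν)
      - 1 / 2 ^ 4 * Acv μ κ hjl 4 b x| ≤ 1 / 2 ^ 4 * ∫ q, |F (x, q) - G (x, q)| ∂ν := by
    intro x
    have hmx : Measurable fun q : SLR n × (ℝ × (ℝ × ℝ)) => ((x, q) : HSp_599.Om n) :=
      measurable_prodMk_left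
    have iF : Integrable (fun q => F (x, q)) ν :=
      Integrable.of_bound (hFm.comp hmx).aestronglyMeasurable 2
        (Filter.Eventually.of_forall fun q => by
          rw [Real.norm_eq_abs, abs_of_nonneg (hF0 _).1]; exact (hF0 _).2)
    have iG : Integrable (fun q => G (x, q)) ν :=
      Integrable.of_bound (hGm.comp hmx).aestronglyMeasurable 2
        (Filter.Eventually.of_forall fun q => by
          rw [Real.norm_eq_abs, abs_of_nonneg (hG0 _).1]; exact (hG0 _).2)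
    have e1 : ∫ q, RR μ κ hjk hkl hjl (-(w0 : ℝ)) bs b N (x, q) ∂ν
        = 1 / 2 ^ 4 * ∫ q, F (x, q) ∂ν := by
      rw [← integral_const_mul]
      refine integral_congr_ae (Filter.Eventually.of_forall fun q => ?_)
      show RR μ κ hjk hkl hjl (-(w0 : ℝ)) bs b N (x, q) = 1 / 2 ^ 4 * F (x, q)
      unfold RR
      rw [hF]
      norm_num
    have e2 : Acv μ κ hjl 4 b x = ∫ q, G (x, q) ∂ν := (avg_yf μ κ hjl 4 b N x).symm
    rw [e1, e2, ← mul_sub, ← integral_sub iF iG, abs_mul, abs_of_pos (by norm_num)]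
    exact mul_le_mul_of_nonneg_left (abs_integral_le_integral_abs) (by norm_num)
  have hint2 : Integrable (fun x => ∫ q, |F (x, q) - G (x, q)| ∂ν) μ := iFG.integral_prod_left
  have hmAvg : Measurable fun x => |(∫ q, RR μ κ hjk hkl hjl (-(w0 : ℝ)) bs b N (x, q) ∂ν)
      - 1 / 2 ^ 4 * Acv μ κ hjl 4 b x| := by
    refine Measurable.abs (Measurable.sub ?_ ?_)
    · exact ((measurable_RR μ κ hjk hkl hjl _ bs b N).stronglyMeasurable.integral_prod_right').measurable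
    · exact (measurable_Av _ _).const_mul _
  calc ∫ x, |(∫ q, RR μ κ hjk hkl hjl (-(w0 : ℝ)) bs b N (x, q) ∂ν)
        - 1 / 2 ^ 4 * Acv μ κ hjl 4 b x| ∂μ
      ≤ ∫ x, 1 / 2 ^ 4 * ∫ q, |F (x, q) - G (x, q)| ∂ν ∂μ := by
        refine integral_mono_of_nonneg (Filter.Eventually.of_forall fun x => abs_nonneg _)
          (hint2.const_mul _) (Filter.Eventually.of_forall hfib)
    _ = 1 / 2 ^ 4 * ∫ ω, |F ω - G ω| ∂(HSp_599.PM μ κ) := by
        rw [integral_const_mul]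
        congr 1
        exact (integral_prod _ iFG).symm
    _ ≤ 1 / 2 ^ 4 * (8 * √gR) := mul_le_mul_of_nonneg_left hP (by norm_num)

end Main

end Crest.Agent.R014.HR3_792
end
end

-- ▼ part R014/HR3e_792
section

/-!
Row 14, block D (noise formalism), section 4, (C) over `PZ` (helper792).
* `acv_RN`: `Acv μ (zt (RN j k l M)) hjl r b` against `PZ μ u1 b j l (x a^(tI j r))`;
* `inC`: input (C) of `RAs2_460.Inp`.
-/

set_option autoImplicit false
set_option linter.unusedSectionVars false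

open MeasureTheory Finset Crest.NumberTheoryR.Packets
open Crest.Agent.R014.Nd_837
open Crest.Agent.R014.Ne1_567 Crest.Agent.R014.Ne3_567 Crest.Agent.R014.Ne4_567
open Crest.Agent.R014.NScD_395 Crest.Agent.R014.NScH_395 Crest.Agent.R014.Prod_108
open Crest.Agent.R014.HSp_599 Crest.Agent.R014.Nh5_849
open Crest.Agent.R014.NScG_458 (RN)

noncomputable section

namespace Crest.Agent.R014.HR3_792

variable {n : ℕ}

theorem acv_RN {b : ℕ} (hb : 0 < b) {e : ℝ} (he : 0 < e) :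
    ∃ η U : ℝ, 0 < η ∧ 0 < U ∧ 20 * c1N n ≤ U ∧ ∀ μ : Measure (ModSpace n),
      IsProbabilityMeasure μ → Nd_837.AInv μ →
      ∀ u1 u2 M W : ℝ, U ≤ u1 → 100 * (u1 + W) ≤ M → 2 * M ≤ u2 / 20 →
      NC μ u1 u2 {b} η → ∀ (j k l : Fin n) (_ : j ≠ k) (_ : k ≠ l) (hjl : j ≠ l),
      ∀ r : ℝ, |r| ≤ W →
      ∫ x, |Acv μ (zt (RN j k l M)) hjl r b x - PZ μ u1 b j l (act x (aT (tI j r)))| ∂μ ≤ e := by
  have hne : NeZero b := ⟨hb.ne'⟩
  obtain ⟨η1, w1, hη1, hw1, h1⟩ := eP_small n b he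
  refine ⟨η1, max (20 * w1) (20 * c1N n), hη1, ?_, le_max_right _ _, ?_⟩
  · refine lt_of_lt_of_le ?_ (le_max_left _ _)
    linarith
  intro μ hμp hμ u1 u2 M W hU hM hu2 hnc j k l hjk hkl hjl r hr
  have hU1 : 20 * w1 ≤ u1 := (le_max_left _ _).trans hU
  have hc : 20 * c1N n ≤ u1 := (le_max_right _ _).trans hU
  set w : ℝ := u1 / 20 with hw
  have hw1' : w1 ≤ w := by rw [hw]; linarith
  have hw_1 : 1 ≤ w := hw1.trans hw1'
  have hu1 : 0 ≤ u1 := by linarith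
  obtain ⟨hsm, hE1⟩ := h1 η1 w le_rfl hw1'
  have g1 := goodZ_RN hjk hkl hjl (M := M) (r := r) (w := w) (W := W) (u1 := u1) (u2 := u2) hu1
    (by linarith) (by linarith) hM hr hu2 (Or.inr (Or.inr ⟨rfl, rfl⟩))
  have hmain := acv_zt hμ hjl (b := b) hw_1 le_rfl hc (hnc j l hjl b (by simp) hb) hsm g1
  refine hmain.trans (le_trans ?_ hE1)
  unfold eP
  have hC0 : 0 ≤ Nz_323.CN n := (noiseFam n).C0
  have h2 : 0 ≤ Nz_323.CN n * (2:ℝ) ^ (-w) := by positivity
  have h3 := Real.sqrt_nonneg (η1 + NScG_395.ew b (Nz_323.CN n) w + NScG_395.ew b (Nz_323.CN n) w)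
  have h4 : (0 : ℝ) ≤ b := Nat.cast_nonneg b
  nlinarith [mul_nonneg h4 h2]

/-- **(C)**, the literal input of the final assembly. -/
theorem inC {b : ℕ} [NeZero b] {e : ℝ} (he : 0 < e) :
    ∃ η U : ℝ, 0 < η ∧ 0 < U ∧ 20 * c1N n ≤ U ∧ ∀ μ : Measure (ModSpace n),
      IsProbabilityMeasure μ → Nd_837.AInv μ →
      ∀ u1 u2 M W : ℝ, U ≤ u1 → 100 * (u1 + W) ≤ M → 2 * M ≤ u2 / 20 →
      NC μ u1 u2 {b} η → 4 ≤ W → ∀ (j k l : Fin n) (hjk : j ≠ k) (hkl : k ≠ l) (hjl : j ≠ l)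
      (w0 bs : ℕ) [NeZero bs] [NeZero (2 ^ (w0 + 4) * b)] (gR : ℝ),
      HH (PM μ (zt (RN j k l M))) (fun ω => dg (2 ^ (w0 + 4) * b) (rr ω))
        (fun ω => (zz hjk hkl hjl 4 4 (-(w0 : ℝ)) ω, dg bs (ss ω)))
      - HH (PM μ (zt (RN j k l M))) (fun ω => dg (2 ^ (w0 + 4) * b) (rr ω))
        (fun ω => (zz hjk hkl hjl 4 4 (-(w0 : ℝ)) ω, (tt ω, ss ω))) ≤ gR →
      ∫ x, |(∫ q, RR μ (zt (RN j k l M)) hjk hkl hjl (-(w0 : ℝ)) bs b (2 ^ (w0 + 4)) (x, q)
          ∂((zt (RN j k l M)).prod (uni.prod (uni.prod uni))))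
        - 1 / 2 ^ 4 * PZ μ u1 b j l (act x (aT (tI j 4)))| ∂μ ≤ 1 / 2 ^ 4 * (8 * √gR + e) := by
  obtain ⟨η, U, hη, hU0, hUc, h⟩ := acv_RN (n := n) (b := b) (NeZero.pos b) he
  refine ⟨η, U, hη, hU0, hUc, ?_⟩
  intro μ hμp hμ u1 u2 M W hU hM hu2 hnc hW j k l hjk hkl hjl w0 bs _ _ gR hg
  have hc : 20 * c1N n ≤ u1 := hUc.trans hU
  have hu1 : 0 ≤ u1 := by linarith
  have hM0 : 0 ≤ M := by linarith
  have hadm : Nz_323.Adm (RN j k l M) := (noiseFam n).adm_of _ fun p q => by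
    have h1 := NScG_458.RN_ge (j := j) (k := k) (l := l) hM0 p q
    rcases le_total 0 (c1N n) with h2 | h2 <;> linarith
  have := isProb_zt hadm
  have h1 := r3r μ (zt (RN j k l M)) hjk hkl hjl w0 bs b hg
  have h2 := h μ hμp hμ u1 u2 M W hU hM hu2 hnc j k l hjk hkl hjl 4 (by norm_num; exact hW)
  have hmA : Measurable fun x => ∫ q, RR μ (zt (RN j k l M)) hjk hkl hjl (-(w0 : ℝ)) bs b
      (2 ^ (w0 + 4)) (x, q) ∂((zt (RN j k l M)).prod (uni.prod (uni.prod uni))) :=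
    ((measurable_RR μ (zt (RN j k l M)) hjk hkl hjl _ bs b _).stronglyMeasurable.integral_prod_right').measurable
  have hmB : Measurable (Acv μ (zt (RN j k l M)) hjl 4 b) := measurable_Av _ _
  have hmC : Measurable fun x => PZ μ u1 b j l (act x (aT (tI j 4))) :=
    (measurable_PZ hc hu1 b j l).comp (HR3_792.meas_act measurable_id measurable_const)
  have hA : ∀ x, |∫ q, RR μ (zt (RN j k l M)) hjk hkl hjl (-(w0 : ℝ)) bs b
      (2 ^ (w0 + 4)) (x, q) ∂((zt (RN j k l M)).prod (uni.prod (uni.prod uni)))| ≤ 4 := by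
    intro x
    have h3 := norm_integral_le_of_norm_le_const (μ := (zt (RN j k l M)).prod
      (uni.prod (uni.prod uni))) (C := 4) (f := fun q => RR μ (zt (RN j k l M)) hjk hkl hjl
      (-(w0 : ℝ)) bs b (2 ^ (w0 + 4)) (x, q)) (Filter.Eventually.of_forall fun q => by
        rw [Real.norm_eq_abs]; exact abs_RR_le _ _ _ _ _ _ _ _ _ _)
    simpa using h3
  have hB : ∀ x, |Acv μ (zt (RN j k l M)) hjl 4 b x| ≤ 2 := fun x => by
    have h9 : 0 ≤ Acv μ (zt (RN j k l M)) hjl 4 b x := Av_nonneg _ _ x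
    rw [abs_of_nonneg h9]
    exact Av_le _ _ x
  have hC : ∀ x, |PZ μ u1 b j l (act x (aT (tI j 4)))| ≤ 2 := fun x => by
    rw [abs_of_nonneg (PZ_nonneg hc hu1 b j l _)]
    exact PZ_le hc hu1 b j l _
  have i1 : Integrable (fun x => |(∫ q, RR μ (zt (RN j k l M)) hjk hkl hjl (-(w0 : ℝ)) bs b
      (2 ^ (w0 + 4)) (x, q) ∂((zt (RN j k l M)).prod (uni.prod (uni.prod uni))))
      - 1 / 2 ^ 4 * Acv μ (zt (RN j k l M)) hjl 4 b x|) μ := by
    refine Integrable.of_bound (hmA.sub (hmB.const_mul _)).abs.aestronglyMeasurable 5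
      (Filter.Eventually.of_forall fun x => ?_)
    rw [Real.norm_eq_abs, abs_abs, abs_le]
    have := abs_le.1 (hA x)
    have := abs_le.1 (hB x)
    constructor <;> linarith
  have i2 : Integrable (fun x => |Acv μ (zt (RN j k l M)) hjl 4 b x
      - PZ μ u1 b j l (act x (aT (tI j 4)))|) μ := by
    refine Integrable.of_bound (hmB.sub hmC).abs.aestronglyMeasurable 4
      (Filter.Eventually.of_forall fun x => ?_)
    rw [Real.norm_eq_abs, abs_abs, abs_le]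
    have := abs_le.1 (hC x)
    have := abs_le.1 (hB x)
    constructor <;> linarith
  have h5 : ∀ x, |(∫ q, RR μ (zt (RN j k l M)) hjk hkl hjl (-(w0 : ℝ)) bs b
      (2 ^ (w0 + 4)) (x, q) ∂((zt (RN j k l M)).prod (uni.prod (uni.prod uni))))
      - 1 / 2 ^ 4 * PZ μ u1 b j l (act x (aT (tI j 4)))|
      ≤ |(∫ q, RR μ (zt (RN j k l M)) hjk hkl hjl (-(w0 : ℝ)) bs b
      (2 ^ (w0 + 4)) (x, q) ∂((zt (RN j k l M)).prod (uni.prod (uni.prod uni))))
      - 1 / 2 ^ 4 * Acv μ (zt (RN j k l M)) hjl 4 b x|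
      + 1 / 2 ^ 4 * |Acv μ (zt (RN j k l M)) hjl 4 b x - PZ μ u1 b j l (act x (aT (tI j 4)))| := by
    intro x
    have e1 : 1 / 2 ^ 4 * |Acv μ (zt (RN j k l M)) hjl 4 b x - PZ μ u1 b j l (act x (aT (tI j 4)))|
        = |1 / 2 ^ 4 * Acv μ (zt (RN j k l M)) hjl 4 b x
          - 1 / 2 ^ 4 * PZ μ u1 b j l (act x (aT (tI j 4)))| := by
      rw [← mul_sub, abs_mul, abs_of_pos (by norm_num : (0 : ℝ) < 1 / 2 ^ 4)]
    rw [e1]
    exact abs_sub_le _ _ _
  have h6 := integral_mono_of_nonneg (μ := μ) (Filter.Eventually.of_forall fun x => abs_nonneg _)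
    (i1.add (i2.const_mul (1 / 2 ^ 4))) (Filter.Eventually.of_forall h5)
  have h7 := h6.trans (le_of_eq (integral_add i1 (i2.const_mul (1 / 2 ^ 4))))
  rw [integral_const_mul] at h7
  have h8 : (1 : ℝ) / 2 ^ 4 * ∫ x, |Acv μ (zt (RN j k l M)) hjl 4 b x
      - PZ μ u1 b j l (act x (aT (tI j 4)))| ∂μ ≤ 1 / 2 ^ 4 * e :=
    mul_le_mul_of_nonneg_left h2 (by norm_num)
  rw [mul_add]
  exact h7.trans (add_le_add h1 h8)

end Crest.Agent.R014.HR3_792
end
end

-- ▼ part R014/RFin_548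

/-!
# Row 14, block D, (R): the constants (helper548)
-/

set_option autoImplicit false

open MeasureTheory Filter Topology Crest.NumberTheoryR.Packets
open Crest.Agent.R014.Nd_837 Crest.Agent.R014.Ne1_567 Crest.Agent.R014.Ne3_567
open Crest.Agent.R014.Ne4_567
open Crest.Agent.R014.NScD_395 Crest.Agent.R014.NScE_395 Crest.Agent.R014.NScG_395
open Crest.Agent.R014.NScH_395 Crest.Agent.R014.Ms_667
open Crest.Agent.R014.NScG_458 (RN RN_ge)
open Crest.Agent.R014.Prod_108 Crest.Agent.R014.HSp_599 Crest.Agent.R014.Nh5_849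
open Crest.Agent.R014.AsmB_460 Crest.Agent.R014.AsmB2_460 Crest.Agent.R014.RAs2_460

namespace Crest.Agent.R014.RFin_548

/-- **the input of (Q2)**: (A), (B), (C) and the three gaps with one choice of constants. -/
theorem rinp (n : ℕ) : RInp n := by
  intro e he K₀
  -- `g` : the bound for the gaps
  set g : ℝ := e ^ 2 / 4 with hg
  have hg0 : 0 < g := by positivity
  have hsg : √g = e / 2 := by
    rw [hg, show e ^ 2 / 4 = (e / 2) ^ 2 by ring, Real.sqrt_sq (by positivity)]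
  -- digits inside the blocks
  obtain ⟨K₃, hK₃, hK₃e⟩ : ∃ K₃ : ℕ, K₀ ≤ K₃ ∧ 1 / (8 * (2 : ℝ) ^ K₃) ≤ e / 2 := by
    obtain ⟨m, hm⟩ := exists_pow_lt_of_lt_one (show 0 < e by exact he)
      (show (1 / 2 : ℝ) < 1 by norm_num)
    refine ⟨max K₀ m, le_max_left _ _, ?_⟩
    have h1 : (1 / 2 : ℝ) ^ (max K₀ m) ≤ (1 / 2) ^ m :=
      pow_le_pow_of_le_one (by norm_num) (by norm_num) (le_max_right _ _)
    have h2 : 1 / (8 * (2 : ℝ) ^ (max K₀ m)) = 1 / 8 * (1 / 2) ^ (max K₀ m) := by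
      rw [one_div_pow]; field_simp
    rw [h2]
    linarith
  obtain ⟨Ka, hKa⟩ := Cst_832.nearK (n := n) (ε := g / 2) (by positivity)
  obtain ⟨Kb, hKb⟩ := CFK_373.claimFK (n := n) K₃ hg0
  obtain ⟨Kc, hKc⟩ := Cst_832.md_pow_small (C := 1) zero_le_one 0 (ε := g / 2) (by positivity)
  set K : ℕ := max (max K₀ K₃) (max Ka (max Kb Kc)) with hK
  have hK0 : K₀ ≤ K := (le_max_left _ _).trans (le_max_left _ _)
  have hK3 : K₃ ≤ K := (le_max_right _ _).trans (le_max_left _ _)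
  have hKKa : Ka ≤ K := (le_max_left _ _).trans (le_max_right _ _)
  have hKKb : Kb ≤ K := (le_max_left _ _).trans ((le_max_right _ _).trans (le_max_right _ _))
  have hKKc : Kc ≤ K := (le_max_right _ _).trans ((le_max_right _ _).trans (le_max_right _ _))
  obtain ⟨ηa, Ua, hηa, hUa, Ha⟩ := hKa K hKKa
  obtain ⟨ηb, Ub, hηb, hUb, Hb⟩ := hKb K hKKb
  obtain ⟨hc1, hc2⟩ := hKc K hKKc
  obtain ⟨ηB, UB, hηB, hUB, HB⟩ := HR3s_108.inB (n := n) (2 ^ K) (2 ^ K) he
  obtain ⟨ηC, UC, hηC, hUC, hUC2, HC⟩ := HR3_792.inC (n := n) (b := 2 ^ K₃) he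
  -- the error `md`
  set x0 : ℝ := (2 : ℝ) ^ (-(K : ℝ) - 4 - 4) / 2 with hx0
  have hx0p : 0 ≤ x0 := by positivity
  have hx1 : x0 ≤ 1 * (2 : ℝ) ^ (-(K : ℝ)) := by
    rw [hx0, one_mul]
    have h1 : (2 : ℝ) ^ (-(K : ℝ) - 4 - 4) ≤ (2 : ℝ) ^ (-(K : ℝ)) :=
      Real.rpow_le_rpow_of_exponent_le one_le_two (by linarith)
    have h2 : 0 < (2 : ℝ) ^ (-(K : ℝ) - 4 - 4) := Real.rpow_pos_of_pos two_pos _
    linarith
  have hx2 : x0 ≤ 1 := hx1.trans hc1
  have hmd : md (2 ^ K) x0 ≤ g / 2 := by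
    rw [add_zero] at hc2
    exact (md_mono _ hx0p hx1 hc1).trans hc2
  have hmd0 : 0 ≤ md (2 ^ K) x0 := md_nonneg _ hx0p hx2
  refine ⟨K, K, K₃, hK0, hK0, hK₃, ev_of ?_⟩
  set W : ℝ := (K : ℝ) + K₃ + 100 with hW
  set U : ℝ := max (max Ua Ub) (max UB (max UC (max W (20 * c1N n)))) with hU
  have hWp : 0 < W := by positivity
  refine ⟨{2 ^ K, 2 ^ K₃, 2 ^ (K + 4) * 2 ^ K₃}, min (min ηa ηb) (min ηB ηC), 1 / 80000, U,
    lt_min (lt_min hηa hηb) (lt_min hηB hηC), by norm_num, ?_⟩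
  intro μ hμp hμ u₁ u₂ hUu hu hN i j k hij hjk hik
  have hUa' : Ua ≤ u₁ := (le_max_left _ _).trans ((le_max_left _ _).trans hUu)
  have hUb' : Ub ≤ u₁ := (le_max_right _ _).trans ((le_max_left _ _).trans hUu)
  have hUB' : UB ≤ u₁ := (le_max_left _ _).trans ((le_max_right _ _).trans hUu)
  have hUC' : UC ≤ u₁ :=
    (le_max_left _ _).trans ((le_max_right _ _).trans ((le_max_right _ _).trans hUu))
  have hUW : W ≤ u₁ :=
    (le_max_left _ _).trans ((le_max_right _ _).trans ((le_max_right _ _).trans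
      ((le_max_right _ _).trans hUu)))
  have hUc : 20 * c1N n ≤ u₁ :=
    (le_max_right _ _).trans ((le_max_right _ _).trans ((le_max_right _ _).trans
      ((le_max_right _ _).trans hUu)))
  have hu1 : 0 < u₁ := by linarith
  have hWK : (K : ℝ) + K₃ + 100 = W := rfl
  have hKr : (0 : ℝ) ≤ K := Nat.cast_nonneg K
  have hK3r : (0 : ℝ) ≤ K₃ := Nat.cast_nonneg K₃
  set M : ℝ := 1000 * (u₁ + W) with hM
  have hM1 : 1000 * (u₁ + W) ≤ M := le_refl _
  have hM2 : 100 * (u₁ + W) ≤ M := by linarith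
  have hM3 : 2 * M ≤ u₂ / 20 := by linarith
  have hN1 : NC μ u₁ u₂ {2 ^ K, 2 ^ K₃, 2 ^ (K + 4) * 2 ^ K₃} ηa :=
    hN.mono (Finset.Subset.refl _) ((min_le_left _ _).trans (min_le_left _ _))
  have hN2 : NC μ u₁ u₂ {2 ^ K, 2 ^ K₃, 2 ^ (K + 4) * 2 ^ K₃} ηb :=
    hN.mono (Finset.Subset.refl _) ((min_le_left _ _).trans (min_le_right _ _))
  have hN3 : NC μ u₁ u₂ {2 ^ K, 2 ^ K} ηB :=
    hN.mono (by intro x hx; simp at hx ⊢; tauto) ((min_le_right _ _).trans (min_le_left _ _))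
  have hN4 : NC μ u₁ u₂ {2 ^ K₃} ηC :=
    hN.mono (by intro x hx; simp at hx ⊢; tauto) ((min_le_right _ _).trans (min_le_right _ _))
  set κ : Measure (SLR n) := zt (RN i j k M) with hκ
  have hadm : Nz_323.Adm (RN i j k M) := (noiseFam n).adm_of _ fun p q => by
    have h5 := RN_ge (j := i) (k := j) (l := k) (M := M) (by linarith) p q
    linarith
  have hκp : IsProbabilityMeasure κ := (noiseFam n).prob _ hadm
  have hb1 : (2 : ℕ) ^ K₃ ≤ 2 ^ K := Nat.pow_le_pow_right (by norm_num) hK3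
  obtain ⟨ha1, ha2⟩ := Ha μ hμp hμ u₁ u₂ M W _ hUa' hM2 hM3 (by linarith) (by linarith)
    (by simp) hN1 i j k hij hjk hik
  have hlb : Real.logb 2 ((2 ^ K : ℕ) : ℝ) = K := by
    push_cast
    rw [← Real.rpow_natCast, Real.logb_rpow (by norm_num) (by norm_num)]
  -- the three gaps
  have G1 : HH (PM μ κ) (fun ω => dg (2 ^ K) (tt ω)) (zz hij hjk hik 4 4 (-(K : ℝ)))
      - HH (PM μ κ) (fun ω => dg (2 ^ K) (tt ω))
        (fun ω => (zz hij hjk hik 4 4 (-(K : ℝ)) ω, (ss ω, rr ω))) ≤ g := by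
    have h := gap_i μ κ hij hjk hik 4 4 (-(K : ℝ)) (2 ^ K) hx2
    have h2 := (abs_le.1 ha2).2
    linarith
  have G2 : HH (PM μ κ) (fun ω => dg (2 ^ K) (ss ω)) (zz hij hjk hik 4 4 (-(K : ℝ)))
      - HH (PM μ κ) (fun ω => dg (2 ^ K) (ss ω))
        (fun ω => (zz hij hjk hik 4 4 (-(K : ℝ)) ω, (tt ω, rp 4 4 (-(K : ℝ)) ω))) ≤ g := by
    have h := gap_ii μ κ hij hjk hik 4 4 (-(K : ℝ)) (2 ^ K) hx2
    have h2 := (abs_le.1 ha1).2
    linarith
  have G3 : HH (PM μ κ) (fun ω => dg (2 ^ (K + 4) * 2 ^ K₃) (rr ω))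
        (fun ω => (zz hij hjk hik 4 4 (-(K : ℝ)) ω, dg (2 ^ K) (ss ω)))
      - HH (PM μ κ) (fun ω => dg (2 ^ (K + 4) * 2 ^ K₃) (rr ω))
        (fun ω => (zz hij hjk hik 4 4 (-(K : ℝ)) ω, (tt ω, ss ω))) ≤ g := by
    have h := gap_iii μ κ hij hjk hik 4 4 (-(K : ℝ)) (2 ^ K) (2 ^ (K + 4) * 2 ^ K₃)
    rw [hlb] at h
    have h2 := Hb μ hμp hμ u₁ u₂ M W _ hUb' hM1 hM3 (by simp) hN2 (by linarith) i j k hij hjk hik
      (-(K : ℝ)) (by rw [abs_neg, abs_of_nonneg hKr]; linarith)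
    rw [h]
    have h3 : ClF2_599.HR μ M hij hjk hik (4 + K) 4 (-(K : ℝ)) (2 ^ (K + 4) * 2 ^ K₃)
      = Hc (lab μ (cv (cv κ (dl hjk 4)) (dl hij (4 + (K : ℝ)))) hik (-(K : ℝ))
          (2 ^ (K + 4) * 2 ^ K₃)) := rfl
    rw [h3] at h2
    linarith
  have G4 : HH (PM μ κ) (fun ω => dg (2 ^ K) (ss ω)) (zz hij hjk hik 4 4 (-(K : ℝ)))
      - HH (PM μ κ) (fun ω => dg (2 ^ K) (ss ω)) (y1 hij 4) ≤ g / 2 := by
    rw [HH_s, HH_y1]
    exact (abs_le.1 ha1).2
  have G5 : HH (PM μ κ) (fun ω => dg (2 ^ K) (tt ω)) (zz hij hjk hik 4 4 (-(K : ℝ)))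
      - HH (PM μ κ) (fun ω => dg (2 ^ K) (tt ω)) (y2 hjk 4) ≤ g := by
    rw [← HH_t_sr μ κ hij hjk hik 4 4 (-(K : ℝ)) (2 ^ K)]
    exact G1
  -- the three inequalities
  have A := inA μ κ hij hjk hik K (2 ^ K) (2 ^ K) (2 ^ K₃) hb1 hb1 G1 G2
  have B := HB μ hμp hμ u₁ u₂ M W hUB' hM2 hM3 hN3 (by linarith) i j k hij hjk hik (-(K : ℝ))
    (md (2 ^ K) x0) (g / 2) g (HH_s_trp μ κ hij hjk hik 4 4 (-(K : ℝ)) (2 ^ K) hx2)
    (le_of_eq (HH_t_sr μ κ hij hjk hik 4 4 (-(K : ℝ)) (2 ^ K)).symm) G4 G5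
  have C := HC μ hμp hμ u₁ u₂ M W hUC' hM2 hM3 hN4 (by linarith) i j k hij hjk hik K (2 ^ K) g G3
  have htI : ∀ (p l : Fin n), |tI p 4 l| ≤ u₂ / 10000 := by
    intro p l
    rw [tI_apply]
    split_ifs
    · rw [abs_neg, abs_of_pos (by norm_num : (0 : ℝ) < 4)]
      linarith
    · rw [abs_zero]
      linarith
  have htd : ∀ (p q : Fin n), p ≠ q → tI p 4 p - tI p 4 q = -4 := by
    intro p q hpq
    rw [tI_apply, tI_apply, if_pos rfl, if_neg hpq.symm]
    ring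
  refine ⟨tI i 4, tI j 4, tI i 4, htd i j hij, htd j k hjk, htd i k hik, htI i, htI j, htI i,
    SLR n × (ℝ × (ℝ × ℝ)), inferInstance, κ.prod (uni.prod (uni.prod uni)),
    ST μ κ hij hjk hik (-(K : ℝ)) (2 ^ K) (2 ^ K),
    RR μ κ hij hjk hik (-(K : ℝ)) (2 ^ K) (2 ^ K₃) (2 ^ (K + 4)), inferInstance,
    measurable_ST .., measurable_RR .., fun p => abs_ST_le .., fun p => abs_RR_le .., ?_, ?_, ?_⟩
  · refine A.trans ?_
    rw [hsg]
    push_cast
    linarith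
  · refine B.trans ?_
    have h1 : √(g / 2 + md (2 ^ K) x0) ≤ e / 2 := by
      rw [← hsg]
      exact Real.sqrt_le_sqrt (by linarith)
    have h2 : √(md (2 ^ K) x0) ≤ e / 2 := by
      rw [← hsg]
      exact Real.sqrt_le_sqrt (by linarith)
    rw [hsg]
    linarith
  · refine C.trans ?_
    rw [hsg]
    linarith

end Crest.Agent.R014.RFin_548
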