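import Crest.Agent.R014.Sw1_640
import Crest.Agent.R014.Nd3_837
import Crest.Agent.R014.NScD_395

-- ▼ part R014/Sw2_640
section

set_option autoImplicit false

/-!
Row 14, block D, noise formalism: the sandwich for general noise laws.

* `dp`, `dp_pv` : general data processing for the digits `lab μ κ hij r b` (arbitrary smearing law `τ`);
* `dp_exch`, `dp_exch_pv` : the case `τ = κ`, `κ` absorbs `κ'` and commutes with the digits;
* `sw_upper`, `sw_lower`, `sw_pv` : sandwich after a shift by `aT t`;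
* `Good` : the hypotheses of the sandwich, `Good.abs_sub_le`, `Good.pv_le`.
-/

open MeasureTheory Crest.NumberTheoryR.Packets
open scoped ENNReal

namespace Crest.Agent.R014.Sw2_640

open Ms_667 Nd_837 Ne1_567 Ne2_567 Ne3_567 Sw1_640

variable {n : ℕ} {i j : Fin n} (hij : i ≠ j) {b : ℕ}

theorem TVle_ld {κ κ' τ : Measure (SLR n)} [IsProbabilityMeasure κ] [IsProbabilityMeasure κ']
    [IsProbabilityMeasure τ] {r e : ℝ} {d : Fin b}
    (h : TVle (cv (cv κ' (dlaw hij r b d)) τ) (cv κ (dlaw hij r b d)) e) :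
    TVle (cv (ld κ' hij r b d) τ) (ld κ hij r b d) (e / b) := by
  unfold ld
  rw [smul_cv]
  refine (h.smul _).mono (le_of_eq ?_)
  rw [ENNReal.toReal_inv, ENNReal.toReal_natCast]
  ring

theorem sum_div (hb : 0 < b) (e : ℝ) : ∑ _d : Fin b, e / b = e := by
  rw [Finset.sum_const, Finset.card_univ, Fintype.card_fin, nsmul_eq_mul]
  have : (b : ℝ) ≠ 0 := by exact_mod_cast hb.ne'
  field_simp

theorem sum_ld_real (κ : Measure (SLR n)) [IsProbabilityMeasure κ] (r : ℝ) (hb : 0 < b) :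
    ∑ d, (ld κ hij r b d).real Set.univ = 1 := by
  have h1 : ∀ d, (ld κ hij r b d).real Set.univ = 1 / b := fun d => by
    unfold ld
    rw [measureReal_def, Measure.smul_apply, measure_univ, smul_eq_mul, mul_one, ENNReal.toReal_inv,
      ENNReal.toReal_natCast, one_div]
  rw [Finset.sum_congr rfl fun d _ => h1 d]
  exact sum_div hb 1

/-- **Data processing for digits.** -/
theorem dp (μ : Measure (ModSpace n)) [IsProbabilityMeasure μ] {κ κ' τ : Measure (SLR n)}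
    [IsProbabilityMeasure κ] [IsProbabilityMeasure κ'] [IsProbabilityMeasure τ] {r e : ℝ}
    (hb : 0 < b) (h : ∀ d, TVle (cv (cv κ' (dlaw hij r b d)) τ) (cv κ (dlaw hij r b d)) e)
    (he : e ≤ 1) : Hc (lab μ κ' hij r b) ≤ Hc (lab μ κ hij r b) + md b e := by
  have : Nonempty (Fin b) := ⟨⟨0, hb⟩⟩
  rw [lab_eq_gl, lab_eq_gl]
  have h1 := Hc_gl_mono μ τ (ld κ' hij r b) (ld κ hij r b) (e := fun _ => e / b)
    (fun d => TVle_ld hij (h d)) (sum_ld_real hij κ' r hb).le (by rw [sum_div hb e]; exact he)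
  rwa [Fintype.card_fin, sum_div hb e] at h1


/-- Data processing by exchange: `κ` absorbs `κ'` and commutes with the digits. -/
theorem dp_exch (μ : Measure (ModSpace n)) [IsProbabilityMeasure μ] {κ κ' : Measure (SLR n)}
    [IsProbabilityMeasure κ] [IsProbabilityMeasure κ'] {r e₁ e₂ : ℝ}
    (hb : 0 < b) (h₁ : ∀ d, Cm e₁ (dlaw hij r b d) κ) (h₂ : Ab e₂ κ' κ) (he : e₁ + e₂ ≤ 1) :
    Hc (lab μ κ' hij r b) ≤ Hc (lab μ κ hij r b) + md b (e₁ + e₂) :=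
  dp hij μ hb (τ := κ) (fun d => exch (h₁ d) h₂) he


/-! ### The sandwich -/

variable {μ : Measure (ModSpace n)} [IsProbabilityMeasure μ] (hμ : AInv μ)

include hμ in
/-- Equivariance of the digit entropy, depth moved to `0`. -/
theorem Hc_shift (κ : Measure (SLR n)) [IsProbabilityMeasure κ] {r : ℝ} {t : Fin n → ℝ}
    (ht : r + (t i - t j) = 0) :
    Hc (lab μ (cj (aT t) κ) hij 0 b) = Hc (lab μ κ hij r b) := by
  rw [← ht]
  exact Hc_lab_sh hμ κ hij t r b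



include hμ in
/-- **Upper half of the sandwich.** -/
theorem sw_upper {κ κ₁ : Measure (SLR n)} [IsProbabilityMeasure κ] [IsProbabilityMeasure κ₁]
    {r e₁ e₂ : ℝ} {t : Fin n → ℝ} (hb : 0 < b) (ht : r + (t i - t j) = 0)
    (h₁ : ∀ d, Cm e₁ (dlaw hij 0 b d) κ₁) (h₂ : Ab e₂ (cj (aT t) κ) κ₁) (he : e₁ + e₂ ≤ 1) :
    Hc (lab μ κ hij r b) ≤ Hc (lab μ κ₁ hij 0 b) + md b (e₁ + e₂) := by
  rw [← Hc_shift hij hμ κ ht]
  exact dp_exch hij μ hb h₁ h₂ he

include hμ in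
/-- **Lower half of the sandwich.** -/
theorem sw_lower {κ κ₂ : Measure (SLR n)} [IsProbabilityMeasure κ] [IsProbabilityMeasure κ₂]
    {r e₁ e₂ : ℝ} {t : Fin n → ℝ} (hb : 0 < b) (ht : r + (t i - t j) = 0)
    (h₁ : ∀ d, Cm e₁ (dlaw hij 0 b d) (cj (aT t) κ)) (h₂ : Ab e₂ κ₂ (cj (aT t) κ))
    (he : e₁ + e₂ ≤ 1) :
    Hc (lab μ κ₂ hij 0 b) ≤ Hc (lab μ κ hij r b) + md b (e₁ + e₂) := by
  rw [← Hc_shift hij hμ κ ht]
  exact dp_exch hij μ hb h₁ h₂ he


/-- A noise law `κ` is good for the digits of the root `(i, j)` at depth `r`, with respect to the coarse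
noise `κ₁` and the fine noise `κ₂`, with shift `t` and error `e`. -/
structure Good {n : ℕ} {i j : Fin n} (hij : i ≠ j) (b : ℕ) (e : ℝ) (κ₁ κ₂ κ : Measure (SLR n)) (r : ℝ)
    (t : Fin n → ℝ) : Prop where
  /-- the depth becomes `0` -/
  shift : r + (t i - t j) = 0
  /-- the coarse noise absorbs -/
  up : Ab e (cj (aT t) κ) κ₁
  /-- the fine noise is absorbed -/
  lo : Ab e κ₂ (cj (aT t) κ)
  /-- commutation with the digits -/
  cm : ∀ d, Cm e (dlaw hij 0 b d) (cj (aT t) κ)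

include hμ in
theorem Good.le {κ κ₁ κ₂ : Measure (SLR n)} [IsProbabilityMeasure κ] [IsProbabilityMeasure κ₁]
    {r e : ℝ} {t : Fin n → ℝ} (hb : 0 < b) (h : Good hij b e κ₁ κ₂ κ r t)
    (h₁ : ∀ d, Cm e (dlaw hij 0 b d) κ₁) (he : 2 * e ≤ 1) :
    Hc (lab μ κ hij r b) ≤ Hc (lab μ κ₁ hij 0 b) + md b (2 * e) := by
  have := sw_upper hij hμ hb h.shift h₁ h.up (by linarith)
  rwa [← two_mul] at this

include hμ in
theorem Good.ge {κ κ₁ κ₂ : Measure (SLR n)} [IsProbabilityMeasure κ] [IsProbabilityMeasure κ₂]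
    {r e : ℝ} {t : Fin n → ℝ} (hb : 0 < b) (h : Good hij b e κ₁ κ₂ κ r t) (he : 2 * e ≤ 1) :
    Hc (lab μ κ₂ hij 0 b) ≤ Hc (lab μ κ hij r b) + md b (2 * e) := by
  have := sw_lower hij hμ hb h.shift h.cm h.lo (by linarith)
  rwa [← two_mul] at this

include hμ in
/-- **Near constancy.** If the entropies at the two ends differ by at most `η`, the digit entropy of
every good noise law is within `η + md b (2 e)` of the coarse one. -/
theorem Good.abs_sub_le {κ κ₁ κ₂ : Measure (SLR n)} [IsProbabilityMeasure κ]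
    [IsProbabilityMeasure κ₁] [IsProbabilityMeasure κ₂] {r e η : ℝ} {t : Fin n → ℝ} (hb : 0 < b)
    (h : Good hij b e κ₁ κ₂ κ r t) (h₁ : ∀ d, Cm e (dlaw hij 0 b d) κ₁) (he : 2 * e ≤ 1)
    (hη0 : 0 ≤ η) (hη : Hc (lab μ κ₁ hij 0 b) - Hc (lab μ κ₂ hij 0 b) ≤ η) :
    |Hc (lab μ κ hij r b) - Hc (lab μ κ₁ hij 0 b)| ≤ η + md b (2 * e) := by
  have h2 := h.le hij hμ hb h₁ he
  have h3 := h.ge hij hμ hb he
  rw [abs_le]
  constructor <;> linarith


/-- Monotonicity in the error. -/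
theorem Good.mono {κ κ₁ κ₂ : Measure (SLR n)} {r e e' : ℝ} {t : Fin n → ℝ}
    (h : Good hij b e κ₁ κ₂ κ r t) (he : e ≤ e') : Good hij b e' κ₁ κ₂ κ r t :=
  ⟨h.shift, h.up.mono he, h.lo.mono he, fun d => (h.cm d).mono he⟩

end Crest.Agent.R014.Sw2_640
end

-- ▼ part R014/Sw3_640

set_option autoImplicit false

/-!
Row 14, block D, noise formalism: the noises of the Heisenberg observation
`x ζ u_kl(2^(-β) t) u_jk(2^(-α) s) u_jl(2^(-γ) r)` are good for the digits of the three roots.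

* `good_S` : `jk`-digits, noise `Z · kl · jl`;
* `good_R` : `jl`-digits, noise `Z · kl · jk` (and `good_R'` : `Z · jk · kl`);
* `good_T` : `kl`-digits, noise `Z · jk · jl`.
-/

open MeasureTheory Crest.NumberTheoryR.Packets
open scoped ENNReal

namespace Crest.Agent.R014.Sw3_640

open Ms_667 Nd_837 Ne1_567 Ne2_567 Ne3_567 Sw1_640 Sw2_640 NScD_395

variable {n : ℕ} {i j k l : Fin n} {b : ℕ}

theorem dl_eq_wn (hij : i ≠ j) (r : ℝ) : dl hij r = wn hij r := rfl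

/-- The displacement of a digit is at most `2^(-r)`. -/
theorem abs_digit_le {r : ℝ} {d : Fin b} {θ : ℝ} (hθ : |θ| ≤ 1) :
    |(2 : ℝ) ^ (-r) * (cen b d + θ / b)| ≤ (2 : ℝ) ^ (-r) := by
  have hb : (0 : ℝ) < b := by exact_mod_cast d.pos
  rw [abs_mul, abs_of_pos (Real.rpow_pos_of_pos two_pos _)]
  refine mul_le_of_le_one_right (Real.rpow_pos_of_pos two_pos _).le ?_
  have h1 := abs_le.1 hθ
  have h2 : (d : ℝ) + 1 ≤ b := by exact_mod_cast d.2
  have h3 : (0 : ℝ) ≤ (d : ℝ) := Nat.cast_nonneg _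
  unfold cen
  have h4 : -1 + (2 * (d : ℝ) + 1) / b + θ / b = (-b + (2 * (d : ℝ) + 1) + θ) / b := by
    field_simp
  rw [h4, abs_div, abs_of_pos hb, div_le_one hb, abs_le]
  constructor <;> linarith

theorem measurable_digit (r : ℝ) (d : Fin b) :
    Measurable fun θ : ℝ => (2 : ℝ) ^ (-r) * (cen b d + θ / b) := by fun_prop

theorem ae_digit (r : ℝ) (d : Fin b) :
    ∀ᵐ θ ∂uni, |(2 : ℝ) ^ (-r) * (cen b d + θ / b)| ≤ (2 : ℝ) ^ (-r) := by
  filter_upwards [uni_ae] with θ hθ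
  exact abs_digit_le hθ

theorem ae_wn (r : ℝ) : ∀ᵐ θ ∂uni, |(2 : ℝ) ^ (-r) * θ| ≤ (2 : ℝ) ^ (-r) := by
  filter_upwards [uni_ae] with θ hθ
  rw [abs_mul, abs_of_pos (Real.rpow_pos_of_pos two_pos _)]
  exact mul_le_of_le_one_right (Real.rpow_pos_of_pos two_pos _).le hθ

/-! ### Commutation of the digits with the unipotent noises -/

theorem dig_jk (hjk : j ≠ k) (hkl : k ≠ l) (hjl : j ≠ l) (a β γ : ℝ) (d : Fin b) :
    Cm ((2 : ℝ) ^ (γ - a - β) / 2) (dlaw hjk a b d) (cv (wn hkl β) (wn hjl γ)) :=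
  Cm_jk hjk hkl hjl (measurable_digit a d) (ae_digit a d) β γ

theorem dig_kl (hjk : j ≠ k) (hkl : k ≠ l) (hjl : j ≠ l) (β α γ : ℝ) (d : Fin b) :
    Cm ((2 : ℝ) ^ (γ - α - β) / 2) (dlaw hkl β b d) (cv (wn hjk α) (wn hjl γ)) :=
  Cm_kl hjk hkl hjl (measurable_digit β d) (ae_digit β d) α γ

theorem dig_jl_kl (hkl : k ≠ l) (hjl : j ≠ l) (γ β : ℝ) (d : Fin b) :
    Cm 0 (dlaw hjl γ b d) (wn hkl β) := Cm_jl_kl hkl hjl (measurable_digit γ d) β

theorem dig_jl_jk (hjk : j ≠ k) (hjl : j ≠ l) (γ α : ℝ) (d : Fin b) :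
    Cm 0 (dlaw hjl γ b d) (wn hjk α) := Cm_jl_jk hjk hjl (measurable_digit γ d) α



/-! ### Goodness -/

variable {e : ℝ} {Z Z' κ₁ κ₂ : Measure (SLR n)} [IsProbabilityMeasure Z] [IsProbabilityMeasure Z']
  [IsProbabilityMeasure κ₁] [IsProbabilityMeasure κ₂] {t : Fin n → ℝ} {α β γ : ℝ}

omit [IsProbabilityMeasure Z] [IsProbabilityMeasure Z'] [IsProbabilityMeasure κ₁]
  [IsProbabilityMeasure κ₂] in
/-- The noise `Z` itself is good. -/
theorem good_Z (hij : i ≠ j) {r : ℝ} (ht : r + (t i - t j) = 0) (hZ : cj (aT t) Z = Z')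
    (hup : Ab e Z' κ₁) (hlo : Ab e κ₂ Z') (hcm : ∀ d, Cm e (dlaw hij 0 b d) Z') :
    Good hij b e κ₁ κ₂ Z r t :=
  ⟨ht, by rw [hZ]; exact hup, by rw [hZ]; exact hlo, fun d => by rw [hZ]; exact hcm d⟩

omit [IsProbabilityMeasure Z'] in
/-- Conjugation of a product of three noises. -/
theorem cj_three {p q p' q' : Fin n} (hpq : p ≠ q) (hpq' : p' ≠ q') (hZ : cj (aT t) Z = Z')
    (β γ : ℝ) :
    cj (aT t) (cv (cv Z (wn hpq β)) (wn hpq' γ))
      = cv (cv Z' (wn hpq (β + (t p - t q)))) (wn hpq' (γ + (t p' - t q'))) := by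
  rw [cj_cv, cj_cv, hZ, cj_wn, cj_wn]

/-- **`jk`-digits**, noise `Z · u_kl · u_jl`. -/
theorem good_S (hjk : j ≠ k) (hkl : k ≠ l) (hjl : j ≠ l) (ht : α + (t j - t k) = 0)
    (hZ : cj (aT t) Z = Z') (hup : Ab e Z' κ₁) (hlo : Ab e κ₂ Z')
    (hcm : ∀ d, Cm e (dlaw hjk 0 b d) Z')
    (hkl' : Ab e (wn hkl (β + (t k - t l))) κ₁) (hjl' : Ab e (wn hjl (γ + (t j - t l))) κ₁) :
    Good hjk b (3 * e + (2 : ℝ) ^ (γ - α - β) / 2) κ₁ κ₂
      (cv (cv Z (dl hkl β)) (dl hjl γ)) α t := by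
  have h0 : 0 ≤ e := hup.nonneg
  have h1 : (0 : ℝ) < (2 : ℝ) ^ (γ - α - β) := Real.rpow_pos_of_pos two_pos _
  rw [dl_eq_wn, dl_eq_wn]
  refine ⟨ht, ?_, ?_, fun d => ?_⟩
  · rw [cj_three hkl hjl hZ]
    exact ((hup.cv_left hkl').cv_left hjl').mono (by linarith)
  · rw [cj_three hkl hjl hZ]
    exact (hlo.cv_right.cv_right).mono (by linarith)
  · rw [cj_three hkl hjl hZ, cv_assoc]
    have h2 := dig_jk (b := b) hjk hkl hjl 0 (β + (t k - t l)) (γ + (t j - t l)) d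
    have h3 : γ + (t j - t l) - 0 - (β + (t k - t l)) = γ - α - β := by linarith
    rw [h3] at h2
    exact ((hcm d).cv_right h2).mono (by linarith)

/-- **`jl`-digits**, noise `Z · u_kl · u_jk`. -/
theorem good_R (hjk : j ≠ k) (hkl : k ≠ l) (hjl : j ≠ l) (ht : γ + (t j - t l) = 0)
    (hZ : cj (aT t) Z = Z') (hup : Ab e Z' κ₁) (hlo : Ab e κ₂ Z')
    (hcm : ∀ d, Cm e (dlaw hjl 0 b d) Z')
    (hkl' : Ab e (wn hkl (β + (t k - t l))) κ₁) (hjk' : Ab e (wn hjk (α + (t j - t k))) κ₁) :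
    Good hjl b (3 * e) κ₁ κ₂ (cv (cv Z (dl hkl β)) (dl hjk α)) γ t := by
  have h0 : 0 ≤ e := hup.nonneg
  rw [dl_eq_wn, dl_eq_wn]
  refine ⟨ht, ?_, ?_, fun d => ?_⟩
  · rw [cj_three hkl hjk hZ]
    exact ((hup.cv_left hkl').cv_left hjk').mono (by linarith)
  · rw [cj_three hkl hjk hZ]
    exact (hlo.cv_right.cv_right).mono (by linarith)
  · rw [cj_three hkl hjk hZ]
    exact (((hcm d).cv_right (dig_jl_kl hkl hjl 0 _ d)).cv_right
      (dig_jl_jk hjk hjl 0 _ d)).mono (by linarith)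


/-- **`kl`-digits**, noise `Z · u_jk · u_jl`. -/
theorem good_T (hjk : j ≠ k) (hkl : k ≠ l) (hjl : j ≠ l) (ht : β + (t k - t l) = 0)
    (hZ : cj (aT t) Z = Z') (hup : Ab e Z' κ₁) (hlo : Ab e κ₂ Z')
    (hcm : ∀ d, Cm e (dlaw hkl 0 b d) Z')
    (hjk' : Ab e (wn hjk (α + (t j - t k))) κ₁) (hjl' : Ab e (wn hjl (γ + (t j - t l))) κ₁) :
    Good hkl b (3 * e + (2 : ℝ) ^ (γ - α - β) / 2) κ₁ κ₂
      (cv (cv Z (dl hjk α)) (dl hjl γ)) β t := by
  have h0 : 0 ≤ e := hup.nonneg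
  have h1 : (0 : ℝ) < (2 : ℝ) ^ (γ - α - β) := Real.rpow_pos_of_pos two_pos _
  rw [dl_eq_wn, dl_eq_wn]
  refine ⟨ht, ?_, ?_, fun d => ?_⟩
  · rw [cj_three hjk hjl hZ]
    exact ((hup.cv_left hjk').cv_left hjl').mono (by linarith)
  · rw [cj_three hjk hjl hZ]
    exact (hlo.cv_right.cv_right).mono (by linarith)
  · rw [cj_three hjk hjl hZ, cv_assoc]
    have h2 := dig_kl (b := b) hjk hkl hjl 0 (α + (t j - t k)) (γ + (t j - t l)) d
    have h3 : γ + (t j - t l) - (α + (t j - t k)) - 0 = γ - α - β := by linarith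
    rw [h3] at h2
    exact ((hcm d).cv_right h2).mono (by linarith)

end Crest.Agent.R014.Sw3_640
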