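import Crest.Agent.R014.Glue_792
import Crest.Agent.R014.N1Z_479_Mg
import Crest.Agent.R014.Q3f_433_Mg
import Crest.Agent.R014.RFin_548_Mg
import Crest.Agent.R014.AsmB2_460
import Crest.Agent.R014.RAs2_460

-- ▼ part R014/Fin_792
section

/-!
# Row 14: the three statements from Theorem B (helper792)

Theorem A is unconditional (`N2_675.thmA'` and `N1Z_479.resLower`).  `s17`, `s18`, `s19` are the
literal statements S0017, S0018, S0019 with Theorem B of the right degree as hypothesis.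
-/

set_option autoImplicit false

open Crest.NumberTheoryR.Packets MeasureTheory Filter Topology
open Crest.Agent.R014.Iface_792

universe u

namespace Crest.Agent.R014.Fin_792

theorem thmA {d : ℕ} (hd : 3 ≤ d + 1) (hcase : Odd (d + 1) ∨ (d + 1 = 4 ∨ d + 1 = 6)) :
    ThmA.{u} d :=
  N2_675.thmA' (by omega) (N1Z_479.resLower (d + 1) hd hcase)

theorem s17 (d : ℕ) (hprime : (d + 1).Prime) (h5 : 5 ≤ d + 1) (hB : ThmB d)
    (K : ℕ → Type u) [∀ i, Field (K i)] [∀ i, NumberField (K i)] [∀ i, NumberField.IsTotallyReal (K i)]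
    (hdeg : ∀ i, Module.finrank ℚ (K i) = d + 1)
    (m : ∀ i, LatticeBasis (d + 1) (K i)) (σ : ∀ i, Fin (d + 1) ≃ (K i →+* ℝ))
    (hdisc : Tendsto (fun i => latticeDisc (m i)) atTop atTop) :
    ∃ ν : Measure (ModSpace (d + 1)), IsHaarProbability ν ∧
      (∀ i, ∃ μ : Measure (ModSpace (d + 1)), IsPacketMeasure (m i) (σ i) μ) ∧
      ∀ μ : ℕ → Measure (ModSpace (d + 1)), (∀ i, IsPacketMeasure (m i) (σ i) (μ i)) →
        (∀ f : ModSpace (d + 1) → ℝ, Continuous f → HasCompactSupport f →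
          Tendsto (fun i => ∫ x, f x ∂(μ i)) atTop (𝓝 (∫ x, f x ∂ν))) ∧
        (∀ ε : ℝ, 0 < ε → ∃ C : Set (ModSpace (d + 1)), IsCompact C ∧
          ∀ᶠ i in atTop, 1 - ε ≤ ((μ i) C).toReal) :=
  Glue_792.main (thmA (by omega) (Or.inl (hprime.odd_of_ne_two (by omega)))) hB K hdeg
    (fun i => Asm_792.primitive_of_prime (by rw [hdeg i]; exact hprime)) m σ hdisc

theorem s18 (hB : ThmB 3)
    (K : ℕ → Type u) [∀ i, Field (K i)] [∀ i, NumberField (K i)] [∀ i, NumberField.IsTotallyReal (K i)]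
    (hdeg : ∀ i, Module.finrank ℚ (K i) = 4) (hprim : ∀ i, IsPrimitiveField (K i))
    (m : ∀ i, LatticeBasis (3 + 1) (K i))
    (σ : ∀ i, Fin (3 + 1) ≃ (K i →+* ℝ))
    (hdisc : Tendsto (fun i => latticeDisc (m i)) atTop atTop) :
    ∃ ν : Measure (ModSpace (3 + 1)), IsHaarProbability ν ∧
      (∀ i, ∃ μ : Measure (ModSpace (3 + 1)), IsPacketMeasure (m i) (σ i) μ) ∧
      ∀ μ : ℕ → Measure (ModSpace (3 + 1)), (∀ i, IsPacketMeasure (m i) (σ i) (μ i)) →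
        (∀ f : ModSpace (3 + 1) → ℝ, Continuous f → HasCompactSupport f →
          Tendsto (fun i => ∫ x, f x ∂(μ i)) atTop (𝓝 (∫ x, f x ∂ν))) ∧
        (∀ ε : ℝ, 0 < ε → ∃ C : Set (ModSpace (3 + 1)), IsCompact C ∧
          ∀ᶠ i in atTop, 1 - ε ≤ ((μ i) C).toReal) :=
  Glue_792.main (thmA (by omega) (Or.inr (Or.inl rfl))) hB K hdeg hprim m σ hdisc

theorem s19 (hB : ThmB 5)
    (K : ℕ → Type u) [∀ i, Field (K i)] [∀ i, NumberField (K i)] [∀ i, NumberField.IsTotallyReal (K i)]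
    (hdeg : ∀ i, Module.finrank ℚ (K i) = 6) (hprim : ∀ i, IsPrimitiveField (K i))
    (m : ∀ i, LatticeBasis (5 + 1) (K i)) (hmax : ∀ i, (m i).IsMaximalOrder)
    (σ : ∀ i, Fin (5 + 1) ≃ (K i →+* ℝ))
    (hdisc : Tendsto (fun i => |(NumberField.discr (K i) : ℝ)|) atTop atTop) :
    ∃ ν : Measure (ModSpace (5 + 1)), IsHaarProbability ν ∧
      (∀ i, ∃ μ : Measure (ModSpace (5 + 1)), IsPacketMeasure (m i) (σ i) μ) ∧
      ∀ μ : ℕ → Measure (ModSpace (5 + 1)), (∀ i, IsPacketMeasure (m i) (σ i) (μ i)) →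
        (∀ f : ModSpace (5 + 1) → ℝ, Continuous f → HasCompactSupport f →
          Tendsto (fun i => ∫ x, f x ∂(μ i)) atTop (𝓝 (∫ x, f x ∂ν))) ∧
        (∀ ε : ℝ, 0 < ε → ∃ C : Set (ModSpace (5 + 1)), IsCompact C ∧
          ∀ᶠ i in atTop, 1 - ε ≤ ((μ i) C).toReal) := by
  refine Glue_792.main (thmA (by omega) (Or.inr (Or.inr rfl))) hB K hdeg hprim m σ ?_
  simpa only [fun i => Asm_792.latticeDisc_max (m i) (hmax i)] using hdisc

end Crest.Agent.R014.Fin_792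
end

-- ▼ part R014/Q3_373
section

/-!
# Row 14, block D: input (Q3) of level 2, unconditional (helper373)
-/

set_option autoImplicit false

open MeasureTheory Filter Topology
open Crest.NumberTheoryR.Packets
open Crest.Agent.R014.Iface_792
open Crest.Agent.R014.Nd_837
open Crest.Agent.R014.DSkel_792
open Crest.Agent.R014.AsmB_460
open Crest.Agent.R014.AsmB2_460

namespace Crest.Agent.R014.Q3_373

variable {n : ℕ}

theorem base : Q3f_433.Base (n := n) PSr Fr 12000 := by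
  intro κ C hκ hC
  obtain ⟨c₃, hc₃, h⟩ := Base_373.base (n := n) κ C hκ hC
  refine ⟨c₃, hc₃, fun ε₀ δ' hε₀ hδ' => ?_⟩
  obtain ⟨B, η, d₀, U, C', c', D₀, hη, hd₀, hC', hc', h⟩ := h ε₀ δ' hε₀ hδ'
  refine ⟨B, η, d₀, U, C', c', D₀, hη, hd₀, hC', hc', ?_⟩
  intro μ hμp hμ u₁ u₂ hR e η' D he hη' hD hSl h1 h2 w hw1 hw2 S hS hS'
  have h3 := h μ hμp hμ u₁ u₂ hR e η' D he hη' hD hSl h1 h2 w hw1 hw2 S hS hS'
  have h4 : ∀ x, Q3c_433.blk tz (PSr μ u₁ 2) S 0 w x = ∑ r ∈ Finset.range w, ∑ i ∈ S, ∑ j ∈ Sᶜ,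
      PSr μ u₁ 2 i j (tz (Pi.single i (r : ℤ)) x) := by
    intro x
    unfold Q3c_433.blk Q3c_433.crS
    simp only [zero_add]
  simpa only [h4] using h3

/-- **(Q3)** for the real objects. -/
theorem q3R (n : ℕ) : AsmB_460.Q3 (n := n) PSr Fr 12000 :=
  Q3f_433.q3_of_base (fun μ _ u b i j => measurable_psr μ u b i j)
    (fun μ u b i j x => psr_nonneg μ u b i j x) (fun μ u b i j x => psr_le μ u b i j x)
    (k₀ := 3000) (k₁ := 12000) (k₂ := 12000) (by norm_num) (by norm_num) (by norm_num) le_rfl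
    (q1R n) base (fun q => Conv3_792.conv_psr q)

end Crest.Agent.R014.Q3_373
end

-- ▼ part R014/Top_548

/-!
# Row 14: the three statements from the single remaining input `RInp` (helper548)
-/

set_option autoImplicit false
open Crest.NumberTheoryR.Packets MeasureTheory Filter Topology
open Crest.Agent.R014.Iface_792
universe u

namespace Crest.Agent.R014.Top_548

theorem thmB {d : ℕ} (hd : 2 ≤ d) (h : RAs2_460.RInp (d + 1)) : ThmB d :=
  AsmB2_460.thmB_of hd (c₂ := 1 / 2 ^ 10) (by norm_num) (q₀ := 4)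
    (AsmB2_460.q2_of (RAs2_460.q2_of_inp h)) (k₁ := 12000) (by norm_num)
    (Q3_373.q3R (d + 1)) (DEnd6_71.endR (by omega))

theorem s17 (hR : ∀ n, 3 ≤ n → RAs2_460.RInp n)
    (d : ℕ) (hprime : (d + 1).Prime) (h5 : 5 ≤ d + 1)
    (K : ℕ → Type u) [∀ i, Field (K i)] [∀ i, NumberField (K i)] [∀ i, NumberField.IsTotallyReal (K i)]
    (hdeg : ∀ i, Module.finrank ℚ (K i) = d + 1)
    (m : ∀ i, LatticeBasis (d + 1) (K i)) (σ : ∀ i, Fin (d + 1) ≃ (K i →+* ℝ))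
    (hdisc : Tendsto (fun i => latticeDisc (m i)) atTop atTop) :
    ∃ ν : Measure (ModSpace (d + 1)), IsHaarProbability ν ∧
      (∀ i, ∃ μ : Measure (ModSpace (d + 1)), IsPacketMeasure (m i) (σ i) μ) ∧
      ∀ μ : ℕ → Measure (ModSpace (d + 1)), (∀ i, IsPacketMeasure (m i) (σ i) (μ i)) →
        (∀ f : ModSpace (d + 1) → ℝ, Continuous f → HasCompactSupport f →
          Tendsto (fun i => ∫ x, f x ∂(μ i)) atTop (𝓝 (∫ x, f x ∂ν))) ∧
        (∀ ε : ℝ, 0 < ε → ∃ C : Set (ModSpace (d + 1)), IsCompact C ∧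
          ∀ᶠ i in atTop, 1 - ε ≤ ((μ i) C).toReal) :=
  Fin_792.s17 d hprime h5 (thmB (by omega) (hR _ (by omega))) K hdeg m σ hdisc

theorem s18 (hR : ∀ n, 3 ≤ n → RAs2_460.RInp n)
    (K : ℕ → Type u) [∀ i, Field (K i)] [∀ i, NumberField (K i)] [∀ i, NumberField.IsTotallyReal (K i)]
    (hdeg : ∀ i, Module.finrank ℚ (K i) = 4) (hprim : ∀ i, IsPrimitiveField (K i))
    (m : ∀ i, LatticeBasis (3 + 1) (K i))
    (σ : ∀ i, Fin (3 + 1) ≃ (K i →+* ℝ))
    (hdisc : Tendsto (fun i => latticeDisc (m i)) atTop atTop) :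
    ∃ ν : Measure (ModSpace (3 + 1)), IsHaarProbability ν ∧
      (∀ i, ∃ μ : Measure (ModSpace (3 + 1)), IsPacketMeasure (m i) (σ i) μ) ∧
      ∀ μ : ℕ → Measure (ModSpace (3 + 1)), (∀ i, IsPacketMeasure (m i) (σ i) (μ i)) →
        (∀ f : ModSpace (3 + 1) → ℝ, Continuous f → HasCompactSupport f →
          Tendsto (fun i => ∫ x, f x ∂(μ i)) atTop (𝓝 (∫ x, f x ∂ν))) ∧
        (∀ ε : ℝ, 0 < ε → ∃ C : Set (ModSpace (3 + 1)), IsCompact C ∧
          ∀ᶠ i in atTop, 1 - ε ≤ ((μ i) C).toReal) :=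
  Fin_792.s18 (thmB (by omega) (hR _ (by omega))) K hdeg hprim m σ hdisc

theorem s19 (hR : ∀ n, 3 ≤ n → RAs2_460.RInp n)
    (K : ℕ → Type u) [∀ i, Field (K i)] [∀ i, NumberField (K i)] [∀ i, NumberField.IsTotallyReal (K i)]
    (hdeg : ∀ i, Module.finrank ℚ (K i) = 6) (hprim : ∀ i, IsPrimitiveField (K i))
    (m : ∀ i, LatticeBasis (5 + 1) (K i)) (hmax : ∀ i, (m i).IsMaximalOrder)
    (σ : ∀ i, Fin (5 + 1) ≃ (K i →+* ℝ))
    (hdisc : Tendsto (fun i => |(NumberField.discr (K i) : ℝ)|) atTop atTop) :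
    ∃ ν : Measure (ModSpace (5 + 1)), IsHaarProbability ν ∧
      (∀ i, ∃ μ : Measure (ModSpace (5 + 1)), IsPacketMeasure (m i) (σ i) μ) ∧
      ∀ μ : ℕ → Measure (ModSpace (5 + 1)), (∀ i, IsPacketMeasure (m i) (σ i) (μ i)) →
        (∀ f : ModSpace (5 + 1) → ℝ, Continuous f → HasCompactSupport f →
          Tendsto (fun i => ∫ x, f x ∂(μ i)) atTop (𝓝 (∫ x, f x ∂ν))) ∧
        (∀ ε : ℝ, 0 < ε → ∃ C : Set (ModSpace (5 + 1)), IsCompact C ∧
          ∀ᶠ i in atTop, 1 - ε ≤ ((μ i) C).toReal) :=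
  Fin_792.s19 (thmB (by omega) (hR _ (by omega))) K hdeg hprim m hmax σ hdisc

end Crest.Agent.R014.Top_548
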